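import Crest.Agent.PVc.R5.Mertens
import Crest.Agent.PVc.R5.TV

/-! Row 26: two-sided Brun–Hooley sieve weights (the fundamental lemma in dimension one). -/

set_option autoImplicit false

namespace Crest.Agent.R26.BH

open Finset
open Crest.Agent.R5 (pd pr)

/-- positivity on every subset gives positivity of the weighted sum -/
theorem mono (w : ℕ → ℝ) (S : Finset ℕ) (hw : ∀ p ∈ S, 0 ≤ w p ∧ w p ≤ 1) :
    ∀ l : Finset ℕ → ℝ, (∀ T ⊆ S, 0 ≤ ∑ s ∈ T.powerset, l s) →
      0 ≤ ∑ s ∈ S.powerset, l s * ∏ p ∈ s, w p := by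
  induction S using Finset.induction_on with
  | empty => intro l hl; simpa using hl ∅ (Subset.refl _)
  | insert a S ha ih =>
    intro l hl
    have hwa := hw a (mem_insert_self _ _)
    have key := ih (fun p hp => hw p (mem_insert_of_mem hp))
      (fun s => l s + w a * l (insert a s)) (by
        intro T hT
        have haT : a ∉ T := fun h => ha (hT h)
        have h1 := hl T (hT.trans (subset_insert _ _))
        have h2 := hl (insert a T) (insert_subset_insert _ hT)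
        rw [sum_powerset_insert haT] at h2
        rw [sum_add_distrib, ← mul_sum]
        nlinarith [mul_nonneg (sub_nonneg.2 hwa.2) h1, mul_nonneg hwa.1 h2])
    rw [sum_powerset_insert ha, ← sum_add_distrib]
    refine key.trans (le_of_eq (sum_congr rfl fun s hs => ?_))
    have has : a ∉ s := fun h => ha (mem_powerset.1 hs h)
    rw [prod_insert has]; ring

theorem mu_sum (T : Finset ℕ) :
    ∑ s ∈ T.powerset, (-1 : ℝ) ^ s.card = if T = ∅ then 1 else 0 := by
  have := Finset.sum_powerset_neg_one_pow_card (x := T)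
  have h2 : ((∑ m ∈ T.powerset, (-1 : ℤ) ^ m.card : ℤ) : ℝ) = ((if T = ∅ then 1 else 0 : ℤ) : ℝ) := by
    rw [this]
  push_cast at h2
  exact h2

theorem mu_wsum (w : ℕ → ℝ) (S : Finset ℕ) :
    ∑ s ∈ S.powerset, (-1 : ℝ) ^ s.card * ∏ p ∈ s, w p = ∏ p ∈ S, (1 - w p) := by
  have := Finset.prod_one_add (f := fun p => -w p) S
  simp only [← sub_eq_add_neg] at this
  rw [this]
  refine sum_congr rfl fun s _ => ?_
  rw [prod_neg]

theorem upper (w : ℕ → ℝ) (S : Finset ℕ) (hw : ∀ p ∈ S, 0 ≤ w p ∧ w p ≤ 1) (l : Finset ℕ → ℝ)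
    (hl : ∀ T ⊆ S, (if T = ∅ then (1 : ℝ) else 0) ≤ ∑ s ∈ T.powerset, l s) :
    ∏ p ∈ S, (1 - w p) ≤ ∑ s ∈ S.powerset, l s * ∏ p ∈ s, w p := by
  have := mono w S hw (fun s => l s - (-1) ^ s.card) (by
    intro T hT
    rw [sum_sub_distrib, mu_sum]; linarith [hl T hT])
  simp only [sub_mul, sum_sub_distrib, mu_wsum] at this
  linarith

theorem lower (w : ℕ → ℝ) (S : Finset ℕ) (hw : ∀ p ∈ S, 0 ≤ w p ∧ w p ≤ 1) (l : Finset ℕ → ℝ)
    (hl : ∀ T ⊆ S, ∑ s ∈ T.powerset, l s ≤ (if T = ∅ then (1 : ℝ) else 0)) :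
    ∑ s ∈ S.powerset, l s * ∏ p ∈ s, w p ≤ ∏ p ∈ S, (1 - w p) := by
  have := mono w S hw (fun s => (-1) ^ s.card - l s) (by
    intro T hT
    rw [sum_sub_distrib, mu_sum]; linarith [hl T hT])
  simp only [sub_mul, sum_sub_distrib, mu_wsum] at this
  linarith

/-- a sum over subsets of a product of functions of the two parts factors -/
theorem split (P : ℕ → Prop) [DecidablePred P] (T : Finset ℕ) (f g : Finset ℕ → ℝ) :
    ∑ s ∈ T.powerset, f (s.filter P) * g (s.filter fun p => ¬ P p) =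
      (∑ s ∈ (T.filter P).powerset, f s) * ∑ s ∈ (T.filter fun p => ¬ P p).powerset, g s := by
  rw [sum_mul_sum, ← sum_product']
  refine sum_nbij' (fun s => (s.filter P, s.filter fun p => ¬ P p)) (fun x => x.1 ∪ x.2)
    ?_ ?_ ?_ ?_ ?_
  · intro s hs
    have := mem_powerset.1 hs
    exact mem_product.2 ⟨mem_powerset.2 (filter_subset_filter _ this),
      mem_powerset.2 (filter_subset_filter _ this)⟩
  · intro x hx
    obtain ⟨h1, h2⟩ := mem_product.1 hx
    exact mem_powerset.2 (union_subset ((mem_powerset.1 h1).trans (filter_subset _ _))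
      ((mem_powerset.1 h2).trans (filter_subset _ _)))
  · intro s _
    exact filter_union_filter_not_eq _ _
  · intro x hx
    obtain ⟨h1, h2⟩ := mem_product.1 hx
    have h1' : ∀ p ∈ x.1, P p := fun p hp => (mem_filter.1 (mem_powerset.1 h1 hp)).2
    have h2' : ∀ p ∈ x.2, ¬ P p := fun p hp => (mem_filter.1 (mem_powerset.1 h2 hp)).2
    ext p
    · simp only [mem_filter, mem_union]
      constructor
      · rintro ⟨h | h, hp⟩
        · exact h
        · exact absurd hp (h2' p h)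
      · intro h; exact ⟨Or.inl h, h1' p h⟩
    · simp only [mem_filter, mem_union]
      constructor
      · rintro ⟨h | h, hp⟩
        · exact absurd (h1' p h) hp
        · exact h
      · intro h; exact ⟨Or.inr h, h2' p h⟩
  · intro s _; rfl

/-- upper weights `u` and defect `d` (the lower weights are `u - d`) -/
structure Sv (S : Finset ℕ) (Y B : ℝ) (u d : Finset ℕ → ℝ) : Prop where
  up : ∀ T ⊆ S, (if T = ∅ then (1 : ℝ) else 0) ≤ ∑ s ∈ T.powerset, u s
  lo : ∀ T ⊆ S, ∑ s ∈ T.powerset, (u s - d s) ≤ (if T = ∅ then (1 : ℝ) else 0)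
  hu : ∀ s, |u s| ≤ 1
  hd : ∀ s, |d s| ≤ 1
  dis : ∀ s, u s ≠ 0 → d s = 0
  lev : ∀ s ⊆ S, (u s ≠ 0 ∨ d s ≠ 0) → (pd s : ℝ) ≤ Y
  err : ∏ p ∈ S, (1 - 1 / (p : ℝ)) + 2 * ∑ s ∈ S.powerset, d s * ∏ p ∈ s, (1 / (p : ℝ)) ≤
    (∏ p ∈ S, (1 - 1 / (p : ℝ))) * Real.exp (2 * B)

theorem w01 (p : ℕ) : 0 ≤ 1 / (p : ℝ) ∧ 1 / (p : ℝ) ≤ 1 := by
  refine ⟨by positivity, ?_⟩
  rcases Nat.eq_zero_or_pos p with h | h
  · simp [h]
  · rw [div_le_one (by exact_mod_cast h)]; exact_mod_cast h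

theorem Vnn (S : Finset ℕ) : 0 ≤ ∏ p ∈ S, (1 - 1 / (p : ℝ)) :=
  prod_nonneg fun p _ => sub_nonneg.2 (w01 p).2

theorem Sv.weaken {S : Finset ℕ} {Y B Y' B' : ℝ} {u d : Finset ℕ → ℝ} (h : Sv S Y B u d)
    (hY : Y ≤ Y') (hB : B ≤ B') : Sv S Y' B' u d :=
  ⟨h.up, h.lo, h.hu, h.hd, h.dis, fun s hs h' => (h.lev s hs h').trans hY,
    h.err.trans (mul_le_mul_of_nonneg_left (Real.exp_le_exp.2 (by linarith)) (Vnn S))⟩

theorem ite_split (P : ℕ → Prop) [DecidablePred P] (T : Finset ℕ) :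
    (if T = ∅ then (1 : ℝ) else 0) =
      (if T.filter P = ∅ then (1 : ℝ) else 0) *
        (if T.filter (fun p => ¬ P p) = ∅ then (1 : ℝ) else 0) := by
  by_cases h : T = ∅
  · simp [h]
  · rw [if_neg h]
    by_cases h1 : T.filter P = ∅
    · have h2 : T.filter (fun p => ¬ P p) ≠ ∅ := by
        intro h2
        apply h
        rw [← filter_union_filter_not_eq P T, h1, h2]; rfl
      rw [if_neg h2, mul_zero]
    · rw [if_neg h1, zero_mul]

theorem compose (P : ℕ → Prop) [DecidablePred P] (S : Finset ℕ) {Y1 B1 Y2 B2 : ℝ}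
    {u1 d1 u2 d2 : Finset ℕ → ℝ} (h1 : Sv (S.filter P) Y1 B1 u1 d1)
    (h2 : Sv (S.filter fun p => ¬ P p) Y2 B2 u2 d2) :
    Sv S (Y1 * Y2) (B1 + B2) (fun s => u1 (s.filter P) * u2 (s.filter fun p => ¬ P p))
      (fun s => d1 (s.filter P) * u2 (s.filter fun p => ¬ P p) +
        u1 (s.filter P) * d2 (s.filter fun p => ¬ P p)) := by
  have i01 : ∀ T : Finset ℕ, (0 : ℝ) ≤ if T = ∅ then (1 : ℝ) else 0 := by
    intro T; split_ifs <;> norm_num
  refine ⟨?_, ?_, ?_, ?_, ?_, ?_, ?_⟩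
  · intro T hT
    rw [split P T u1 u2, ite_split P T]
    exact mul_le_mul (h1.up _ (filter_subset_filter _ hT)) (h2.up _ (filter_subset_filter _ hT))
      (i01 _) ((i01 _).trans (h1.up _ (filter_subset_filter _ hT)))
  · intro T hT
    rw [sum_sub_distrib, sum_add_distrib, split P T u1 u2, split P T d1 u2, split P T u1 d2,
      ite_split P T]
    have a1 := h1.up _ (filter_subset_filter _ hT)
    have a2 := h2.up _ (filter_subset_filter _ hT)
    have b1 := h1.lo _ (filter_subset_filter _ hT)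
    have b2 := h2.lo _ (filter_subset_filter _ hT)
    rw [sum_sub_distrib] at b1 b2
    have c1 := i01 (T.filter P)
    have c2 := i01 (T.filter fun p => ¬ P p)
    generalize (if T.filter P = ∅ then (1 : ℝ) else 0) = x1 at *
    generalize (if T.filter (fun p => ¬ P p) = ∅ then (1 : ℝ) else 0) = x2 at *
    generalize ∑ s ∈ (T.filter P).powerset, u1 s = U1 at *
    generalize ∑ s ∈ (T.filter P).powerset, d1 s = D1 at *
    generalize ∑ s ∈ (T.filter fun p => ¬ P p).powerset, u2 s = U2 at *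
    generalize ∑ s ∈ (T.filter fun p => ¬ P p).powerset, d2 s = D2 at *
    nlinarith [mul_nonneg (sub_nonneg.2 a1) (sub_nonneg.2 a2),
      mul_nonneg (sub_nonneg.2 b1) (c2.trans a2), mul_nonneg (sub_nonneg.2 b2) (c1.trans a1)]
  · intro s
    rw [abs_mul]
    exact mul_le_one₀ (h1.hu _) (abs_nonneg _) (h2.hu _)
  · intro s
    by_cases h : u1 (s.filter P) = 0
    · simp only [h, zero_mul, add_zero, abs_mul]
      exact mul_le_one₀ (h1.hd _) (abs_nonneg _) (h2.hu _)
    · simp only [h1.dis _ h, zero_mul, zero_add, abs_mul]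
      exact mul_le_one₀ (h1.hu _) (abs_nonneg _) (h2.hd _)
  · intro s hs
    rw [h1.dis _ (left_ne_zero_of_mul hs), h2.dis _ (right_ne_zero_of_mul hs)]; simp
  · intro s hs h
    have e : (pd s : ℝ) = pd (s.filter P) * pd (s.filter fun p => ¬ P p) := by
      unfold pd; rw [← Nat.cast_mul, prod_filter_mul_prod_filter_not]
    have k1 : u1 (s.filter P) ≠ 0 ∨ d1 (s.filter P) ≠ 0 := by
      by_contra hc
      push Not at hc
      simp [hc.1, hc.2] at h
    have k2 : u2 (s.filter fun p => ¬ P p) ≠ 0 ∨ d2 (s.filter fun p => ¬ P p) ≠ 0 := by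
      by_contra hc
      push Not at hc
      simp [hc.1, hc.2] at h
    have l1 := h1.lev _ (filter_subset_filter _ hs) k1
    have l2 := h2.lev _ (filter_subset_filter _ hs) k2
    rw [e]
    exact mul_le_mul l1 l2 (by positivity) (le_trans (by positivity) l1)
  · have eV : ∏ p ∈ S, (1 - 1 / (p : ℝ)) = (∏ p ∈ S.filter P, (1 - 1 / (p : ℝ))) *
        ∏ p ∈ S.filter (fun p => ¬ P p), (1 - 1 / (p : ℝ)) :=
      (prod_filter_mul_prod_filter_not _ _ _).symm
    have eD : ∑ s ∈ S.powerset, (d1 (s.filter P) * u2 (s.filter fun p => ¬ P p) +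
        u1 (s.filter P) * d2 (s.filter fun p => ¬ P p)) * ∏ p ∈ s, (1 / (p : ℝ)) =
        (∑ s ∈ (S.filter P).powerset, d1 s * ∏ p ∈ s, (1 / (p : ℝ))) *
          (∑ s ∈ (S.filter fun p => ¬ P p).powerset, u2 s * ∏ p ∈ s, (1 / (p : ℝ))) +
        (∑ s ∈ (S.filter P).powerset, u1 s * ∏ p ∈ s, (1 / (p : ℝ))) *
          (∑ s ∈ (S.filter fun p => ¬ P p).powerset, d2 s * ∏ p ∈ s, (1 / (p : ℝ))) := by
      rw [← split P S (fun s => d1 s * ∏ p ∈ s, (1 / (p : ℝ)))
        (fun s => u2 s * ∏ p ∈ s, (1 / (p : ℝ))), ← split P S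
        (fun s => u1 s * ∏ p ∈ s, (1 / (p : ℝ))) (fun s => d2 s * ∏ p ∈ s, (1 / (p : ℝ))),
        ← sum_add_distrib]
      refine sum_congr rfl fun s _ => ?_
      rw [← prod_filter_mul_prod_filter_not s P]; ring
    have a1 := upper _ _ (fun p _ => w01 p) _ h1.up
    have a2 := upper _ _ (fun p _ => w01 p) _ h2.up
    have b1 := lower _ _ (fun p _ => w01 p) _ h1.lo
    have b2 := lower _ _ (fun p _ => w01 p) _ h2.lo
    simp only [sub_mul, sum_sub_distrib] at b1 b2
    have e1 := h1.err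
    have e2 := h2.err
    have v1 := Vnn (S.filter P)
    have v2 := Vnn (S.filter fun p => ¬ P p)
    rw [eD, eV, mul_add 2 B1, Real.exp_add]
    generalize ∏ p ∈ S.filter P, (1 - 1 / (p : ℝ)) = V1 at *
    generalize ∏ p ∈ S.filter (fun p => ¬ P p), (1 - 1 / (p : ℝ)) = V2 at *
    generalize ∑ s ∈ (S.filter P).powerset, u1 s * ∏ p ∈ s, (1 / (p : ℝ)) = U1 at *
    generalize ∑ s ∈ (S.filter P).powerset, d1 s * ∏ p ∈ s, (1 / (p : ℝ)) = D1 at *
    generalize ∑ s ∈ (S.filter fun p => ¬ P p).powerset, u2 s * ∏ p ∈ s, (1 / (p : ℝ)) = U2 at *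
    generalize ∑ s ∈ (S.filter fun p => ¬ P p).powerset, d2 s * ∏ p ∈ s, (1 / (p : ℝ)) = D2 at *
    have d1 : 0 ≤ D1 := by linarith
    have d2 : 0 ≤ D2 := by linarith
    have m := mul_le_mul e1 e2 (by linarith) (by positivity)
    have m1 : D1 * U2 ≤ D1 * (V2 + D2) := mul_le_mul_of_nonneg_left (by linarith) d1
    have m2 : U1 * D2 ≤ (V1 + D1) * D2 := mul_le_mul_of_nonneg_right (by linarith) d2
    nlinarith

/-- truncated Möbius weights -/
def tm (k : ℕ) (s : Finset ℕ) : ℝ := if s.card ≤ k then (-1) ^ s.card else 0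

theorem tm_sign (k : ℕ) {T : Finset ℕ} (hT : T ≠ ∅) :
    0 ≤ (-1 : ℝ) ^ k * ∑ s ∈ T.powerset, tm k s := by
  obtain ⟨a, ha⟩ := nonempty_iff_ne_empty.2 hT
  rw [← insert_erase ha, sum_powerset_insert (notMem_erase _ _), ← sum_add_distrib, mul_sum]
  refine sum_nonneg fun s hs => ?_
  have has : a ∉ s := fun h => notMem_erase a T (mem_powerset.1 hs h)
  unfold tm
  rw [card_insert_of_notMem has]
  by_cases h1 : s.card + 1 ≤ k
  · rw [if_pos h1, if_pos (by omega), pow_succ]; simp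
  · by_cases h2 : s.card ≤ k
    · have : s.card = k := by omega
      rw [if_neg h1, if_pos h2, this, add_zero, ← mul_pow]; norm_num
    · rw [if_neg h1, if_neg h2]; simp

theorem single (S : Finset ℕ) (y L : ℝ) (n : ℕ) (hy : 1 ≤ y) (hS : ∀ p ∈ S, 2 ≤ p ∧ (p : ℝ) ≤ y)
    (hL : ∑ p ∈ S, 1 / (p : ℝ) ≤ L) :
    Sv S (y ^ (2 * n + 1)) (Real.exp (4 * L) / 2 ^ (2 * n + 1)) (tm (2 * n))
      (fun s => if s.card = 2 * n + 1 then 1 else 0) := by
  refine ⟨?_, ?_, ?_, ?_, ?_, ?_, ?_⟩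
  · intro T _
    by_cases hT : T = ∅
    · simp [hT, tm]
    · have := tm_sign (2 * n) hT
      rw [if_neg hT]
      simpa [pow_mul] using this
  · intro T _
    have e : ∀ s : Finset ℕ, tm (2 * n) s - (if s.card = 2 * n + 1 then 1 else 0) =
        tm (2 * n + 1) s := by
      intro s
      unfold tm
      by_cases h1 : s.card ≤ 2 * n
      · rw [if_pos h1, if_neg (by omega), if_pos (by omega), sub_zero]
      · by_cases h2 : s.card = 2 * n + 1
        · rw [if_neg h1, if_pos h2, if_pos h2.le, h2, pow_succ, pow_mul]; norm_num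
        · rw [if_neg h1, if_neg h2, if_neg (by omega), sub_zero]
    simp only [e]
    by_cases hT : T = ∅
    · simp [hT, tm]
    · have := tm_sign (2 * n + 1) hT
      rw [if_neg hT]
      rw [pow_succ, pow_mul] at this
      norm_num at this
      exact this
  · intro s; unfold tm; split_ifs <;> simp
  · intro s; split_ifs <;> simp
  · intro s hs
    unfold tm at hs
    have : s.card ≤ 2 * n := by
      by_contra h; exact hs (if_neg h)
    exact if_neg (by omega)
  · intro s hs h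
    have hc : s.card ≤ 2 * n + 1 := by
      rcases h with h | h
      · unfold tm at h
        by_contra h'; exact h (if_neg (by omega))
      · by_contra h'; exact h (if_neg (by omega))
    calc (pd s : ℝ) = ∏ p ∈ s, (p : ℝ) := by unfold pd; push_cast; rfl
      _ ≤ y ^ s.card := by
          rw [← prod_const]
          exact prod_le_prod (fun p _ => by positivity) fun p hp => (hS p (hs hp)).2
      _ ≤ y ^ (2 * n + 1) := pow_le_pow_right₀ hy hc
  · have e1 := R5.TV.esymm_le S (fun p => 1 / (p : ℝ)) (fun p => by positivity) (2 * n + 1) 2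
      (by norm_num)
    have e2 : ∑ s ∈ S.powerset, (if s.card = 2 * n + 1 then (1 : ℝ) else 0) *
        ∏ p ∈ s, (1 / (p : ℝ)) =
        ∑ τ ∈ S.powerset.filter (fun τ => τ.card = 2 * n + 1), ∏ p ∈ τ, (1 / (p : ℝ)) := by
      rw [sum_filter]
      refine sum_congr rfl fun s _ => ?_
      split_ifs <;> simp
    have hV : Real.exp (-(2 * L)) ≤ ∏ p ∈ S, (1 - 1 / (p : ℝ)) := by
      calc Real.exp (-(2 * L)) ≤ Real.exp (∑ p ∈ S, -(2 * (1 / (p : ℝ)))) := by
            rw [sum_neg_distrib, ← mul_sum]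
            exact Real.exp_le_exp.2 (by linarith)
        _ = ∏ p ∈ S, Real.exp (-(2 * (1 / (p : ℝ)))) := Real.exp_sum _ _
        _ ≤ _ := by
            refine prod_le_prod (fun p _ => (Real.exp_pos _).le) fun p hp => ?_
            have h2 : (2 : ℝ) ≤ p := by exact_mod_cast (hS p hp).1
            have hx0 : 0 ≤ 1 / (p : ℝ) := by positivity
            have hx : 1 / (p : ℝ) ≤ 1 / 2 := one_div_le_one_div_of_le (by norm_num) h2
            generalize 1 / (p : ℝ) = x at *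
            rw [Real.exp_neg, inv_le_comm₀ (Real.exp_pos _) (by linarith)]
            refine le_trans ?_ (Real.add_one_le_exp _)
            rw [inv_le_iff_one_le_mul₀ (by linarith)]
            nlinarith
    rw [e2]
    set D := ∑ τ ∈ S.powerset.filter (fun τ => τ.card = 2 * n + 1), ∏ p ∈ τ, (1 / (p : ℝ))
    set V := ∏ p ∈ S, (1 - 1 / (p : ℝ))
    have hp : (0 : ℝ) < 2 ^ (2 * n + 1) := by positivity
    have e3 : D ≤ V * (Real.exp (4 * L) / 2 ^ (2 * n + 1)) := by
      rw [← mul_div_assoc, le_div_iff₀ hp]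
      have : Real.exp (2 * L) ≤ V * Real.exp (4 * L) := by
        calc Real.exp (2 * L) = Real.exp (-(2 * L)) * Real.exp (4 * L) := by
              rw [← Real.exp_add]; ring_nf
          _ ≤ _ := mul_le_mul_of_nonneg_right hV (Real.exp_pos _).le
      have h4 : Real.exp (2 * ∑ p ∈ S, 1 / (p : ℝ)) ≤ Real.exp (2 * L) :=
        Real.exp_le_exp.2 (by linarith)
      linarith
    have e4 := Real.add_one_le_exp (2 * (Real.exp (4 * L) / 2 ^ (2 * n + 1)))
    have v := Vnn S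
    nlinarith [mul_le_mul_of_nonneg_left e4 v]

/-- the block index of a prime -/
def bj (z p : ℕ) : ℕ := Nat.log 2 (Nat.log p z)

theorem bj_spec {z p : ℕ} (hp : 2 ≤ p) (hz : p ≤ z) :
    p ^ 2 ^ bj z p ≤ z ∧ z < p ^ 2 ^ (bj z p + 1) := by
  have h1 : 1 ≤ Nat.log p z := Nat.log_pos (by omega) hz
  constructor
  · calc p ^ 2 ^ bj z p ≤ p ^ Nat.log p z :=
          Nat.pow_le_pow_right (by omega) (Nat.pow_log_le_self 2 (by omega))
      _ ≤ z := Nat.pow_log_le_self p (by omega)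
  · calc z < p ^ (Nat.log p z + 1) := Nat.lt_pow_succ_log_self (by omega) z
      _ ≤ p ^ 2 ^ (bj z p + 1) :=
          Nat.pow_le_pow_right (by omega) (Nat.lt_pow_succ_log_self (b := 2) (by norm_num) _)

theorem block_sum : ∃ L : ℝ, ∀ (z j : ℕ) (S : Finset ℕ), (∀ p ∈ S, p.Prime ∧ p ≤ z ∧ bj z p = j) →
    ∑ p ∈ S, 1 / (p : ℝ) ≤ L := by
  obtain ⟨C, hC, hM, -⟩ := R5.mertens
  refine ⟨2 + 2 * C, fun z j S hS => ?_⟩
  rcases S.eq_empty_or_nonempty with h | h
  · rw [h]; simp; linarith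
  set a := S.min' h
  have ha : a ∈ S := min'_mem _ _
  have ha2 : 2 ≤ a := (hS a ha).1.two_le
  have ha2' : (2 : ℝ) ≤ a := by exact_mod_cast ha2
  have hsub : S ⊆ insert a (pr a ((a : ℝ) ^ 2)) := by
    intro p hp
    rcases (min'_le S p hp).eq_or_lt with h' | h'
    · exact mem_insert.2 (Or.inl h'.symm)
    · refine mem_insert_of_mem ?_
      obtain ⟨pp, pz, pj⟩ := hS p hp
      have s1 := (bj_spec pp.two_le pz).1
      have s2 := (bj_spec ha2 (hS a ha).2.1).2
      rw [pj] at s1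
      rw [(hS a ha).2.2, pow_succ', pow_mul] at s2
      have : p < a ^ 2 := lt_of_pow_lt_pow_left₀ _ (Nat.zero_le _) (s1.trans_lt s2)
      unfold pr
      refine mem_filter.2 ⟨mem_Icc.2 ⟨pp.pos, ?_⟩, pp, by exact_mod_cast h'⟩
      exact Nat.le_floor (by exact_mod_cast this.le)
  have h1 := hM a ((a : ℝ) ^ 2) ha2' (by nlinarith)
  have hl2 : (1 / 2 : ℝ) ≤ Real.log 2 := by linarith [Real.log_two_gt_d9]
  have hla : (1 / 2 : ℝ) ≤ Real.log a := hl2.trans (Real.log_le_log (by norm_num) ha2')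
  have h2 : Real.log (Real.log ((a : ℝ) ^ 2)) = Real.log 2 + Real.log (Real.log a) := by
    rw [Real.log_pow, Real.log_mul (by norm_num) (by linarith)]; norm_num
  have h3 : C / Real.log a ≤ 2 * C := by
    rw [div_le_iff₀ (by linarith)]; nlinarith
  have h4 := (abs_le.1 h1).2
  have h5 : Real.log 2 ≤ 1 := by linarith [Real.log_two_lt_d9]
  calc ∑ p ∈ S, 1 / (p : ℝ) ≤ ∑ p ∈ insert a (pr a ((a : ℝ) ^ 2)), 1 / (p : ℝ) :=
        sum_le_sum_of_subset_of_nonneg hsub fun p _ _ => by positivity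
    _ ≤ 1 / (a : ℝ) + ∑ p ∈ pr a ((a : ℝ) ^ 2), 1 / (p : ℝ) := by
        by_cases hh : a ∈ pr a ((a : ℝ) ^ 2)
        · rw [insert_eq_of_mem hh]; linarith [(w01 a).1]
        · rw [sum_insert hh]
    _ ≤ 2 + 2 * C := by linarith [(w01 a).2]

theorem blocks {L : ℝ} (hL : ∀ (z j : ℕ) (S : Finset ℕ),
    (∀ p ∈ S, p.Prime ∧ p ≤ z ∧ bj z p = j) → ∑ p ∈ S, 1 / (p : ℝ) ≤ L) (z m : ℕ) (hz : 1 ≤ z)
    (n : ℕ) : ∀ S : Finset ℕ, (∀ p ∈ S, p.Prime ∧ p ≤ z ∧ bj z p < n) →
    ∃ u d, Sv S ((z : ℝ) ^ ((4 * m + 6 : ℝ) - (4 * m + 4 * n + 6) / 2 ^ n))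
      (Real.exp (4 * L) / 2 ^ m * (1 - 1 / 2 ^ n)) u d := by
  have hz' : (1 : ℝ) ≤ z := by exact_mod_cast hz
  induction n with
  | zero =>
    intro S hS
    have : S = ∅ := eq_empty_of_forall_notMem fun p hp => by simpa using (hS p hp).2.2
    subst this
    refine ⟨fun s => if s = ∅ then 1 else 0, fun _ => 0, ?_, ?_, ?_, ?_, ?_, ?_, ?_⟩
    · intro T hT; rw [subset_empty.1 hT]; simp
    · intro T hT; rw [subset_empty.1 hT]; simp
    · intro s; split_ifs <;> simp
    · intro s; simp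
    · intro s _; rfl
    · intro s hs _; rw [subset_empty.1 hs]; simp [pd]
    · simp
  | succ n ih =>
    intro S hS
    obtain ⟨u1, d1, h1⟩ := ih (S.filter fun p => bj z p < n) fun p hp =>
      ⟨(hS p (mem_filter.1 hp).1).1, (hS p (mem_filter.1 hp).1).2.1, (mem_filter.1 hp).2⟩
    have hb : ∀ p ∈ S.filter fun p => ¬ bj z p < n, p.Prime ∧ p ≤ z ∧ bj z p = n := by
      intro p hp
      obtain ⟨a, b, c⟩ := hS p (mem_filter.1 hp).1
      exact ⟨a, b, by have := (mem_filter.1 hp).2; omega⟩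
    have h2 := single (S.filter fun p => ¬ bj z p < n) ((z : ℝ) ^ ((1 : ℝ) / 2 ^ n)) L (m + n)
      (Real.one_le_rpow hz' (by positivity)) (by
        intro p hp
        obtain ⟨a, b, c⟩ := hb p hp
        refine ⟨a.two_le, ?_⟩
        have s1 := (bj_spec a.two_le b).1
        rw [c] at s1
        have s2 : (p : ℝ) ^ ((2 ^ n : ℕ) : ℝ) ≤ z := by
          rw [Real.rpow_natCast]; exact_mod_cast s1
        rw [one_div, Real.le_rpow_inv_iff_of_pos (by positivity) (by positivity) (by positivity)]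
        push_cast at s2
        exact s2) (hL z n _ hb)
    refine ⟨_, _, (compose (fun p => bj z p < n) S h1 h2).weaken (le_of_eq ?_) ?_⟩
    · rw [← Real.rpow_natCast _ (2 * (m + n) + 1), ← Real.rpow_mul (by positivity),
        ← Real.rpow_add (by positivity)]
      congr 1
      push_cast
      field_simp
      ring
    · have e : Real.exp (4 * L) / 2 ^ (2 * (m + n) + 1) ≤
          Real.exp (4 * L) / 2 ^ m * (1 / 2 ^ (n + 1)) := by
        rw [div_mul_div_comm, mul_one, ← pow_add]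
        exact div_le_div_of_nonneg_left (Real.exp_pos _).le (by positivity)
          (pow_le_pow_right₀ (by norm_num) (by omega))
      have e2 : (1 : ℝ) - 1 / 2 ^ (n + 1) = (1 - 1 / 2 ^ n) + 1 / 2 ^ (n + 1) := by
        field_simp; ring
      rw [e2, mul_add (Real.exp (4 * L) / 2 ^ m)]
      linarith

theorem pd_inv (s : Finset ℕ) (c : ℝ) : c / pd s = c * ∏ p ∈ s, (1 / (p : ℝ)) := by
  unfold pd
  rw [prod_div_distrib, prod_const_one, Nat.cast_prod, mul_one_div]

/-- **Two-sided Brun–Hooley weights** for any set of primes up to `z`. -/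
theorem bh' : ∃ C : ℝ, 1 ≤ C ∧ ∀ (z m : ℕ) (S : Finset ℕ), 1 ≤ z → (∀ p ∈ S, p.Prime ∧ p ≤ z) →
    ∃ lp lm : Finset ℕ → ℝ,
      (∀ T ⊆ S, ∑ s ∈ T.powerset, lm s ≤ (if T = ∅ then (1 : ℝ) else 0) ∧
        (if T = ∅ then (1 : ℝ) else 0) ≤ ∑ s ∈ T.powerset, lp s) ∧
      (∀ s, |lp s| ≤ 1 ∧ |lm s| ≤ 1) ∧
      (∀ s, (lp s ≠ 0 ∨ lm s ≠ 0) → s ⊆ S ∧ pd s ≤ z ^ (6 * (m + 1))) ∧
      ∑ s ∈ S.powerset, (lp s - lm s) / pd s ≤ C / 2 ^ m * ∏ p ∈ S, (1 - 1 / (p : ℝ)) ∧
      ∑ s ∈ S.powerset, lm s / pd s ≤ ∏ p ∈ S, (1 - 1 / (p : ℝ)) ∧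
      ∏ p ∈ S, (1 - 1 / (p : ℝ)) ≤ ∑ s ∈ S.powerset, lp s / pd s := by
  classical
  obtain ⟨L, hL⟩ := block_sum
  set c := Real.exp (4 * L) with hc
  have c0 : 0 < c := Real.exp_pos _
  refine ⟨1 + c * Real.exp (2 * c), by have := Real.exp_pos (2 * c); nlinarith,
    fun z m S hz hS => ?_⟩
  have hz' : (1 : ℝ) ≤ z := by exact_mod_cast hz
  obtain ⟨u, d, h⟩ := blocks hL z m hz (S.sup (bj z) + 1) S fun p hp =>
    ⟨(hS p hp).1, (hS p hp).2, Nat.lt_succ_of_le (le_sup (f := bj z) hp)⟩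
  have hB : c / 2 ^ m * (1 - 1 / 2 ^ (S.sup (bj z) + 1)) ≤ c / 2 ^ m := by
    have : (0 : ℝ) ≤ 1 / 2 ^ (S.sup (bj z) + 1) := by positivity
    have h2 : 0 ≤ c / 2 ^ m := by positivity
    nlinarith
  have h' := h.weaken (Y' := ((z ^ (6 * (m + 1)) : ℕ) : ℝ)) (by
    rw [Nat.cast_pow, ← Real.rpow_natCast _ (6 * (m + 1))]
    refine Real.rpow_le_rpow_of_exponent_le hz' ?_
    have : (0 : ℝ) ≤ (4 * m + 4 * ((S.sup (bj z) + 1 : ℕ) : ℝ) + 6) / 2 ^ (S.sup (bj z) + 1) := by
      positivity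
    have hm : (0 : ℝ) ≤ m := by positivity
    push_cast at this ⊢
    linarith) hB
  have rs : ∀ (f : Finset ℕ → ℝ) (T : Finset ℕ), T ⊆ S → ∀ g : Finset ℕ → ℝ → ℝ,
      ∑ s ∈ T.powerset, g s (if s ⊆ S then f s else 0) = ∑ s ∈ T.powerset, g s (f s) := by
    intro f T hT g
    exact sum_congr rfl fun s hs => by rw [if_pos ((mem_powerset.1 hs).trans hT)]
  refine ⟨fun s => if s ⊆ S then u s else 0, fun s => if s ⊆ S then u s - d s else 0,
    fun T hT => ⟨?_, ?_⟩, fun s => ⟨?_, ?_⟩, fun s hs => ?_, ?_, ?_, ?_⟩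
  · rw [rs (fun s => u s - d s) T hT fun _ x => x]; exact h'.lo T hT
  · rw [rs u T hT fun _ x => x]; exact h'.up T hT
  · dsimp only
    split_ifs
    · exact h'.hu s
    · simp
  · dsimp only
    split_ifs
    · by_cases hu : u s = 0
      · rw [hu, zero_sub, abs_neg]; exact h'.hd s
      · rw [h'.dis s hu, sub_zero]; exact h'.hu s
    · simp
  · have hsS : s ⊆ S := by
      by_contra hh
      simp [hh] at hs
    refine ⟨hsS, ?_⟩
    simp only [if_pos hsS] at hs
    have := h'.lev s hsS (by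
      by_contra hh
      push Not at hh
      simp [hh.1, hh.2] at hs)
    exact_mod_cast this
  · have e : ∑ s ∈ S.powerset, ((if s ⊆ S then u s else 0) - if s ⊆ S then u s - d s else 0) /
        (pd s : ℝ) = ∑ s ∈ S.powerset, d s * ∏ p ∈ s, (1 / (p : ℝ)) := by
      refine sum_congr rfl fun s hs => ?_
      rw [if_pos (mem_powerset.1 hs), if_pos (mem_powerset.1 hs), pd_inv]; ring
    rw [e]
    have e1 := h'.err
    have v := Vnn S
    set V := ∏ p ∈ S, (1 - 1 / (p : ℝ))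
    set x := c / 2 ^ m with hx
    have x0 : 0 ≤ x := by positivity
    have xc : x ≤ c := div_le_self c0.le (one_le_pow₀ (by norm_num))
    have e2 : Real.exp (2 * x) ≤ 1 + 2 * x * Real.exp (2 * c) := by
      have a1 := Real.add_one_le_exp (-(2 * x))
      have a2 : Real.exp (-(2 * x)) * Real.exp (2 * x) = 1 := by rw [← Real.exp_add]; simp
      have a3 : Real.exp (2 * x) ≤ Real.exp (2 * c) := Real.exp_le_exp.2 (by linarith)
      have a4 := Real.exp_pos (2 * x)
      nlinarith [mul_le_mul_of_nonneg_right a1 a4.le, mul_le_mul_of_nonneg_left a3 x0]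
    have e3 : (1 + c * Real.exp (2 * c)) / 2 ^ m = 1 / 2 ^ m + x * Real.exp (2 * c) := by
      rw [hx]; ring
    have e4 : (0 : ℝ) ≤ 1 / 2 ^ m := by positivity
    rw [e3]
    nlinarith [mul_le_mul_of_nonneg_left e2 v, mul_nonneg e4 v]
  · rw [rs (fun s => u s - d s) S (Subset.refl _) fun s x => x / (pd s : ℝ)]
    simp only [pd_inv]
    exact lower _ _ (fun p _ => w01 p) _ h'.lo
  · rw [rs u S (Subset.refl _) fun s x => x / (pd s : ℝ)]
    simp only [pd_inv]
    exact upper _ _ (fun p _ => w01 p) _ h'.up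


end Crest.Agent.R26.BH
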