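import Crest.Agent.PVc.R26.Defs

-- ▼ part PVc/R26/BasicA
section

/-! Row 26: elementary facts about a cell. -/

set_option autoImplicit false

namespace Crest.Agent.R26

open Finset Filter
open Crest.Agent.R5 (pr pd ee nit)

namespace Par

variable {G : Par}

/-! sizes -/

theorem WF.Q_ge (h : G.WF) : 21 ≤ G.Q := by
  have h1 := h.κ_lt
  have h2 := h.J_ge
  have h3 := h.k_ge
  have : 2 * 1 * 10 ≤ G.κ := Nat.mul_le_mul (Nat.mul_le_mul_left 2 h3) h2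
  omega

theorem WF.J_lt (h : G.WF) : G.J < G.Q := by
  have h1 := h.κ_lt
  have h3 := h.k_ge
  have : 2 * 1 * G.J ≤ G.κ := Nat.mul_le_mul_right _ (Nat.mul_le_mul_left 2 h3)
  omega

theorem WF.BA_Qpow_pos (h : G.WF) (n : ℕ) : 0 < G.Q ^ n := by
  have := h.Q_ge
  positivity

theorem WF.BA_Y_lt (h : G.WF) (j : Fin G.J) : G.Y j < G.P j := by
  have h1 := h.sepP j
  have h2 := Nat.le_mul_of_pos_left ((G.Y j + 1) ^ 2) (h.BA_Qpow_pos (10 * G.J))
  nlinarith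

theorem WF.BA_P_pos (h : G.WF) (j : Fin G.J) : 0 < G.P j := (Nat.zero_le _).trans_lt (h.BA_Y_lt j)

theorem WF.BA_U_pos (h : G.WF) : 0 < G.U := prod_pos fun j _ => h.BA_P_pos j

theorem BA_prod_two_mul (G : Par) : ∏ j, 2 * G.P j = 2 ^ G.J * G.U := by
  rw [prod_mul_distrib, prod_const, card_univ, Fintype.card_fin, U]

theorem WF.Y_ge (h : G.WF) (j : Fin G.J) : G.Q ^ (10 * G.J) ≤ G.Y j := by
  refine le_trans (Nat.le_mul_of_pos_right _ (prod_pos fun i _ => ?_)) (h.sepY j)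
  have := h.BA_P_pos i
  omega

theorem WF.P_ge (h : G.WF) (j : Fin G.J) : G.Q ^ (30 * G.J) ≤ G.P j := by
  refine le_trans ?_ (h.sepP j)
  rw [show 30 * G.J = 10 * G.J + 10 * G.J * 2 by ring, pow_add, pow_mul _ _ 2]
  exact Nat.mul_le_mul_left _ (Nat.pow_le_pow_left ((h.Y_ge j).trans (Nat.le_succ _)) 2)

theorem WF.P_lt (h : G.WF) {i j : Fin G.J} (hij : i < j) : 2 * G.P i ≤ G.P j := by
  refine le_trans ?_ (h.BA_Y_lt j).le
  refine le_trans ?_ (h.sepY j)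
  refine le_trans ?_ (Nat.le_mul_of_pos_left _ (h.BA_Qpow_pos _))
  exact single_le_prod' (f := fun i => 2 * G.P i) (fun i _ => by have := h.BA_P_pos i; omega)
    (mem_filter.2 ⟨mem_univ _, hij⟩)

theorem WF.disj (h : G.WF) {i j : Fin G.J} (hij : i ≠ j) : Disjoint (G.S i) (G.S j) := by
  wlog hlt : i < j generalizing i j
  · exact (this hij.symm (lt_of_le_of_ne (not_lt.1 hlt) hij.symm)).symm
  rw [disjoint_left]
  intro p h1 h2
  have := h.P_lt hlt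
  have := (h.prime i p h1).2.2
  have := (h.prime j p h2).2.1
  omega

theorem WF.card_S_le (h : G.WF) (j : Fin G.J) : (G.S j).card ≤ G.P j := by
  have : G.S j ⊆ Ioc (G.P j) (2 * G.P j) := fun p hp => mem_Ioc.2 (h.prime j p hp).2
  have := card_le_card this
  rw [Nat.card_Ioc] at this
  omega

theorem WF.sum_inv_le (h : G.WF) (j : Fin G.J) : ∑ p ∈ G.S j, 1 / (p : ℝ) ≤ 1 := by
  have hP : (0 : ℝ) < G.P j := by exact_mod_cast h.BA_P_pos j
  refine (sum_le_card_nsmul _ _ (1 / (G.P j : ℝ)) fun p hp => ?_).trans ?_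
  · exact one_div_le_one_div_of_le hP (by exact_mod_cast (h.prime j p hp).2.1.le)
  · rw [nsmul_eq_mul, mul_one_div, div_le_one hP]
    exact_mod_cast h.card_S_le j

theorem WF.card_tup_le (h : G.WF) : G.tup.card ≤ G.U := by
  rw [tup, Fintype.card_piFinset]
  exact prod_le_prod' fun j _ => h.card_S_le j

/-- `U ≥ P j * Q^(30 J)` (there are at least two groups) -/
theorem WF.U_ge (h : G.WF) (j : Fin G.J) : G.P j * G.Q ^ (30 * G.J) ≤ G.U := by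
  have hJ := h.J_ge
  obtain ⟨i, hi⟩ : ∃ i : Fin G.J, i ≠ j := by
    have : Nontrivial (Fin G.J) := Fin.nontrivial_iff_two_le.2 (by omega)
    exact exists_ne j
  rw [U, ← mul_prod_erase _ _ (mem_univ j)]
  refine Nat.mul_le_mul_left _ ((h.P_ge i).trans ?_)
  exact single_le_prod' (f := G.P) (fun i _ => h.BA_P_pos i) (mem_erase.2 ⟨hi, mem_univ _⟩)

theorem WF.h_bounds (h : G.WF) : 1 ≤ G.h ∧ G.h ≤ G.U ∧ G.U ≤ 2 * G.Q ^ 3 * G.h ∧
    G.Q ^ 6 ≤ G.h ^ 2 := by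
  have hJ := h.J_ge
  have hQ := h.Q_ge
  have h1 : G.Q ^ 3 * G.Q ^ 3 ≤ G.U := by
    refine le_trans ?_ ((Nat.le_mul_of_pos_left _ (h.BA_P_pos ⟨0, by omega⟩)).trans (h.U_ge _))
    rw [← pow_add]
    exact Nat.pow_le_pow_right (by omega) (by omega)
  have h0 := h.BA_Qpow_pos 3
  have h2 : G.Q ^ 3 ≤ G.h := (Nat.le_div_iff_mul_le h0).2 h1
  refine ⟨h0.trans_le h2, Nat.div_le_self _ _, ?_, ?_⟩
  · have h3 : G.U < G.Q ^ 3 * (G.h + 1) := Nat.lt_mul_div_succ _ h0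
    nlinarith
  · rw [show 6 = 3 * 2 by norm_num, pow_mul]
    exact Nat.pow_le_pow_left h2 2

theorem WF.U_le_D (h : G.WF) : 2 ^ G.J * G.U ≤ G.D := by
  rw [← BA_prod_two_mul]
  exact prod_le_prod' fun j _ => Nat.le_self_pow (by have := h.z_ge; omega) _

theorem WF.B_ge (h : G.WF) : G.A * G.U ^ 2 ≤ G.B := by
  refine le_trans ?_ h.horizon
  rw [mul_comm]
  refine Nat.mul_le_mul_right _ ?_
  have h1 : G.U ≤ G.z ^ G.J * G.U * (1 + G.Q ^ 2) :=
    (Nat.le_mul_of_pos_left _ (pow_pos h.z_ge _)).trans (Nat.le_mul_of_pos_right _ (by positivity))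
  exact (Nat.pow_le_pow_left h1 2).trans
    (Nat.pow_le_pow_right (h.BA_U_pos.trans_le h1) (by have := h.k_ge; omega))

theorem WF.card_banks_le (h : G.WF) : 1 ≤ G.banks.card ∧ G.banks.card ≤ G.D := by
  rw [banks, Fintype.card_piFinset]
  simp only [card_powersetCard]
  refine ⟨prod_pos fun j _ => Nat.choose_pos (by have := h.card j; omega),
    prod_le_prod' fun j _ => (Nat.choose_le_pow _ _).trans (Nat.pow_le_pow_left ?_ _)⟩
  have := h.card_S_le j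
  omega

theorem WF.pu_bounds (h : G.WF) {u : G.Tup} (hu : u ∈ G.tup) :
    G.U ≤ G.pu u ∧ G.pu u ≤ 2 ^ G.J * G.U := by
  have hu' := Fintype.mem_piFinset.1 hu
  rw [← BA_prod_two_mul]
  exact ⟨prod_le_prod' fun j _ => (h.prime j _ (hu' j)).2.1.le,
    prod_le_prod' fun j _ => (h.prime j _ (hu' j)).2.2⟩

theorem WF.pu_inj (h : G.WF) : Set.InjOn G.pu G.tup := by
  intro u hu w hw e
  have hu' := Fintype.mem_piFinset.1 hu
  have hw' := Fintype.mem_piFinset.1 hw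
  funext j
  have hp := (h.prime j _ (hu' j)).1
  have h1 : u j ∣ G.pu w := e ▸ dvd_prod_of_mem u (mem_univ j)
  obtain ⟨i, -, hi⟩ := (Prime.dvd_finsetProd_iff hp.prime _).1 h1
  have h2 := (Nat.prime_dvd_prime_iff_eq hp (h.prime i _ (hw' i)).1).1 hi
  by_cases hij : i = j
  · rw [h2, hij]
  · exact absurd (hu' j) (disjoint_left.1 (h.disj hij) (h2 ▸ hw' i))

theorem WF.pb_inj (h : G.WF) : Set.InjOn G.pb G.banks := by
  have key : ∀ b ∈ G.banks, ∀ b' ∈ G.banks, G.pb b = G.pb b' → ∀ j, b j ⊆ b' j := by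
    intro b hb b' hb' e j p hp
    have s1 := fun j => (mem_powersetCard.1 (Fintype.mem_piFinset.1 hb j)).1
    have s2 := fun j => (mem_powersetCard.1 (Fintype.mem_piFinset.1 hb' j)).1
    have hpp := (h.prime j _ (s1 j hp)).1
    have h1 : p ∣ G.pb b' := e ▸ (dvd_prod_of_mem id hp).trans
      (dvd_prod_of_mem (fun j => pd (b j)) (mem_univ j))
    obtain ⟨i, -, hi⟩ := (Prime.dvd_finsetProd_iff hpp.prime _).1 h1
    obtain ⟨q, hq, hi⟩ := (Prime.dvd_finsetProd_iff hpp.prime _).1 hi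
    have h2 := (Nat.prime_dvd_prime_iff_eq hpp (h.prime i _ (s2 i hq)).1).1 hi
    by_cases hij : i = j
    · rw [h2, ← hij]; exact hq
    · exact absurd (s1 j hp) (disjoint_left.1 (h.disj hij) (h2 ▸ s2 i hq))
  intro b hb b' hb' e
  exact funext fun j => Subset.antisymm (key b hb b' hb' e j) (key b' hb' b hb e.symm j)

theorem WF.pu_coprime (h : G.WF) {x : G.Tup × G.Tup} (hx : x ∈ G.cop) :
    Nat.Coprime (G.pu x.1) (G.pu x.2) := by
  obtain ⟨h1, h2⟩ := mem_filter.1 hx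
  obtain ⟨hu, hw⟩ := mem_product.1 h1
  have hu' := Fintype.mem_piFinset.1 hu
  have hw' := Fintype.mem_piFinset.1 hw
  refine Nat.Coprime.prod_left fun i _ => Nat.Coprime.prod_right fun j _ => ?_
  rw [Nat.coprime_primes (h.prime i _ (hu' i)).1 (h.prime j _ (hw' j)).1]
  intro e
  by_cases hij : i = j
  · subst hij; exact h2 i e
  · exact disjoint_left.1 (h.disj hij) (hu' i) (e ▸ hw' j)

theorem WF.BA_pd_le (h : G.WF) {j : Fin G.J} {s : Finset ℕ} (hs : s ⊆ G.S j) :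
    0 < pd s ∧ pd s ≤ (2 * G.P j) ^ s.card :=
  ⟨prod_pos fun p hp => (h.prime j p (hs hp)).1.pos,
    prod_le_pow_card _ _ _ fun p hp => (h.prime j p (hs hp)).2.2⟩

theorem WF.pb_sh_le (h : G.WF) {sh : G.Bank} (hs : sh ∈ G.shs) :
    1 ≤ G.pb sh ∧ G.pb sh * (2 ^ G.J * G.U) ≤ G.D := by
  have s1 := fun j => mem_powersetCard.1 (Fintype.mem_piFinset.1 hs j)
  refine ⟨prod_pos fun j _ => (h.BA_pd_le (s1 j).1).1, ?_⟩
  rw [← BA_prod_two_mul, pb, ← prod_mul_distrib]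
  refine prod_le_prod' fun j _ => ?_
  have h1 := (h.BA_pd_le (s1 j).1).2
  rw [(s1 j).2] at h1
  refine (Nat.mul_le_mul_right _ h1).trans_eq ?_
  rw [← pow_succ, Nat.sub_add_cancel h.z_ge]

theorem WF.pb_le (h : G.WF) {b : G.Bank} (hb : b ∈ G.banks) : 1 ≤ G.pb b ∧ G.pb b ≤ G.D := by
  have s1 := fun j => mem_powersetCard.1 (Fintype.mem_piFinset.1 hb j)
  exact ⟨prod_pos fun j _ => (h.BA_pd_le (s1 j).1).1,
    prod_le_prod' fun j _ => (s1 j).2 ▸ (h.BA_pd_le (s1 j).1).2⟩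

/-- an element of `As` is coprime to every non-zero integer of size `≤ D²` -/
theorem WF.coprime_small (h : G.WF) {a : ℕ} (ha : a ∈ G.As) {n : ℤ} (h0 : n ≠ 0)
    (hn : |n| ≤ (G.D : ℤ) ^ 2) : IsCoprime (a : ℤ) n := by
  rw [Int.isCoprime_iff_gcd_eq_one, Int.gcd, Int.natAbs_natCast]
  refine Nat.coprime_of_dvd fun p hp h1 h2 => ?_
  have h3 := h.As_rough a ha p hp h1
  have h4 := Nat.le_of_dvd (Int.natAbs_pos.2 h0) h2
  have h5 : n.natAbs ≤ G.D ^ 2 := by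
    rw [← Int.natCast_natAbs] at hn
    exact_mod_cast hn
  omega

/-- the bilinear sequence is bounded and supported in `(AB/4, 2AB]` -/
theorem WF.gg_le (h : G.WF) {α β : ℕ → ℝ} (hα : ∀ a, |α a| ≤ 1) (hβ : ∀ b, |β b| ≤ 1) (N : ℕ) :
    |G.gg α β N| ≤ G.Q ∧ (G.gg α β N ≠ 0 → 2 ≤ N ∧ N ≤ 2 * G.A * G.B) := by
  have hD : 0 < G.D := (mul_pos (by positivity) h.BA_U_pos).trans_le h.U_le_D
  have hA : 1 ≤ G.A := by
    have h1 := h.A_ge
    have h2 := pow_pos hD 2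
    omega
  have key : G.gg α β N ≠ 0 → 2 ≤ N ∧ N ≤ 2 * G.A * G.B := by
    intro h0
    obtain ⟨a, ha, h1⟩ := exists_ne_zero_of_sum_ne_zero h0
    obtain ⟨b, hb, h2⟩ := exists_ne_zero_of_sum_ne_zero h1
    have e : a * b = N := by
      by_contra e
      exact h2 (if_neg e)
    obtain ⟨a1, a2⟩ := h.As_sub a ha
    obtain ⟨b1, b2⟩ := mem_Icc.1 hb
    rw [← e]
    exact ⟨le_trans (by omega) (Nat.le_mul_of_pos_right a b1), Nat.mul_le_mul a2 b2⟩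
  refine ⟨?_, key⟩
  by_cases h0 : G.gg α β N = 0
  · rw [h0, abs_zero]; positivity
  obtain ⟨n1, n2⟩ := key h0
  have hU : 2 ≤ G.U := by
    have hJ := h.J_ge
    have hQ := h.Q_ge
    refine le_trans ?_ ((Nat.le_mul_of_pos_left _ (h.BA_P_pos ⟨0, by omega⟩)).trans (h.U_ge _))
    exact le_trans (by omega) (Nat.le_self_pow (by omega) _)
  have hAB : 2 ≤ G.A * G.B := by
    have h1 := h.B_ge
    have h2 : 1 * 2 ^ 2 ≤ G.A * G.U ^ 2 := Nat.mul_le_mul hA (Nat.pow_le_pow_left hU 2)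
    exact le_trans (by omega) (Nat.le_mul_of_pos_left G.B hA)
  have h3 := h.div_le N (by omega) (n2.trans (by rw [mul_assoc, sq]; exact Nat.mul_le_mul_right _ hAB))
  refine le_trans ?_ (Nat.cast_le.2 h3)
  rw [card_filter, Nat.cast_sum]
  refine (abs_sum_le_sum_abs _ _).trans (sum_le_sum fun a ha => ?_)
  have a0 : 0 < a := (Nat.zero_le _).trans_lt (h.As_sub a ha).1
  split_ifs with hd
  · obtain ⟨c, rfl⟩ := hd
    simp only [Nat.mul_right_inj a0.ne', sum_ite_eq', Nat.cast_one]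
    split_ifs
    · rw [abs_mul]
      exact mul_le_one₀ (hα a) (abs_nonneg _) (hβ c)
    · simp
  · rw [sum_eq_zero fun b _ => if_neg fun e => hd ⟨b, e.symm⟩]
    simp

theorem sum_gg (α β : ℕ → ℝ) (φ : ℕ → ℝ) {T : Finset ℕ}
    (hT : ∀ a ∈ G.As, ∀ b ∈ Icc 1 G.B, a * b ∈ T) :
    ∑ N ∈ T, G.gg α β N * φ N = ∑ a ∈ G.As, ∑ b ∈ Icc 1 G.B, α a * β b * φ (a * b) := by
  simp only [gg, sum_mul, ite_mul, zero_mul]
  rw [sum_comm]
  refine sum_congr rfl fun a ha => ?_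
  rw [sum_comm]
  refine sum_congr rfl fun b hb => ?_
  rw [sum_ite_eq, if_pos (hT a ha b hb)]

end Par

end Crest.Agent.R26
end

-- ▼ part PVc/R26/BasicB
section

/-! Row 26: elementary facts about a cell. -/

set_option autoImplicit false

namespace Crest.Agent.R26

open Finset Filter
open Crest.Agent.R5 (pr pd ee nit)

namespace Par

variable {G : Par}

/-! banks -/

namespace BasicB

theorem mem_banks {b : G.Bank} : b ∈ G.banks ↔ ∀ j, b j ⊆ G.S j ∧ (b j).card = G.z := by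
  simp only [banks, Fintype.mem_piFinset, mem_powersetCard]

theorem mem_shs {b : G.Bank} : b ∈ G.shs ↔ ∀ j, b j ⊆ G.S j ∧ (b j).card = G.z - 1 := by
  simp only [shs, Fintype.mem_piFinset, mem_powersetCard]

theorem mem_outs {b : G.Bank} {w : G.Tup} :
    w ∈ G.outs b ↔ (∀ j, w j ∈ G.S j) ∧ ∀ j, w j ∉ b j := by
  simp only [outs, tup, mem_filter, Fintype.mem_piFinset]

theorem mem_bk {v : G.St} {p : ℕ} : p ∈ G.bk v ↔ ∃ j, p ∈ v.2 j := by
  simp only [bk, mem_biUnion, mem_univ, true_and]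

theorem idx_eq (h : G.WF) {i j : Fin G.J} {p : ℕ} (hi : p ∈ G.S i) (hj : p ∈ G.S j) : i = j :=
  by_contra fun hij => disjoint_left.1 (h.disj hij) hi hj

theorem choose_le {M z : ℕ} (hz : 1 ≤ z) (hM : 2 * z ≤ M) :
    M.choose z * z ≤ 2 * M * (M - 2).choose (z - 1) := by
  obtain ⟨k, rfl⟩ : ∃ k, z = k + 1 := ⟨z - 1, by omega⟩
  obtain ⟨m, rfl⟩ : ∃ m, M = m + 2 := ⟨M - 2, by omega⟩
  rw [Nat.add_sub_cancel, Nat.add_sub_cancel, ← Nat.add_one_mul_choose_eq (m + 1) k]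
  have h1 := Nat.choose_mul_succ_eq m k
  have h2 : (m + 1).choose k ≤ 2 * m.choose k := by
    refine Nat.le_of_mul_le_mul_right ?_ (Nat.succ_pos m)
    calc (m + 1).choose k * (m + 1) ≤ (m + 1).choose k * (2 * (m + 1 - k)) :=
          Nat.mul_le_mul_left _ (by omega)
      _ = 2 * m.choose k * (m + 1) := by rw [mul_left_comm, ← h1, mul_assoc]
  calc (m + 1 + 1) * (m + 1).choose k ≤ (m + 2) * (2 * m.choose k) := Nat.mul_le_mul_left _ h2
    _ = _ := by ring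

end BasicB

open BasicB

theorem WF.add_mem (h : G.WF) {sh : G.Bank} (hs : sh ∈ G.shs) {u : G.Tup} (hu : u ∈ G.outs sh) :
    G.add sh u ∈ G.banks ∧ G.pb (G.add sh u) = G.pb sh * G.pu u ∧
      u ∈ Fintype.piFinset (G.add sh u) := by
  obtain ⟨h1, h2⟩ := mem_outs.1 hu
  have h3 := mem_shs.1 hs
  have h4 := h.z_ge
  refine ⟨mem_banks.2 fun j => ⟨insert_subset (h1 j) (h3 j).1, ?_⟩, ?_,
    Fintype.mem_piFinset.2 fun j => mem_insert_self _ _⟩
  · rw [add, card_insert_of_notMem (h2 j), (h3 j).2]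
    omega
  · rw [pb, pb, pu, ← prod_mul_distrib]
    refine prod_congr rfl fun j _ => ?_
    rw [add, pd, pd, prod_insert (h2 j), mul_comm]

theorem WF.erase_mem (h : G.WF) {b : G.Bank} (hb : b ∈ G.banks) {u : G.Tup}
    (hu : u ∈ Fintype.piFinset b) :
    (fun j => (b j).erase (u j)) ∈ G.shs ∧ u ∈ G.outs (fun j => (b j).erase (u j)) ∧
      G.add (fun j => (b j).erase (u j)) u = b ∧
      G.pb b / G.pu u = G.pb (fun j => (b j).erase (u j)) := by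
  have h1 := mem_banks.1 hb
  have h2 := Fintype.mem_piFinset.1 hu
  have h3 : (fun j => (b j).erase (u j)) ∈ G.shs := mem_shs.2 fun j =>
    ⟨(erase_subset _ _).trans (h1 j).1, by rw [card_erase_of_mem (h2 j), (h1 j).2]⟩
  have h4 : u ∈ G.outs (fun j => (b j).erase (u j)) :=
    mem_outs.2 ⟨fun j => (h1 j).1 (h2 j), fun j => notMem_erase _ _⟩
  have h5 : G.add (fun j => (b j).erase (u j)) u = b := funext fun j => insert_erase (h2 j)
  refine ⟨h3, h4, h5, ?_⟩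
  have h6 := (h.add_mem h3 h4).2.1
  rw [h5] at h6
  rw [h6, Nat.mul_div_cancel]
  exact prod_pos fun j _ => (h.prime j _ ((h1 j).1 (h2 j))).1.pos

theorem WF.card_choices (h : G.WF) {b : G.Bank} (hb : b ∈ G.banks) :
    (Fintype.piFinset b).card = G.z ^ G.J := by
  have _ := h
  rw [Fintype.card_piFinset, prod_congr rfl fun j _ => (mem_banks.1 hb j).2, prod_const,
    card_univ, Fintype.card_fin]

/-- the primes that are born along a swap -/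
theorem WF.prod_births (h : G.WF) {v v' : G.St} (hb : v.2 ∈ G.banks) {u w : G.Tup}
    (hu : u ∈ Fintype.piFinset v.2) (hw : w ∈ G.outs v.2) (e : v'.2 = G.swap v.2 u w)
    (f : ℕ → ℝ) : G.bk v' \ G.bk v = univ.image w ∧ G.bk v \ G.bk v' = univ.image u ∧
      ∏ p ∈ G.bk v' \ G.bk v, f p = ∏ j, f (w j) ∧ ∏ p ∈ G.bk v \ G.bk v', f p = ∏ j, f (u j) := by
  have h1 := mem_banks.1 hb
  have h2 := Fintype.mem_piFinset.1 hu
  obtain ⟨h3, h4⟩ := mem_outs.1 hw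
  have h5 : ∀ j, u j ∈ G.S j := fun j => (h1 j).1 (h2 j)
  have h6 : ∀ p j, p ∈ v'.2 j ↔ p = w j ∨ p ≠ u j ∧ p ∈ v.2 j := fun p j => by
    rw [e, swap, mem_insert, mem_erase]
  have e1 : G.bk v' \ G.bk v = univ.image w := by
    ext p
    simp only [Finset.mem_sdiff, mem_bk, mem_image, mem_univ, true_and, h6, not_exists]
    constructor
    · rintro ⟨⟨j, rfl | hj⟩, hp⟩
      · exact ⟨j, rfl⟩
      · exact absurd hj.2 (hp j)
    · rintro ⟨j, rfl⟩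
      refine ⟨⟨j, Or.inl rfl⟩, fun i hi => ?_⟩
      obtain rfl := idx_eq h ((h1 i).1 hi) (h3 j)
      exact h4 i hi
  have e2 : G.bk v \ G.bk v' = univ.image u := by
    ext p
    simp only [Finset.mem_sdiff, mem_bk, mem_image, mem_univ, true_and, h6, not_exists]
    constructor
    · rintro ⟨⟨j, hj⟩, hp⟩
      exact ⟨j, by_contra fun hne => hp j (Or.inr ⟨Ne.symm hne, hj⟩)⟩
    · rintro ⟨j, rfl⟩
      refine ⟨⟨j, h2 j⟩, fun i hi => ?_⟩
      rcases hi with hi | hi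
      · obtain rfl := idx_eq h (h5 j) (hi ▸ h3 i)
        exact h4 j (hi ▸ h2 j)
      · obtain rfl := idx_eq h (h5 j) ((h1 i).1 hi.2)
        exact hi.1 rfl
  refine ⟨e1, e2, ?_, ?_⟩
  · rw [e1, prod_image fun i _ j _ (hij : w i = w j) => idx_eq h (h3 i) (hij ▸ h3 j)]
  · rw [e2, prod_image fun i _ j _ (hij : u i = u j) => idx_eq h (h5 i) (hij ▸ h5 j)]

/-- a prime outside the bank does not divide its product -/
theorem WF.not_dvd_pb (h : G.WF) {b : G.Bank} (hb : b ∈ G.banks) {w : G.Tup} (hw : w ∈ G.outs b)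
    (j : Fin G.J) : ¬ w j ∣ G.pb b := by
  have h1 := mem_banks.1 hb
  obtain ⟨h3, h4⟩ := mem_outs.1 hw
  have hp := (h.prime j _ (h3 j)).1
  intro hd
  obtain ⟨i, -, hi⟩ := (hp.prime.dvd_finsetProd_iff _).1 hd
  obtain ⟨q, hq, hq'⟩ := (hp.prime.dvd_finsetProd_iff _).1 hi
  obtain rfl := (Nat.prime_dvd_prime_iff_eq hp (h.prime i _ ((h1 i).1 hq)).1).1 hq'
  obtain rfl := idx_eq h ((h1 i).1 hq) (h3 j)
  exact h4 i hq

/-- number of lifts of a pair of labels -/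
theorem WF.card_lifts (h : G.WF) {x : G.Tup × G.Tup} (hx : x ∈ G.cop) :
    (G.shs.filter fun sh => ∀ j, x.1 j ∉ sh j ∧ x.2 j ∉ sh j).card = G.Lf := by
  have _ := h
  simp only [cop, tup, mem_filter, mem_product, Fintype.mem_piFinset] at hx
  have e : (G.shs.filter fun sh => ∀ j, x.1 j ∉ sh j ∧ x.2 j ∉ sh j) =
      Fintype.piFinset fun j => powersetCard (G.z - 1) (G.S j \ {x.1 j, x.2 j}) := by
    ext sh
    simp only [mem_filter, mem_shs, Fintype.mem_piFinset, mem_powersetCard, subset_sdiff,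
      disjoint_insert_right, disjoint_singleton_right]
    exact ⟨fun H j => ⟨⟨(H.1 j).1, H.2 j⟩, (H.1 j).2⟩,
      fun H => ⟨fun j => ⟨(H j).1.1, (H j).2⟩, fun j => (H j).1.2⟩⟩
  rw [e, Fintype.card_piFinset, Lf]
  refine prod_congr rfl fun j _ => ?_
  rw [card_powersetCard, card_sdiff_of_subset
    (insert_subset (hx.1.1 j) (singleton_subset_iff.2 (hx.1.2 j))), card_pair (hx.2 j)]

theorem WF.banks_le_Lf (h : G.WF) :
    1 ≤ G.Lf ∧ G.banks.card * G.z ^ G.J ≤ 2 ^ G.J * G.U * G.Lf := by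
  have h1 := h.z_ge
  refine ⟨prod_pos fun j _ => Nat.choose_pos (by have := h.card j; omega), ?_⟩
  have e : ∀ c : ℕ, c ^ G.J = ∏ _j : Fin G.J, c := fun c => by
    rw [prod_const, card_univ, Fintype.card_fin]
  rw [banks, Fintype.card_piFinset, e, e, U, Lf, ← prod_mul_distrib, ← prod_mul_distrib,
    ← prod_mul_distrib]
  refine prod_le_prod' fun j _ => ?_
  rw [card_powersetCard]
  exact (choose_le h1 (h.card j)).trans
    (Nat.mul_le_mul_right _ (Nat.mul_le_mul_left _ (h.card_S_le j)))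

end Par

end Crest.Agent.R26
end

-- ▼ part PVc/R26/BasicC
section

/-! Row 26: elementary facts about a cell. -/

set_option autoImplicit false

namespace Crest.Agent.R26

open Finset Filter
open Crest.Agent.R5 (pr pd ee nit)

namespace Par

variable {G : Par}

/-! vectors -/

theorem WF.BasicC_unit (h : G.WF) {x : ℤ} (ha : ∃ a ∈ G.As, x = (a : ℤ)) {p : ℕ}
    (hp : p ∈ G.allS) : p.Prime ∧ (x : ZMod p) ≠ 0 := by
  obtain ⟨a, ha, rfl⟩ := ha
  obtain ⟨j, -, hj⟩ := mem_biUnion.1 hp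
  obtain ⟨h1, -, h3⟩ := h.prime j p hj
  refine ⟨h1, fun h0 => ?_⟩
  have hd : p ∣ a := by exact_mod_cast (ZMod.intCast_zmod_eq_zero_iff_dvd _ _).1 h0
  have h4 := h.As_rough a ha p h1 hd
  have hQ : 0 < G.Q := lt_of_le_of_lt (Nat.zero_le _) h.κ_lt
  have hP : ∀ i, 0 < G.P i := fun i => lt_of_lt_of_le (by positivity) (h.sepP i)
  have hD : 0 < G.D := prod_pos fun i _ => pow_pos (by have := hP i; omega) _
  have h5 : (2 * G.P j) ^ G.z ≤ G.D :=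
    Nat.le_of_dvd hD (dvd_prod_of_mem (fun i => (2 * G.P i) ^ G.z) (mem_univ j))
  have h6 : 2 * G.P j ≤ (2 * G.P j) ^ G.z := Nat.le_self_pow (by have := h.z_ge; omega) _
  have h7 : G.D ≤ G.D ^ 2 := Nat.le_self_pow (by norm_num) _
  omega

theorem WF.cl_spec (h : G.WF) {v : G.St} (ha : ∃ a ∈ G.As, v.1.1 = (a : ℤ)) {p : ℕ}
    (hp : p ∈ G.allS) : G.cl v p < p ∧ ∀ j : ℕ, (j % p = G.cl v p ↔ (p : ℤ) ∣ v.1.2 + j * v.1.1) := by
  obtain ⟨hp1, hx⟩ := h.BasicC_unit ha hp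
  have := Fact.mk hp1
  refine ⟨ZMod.val_lt _, fun j => ?_⟩
  rw [← ZMod.intCast_zmod_eq_zero_iff_dvd, cl, ← ZMod.val_natCast,
    (ZMod.val_injective p).eq_iff, eq_mul_inv_iff_mul_eq₀ hx]
  push_cast
  constructor <;> intro e <;> linear_combination e

theorem WF.cl_eq_iff (h : G.WF) {v v' : G.St} (ha : ∃ a ∈ G.As, v.1.1 = (a : ℤ))
    (ha' : ∃ a ∈ G.As, v'.1.1 = (a : ℤ)) {p : ℕ} (hp : p ∈ G.allS) :
    G.cl v p = G.cl v' p ↔ (p : ℤ) ∣ det v.1 v'.1 := by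
  obtain ⟨hp1, hx⟩ := h.BasicC_unit ha hp
  obtain ⟨-, hx'⟩ := h.BasicC_unit ha' hp
  have := Fact.mk hp1
  rw [← ZMod.intCast_zmod_eq_zero_iff_dvd, cl, cl, (ZMod.val_injective p).eq_iff, det,
    ← div_eq_mul_inv, ← div_eq_mul_inv, div_eq_div_iff hx hx']
  push_cast
  constructor <;> intro e <;> linear_combination e

/-- a primitive vector determines its neighbours by the determinant -/
theorem WF.eq_of_det (h : G.WF) {X X₁ X₂ : ℤ × ℤ} (ha : ∃ a ∈ G.As, X.1 = (a : ℤ))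
    (hX : IsCoprime X.1 X.2) (h₁ : ∃ a ∈ G.As, X₁.1 = (a : ℤ)) (h₂ : ∃ a ∈ G.As, X₂.1 = (a : ℤ))
    (e : det X X₁ = det X X₂) : X₁ = X₂ := by
  obtain ⟨a, ha, ea⟩ := ha
  obtain ⟨a₁, ha₁, e₁⟩ := h₁
  obtain ⟨a₂, ha₂, e₂⟩ := h₂
  have b := h.As_sub a ha
  have b₁ := h.As_sub a₁ ha₁
  have b₂ := h.As_sub a₂ ha₂
  unfold det at e
  have hd : X.1 ∣ (X₁.1 - X₂.1) * X.2 := ⟨X₁.2 - X₂.2, by linear_combination -e⟩
  have h0 : X₁.1 - X₂.1 = 0 := by
    refine Int.eq_zero_of_abs_lt_dvd (hX.dvd_of_dvd_mul_right hd) ?_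
    rw [ea, e₁, e₂, abs_lt]
    constructor <;> omega
  have hX0 : X.1 ≠ 0 := by rw [ea]; omega
  have h1 : X.1 * (X₁.2 - X₂.2) = 0 := by linear_combination e + X.2 * h0
  exact Prod.ext (sub_eq_zero.1 h0) (sub_eq_zero.1 ((mul_eq_zero.1 h1).resolve_left hX0))

/-- separation: the use of goodness -/
theorem WF.sep (h : G.WF) {X X₁ X₂ : ℤ × ℤ} {b : G.Bank} (hg : G.good X b)
    (h₁ : ∃ a ∈ G.As, X₁.1 = (a : ℤ)) (h₂ : ∃ a ∈ G.As, X₂.1 = (a : ℤ)) {j : Fin G.J} {p : ℕ}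
    (hp : p ∈ G.S j) (hd : (p : ℤ) ∣ det X₁ X₂) (hn : ¬ (p : ℤ) ∣ det X X₁)
    {u₁ u₂ : G.Tup} (hu₁ : u₁ ∈ Fintype.piFinset b) (hu₂ : u₂ ∈ Fintype.piFinset b) {y₁ y₂ : ℕ}
    (hy₁ : y₁ ≤ G.Y j) (hy₂ : y₂ ≤ G.Y j)
    (e : det X X₁ - det X X₂ =
      p * (((G.pb b / G.pu u₁ * y₁ : ℕ) : ℤ) - ((G.pb b / G.pu u₂ * y₂ : ℕ) : ℤ))) :
    det X X₁ = det X X₂ := by
  obtain ⟨a₁, ha₁, e₁⟩ := h₁
  obtain ⟨a₂, ha₂, e₂⟩ := h₂
  have b₁ := h.As_sub a₁ ha₁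
  have b₂ := h.As_sub a₂ ha₂
  obtain ⟨hp1, hp2, -⟩ := h.prime j p hp
  have hpZ : Prime (p : ℤ) := Nat.prime_iff_prime_int.1 hp1
  obtain ⟨m, hm⟩ := hd
  generalize hn' : (((G.pb b / G.pu u₁ * y₁ : ℕ) : ℤ) - ((G.pb b / G.pu u₂ * y₂ : ℕ) : ℤ)) = n at e
  have d1 : (p : ℤ) ∣ X₁.1 - X₂.1 := by
    refine (hpZ.dvd_or_dvd (a := det X X₁) ⟨m * X.1 + n * X₁.1, ?_⟩).resolve_left hn
    unfold det at *
    linear_combination X.1 * hm + X₁.1 * e
  have d2 : (p : ℤ) ∣ X₁.2 - X₂.2 := by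
    refine (hpZ.dvd_or_dvd (a := det X X₁) ⟨m * X.2 + n * X₁.2, ?_⟩).resolve_left hn
    unfold det at *
    linear_combination X.2 * hm + X₁.2 * e
  obtain ⟨z₁, hz₁⟩ := d1
  obtain ⟨z₂, hz₂⟩ := d2
  have hp0 : (p : ℤ) ≠ 0 := hpZ.ne_zero
  have hn2 : X.1 * z₂ - X.2 * z₁ = n := by
    refine mul_left_cancel₀ hp0 ?_
    unfold det at e
    linear_combination e - X.1 * hz₂ + X.2 * hz₁
  have hs : |(-z₁)| * G.P j ≤ 4 * G.A := by
    have c1 : |(-z₁)| * (G.P j : ℤ) ≤ |(-z₁)| * p :=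
      mul_le_mul_of_nonneg_left (by exact_mod_cast hp2.le) (abs_nonneg _)
    have c2 : |(-z₁)| * (p : ℤ) = |X₁.1 - X₂.1| := by
      rw [hz₁, abs_mul, abs_neg, Nat.abs_cast, mul_comm]
    have c3 : |X₁.1 - X₂.1| ≤ G.A := by
      rw [e₁, e₂, abs_le]
      constructor <;> omega
    omega
  have key := hg.2 j u₁ hu₁ u₂ hu₂ y₁ y₂ hy₁ hy₂ (-z₁) hs
    ⟨-z₂, by rw [hn']; linear_combination hn2⟩
  rw [key, sub_self] at hn'
  rw [← hn', mul_zero, sub_eq_zero] at e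
  exact e

theorem good_shear (X : ℤ × ℤ) (b : G.Bank) (j : ℤ) :
    G.good (X.1, X.2 + j * X.1) b ↔ G.good X b := by
  have key : ∀ s n : ℤ, X.1 ∣ s * (X.2 + j * X.1) - n ↔ X.1 ∣ s * X.2 - n := fun s n => by
    rw [show s * (X.2 + j * X.1) - n = (s * X.2 - n) + X.1 * (s * j) by ring]
    exact (dvd_add_left (dvd_mul_right _ _))
  unfold good
  simp only [key, IsCoprime.add_mul_right_right_iff]

end Par

end Crest.Agent.R26
end

-- ▼ part PVc/R26/Basic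

/-! Row 26: elementary facts about a cell. -/

set_option autoImplicit false

namespace Crest.Agent.R26

open Finset Filter
open Crest.Agent.R5 (pr pd ee nit)

namespace Par

variable {G : Par}

/-! the lifted kernel -/

namespace BasicAux

theorem mem_edges {e : G.Bank × G.Tup × G.Tup} : e ∈ G.edges ↔
    e.1 ∈ G.shs ∧ e.2.1 ∈ G.outs e.1 ∧ e.2.2 ∈ G.outs e.1 ∧ ∀ j, e.2.1 j ≠ e.2.2 j := by
  simp only [edges, cop, outs, mem_filter, mem_product]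
  constructor
  · rintro ⟨⟨h1, ⟨h2, h3⟩, h4⟩, h5⟩
    exact ⟨h1, ⟨h2, fun j => (h5 j).1⟩, ⟨h3, fun j => (h5 j).2⟩, h4⟩
  · rintro ⟨h1, ⟨h2, h5⟩, ⟨h3, h6⟩, h4⟩
    exact ⟨⟨h1, ⟨h2, h3⟩, h4⟩, fun j => ⟨h5 j, h6 j⟩⟩

theorem erase_add {sh : G.Bank} {u : G.Tup} (hu : u ∈ G.outs sh) :
    (fun j => (G.add sh u j).erase (u j)) = sh :=
  funext fun j => erase_insert ((mem_filter.1 hu).2 j)

theorem edge_facts (h : G.WF) {e : G.Bank × G.Tup × G.Tup} (he : e ∈ G.edges) :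
    G.add e.1 e.2.1 ∈ G.banks ∧ e.2.1 ∈ Fintype.piFinset (G.add e.1 e.2.1) ∧
      e.2.2 ∈ G.outs (G.add e.1 e.2.1) ∧
      G.add e.1 e.2.2 = G.swap (G.add e.1 e.2.1) e.2.1 e.2.2 ∧
      G.pb (G.add e.1 e.2.1) / G.pu e.2.1 = G.pb e.1 := by
  obtain ⟨h1, h2, h3, h4⟩ := mem_edges.1 he
  obtain ⟨a1, -, a3⟩ := h.add_mem h1 h2
  refine ⟨a1, a3, mem_filter.2 ⟨(mem_filter.1 h3).1, fun j hj => ?_⟩, funext fun j => ?_, ?_⟩
  · rcases mem_insert.1 hj with hj | hj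
    · exact h4 j hj.symm
    · exact (mem_filter.1 h3).2 j hj
  · exact congrArg (insert (e.2.2 j)) (congrFun (erase_add h2) j).symm
  · rw [(h.erase_mem a1 a3).2.2.2, erase_add h2]

theorem exists_edge {k : ℤ → ℝ} {v v' : G.St} (h : G.K0 k v v' ≠ 0) :
    ∃ e ∈ G.edges, v.2 = G.add e.1 e.2.1 ∧ v'.2 = G.add e.1 e.2.2 ∧
      (G.pb e.1 : ℤ) ∣ det v.1 v'.1 ∧
      k (det v.1 v'.1 / G.pb e.1 - ((G.pu e.2.2 : ℤ) - G.pu e.2.1)) ≠ 0 := by
  obtain ⟨e, he, h1⟩ := exists_ne_zero_of_sum_ne_zero h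
  obtain ⟨h2, h3⟩ := ite_ne_right_iff.1 h1
  obtain ⟨h4, h5⟩ := ite_ne_right_iff.1 h3
  exact ⟨e, he, h2.1, h2.2, h4, h5⟩

theorem kk_symm {k : ℤ → ℝ} (hk : ∀ n, k (-n) = k n) (g : ℕ) (a b : ℤ) (X X' : ℤ × ℤ) :
    kk k g (a - b) X X' = kk k g (b - a) X' X := by
  have e : det X' X = -det X X' := by
    unfold det
    ring
  unfold kk
  rw [e]
  by_cases hd : (g : ℤ) ∣ det X X'
  · rw [if_pos hd, if_pos (dvd_neg.2 hd), Int.neg_ediv_of_dvd hd, ← hk]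
    congr 1
    ring
  · rw [if_neg hd, if_neg fun h => hd (dvd_neg.1 h)]

end BasicAux

open BasicAux

theorem WF.card_nbr (h : G.WF) {V : Finset G.St} (hV : G.Adm V) {v : G.St} (hv : v ∈ V)
    (u w : G.Tup) (n : ℤ) : (G.nbr V v u w n).card ≤ 1 := by
  refine card_le_one.2 fun a ha b hb => ?_
  obtain ⟨a1, a2, a3⟩ := mem_filter.1 ha
  obtain ⟨b1, b2, b3⟩ := mem_filter.1 hb
  exact Prod.ext (h.eq_of_det (hV v hv).1 (hV v hv).2.2.1 (hV a a1).1 (hV b b1).1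
    (a3.trans b3.symm)) (a2.trans b2.symm)

/-- row expansion -/
theorem WF.row_le (h : G.WF) {V : Finset G.St} (hV : G.Adm V) {v : G.St} (hv : v ∈ V)
    {k : ℤ → ℝ} (hk : ∀ n : ℤ, (G.h : ℤ) < |n| → k n = 0) (f : G.St → ℝ)
    (hf : ∀ v' ∈ V, 0 ≤ f v') :
    ∑ v' ∈ V, |G.K0 k v v'| * f v' ≤
      ∑ u ∈ Fintype.piFinset v.2, ∑ w ∈ G.outs v.2, ∑ n ∈ Icc (-(G.h : ℤ)) G.h,
        |k n| * ∑ v' ∈ G.nbr V v u w n, f v' := by
  have _ := hV v hv
  set F : G.Tup × G.Tup → ℝ := fun x => ∑ n ∈ Icc (-(G.h : ℤ)) G.h,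
    |k n| * ∑ v' ∈ G.nbr V v x.1 x.2 n, f v' with hF
  have hF0 : ∀ x, 0 ≤ F x := fun x => sum_nonneg fun n _ => mul_nonneg (abs_nonneg _)
    (sum_nonneg fun v' hv' => hf v' (mem_filter.1 hv').1)
  set T := G.edges.filter fun e => v.2 = G.add e.1 e.2.1 with hT
  have h1 : ∀ e ∈ G.edges, ∑ v' ∈ V, |if v.2 = G.add e.1 e.2.1 ∧ v'.2 = G.add e.1 e.2.2 then
      kk k (G.pb e.1) ((G.pu e.2.2 : ℤ) - G.pu e.2.1) v.1 v'.1 else 0| * f v' ≤
      if v.2 = G.add e.1 e.2.1 then F e.2 else 0 := by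
    intro e he
    by_cases hve : v.2 = G.add e.1 e.2.1
    swap
    · simp [hve]
    rw [if_pos hve, hF]
    obtain ⟨-, -, -, e4, e5⟩ := edge_facts h he
    rw [← hve] at e4 e5
    simp only [nbr, sum_filter, mul_sum]
    rw [sum_comm]
    refine sum_le_sum fun v' hv' => ?_
    have h0 : ∀ n ∈ Icc (-(G.h : ℤ)) G.h, 0 ≤ |k n| * if v'.2 = G.swap v.2 e.2.1 e.2.2 ∧
        det v.1 v'.1 = ((G.pb v.2 / G.pu e.2.1 : ℕ) : ℤ) * (n + ((G.pu e.2.2 : ℤ) - G.pu e.2.1))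
        then f v' else 0 := fun n _ =>
      mul_nonneg (abs_nonneg _) (by split_ifs; exacts [hf v' hv', le_rfl])
    by_cases hz : (if v.2 = G.add e.1 e.2.1 ∧ v'.2 = G.add e.1 e.2.2 then
        kk k (G.pb e.1) ((G.pu e.2.2 : ℤ) - G.pu e.2.1) v.1 v'.1 else 0) = 0
    · rw [hz, abs_zero, zero_mul]
      exact sum_nonneg h0
    obtain ⟨h2, h3⟩ := ite_ne_right_iff.1 hz
    obtain ⟨h4, h5⟩ := ite_ne_right_iff.1 h3
    have h6 : det v.1 v'.1 / G.pb e.1 - ((G.pu e.2.2 : ℤ) - G.pu e.2.1) ∈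
        Icc (-(G.h : ℤ)) G.h := mem_Icc.2 (abs_le.1 (not_lt.1 fun h => h5 (hk _ h)))
    refine le_trans (le_of_eq ?_) (single_le_sum h0 h6)
    rw [if_pos h2, kk, if_pos h4, if_pos]
    refine ⟨h2.2.trans e4, ?_⟩
    rw [e5, sub_add_cancel, Int.mul_ediv_cancel' h4]
  have hinj : Set.InjOn (fun e : G.Bank × G.Tup × G.Tup => e.2) T := by
    intro e he e' he' hee
    obtain ⟨a1, a2⟩ := mem_filter.1 (mem_coe.1 he)
    obtain ⟨b1, b2⟩ := mem_filter.1 (mem_coe.1 he')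
    have hee' : e.2 = e'.2 := hee
    refine Prod.ext ?_ hee'
    rw [← erase_add (mem_edges.1 a1).2.1, ← erase_add (mem_edges.1 b1).2.1, ← a2, ← b2, hee']
  calc ∑ v' ∈ V, |G.K0 k v v'| * f v'
      ≤ ∑ v' ∈ V, ∑ e ∈ G.edges, |if v.2 = G.add e.1 e.2.1 ∧ v'.2 = G.add e.1 e.2.2 then
          kk k (G.pb e.1) ((G.pu e.2.2 : ℤ) - G.pu e.2.1) v.1 v'.1 else 0| * f v' := by
        refine sum_le_sum fun v' hv' => ?_
        rw [← sum_mul]
        exact mul_le_mul_of_nonneg_right (abs_sum_le_sum_abs _ _) (hf v' hv')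
    _ ≤ ∑ e ∈ G.edges, if v.2 = G.add e.1 e.2.1 then F e.2 else 0 := by
        rw [sum_comm]
        exact sum_le_sum h1
    _ = ∑ x ∈ T.image fun e => e.2, F x := by rw [sum_image hinj, hT, sum_filter]
    _ ≤ ∑ x ∈ Fintype.piFinset v.2 ×ˢ G.outs v.2, F x := by
        refine sum_le_sum_of_subset_of_nonneg (fun x hx => ?_) fun x _ _ => hF0 x
        obtain ⟨e, he, rfl⟩ := mem_image.1 hx
        obtain ⟨a1, a2⟩ := mem_filter.1 he
        obtain ⟨-, e2, e3, -⟩ := edge_facts h a1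
        rw [a2]
        exact mem_product.2 ⟨e2, e3⟩
    _ = _ := sum_product _ _ _

theorem K0_sub (k k' : ℤ → ℝ) (v v' : G.St) :
    G.K0 (fun n => k n - k' n) v v' = G.K0 k v v' - G.K0 k' v v' := by
  unfold K0 kk
  rw [← sum_sub_distrib]
  refine sum_congr rfl fun e _ => ?_
  split_ifs <;> simp

/-- the abstract hypotheses hold for every even kernel -/
theorem WF.abs (h : G.WF) {V : Finset G.St} (hV : G.Adm V) {k : ℤ → ℝ}
    (hk : ∀ n, k (-n) = k n) : Abs G.allS V G.bk G.cl (G.K0 k) G.J := by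
  have hsub : ∀ v ∈ V, ∀ j, v.2 j ⊆ G.S j := fun v hv j =>
    (mem_powersetCard.1 (Fintype.mem_piFinset.1 (hV v hv).2.1 j)).1
  refine ⟨fun p hp => ?_, fun v hv p hp => ?_, fun v hv p hp => (h.cl_spec (hV v hv).1 hp).1,
    fun v _ v' _ => ?_, fun v hv v' hv' hK p hp hp' => ?_, fun v hv v' hv' hK => ?_⟩
  · obtain ⟨j, -, hj⟩ := mem_biUnion.1 hp
    exact (h.prime j p hj).1
  · obtain ⟨j, -, hj⟩ := mem_biUnion.1 hp
    exact mem_biUnion.2 ⟨j, mem_univ _, hsub v hv j hj⟩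
  · have hm : ∀ e ∈ G.edges, (e.1, e.2.2, e.2.1) ∈ G.edges := fun e he => by
      obtain ⟨h1, h2, h3, h4⟩ := mem_edges.1 he
      exact mem_edges.2 ⟨h1, h3, h2, fun j => (h4 j).symm⟩
    refine sum_nbij' (fun e => (e.1, e.2.2, e.2.1)) (fun e => (e.1, e.2.2, e.2.1)) hm hm
      (fun _ _ => rfl) (fun _ _ => rfl) fun e _ => ?_
    exact if_congr and_comm (kk_symm hk _ _ _ _ _) rfl
  · obtain ⟨e, he, e1, e2, e3, -⟩ := exists_edge hK
    obtain ⟨-, h2, h3, h4⟩ := mem_edges.1 he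
    obtain ⟨i, -, hi⟩ := mem_biUnion.1 hp
    obtain ⟨j, -, hj⟩ := mem_biUnion.1 hp'
    have hij : i = j := by
      by_contra hij
      exact disjoint_left.1 (h.disj hij) (hsub v hv i hi) (hsub v' hv' j hj)
    subst hij
    have hS : p ∈ G.allS := mem_biUnion.2 ⟨i, mem_univ _, hsub v hv i hi⟩
    rw [e1] at hi
    rw [e2] at hj
    have hsh : p ∈ e.1 i := by
      rcases mem_insert.1 hi with a | a
      · rcases mem_insert.1 hj with b | b
        · exact absurd (a.symm.trans b) (h4 i)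
        · exact b
      · exact a
    refine (h.cl_eq_iff (hV v hv).1 (hV v' hv').1 hS).2 (dvd_trans ?_ e3)
    exact Int.natCast_dvd_natCast.2 ((dvd_prod_of_mem (fun p => p) hsh).trans
      (dvd_prod_of_mem (fun j => pd (e.1 j)) (mem_univ i)))
  · obtain ⟨e, he, e1, e2, -⟩ := exists_edge hK
    obtain ⟨-, a2, a3, a4, -⟩ := edge_facts h he
    rw [← e1] at a2 a3 a4
    rw [(h.prod_births (hV v hv).2.1 a2 a3 (e2.trans a4) fun _ => 0).2.1]
    exact card_image_le.trans (by simp)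

/-- edges are short -/
theorem WF.det_le (h : G.WF) {k : ℤ → ℝ} (hk : ∀ n : ℤ, (G.h : ℤ) < |n| → k n = 0)
    {v v' : G.St} (e : G.K0 k v v' ≠ 0) : |det v.1 v'.1| ≤ 2 * (G.D : ℤ) := by
  obtain ⟨x, hx, -, -, ⟨c, hc⟩, e4⟩ := exists_edge e
  obtain ⟨h1, h2, h3, -⟩ := mem_edges.1 hx
  obtain ⟨g1, g2⟩ := h.pb_sh_le h1
  have g0 : (0 : ℤ) < G.pb x.1 := by exact_mod_cast g1
  rw [hc, Int.mul_ediv_cancel_left _ g0.ne'] at e4
  have a1 := abs_le.1 (not_lt.1 fun h => e4 (hk _ h))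
  have a2 : (G.h : ℤ) ≤ G.U := by exact_mod_cast h.h_bounds.2.1
  have a3 : (G.pu x.2.1 : ℤ) ≤ ((2 ^ G.J * G.U : ℕ) : ℤ) := by
    exact_mod_cast (h.pu_bounds (mem_filter.1 h2).1).2
  have a4 : (G.pu x.2.2 : ℤ) ≤ ((2 ^ G.J * G.U : ℕ) : ℤ) := by
    exact_mod_cast (h.pu_bounds (mem_filter.1 h3).1).2
  have a5 : (G.U : ℤ) ≤ ((2 ^ G.J * G.U : ℕ) : ℤ) := by
    exact_mod_cast Nat.le_mul_of_pos_left _ (by positivity)
  have a6 : (G.pb x.1 : ℤ) * ((2 ^ G.J * G.U : ℕ) : ℤ) ≤ G.D := by exact_mod_cast g2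
  have a7 : (0 : ℤ) ≤ G.pu x.2.1 := Int.natCast_nonneg _
  have a8 : (0 : ℤ) ≤ G.pu x.2.2 := Int.natCast_nonneg _
  have a9 : |c| ≤ 2 * ((2 ^ G.J * G.U : ℕ) : ℤ) := abs_le.2 ⟨by linarith [a1.1], by linarith [a1.2]⟩
  rw [hc, abs_mul, abs_of_pos g0]
  nlinarith [mul_le_mul_of_nonneg_left a9 g0.le]

end Par

end Crest.Agent.R26
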