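import Crest.Agent.PVc.R8.VDefs

/-! Row 26 (shifted primes): definitions and module statements.  DO NOT change a definition.

Goal: `MainNuStmt` / `MainIStmt`: a bounded function `f` that does not see *which* small prime
divides its argument (`Exch`) has the expected average over the shifted primes `p - 1`.

* Part L: linear algebra on finite sets (`pw`, `OpB`).
* Part M: the memory operator (abstract): `TraceStmt`.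
* Part H: the minor-arc heart for one cell of small primes (`Par`): `MinorStmt`.
* Part J: major arcs (`MajorStmt`), Cauchy-Schwarz (`CellStmt`), parameters (`TIIStmt`).
* Part P: prime sums from the zero-free half plane `R8.ZFStmt`.
* Part A: from type II sums to primes (`AsmStmt`), Ramaré weights, sieve, main theorems. -/

set_option autoImplicit false

namespace Crest.Agent.R26

open Finset Filter
open Crest.Agent.R5 (pr pd ee nit)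

/-! ## Part L: linear algebra -/

/-- powers of a kernel on a finite set -/
def pw {σ : Type} [DecidableEq σ] (V : Finset σ) (K : σ → σ → ℝ) : ℕ → σ → σ → ℝ
  | 0 => fun v v' => if v = v' then 1 else 0
  | n + 1 => fun v v' => ∑ v'' ∈ V, pw V K n v v'' * K v'' v'

/-- `ℓ²` norm -/
noncomputable def nrm {σ : Type} (V : Finset σ) (φ : σ → ℝ) : ℝ := √(∑ v ∈ V, φ v ^ 2)

/-- operator norm bound -/
def OpB {σ : Type} (V : Finset σ) (K : σ → σ → ℝ) (lam : ℝ) : Prop :=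
  ∀ φ ψ : σ → ℝ, |∑ v ∈ V, ∑ v' ∈ V, φ v * K v v' * ψ v'| ≤ lam * (nrm V φ * nrm V ψ)

/-- operator norm bound, complex kernel -/
def OpC {σ : Type} (V : Finset σ) (K : σ → σ → ℂ) (lam : ℝ) : Prop :=
  ∀ φ ψ : σ → ℂ, ‖∑ v ∈ V, ∑ v' ∈ V, φ v * K v v' * ψ v'‖ ≤
    lam * (√(∑ v ∈ V, ‖φ v‖ ^ 2) * √(∑ v ∈ V, ‖ψ v‖ ^ 2))

/-! ## Part M: the memory operator -/

/-- the shift `j` fits the bank of `v` -/
def fit {σ : Type} (bk : σ → Finset ℕ) (cl : σ → ℕ → ℕ) (j : ℕ) (v : σ) : ℝ :=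
  if ∀ p ∈ bk v, j % p = cl v p then 1 else 0

/-- the kernel seen by the shift `j` -/
def kj {σ : Type} (bk : σ → Finset ℕ) (cl : σ → ℕ → ℕ) (K : σ → σ → ℝ) (j : ℕ) (v v' : σ) : ℝ :=
  fit bk cl j v * K v v' * fit bk cl j v'

/-- memories: a class, or nothing, for every prime of `S` -/
abbrev Mem (S : Finset ℕ) : Type := ↥S → Option ℕ

def mems (S : Finset ℕ) : Finset (Mem S) := Fintype.piFinset fun p => insertNone (range p.1)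

def mcard {S : Finset ℕ} (μ : Mem S) : ℕ := (univ.filter fun p => μ p ≠ none).card

/-- local transition coefficient at the prime `p`: `b, b'` membership in the old and new bank,
`c, c'` old and new class, `o, o'` old and new memory.  Death: forget (`1/√p`) or remember (`1`);
birth: free (`1/√p`) or recall (`match - 1/p`). -/
noncomputable def loc (p : ℕ) (b b' : Bool) (c c' : ℕ) (o o' : Option ℕ) : ℝ :=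
  match b, b' with
  | true, true => if o' = none then 1 else 0
  | true, false => if o' = none then 1 / √(p : ℝ) else if o' = some c then 1 else 0
  | false, true => if o' = none then
      (if o = none then 1 / √(p : ℝ) else (if o = some c' then 1 else 0) - 1 / (p : ℝ)) else 0
  | false, false => if o' = o then 1 else 0

/-- states of the memory operator -/
def mst {σ : Type} (S : Finset ℕ) (V : Finset σ) (bk : σ → Finset ℕ) (κ : ℕ) :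
    Finset (σ × Mem S) :=
  (V ×ˢ mems S).filter fun s => (∀ p : ↥S, p.1 ∈ bk s.1 → s.2 p = none) ∧ mcard s.2 ≤ κ

/-- the (conjugated) memory operator -/
noncomputable def mop {σ : Type} (S : Finset ℕ) (bk : σ → Finset ℕ) (cl : σ → ℕ → ℕ)
    (K : σ → σ → ℝ) (s s' : σ × Mem S) : ℝ :=
  K s.1 s'.1 * ∏ p : ↥S, loc p.1 (decide (p.1 ∈ bk s.1)) (decide (p.1 ∈ bk s'.1))
    (cl s.1 p.1) (cl s'.1 p.1) (s.2 p) (s'.2 p)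

/-- standing hypotheses of the abstract layer -/
structure Abs {σ : Type} (S : Finset ℕ) (V : Finset σ) (bk : σ → Finset ℕ) (cl : σ → ℕ → ℕ)
    (K : σ → σ → ℝ) (Jd : ℕ) : Prop where
  prime : ∀ p ∈ S, p.Prime
  sub : ∀ v ∈ V, bk v ⊆ S
  lt : ∀ v ∈ V, ∀ p ∈ S, cl v p < p
  symm : ∀ v ∈ V, ∀ v' ∈ V, K v v' = K v' v
  agree : ∀ v ∈ V, ∀ v' ∈ V, K v v' ≠ 0 → ∀ p ∈ bk v, p ∈ bk v' → cl v p = cl v' p
  card : ∀ v ∈ V, ∀ v' ∈ V, K v v' ≠ 0 → (bk v \ bk v').card ≤ Jd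

/-- the kernel of the steps without any memory event -/
noncomputable def khat {σ : Type} (bk : σ → Finset ℕ) (K : σ → σ → ℝ) (v v' : σ) : ℝ :=
  K v v' / √((pd (bk v \ bk v') : ℝ) * pd (bk v' \ bk v))

open Classical in
/-- the three row bounds -/
structure Rho {σ : Type} (V : Finset σ) (bk : σ → Finset ℕ) (cl : σ → ℕ → ℕ)
    (K : σ → σ → ℝ) (κ : ℕ) (ρ₀ ρ₁ ρ₂ : ℝ) : Prop where
  free : ∀ v ∈ V, ∑ v' ∈ V, |K v v'| * ∏ p ∈ bk v' \ bk v, 1 / (p : ℝ) ≤ ρ₀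
  hit : ∀ v ∈ V, ∀ m : Finset (ℕ × ℕ), m.card ≤ κ →
    ∑ v' ∈ V, |K v v'| * (∏ p ∈ bk v' \ bk v, (1 / (p : ℝ) + if (p, cl v' p) ∈ m then 1 else 0) -
      ∏ p ∈ bk v' \ bk v, 1 / (p : ℝ)) ≤ ρ₁
  ghost : ∀ v ∈ V, ∀ m : Finset ℕ, m.card ≤ κ →
    ∑ v' ∈ V, |K v v'| * (if ∃ p ∈ bk v' \ bk v, p ∈ m then ∏ p ∈ bk v' \ bk v, 1 / (p : ℝ) else 0)
      ≤ ρ₂

/-- expected return weight = diagonal entry of a power of the memory operator -/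
def MemIdStmt : Prop :=
  ∀ (σ : Type) [DecidableEq σ] (S : Finset ℕ) (V : Finset σ) (bk : σ → Finset ℕ)
    (cl : σ → ℕ → ℕ) (K : σ → σ → ℝ) (Jd κ n : ℕ), Abs S V bk cl K Jd → 1 ≤ n → n * Jd ≤ κ →
    ∀ v ∈ V, (∑ j ∈ range (pd S), pw V (kj bk cl K j) n v v) / pd S =
      (∏ p ∈ bk v, 1 / (p : ℝ)) *
        pw (mst S V bk κ) (mop S bk cl K) n (v, fun _ => none) (v, fun _ => none)

/-- steps without memory event -/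
def MemFreeStmt : Prop :=
  ∀ (σ : Type) [DecidableEq σ] (S : Finset ℕ) (V : Finset σ) (bk : σ → Finset ℕ)
    (cl : σ → ℕ → ℕ) (K : σ → σ → ℝ) (Jd κ : ℕ) (lam : ℝ), Abs S V bk cl K Jd → 0 ≤ lam →
    OpB V (khat bk K) lam →
    OpB (mst S V bk κ) (fun s s' => if s.2 = s'.2 then mop S bk cl K s s' else 0) lam

/-- steps with a memory event -/
def MemRestStmt : Prop :=
  ∀ (σ : Type) [DecidableEq σ] (S : Finset ℕ) (V : Finset σ) (bk : σ → Finset ℕ)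
    (cl : σ → ℕ → ℕ) (K : σ → σ → ℝ) (Jd κ : ℕ) (ρ₀ ρ₁ ρ₂ : ℝ), Abs S V bk cl K Jd →
    0 ≤ ρ₀ → 0 ≤ ρ₁ → 0 ≤ ρ₂ → Rho V bk cl K κ ρ₀ ρ₁ ρ₂ →
    OpB (mst S V bk κ) (fun s s' => if s.2 = s'.2 then 0 else mop S bk cl K s s')
      (2 * 3 ^ Jd * √((ρ₁ + ρ₂) * (ρ₀ + ρ₁)))

/-- an interval of shifts against a full period -/
def CountStmt : Prop :=
  ∀ (σ : Type) [DecidableEq σ] (S : Finset ℕ) (V : Finset σ) (bk : σ → Finset ℕ)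
    (cl : σ → ℕ → ℕ) (K : σ → σ → ℝ) (Jd n W : ℕ) (ρ : ℝ), Abs S V bk cl K Jd → 0 ≤ ρ →
    (∀ v ∈ V, ∑ v' ∈ V, |K v v'| ≤ ρ) → ∀ v ∈ V,
    |∑ j ∈ range W, pw V (kj bk cl K j) n v v -
      W * ((∑ j ∈ range (pd S), pw V (kj bk cl K j) n v v) / pd S)| ≤ ρ ^ n

/-- the abstract trace bound -/
def TraceStmt : Prop :=
  ∀ (σ : Type) [DecidableEq σ] (S : Finset ℕ) (V : Finset σ) (bk : σ → Finset ℕ)
    (cl : σ → ℕ → ℕ) (K K₁ K₂ : σ → σ → ℝ) (Jd κ n W : ℕ) (lam ρ a₀ a₁ a₂ b₀ b₁ b₂ : ℝ),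
    Abs S V bk cl K Jd → Abs S V bk cl K₁ Jd → Abs S V bk cl K₂ Jd →
    (∀ v v', K v v' = K₁ v v' - K₂ v v') → 1 ≤ n → n * Jd ≤ κ → 0 ≤ lam → 0 ≤ ρ →
    0 ≤ a₀ → 0 ≤ a₁ → 0 ≤ a₂ → 0 ≤ b₀ → 0 ≤ b₁ → 0 ≤ b₂ →
    OpB V (khat bk K) lam → Rho V bk cl K₁ κ a₀ a₁ a₂ → Rho V bk cl K₂ κ b₀ b₁ b₂ →
    (∀ v ∈ V, ∑ v' ∈ V, |K v v'| ≤ ρ) →
    ∑ j ∈ range W, ∑ v ∈ V, pw V (kj bk cl K j) n v v ≤
      V.card * (W * (lam + 2 * 3 ^ Jd * √((a₁ + a₂) * (a₀ + a₁)) +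
        2 * 3 ^ Jd * √((b₁ + b₂) * (b₀ + b₁))) ^ n + ρ ^ n)

/-! ## The kernel -/

/-- normalised triangle -/
noncomputable def tri (h : ℕ) (n : ℤ) : ℝ := max 0 ((h : ℝ) - |(n : ℝ)|) / (h : ℝ) ^ 2

/-- sum of the Ramanujan sums of modulus `≤ Q` -/
noncomputable def ram (Q : ℕ) (n : ℤ) : ℝ :=
  ∑ q ∈ Icc 1 Q, ∑ a ∈ (range q).filter (fun a => Nat.Coprime a q),
    Real.cos (2 * Real.pi * a * n / q)

/-- major-arc part of the delta symbol -/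
noncomputable def mu (Q h : ℕ) (n : ℤ) : ℝ := tri h n * ram Q n

def del (n : ℤ) : ℝ := if n = 0 then 1 else 0

/-- minor-arc part of the delta symbol -/
noncomputable def ker (Q h : ℕ) (n : ℤ) : ℝ := del n - mu Q h n

/-- Fourier transform of a kernel supported in `[-h, h]` -/
noncomputable def hat (k : ℤ → ℝ) (h : ℕ) (ξ : ℝ) : ℂ :=
  ∑ n ∈ Icc (-(h : ℤ)) h, (k n : ℂ) * ee (n * ξ)

def KerStmt : Prop :=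
  ∀ Q h : ℕ, 1 ≤ Q → 1 ≤ h →
    (∀ n, mu Q h (-n) = mu Q h n) ∧ (∀ n : ℤ, (h : ℤ) ≤ |n| → mu Q h n = 0) ∧
    (∀ n, |mu Q h n| ≤ (Q : ℝ) ^ 2 / h) ∧ ∑ n ∈ Icc (-(h : ℤ)) h, |mu Q h n| ≤ (Q : ℝ) ^ 2 ∧
    (Q ^ 6 ≤ h ^ 2 → (∀ ξ, ‖hat (ker Q h) h ξ‖ ≤ 1) ∧
      ∀ (ξ β : ℝ) (a : ℤ) (q : ℕ), 1 ≤ q → q ≤ Q → IsCoprime a (q : ℤ) → |ξ - a / q| ≤ β →
        β ≤ 1 / (2 * (Q : ℝ) ^ 2) →
        ‖hat (ker Q h) h ξ‖ ≤ 20 * (h * β) ^ 2 + (Q : ℝ) ^ 6 / (h : ℝ) ^ 2)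

def det (X X' : ℤ × ℤ) : ℤ := X.1 * X'.2 - X.2 * X'.1

/-- the symplectic Fourier kernel on a thin parallelogram -/
def LatStmt : Prop :=
  ∃ C : ℝ, 0 < C ∧ ∀ (θ N Y τ : ℝ) (Z : Finset (ℤ × ℤ)), 1 ≤ N → 1 ≤ Y → 0 < τ →
    (∀ z ∈ Z, |(z.1 : ℝ)| ≤ N ∧ |z.1 * θ + z.2| ≤ 2) →
    (∀ m t : ℤ, m ≠ 0 → |(m : ℝ)| ≤ Y → τ ≤ |m * θ + t|) →
    (Z.card : ℝ) ≤ 15 * N ∧
    ∀ (ξ : ℝ) (a : ℤ) (q : ℕ), 1 ≤ q → IsCoprime a (q : ℤ) → |ξ - a / q| ≤ 1 / (q : ℝ) ^ 2 →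
      OpC Z (fun z z' => ee (ξ * det z z'))
        (√(C * N * (N / q + √N * Real.log (2 * q) + N / Y + 1 / τ + q * Real.log (2 * q))))

/-- Plancherel in the labels -/
def PlanStmt : Prop :=
  ∀ (σ τ : Type) (Z : Finset σ) (U : Finset τ) (D : σ → σ → ℤ) (l : τ → ℤ) (k : ℤ → ℝ) (h : ℕ)
    (lam : ℝ), Set.InjOn l U → (∀ n : ℤ, (h : ℤ) < |n| → k n = 0) → 0 ≤ lam →
    (∀ ξ : ℝ, ∃ e : ℝ, 0 ≤ e ∧ OpC Z (fun z z' => ee (ξ * D z z')) e ∧ ‖hat k h ξ‖ * e ≤ lam) →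
    OpB (Z ×ˢ U) (fun s s' => k (D s.1 s'.1 - (l s'.2 - l s.2))) lam

/-! ## Part H: one cell -/

/-- parameters of a cell -/
structure Par where
  /-- number of groups of small primes -/
  J : ℕ
  /-- sizes -/
  P : Fin J → ℕ
  /-- the small primes, `S j ⊆ (P j, 2 P j]` -/
  S : Fin J → Finset ℕ
  /-- heights in the goodness condition -/
  Y : Fin J → ℕ
  /-- bank size -/
  z : ℕ
  /-- major-arc parameter (also the bound of all polylogarithmic quantities) -/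
  Q : ℕ
  /-- half the walk length -/
  k : ℕ
  A : ℕ
  B : ℕ
  /-- support of the short variable -/
  As : Finset ℕ

namespace Par

variable (G : Par)

def U : ℕ := ∏ j, G.P j
def h : ℕ := G.U / G.Q ^ 3
def D : ℕ := ∏ j, (2 * G.P j) ^ G.z
def κ : ℕ := 2 * G.k * G.J
/-- tuples of small primes -/
abbrev Tup : Type := Fin G.J → ℕ
/-- banks -/
abbrev Bank : Type := Fin G.J → Finset ℕ
/-- states: a vector and a bank -/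
abbrev St : Type := (ℤ × ℤ) × G.Bank
def tup : Finset G.Tup := Fintype.piFinset G.S
def banks : Finset G.Bank := Fintype.piFinset fun j => powersetCard G.z (G.S j)
def shs : Finset G.Bank := Fintype.piFinset fun j => powersetCard (G.z - 1) (G.S j)
def pu (u : G.Tup) : ℕ := ∏ j, u j
def pb (b : G.Bank) : ℕ := ∏ j, pd (b j)
def add (sh : G.Bank) (u : G.Tup) : G.Bank := fun j => insert (u j) (sh j)
def swap (b : G.Bank) (u w : G.Tup) : G.Bank := fun j => insert (w j) ((b j).erase (u j))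
/-- all small primes -/
def allS : Finset ℕ := univ.biUnion G.S
/-- the bank as one set -/
def bk (v : G.St) : Finset ℕ := univ.biUnion v.2
/-- the class of shifts `j` with `p ∣ y + j a` -/
def cl (v : G.St) (p : ℕ) : ℕ := (-(v.1.2 : ZMod p) * (v.1.1 : ZMod p)⁻¹).val
/-- pairs of tuples without a common prime -/
def cop : Finset (G.Tup × G.Tup) := (G.tup ×ˢ G.tup).filter fun x => ∀ j, x.1 j ≠ x.2 j
/-- lifted edges `(shared bank, u, w)` -/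
def edges : Finset (G.Bank × G.Tup × G.Tup) :=
  (G.shs ×ˢ G.cop).filter fun e => ∀ j, e.2.1 j ∉ e.1 j ∧ e.2.2 j ∉ e.1 j
/-- tuples outside a bank -/
def outs (b : G.Bank) : Finset G.Tup := G.tup.filter fun w => ∀ j, w j ∉ b j

end Par

/-- the kernel between two vectors for the shared product `g` and the label difference `e` -/
def kk (k : ℤ → ℝ) (g : ℕ) (e : ℤ) (X X' : ℤ × ℤ) : ℝ :=
  if (g : ℤ) ∣ det X X' then k (det X X' / g - e) else 0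

namespace Par

variable (G : Par)

/-- the lifted kernel (no divisibility condition) -/
def K0 (k : ℤ → ℝ) (v v' : G.St) : ℝ :=
  ∑ e ∈ G.edges, if v.2 = G.add e.1 e.2.1 ∧ v'.2 = G.add e.1 e.2.2 then
    kk k (G.pb e.1) ((G.pu e.2.2 : ℤ) - G.pu e.2.1) v.1 v'.1 else 0

/-- good states (invariant under the shear `(a, y) ↦ (a, y + j a)`) -/
def good (X : ℤ × ℤ) (b : G.Bank) : Prop :=
  IsCoprime X.1 X.2 ∧ ∀ j, ∀ u₁ ∈ Fintype.piFinset b, ∀ u₂ ∈ Fintype.piFinset b,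
    ∀ y₁ y₂ : ℕ, y₁ ≤ G.Y j → y₂ ≤ G.Y j → ∀ s : ℤ, |s| * G.P j ≤ 4 * G.A →
      X.1 ∣ s * X.2 - (((G.pb b / G.pu u₁ * y₁ : ℕ) : ℤ) - ((G.pb b / G.pu u₂ * y₂ : ℕ) : ℤ)) →
      G.pb b / G.pu u₁ * y₁ = G.pb b / G.pu u₂ * y₂

/-- admissible sets of states -/
def Adm (V : Finset G.St) : Prop :=
  ∀ v ∈ V, (∃ a ∈ G.As, v.1.1 = (a : ℤ)) ∧ v.2 ∈ G.banks ∧ G.good v.1 v.2

/-- the neighbours of `v` with labels `u, w` and kernel argument `n` -/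
def nbr (V : Finset G.St) (v : G.St) (u w : G.Tup) (n : ℤ) : Finset G.St :=
  V.filter fun v' => v'.2 = G.swap v.2 u w ∧
    det v.1 v'.1 = ((G.pb v.2 / G.pu u : ℕ) : ℤ) * (n + ((G.pu w : ℤ) - G.pu u))

/-- standing hypotheses -/
structure WF : Prop where
  J_ge : 10 ≤ G.J
  prime : ∀ j, ∀ p ∈ G.S j, p.Prime ∧ G.P j < p ∧ p ≤ 2 * G.P j
  card : ∀ j, 2 * G.z ≤ (G.S j).card
  z_ge : 1 ≤ G.z
  k_ge : 1 ≤ G.k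
  z_le : G.z ≤ G.Q
  κ_lt : G.κ < G.Q
  sepY : ∀ j, G.Q ^ (10 * G.J) * ∏ i ∈ univ.filter (fun i => i < j), 2 * G.P i ≤ G.Y j
  sepP : ∀ j, G.Q ^ (10 * G.J) * (G.Y j + 1) ^ 2 ≤ G.P j
  logU : Real.log (2 * G.U) ≤ G.Q
  κQ : G.κ * G.Q ≤ G.z ^ G.J
  walk : G.D ^ 6 ≤ 4 ^ G.k
  horizon : (G.z ^ G.J * G.U * (1 + G.Q ^ 2)) ^ (2 * G.k) * G.A ≤ G.B
  As_sub : ∀ a ∈ G.As, G.A < a ∧ a ≤ 2 * G.A
  As_rough : ∀ a ∈ G.As, ∀ p : ℕ, p.Prime → p ∣ a → G.D ^ 2 < p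
  A_ge : G.D ^ 2 ≤ 2 * G.A
  AB_le : (G.A * G.B) ^ 2 ≤ 2 ^ G.Q
  div_le : ∀ N : ℕ, 1 ≤ N → N ≤ (G.A * G.B) ^ 2 → (G.As.filter fun a => a ∣ N).card ≤ G.Q

/-- the four-fold correlation with kernel `k` over the pairs `T` -/
def corr (k : ℤ → ℝ) (T : Finset (G.Tup × G.Tup)) (α β : ℕ → ℝ) : ℝ :=
  ∑ x ∈ T, ∑ a ∈ G.As, ∑ b' ∈ Icc 1 G.B, ∑ a' ∈ G.As, ∑ b ∈ Icc 1 G.B,
    α a * β b' * (α a' * β b) *
      k ((a * G.pu x.2 * b : ℤ) - G.pu x.1 * b' * a' - ((G.pu x.2 : ℤ) - G.pu x.1))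

open Classical in
/-- the lifted correlation over pairs of good states -/
noncomputable def goodSum (α β : ℕ → ℝ) : ℝ :=
  ∑ e ∈ G.edges, ∑ a ∈ G.As, ∑ b' ∈ Icc 1 G.B, ∑ a' ∈ G.As, ∑ b ∈ Icc 1 G.B,
    if G.good ((a : ℤ), (G.pb (G.add e.1 e.2.1) * b' : ℤ)) (G.add e.1 e.2.1) ∧
        G.good ((a' : ℤ), (G.pb (G.add e.1 e.2.2) * b : ℤ)) (G.add e.1 e.2.2) then
      α a * β b' * (α a' * β b) * ker G.Q G.h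
        ((a * G.pu e.2.2 * b : ℤ) - G.pu e.2.1 * b' * a' - ((G.pu e.2.2 : ℤ) - G.pu e.2.1))
    else 0

/-- number of lifts of a pair of labels -/
def Lf : ℕ := ∏ j, ((G.S j).card - 2).choose (G.z - 1)

/-- the trace bound with constant `lam` -/
def TrB (lam : ℝ) : Prop :=
  ∀ V : Finset G.St, G.Adm V → ∀ W : ℕ,
    ∑ j ∈ range W, ∑ v ∈ V, pw V (kj G.bk G.cl (G.K0 (ker G.Q G.h)) j) (2 * G.k) v v ≤
      V.card * (W * lam ^ (2 * G.k) +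
        ((G.z : ℝ) ^ G.J * G.U * (1 + (G.Q : ℝ) ^ 2)) ^ (2 * G.k))

/-- the bilinear sequence -/
def gg (α β : ℕ → ℝ) (N : ℕ) : ℝ :=
  ∑ a ∈ G.As, ∑ b ∈ Icc 1 G.B, if a * b = N then α a * β b else 0

/-- the coefficients and the two analytic hypotheses of the major arcs -/
structure Coef (α β : ℕ → ℝ) : Prop where
  α_le : ∀ a, |α a| ≤ 1
  β_le : ∀ b, |β b| ≤ 1
  supp : ∀ b, β b ≠ 0 → G.B < 4 * b
  primes : ∀ j : Fin G.J, (j : ℕ) = 0 → ∀ (q b : ℕ) (t : ℝ), 1 ≤ q → q ≤ G.Q →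
    (G.Q : ℝ) ^ (3 * G.J) ≤ |t| → |t| ≤ ((G.A : ℝ) * G.B) ^ 3 →
    ‖∑ p ∈ (G.S j).filter (fun p => p ≡ b [MOD q]), nit p t‖ ≤ G.P j / (G.Q : ℝ) ^ (2 * G.J)
  sw : ∀ q ν y : ℕ, 1 ≤ q → q ≤ G.Q →
    |∑ N ∈ (Icc 1 y).filter (fun N => N ≡ ν [MOD q]), G.gg α β N| ≤
      (G.A : ℝ) * G.B / (G.Q : ℝ) ^ (10 * G.J)

end Par

/-- one shared bank, all labels -/
def FF1Stmt : Prop :=
  ∃ C : ℝ, 1 ≤ C ∧ ∀ G : Par, G.WF → ∀ sh ∈ G.shs, ∀ T : Finset ((ℤ × ℤ) × G.Tup),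
    (∀ s ∈ T, (∃ a ∈ G.As, s.1.1 = (a : ℤ)) ∧ s.2 ∈ G.outs sh ∧ G.good s.1 (G.add sh s.2)) →
    OpB T (fun s s' => kk (ker G.Q G.h) (G.pb sh) ((G.pu s'.2 : ℤ) - G.pu s.2) s.1 s'.1)
      (C ^ G.J * G.U / √(G.Q : ℝ))

def FFStmt : Prop :=
  ∃ C : ℝ, 1 ≤ C ∧ ∀ G : Par, G.WF → ∀ V, G.Adm V →
    OpB V (khat G.bk (G.K0 (ker G.Q G.h))) (C ^ G.J * (G.z : ℝ) ^ G.J / √(G.Q : ℝ))

open Classical in
/-- the crude row bounds -/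
def Rho0Stmt : Prop :=
  ∀ G : Par, G.WF → ∀ V, G.Adm V → ∀ (k : ℤ → ℝ) (s : ℝ), (∀ n : ℤ, (G.h : ℤ) < |n| → k n = 0) →
    ∑ n ∈ Icc (-(G.h : ℤ)) G.h, |k n| ≤ s → ∀ v ∈ V,
    ∑ v' ∈ V, |G.K0 k v v'| ≤ (G.z : ℝ) ^ G.J * G.U * s ∧
    ∑ v' ∈ V, |G.K0 k v v'| * ∏ p ∈ G.bk v' \ G.bk v, 1 / (p : ℝ) ≤ (G.z : ℝ) ^ G.J * s ∧
    ∀ m : Finset ℕ, m.card ≤ G.κ →
      ∑ v' ∈ V, |G.K0 k v v'| *
        (if ∃ p ∈ G.bk v' \ G.bk v, p ∈ m then ∏ p ∈ G.bk v' \ G.bk v, 1 / (p : ℝ) else 0) ≤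
        s / (G.Q : ℝ) ^ (20 * G.J)

/-- recalls, delta part -/
def RhoDStmt : Prop :=
  ∀ G : Par, G.WF → ∀ V, G.Adm V → ∀ v ∈ V, ∀ m : Finset (ℕ × ℕ), m.card ≤ G.κ →
    ∑ v' ∈ V, |G.K0 del v v'| *
      (∏ p ∈ G.bk v' \ G.bk v, (1 / (p : ℝ) + if (p, G.cl v' p) ∈ m then 1 else 0) -
        ∏ p ∈ G.bk v' \ G.bk v, 1 / (p : ℝ)) ≤ 2 ^ G.J * G.κ + 1

/-- recalls, major-arc part -/
def RhoMStmt : Prop :=
  ∀ G : Par, G.WF → ∀ V, G.Adm V → ∀ v ∈ V, ∀ m : Finset (ℕ × ℕ), m.card ≤ G.κ →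
    ∑ v' ∈ V, |G.K0 (mu G.Q G.h) v v'| *
      (∏ p ∈ G.bk v' \ G.bk v, (1 / (p : ℝ) + if (p, G.cl v' p) ∈ m then 1 else 0) -
        ∏ p ∈ G.bk v' \ G.bk v, 1 / (p : ℝ)) ≤ 1 / (G.Q : ℝ) ^ (5 * G.J)

def TrBStmt : Prop :=
  ∃ C : ℝ, 1 ≤ C ∧ ∀ G : Par, G.WF → G.TrB (C ^ G.J * (G.z : ℝ) ^ G.J / √(G.Q : ℝ))

def GoodStmt : Prop :=
  ∀ G : Par, G.WF → ∀ lam : ℝ, 1 ≤ lam → G.TrB lam → ∀ α β : ℕ → ℝ, (∀ a, |α a| ≤ 1) →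
    (∀ b, |β b| ≤ 1) → |G.goodSum α β| ≤ 10 * lam * (G.A * G.B) * G.banks.card

def BadStmt : Prop :=
  ∀ G : Par, G.WF → ∀ α β : ℕ → ℝ, (∀ a, |α a| ≤ 1) → (∀ b, |β b| ≤ 1) →
    |G.Lf * G.corr (ker G.Q G.h) G.cop α β - G.goodSum α β| ≤
      G.Lf * (8 * (G.A * G.B) * G.U / G.Q)

def MinorStmt : Prop :=
  ∃ C : ℝ, 1 ≤ C ∧ ∀ G : Par, G.WF → ∀ α β : ℕ → ℝ, (∀ a, |α a| ≤ 1) → (∀ b, |β b| ≤ 1) →
    |G.corr (ker G.Q G.h) G.cop α β| ≤ C ^ G.J * (G.A * G.B) * G.U / √(G.Q : ℝ)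

/-! ## Part J: major arcs, cells, parameters -/

/-- short sums of a multiplicative convolution -/
def MajCoreStmt : Prop :=
  ∃ C : ℝ, 0 < C ∧ ∀ (R : Finset ℕ) (g : ℕ → ℝ) (U X K h : ℕ) (Γ τ E εP εg T₀ T₁ : ℝ),
    1 ≤ h → h ≤ U → 16 ≤ X → 1 ≤ E → E ≤ h → 1 ≤ T₀ → 0 < T₁ → 0 ≤ Γ → 0 ≤ τ → 0 ≤ εP → 0 ≤ εg →
    (∀ u ∈ R, U ≤ u ∧ u ≤ 2 ^ K * U) → R.card ≤ U →
    (∀ s, g s ≠ 0 → X ≤ 8 * s ∧ s ≤ 2 * X) → (∀ s, |g s| ≤ τ) →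
    (∀ m, |∑ u ∈ R, ∑ s ∈ Icc 1 (2 * X), if u * s = m then g s else 0| ≤ Γ) →
    (∀ t : ℝ, T₀ ≤ |t| → |t| ≤ T₁ → ‖∑ u ∈ R, nit u t‖ ≤ εP * U) →
    (∀ y, |∑ s ∈ Icc 1 y, g s| ≤ εg * X) →
    ∑ y ∈ range (2 ^ (K + 1) * U * X),
        (∑ m ∈ Ioc y (y + h), ∑ u ∈ R, ∑ s ∈ Icc 1 (2 * X), if u * s = m then g s else 0) ^ 2 ≤
      C * 8 ^ K * (h : ℝ) ^ 2 * (U * X) * (Γ ^ 2 / E ^ 2 + τ ^ 2 * εP ^ 2 * E * U / h +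
        T₀ ^ 3 * εg ^ 2 + τ ^ 2 * E ^ 2 * ((U : ℝ) / h) ^ 2 * (X : ℝ) ^ 2 / T₁)

def MajorStmt : Prop :=
  ∃ C : ℝ, 1 ≤ C ∧ ∀ G : Par, G.WF → ∀ α β : ℕ → ℝ, G.Coef α β →
    |G.corr (mu G.Q G.h) (G.tup ×ˢ G.tup) α β| ≤ C ^ G.J * (G.A * G.B) * G.U / G.Q

def CellStmt : Prop :=
  ∃ C : ℝ, 1 ≤ C ∧ ∀ G : Par, G.WF → ∀ α β F : ℕ → ℝ, G.Coef α β → (∀ t, |F t| ≤ 1) →
    |∑ u ∈ G.tup, ∑ t ∈ Icc 1 (2 * G.A * G.B), F t * G.gg α β (G.pu u * t + 1)| ≤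
      C ^ G.J * (G.A * G.B) / √(√(G.Q : ℝ))

/-- no prime factor `≤ z` -/
def rough (z n : ℕ) : Prop := ∀ p : ℕ, p.Prime → p ∣ n → z < p

/-- the sifting limit -/
noncomputable def zz (η : ℝ) (x : ℕ) : ℕ := ⌊(x : ℝ) ^ η⌋₊

/-- lower exponent of the group `j` -/
noncomputable def lo (x : ℕ) (j : Fin 400) : ℕ :=
  ⌈Real.log x ^ ((2 * (j : ℝ) + 1) / 12800)⌉₊

/-- upper exponent of the group `j` -/
noncomputable def hi (x : ℕ) (j : Fin 400) : ℕ :=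
  ⌊Real.log x ^ ((2 * (j : ℝ) + 2) / 12800)⌋₊

/-- the groups of small primes -/
noncomputable def grp (m x : ℕ) (j : Fin 400) : Finset ℕ :=
  (Ioc (2 ^ lo x j) (2 ^ hi x j)).filter fun p => p.Prime ∧ p ≡ 1 [MOD m]

/-- the cell `i` (dyadic exponents) -/
noncomputable def par (m x : ℕ) (i : Fin 400 → ℕ) (A : ℕ) (As : Finset ℕ) : Par where
  J := 400
  P := fun j => 2 ^ i j
  S := fun j => (Ioc (2 ^ i j) (2 ^ (i j + 1))).filter fun p => p.Prime ∧ p ≡ 1 [MOD m]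
  Y := fun j => ⌈Real.log x ^ 196⌉₊ ^ 4000 * ∏ j' ∈ univ.filter (fun j' => j' < j), 2 * 2 ^ i j'
  z := ⌈√(Real.log x)⌉₊
  Q := ⌈Real.log x ^ 196⌉₊
  k := ⌈Real.log x ^ (5 / 8 : ℝ)⌉₊
  A := A
  B := 2 * x / A
  As := As

def ParamStmt : Prop :=
  ∀ (m : ℕ) (η δ : ℝ), 1 ≤ m → 0 < η → η ≤ 1 / 100 → 0 < δ → ∀ᶠ x : ℕ in atTop,
    ∀ (i : Fin 400 → ℕ) (A : ℕ) (As : Finset ℕ), (∀ j, lo x j ≤ i j ∧ i j < hi x j) →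
      zz η x ≤ 2 * A → (A : ℝ) ≤ (x : ℝ) ^ (1 / 2 - δ) →
      (∀ a ∈ As, A < a ∧ a ≤ 2 * A ∧ rough (zz η x) a) →
      (par m x i A As).WF ∧
      ∀ j : Fin 400, ∀ (q b : ℕ) (t : ℝ), 1 ≤ q → q ≤ (par m x i A As).Q →
        ((par m x i A As).Q : ℝ) ^ 1200 ≤ |t| → |t| ≤ (2 * (x : ℝ)) ^ 3 →
        ‖∑ p ∈ ((par m x i A As).S j).filter (fun p => p ≡ b [MOD q]), nit p t‖ ≤
          (par m x i A As).P j / ((par m x i A As).Q : ℝ) ^ 800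

def GrpStmt : Prop :=
  ∀ (m : ℕ) (K : ℝ), 1 ≤ m → ∀ᶠ x : ℕ in atTop,
    (∀ j, ∀ p ∈ grp m x j, p.Prime ∧ p ≡ 1 [MOD m] ∧ Real.log x ^ 2 ≤ p ∧
      (p : ℝ) ≤ Real.exp (√(Real.log x))) ∧
    (∀ i j, i ≠ j → Disjoint (grp m x i) (grp m x j)) ∧
    ∀ j, K ≤ ∑ p ∈ grp m x j, 1 / (p : ℝ)

/-- the function with one prime of every group pulled out -/
def f0 {J : ℕ} (S : Fin J → Finset ℕ) (F : ℕ → ℝ) (n : ℕ) : ℝ :=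
  ∑ u ∈ Fintype.piFinset S, if (∏ j, u j) ∣ n then F (n / ∏ j, u j) else 0

/-- the type II property of a sequence `s` at the scale `x` -/
def TII (η δ : ℝ) (C x : ℕ) (s : ℕ → ℝ) : Prop :=
  ∀ (A : ℕ) (α β : ℕ → ℝ), 1 ≤ A → (A : ℝ) ≤ (x : ℝ) ^ (1 / 2 - δ) →
    (∀ a, |α a| ≤ 1) → (∀ b, |β b| ≤ 1) → (∀ a, α a ≠ 0 → rough (zz η x) a) →
    (∀ q ν y₁ y₂ : ℕ, 1 ≤ q → (q : ℝ) ≤ Real.log x ^ C → x / (2 * A) ≤ y₁ → y₂ ≤ 2 * x / A →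
      |∑ b ∈ (Ioc y₁ y₂).filter (fun b => b ≡ ν [MOD q]), β b| ≤ (x : ℝ) / A / Real.log x ^ C) →
    |∑ a ∈ Ioc A (2 * A), ∑ b ∈ Icc 1 (2 * x),
        if a * b ∈ Ioc x (2 * x) then α a * β b * s (a * b) else 0| ≤ x / Real.log x ^ 10

def TIIStmt : Prop :=
  ∀ (m : ℕ) (η δ : ℝ), 1 ≤ m → 0 < η → η ≤ 1 / 100 → 0 < δ → ∃ C : ℕ, ∀ᶠ x : ℕ in atTop,
    ∀ F : ℕ → ℝ, (∀ t, |F t| ≤ 1) → (∀ n, |f0 (grp m x) F n| ≤ 1) →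
      TII η δ C x fun N => f0 (grp m x) F (N - 1)

/-! ## Part P: prime sums -/

def PsiStmt : Prop :=
  ∃ δ C : ℝ, 0 < δ ∧ δ ≤ 1 / 4 ∧ 0 < C ∧ ∀ (r a : ℕ) (y t : ℝ), 1 ≤ r → Nat.Coprime a r → 1 ≤ y →
    ‖∑ n ∈ (Icc 1 ⌊y⌋₊).filter (fun n => n ≡ a [MOD r]),
        ((ArithmeticFunction.vonMangoldt n : ℝ) : ℂ) * nit n t -
      (y : ℂ) ^ (1 - (t : ℂ) * Complex.I) / ((1 - (t : ℂ) * Complex.I) * (r.totient : ℂ))‖ ≤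
      C * y ^ (1 - δ) * Real.log (r * (|t| + 2))

def PrimeTStmt : Prop :=
  ∃ δ C : ℝ, 0 < δ ∧ 0 < C ∧ ∀ (r b P : ℕ) (t : ℝ), 1 ≤ r → r ≤ P → t ≠ 0 →
    ‖∑ p ∈ (Ioc P (2 * P)).filter (fun p => p.Prime ∧ p ≡ b [MOD r]), nit p t‖ ≤
      C * (P / |t| + (P : ℝ) ^ (1 - δ) * Real.log (r * (|t| + 2)))

def PrimeAPStmt : Prop :=
  ∃ δ C : ℝ, 0 < δ ∧ δ ≤ 1 / 4 ∧ 0 < C ∧ ∀ r a y₁ y₂ : ℕ, 1 ≤ r → Nat.Coprime a r → y₁ ≤ y₂ →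
    |(((Ioc y₁ y₂).filter (fun p => p.Prime ∧ p ≡ a [MOD r])).card : ℝ) -
      ((Ioc y₁ y₂).filter Nat.Prime).card / (r.totient : ℝ)| ≤
      C * (y₂ : ℝ) ^ (1 - δ) * Real.log (2 * r)

def PrimeLowStmt : Prop :=
  ∀ m : ℕ, 1 ≤ m → ∃ c : ℝ, 0 < c ∧ ∀ᶠ y : ℕ in atTop,
    c * y / Real.log y ≤ ((Ioc y (2 * y)).filter (fun p => p.Prime ∧ p ≡ 1 [MOD m])).card

/-! ## Part A: from type II sums to primes -/

open Classical in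
/-- sum over the rough numbers -/
noncomputable def R1 (η : ℝ) (x : ℕ) (s : ℕ → ℝ) : ℝ :=
  ∑ N ∈ (Ioc x (2 * x)).filter (rough (zz η x)), s N

open Classical in
/-- sum over the rough multiples of `r` -/
noncomputable def R2 (η : ℝ) (x : ℕ) (s : ℕ → ℝ) (r : ℕ) : ℝ :=
  ∑ m ∈ (Icc 1 (2 * x)).filter (fun m => r * m ∈ Ioc x (2 * x) ∧ rough (zz η x) m), s (r * m)

/-- sum over the primes -/
def Sp (x : ℕ) (s : ℕ → ℝ) : ℝ := ∑ p ∈ (Ioc x (2 * x)).filter Nat.Prime, s p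

/-- the hypothesis on `R2` -/
def R2le (η : ℝ) (x : ℕ) (s : ℕ → ℝ) (κ : ℝ) : Prop :=
  ∀ r : ℕ, r.Prime → zz η x < r → r ≤ 2 * zz η x → |R2 η x s r| ≤ κ * x / (r * Real.log x)

open Classical in
/-- von Mangoldt function on rough numbers -/
noncomputable def lr (z d : ℕ) : ℝ := if rough z d then ArithmeticFunction.vonMangoldt d else 0

/-- the trilinear sum -/
noncomputable def box (η : ℝ) (x : ℕ) (s α c : ℕ → ℝ) : ℝ :=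
  ∑ a ∈ Icc 1 (2 * x), ∑ m ∈ Icc 1 (2 * x), ∑ d ∈ Icc 1 (2 * x),
    if a * m * d ∈ Ioc x (2 * x) then α a * c m * lr (zz η x) d * s (a * m * d) else 0

/-- logarithmic density -/
noncomputable def dens (x : ℕ) (c : ℕ → ℝ) : ℝ := ∑ m ∈ Icc 1 (2 * x), c m / m

/-- admissible coefficients of a box -/
structure BoxOK (η δ : ℝ) (x A : ℕ) (α c : ℕ → ℝ) : Prop where
  A_ge : 1 ≤ A
  A_le : (A : ℝ) ≤ (x : ℝ) ^ (1 / 2 - δ)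
  α_le : ∀ a, |α a| ≤ 1
  α_supp : ∀ a, α a ≠ 0 → A < a ∧ a ≤ 2 * A ∧ rough (zz η x) a
  c_le : ∀ m, |c m| ≤ 1
  c_supp : ∀ m, c m ≠ 0 → 1 ≤ m ∧ rough (zz η x) m ∧ 2 * A * m * zz η x ≤ x

open Classical in
def RoughStmt : Prop :=
  ∃ C : ℝ, 0 < C ∧ ∀ η : ℝ, 0 < η → η ≤ 1 / 100 → ∀ᶠ x : ℕ in atTop,
    ∑ m ∈ (Icc 1 (8 * x)).filter (rough (zz η x)), 1 / (m : ℝ) ≤ C / η ∧
    ∀ y : ℝ, (x : ℝ) ^ (1 / 4 : ℝ) ≤ y → y ≤ 2 * x →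
      (((Icc 1 ⌊4 * y⌋₊).filter (fun m : ℕ => y < m ∧ rough (zz η x) m)).card : ℝ) ≤
        C * y / (η * Real.log x)

def Box1Stmt : Prop :=
  ∀ (η δ : ℝ) (C : ℕ), 0 < η → η ≤ 1 / 100 → 0 < δ → ∀ᶠ x : ℕ in atTop,
    ∀ s : ℕ → ℝ, TII η δ C x s → ∀ (A : ℕ) (α c : ℕ → ℝ), BoxOK η δ x A α c → dens x c = 0 →
      |box η x s α c| ≤ 2 * x / Real.log x ^ 9

def Box2Stmt : Prop :=
  ∃ C₀ : ℝ, 0 < C₀ ∧ ∀ (η δ : ℝ) (C : ℕ), 0 < η → η ≤ 1 / 100 → 0 < δ → δ ≤ 1 / 4 →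
    ∀ᶠ x : ℕ in atTop, ∀ s : ℕ → ℝ, (∀ n, |s n| ≤ 1) → TII η δ C x s → ∀ κ : ℝ, 0 ≤ κ →
      R2le η x s κ → ∀ (A : ℕ) (α c : ℕ → ℝ), BoxOK η δ x A α c →
      |box η x s α c| ≤ (κ + C₀ / (η * Real.log x)) * x * (|dens x α| * |dens x c|) +
        x / Real.log x ^ 5

def AsmStmt : Prop :=
  ∃ C₁ : ℝ, 0 < C₁ ∧ ∀ η ε : ℝ, 0 < η → η ≤ 1 / 100 → 0 < ε → ∃ δ : ℝ, 0 < δ ∧ ∀ C : ℕ,
    ∀ᶠ x : ℕ in atTop, ∀ s : ℕ → ℝ, (∀ n, |s n| ≤ 1) → TII η δ C x s → ∀ κ : ℝ, 0 ≤ κ →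
      R2le η x s κ → |Sp x s - R1 η x s| ≤ (C₁ * κ / η + ε) * x / Real.log x

open Classical in
/-- rough `m` such that `r m - 1` has no prime factor in `S` -/
def MissStmt : Prop :=
  ∃ C : ℝ, 0 < C ∧ ∀ η : ℝ, 0 < η → η ≤ 1 / 100 → ∀ᶠ x : ℕ in atTop,
    ∀ (S : Finset ℕ) (r : ℕ), 1 ≤ r → r ≤ x →
      (∀ p ∈ S, p.Prime ∧ 2 < p ∧ p ≤ zz η x ∧ ¬ p ∣ r) →
      (((Icc 1 (2 * x)).filter (fun m => r * m ∈ Ioc x (2 * x) ∧ rough (zz η x) m ∧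
          ∀ p ∈ S, ¬ p ∣ r * m - 1)).card : ℝ) ≤
        C * x / (r * η * Real.log x) * Real.exp (-∑ p ∈ S, 1 / (p : ℝ)) + (x : ℝ) ^ (1 / 4 : ℝ)

/-- Ramaré's weights -/
def RamStmt : Prop :=
  ∀ (J : ℕ) (S : Fin J → Finset ℕ) (f : ℕ → ℝ), (∀ j, ∀ p ∈ S j, p.Prime) →
    (∀ i j, i ≠ j → Disjoint (S i) (S j)) → (∀ n, |f n| ≤ 1) →
    (∀ j, ∀ p ∈ S j, ∀ p' ∈ S j, ∀ t, ¬ p ∣ t → ¬ p' ∣ t → f (p * t) = f (p' * t)) →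
    ∃ F : ℕ → ℝ, (∀ t, |F t| ≤ 1) ∧ (∀ n, |f0 S F n| ≤ 1) ∧
      ∀ n, (∀ j, ∃ p ∈ S j, p ∣ n) → (∀ j, ∀ p ∈ S j, ¬ p ^ 2 ∣ n) → f0 S F n = f n

/-- `f` does not see which small prime `≡ 1 (m)` divides its argument -/
def Exch (m x : ℕ) (f : ℕ → ℝ) : Prop :=
  ∀ p p' t : ℕ, p.Prime → p'.Prime → p ≡ 1 [MOD m] → p' ≡ 1 [MOD m] →
    Real.log x ≤ p → Real.log x ≤ p' → (p : ℝ) ≤ Real.exp (√(Real.log x)) →
    (p' : ℝ) ≤ Real.exp (√(Real.log x)) → ¬ p ∣ t → ¬ p' ∣ t → f (p * t) = f (p' * t)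

def MainRStmt : Prop :=
  ∃ C₁ : ℝ, 0 < C₁ ∧ ∀ (m : ℕ) (η ε : ℝ), 1 ≤ m → 0 < η → η ≤ 1 / 100 → 0 < ε →
    ∀ᶠ x : ℕ in atTop, ∀ f : ℕ → ℝ, (∀ n, |f n| ≤ 1) → Exch m x f → ∀ κ : ℝ, 0 ≤ κ →
      R2le η x (fun N => f (N - 1)) κ →
      |Sp x (fun N => f (N - 1)) - R1 η x (fun N => f (N - 1))| ≤
        (C₁ * κ / η + ε) * x / Real.log x

/-- upper sieve weights of level `x^γ` for the primes `≤ zz η x` -/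
structure Wts (η γ : ℝ) (x : ℕ) (l : Finset ℕ → ℝ) : Prop where
  upper : ∀ T ⊆ pr 0 (zz η x), (if T = ∅ then 1 else 0) ≤ ∑ s ∈ T.powerset, l s
  abs_le : ∀ s, |l s| ≤ 1
  supp : ∀ s, l s ≠ 0 → s ⊆ pr 0 (zz η x) ∧ (pd s : ℝ) ≤ (x : ℝ) ^ γ
  mass : ∑ s ∈ (pr 0 (zz η x)).powerset, l s / pd s ≤ 2 * ∏ p ∈ pr 0 (zz η x), (1 - 1 / (p : ℝ))

open Classical in
/-- the fundamental lemma for intervals -/
def FLStmt : Prop :=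
  ∀ γ ε : ℝ, 0 < γ → 0 < ε → ∃ η₀ : ℝ, 0 < η₀ ∧ ∀ η : ℝ, 0 < η → η ≤ η₀ → ∀ᶠ x : ℕ in atTop,
    ∃ l : Finset ℕ → ℝ, Wts η γ x l ∧ ∀ y₁ y₂ : ℕ, y₁ ≤ y₂ →
      ∑ m ∈ Ioc y₁ y₂, (∑ s ∈ ((pr 0 (zz η x)).filter (fun p => p ∣ m)).powerset, l s -
          if rough (zz η x) m then 1 else 0) ≤
        ε * η * ((y₂ : ℝ) - y₁) / Real.log x + 2 * (x : ℝ) ^ γ

/-- sifted sum of `f (N - 1)` over the multiples of `r` -/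
noncomputable def nuSum (η : ℝ) (x : ℕ) (l : Finset ℕ → ℝ) (f : ℕ → ℝ) (r : ℕ) : ℝ :=
  ∑ s ∈ (pr 0 (zz η x)).powerset,
    l s * ∑ N ∈ (Ioc x (2 * x)).filter (fun N => r * pd s ∣ N), f (N - 1)

/-- the main theorem -/
def MainNuStmt : Prop :=
  ∀ (m : ℕ) (γ ε : ℝ), 1 ≤ m → 0 < γ → 0 < ε → ∃ η : ℝ, 0 < η ∧ η ≤ γ ∧ ∀ᶠ x : ℕ in atTop,
    ∃ l : Finset ℕ → ℝ, Wts η γ x l ∧ ∀ f : ℕ → ℝ, (∀ n, |f n| ≤ 1) → Exch m x f →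
      |nuSum η x l f 1| ≤ x / Real.log x ^ 2 →
      (∀ r : ℕ, r.Prime → zz η x < r → r ≤ 2 * zz η x →
        |nuSum η x l f r| ≤ x / (r * Real.log x ^ 2)) →
      |Sp x (fun N => f (N - 1))| ≤ ε * x / Real.log x

/-- the main theorem under a pure type I hypothesis -/
def MainIStmt : Prop :=
  ∀ (m : ℕ) (θ ε : ℝ), 1 ≤ m → 0 < θ → 0 < ε → ∀ᶠ x : ℕ in atTop,
    ∀ f : ℕ → ℝ, (∀ n, |f n| ≤ 1) → Exch m x f →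
      (∀ e : ℕ, 1 ≤ e → (e : ℝ) ≤ (x : ℝ) ^ θ →
        |∑ N ∈ (Ioc x (2 * x)).filter (fun N => e ∣ N), f (N - 1)| ≤ (x : ℝ) ^ (1 - 2 * θ)) →
      |Sp x (fun N => f (N - 1))| ≤ ε * x / Real.log x

/-- the statement `S0036` -/
def S36Stmt : Prop :=
  {p : ℕ | p.Prime ∧ Squarefree (p - 1) ∧ Even (ArithmeticFunction.cardFactors (p - 1))}.Infinite

end Crest.Agent.R26
private theorem rz_70a356025a : type_of% @_root_.Crest.Agent.R26.loc.eq_1 := @_root_.Crest.Agent.R26.loc.eq_1 -- L61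
private theorem rz_3ba9beb949 : type_of% @_root_.Crest.Agent.R26.pw.eq_def := @_root_.Crest.Agent.R26.pw.eq_def -- L25
private theorem rz_41310714b7 : type_of% @_root_.Crest.Agent.R26.pw.eq_1 := @_root_.Crest.Agent.R26.pw.eq_1 -- L25
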