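import Crest.Agent.PVc.R26.Defs
import Crest.Agent.PVc.R5.Spec

/-! Row 26: linear algebra on finite sets. -/

set_option autoImplicit false

namespace Crest.Agent.R26

open Finset Filter
open Crest.Agent.R5 (pr pd ee nit)

variable {σ : Type}

theorem nrm_nonneg (V : Finset σ) (φ : σ → ℝ) : 0 ≤ nrm V φ := Real.sqrt_nonneg _

theorem OpB.mono {V : Finset σ} {K : σ → σ → ℝ} {a b : ℝ} (h : OpB V K a) (hab : a ≤ b) :
    OpB V K b := fun φ ψ =>
  (h φ ψ).trans (mul_le_mul_of_nonneg_right hab (mul_nonneg (nrm_nonneg _ _) (nrm_nonneg _ _)))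

namespace LinAux

theorem nrm_sq (V : Finset σ) (φ : σ → ℝ) : nrm V φ ^ 2 = ∑ v ∈ V, φ v ^ 2 :=
  Real.sq_sqrt (sum_nonneg fun _ _ => sq_nonneg _)

theorem two {V V₁ V₂ : Finset σ} {K : σ → σ → ℝ} {a : ℝ} (h : OpB V K a) (h₁ : V₁ ⊆ V)
    (h₂ : V₂ ⊆ V) (φ ψ : σ → ℝ) :
    |∑ v ∈ V₁, ∑ v' ∈ V₂, φ v * K v v' * ψ v'| ≤ a * (nrm V₁ φ * nrm V₂ ψ) := by
  classical
  have := h (fun v => if v ∈ V₁ then φ v else 0) fun v => if v ∈ V₂ then ψ v else 0
  unfold nrm at this ⊢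
  simpa [sum_ite_mem, inter_eq_right.2 h₁, inter_eq_right.2 h₂] using this

theorem exists_ext {τ E : Type} [Zero E] {V' : Finset τ} (f : τ → σ) (hf : Set.InjOn f V')
    (φ : τ → E) : ∃ φ' : σ → E, (∀ t ∈ V', φ' (f t) = φ t) ∧
      ∀ v, (¬ ∃ t ∈ V', f t = v) → φ' v = 0 := by
  classical
  refine ⟨fun v => if h : ∃ t ∈ V', f t = v then φ h.choose else 0, fun t ht => ?_,
    fun v hv => dif_neg hv⟩
  have h : ∃ t' ∈ V', f t' = f t := ⟨t, ht, rfl⟩
  simp only [dif_pos h]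
  rw [hf h.choose_spec.1 ht h.choose_spec.2]

theorem sum_ext {τ E : Type} [AddCommMonoid E] {V : Finset σ} {V' : Finset τ} (f : τ → σ)
    (hf : Set.InjOn f V') (hV : ∀ t ∈ V', f t ∈ V) {G : σ → E}
    (h : ∀ v, (¬ ∃ t ∈ V', f t = v) → G v = 0) : ∑ v ∈ V, G v = ∑ t ∈ V', G (f t) := by
  classical
  rw [← sum_image hf]
  refine (sum_subset (fun v hv => ?_) fun v _ hv => h v fun h' => hv (mem_image.2 h')).symm
  obtain ⟨t, ht, rfl⟩ := mem_image.1 hv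
  exact hV t ht

end LinAux

theorem OpB.congr {V : Finset σ} {K K' : σ → σ → ℝ} {a : ℝ} (h : OpB V K a)
    (e : ∀ v ∈ V, ∀ v' ∈ V, K v v' = K' v v') : OpB V K' a := by
  intro φ ψ
  have : ∑ v ∈ V, ∑ v' ∈ V, φ v * K' v v' * ψ v' = ∑ v ∈ V, ∑ v' ∈ V, φ v * K v v' * ψ v' :=
    sum_congr rfl fun v hv => sum_congr rfl fun v' hv' => by rw [e v hv v' hv']
  rw [this]
  exact h φ ψ

theorem OpB.add {V : Finset σ} {K K' : σ → σ → ℝ} {a b : ℝ} (h : OpB V K a) (h' : OpB V K' b) :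
    OpB V (fun v v' => K v v' + K' v v') (a + b) := by
  intro φ ψ
  simp only [mul_add, add_mul, sum_add_distrib]
  exact (abs_add_le _ _).trans (add_le_add (h φ ψ) (h' φ ψ))

theorem OpB.sub {V : Finset σ} {K K' : σ → σ → ℝ} {a b : ℝ} (h : OpB V K a) (h' : OpB V K' b) :
    OpB V (fun v v' => K v v' - K' v v') (a + b) := by
  intro φ ψ
  simp only [mul_sub, sub_mul, sum_sub_distrib, add_mul]
  exact (abs_sub _ _).trans (add_le_add (h φ ψ) (h' φ ψ))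


/-- transport along an injective map -/
theorem OpB.comap {τ : Type} {V : Finset σ} {V' : Finset τ} {K : σ → σ → ℝ} {a : ℝ}
    (h : OpB V K a) (f : τ → σ) (hf : Set.InjOn f V') (hV : ∀ t ∈ V', f t ∈ V) :
    OpB V' (fun t t' => K (f t) (f t')) a := by
  intro φ ψ
  obtain ⟨φ', a1, a2⟩ := LinAux.exists_ext f hf φ
  obtain ⟨ψ', b1, b2⟩ := LinAux.exists_ext f hf ψ
  have := h φ' ψ'
  unfold nrm at this ⊢
  rw [LinAux.sum_ext f hf hV (fun v hv => by simp [a2 v hv]),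
    LinAux.sum_ext f hf hV (G := fun v => φ' v ^ 2) (fun v hv => by simp [a2 v hv]),
    LinAux.sum_ext f hf hV (G := fun v => ψ' v ^ 2) (fun v hv => by simp [b2 v hv])] at this
  convert this using 2
  · refine sum_congr rfl fun t ht => ?_
    rw [LinAux.sum_ext f hf hV (fun v hv => by simp [b2 v hv])]
    exact sum_congr rfl fun t' ht' => by rw [a1 t ht, b1 t' ht']
  · congr 2
    · exact sum_congr rfl fun t ht => by rw [a1 t ht]
    · exact sum_congr rfl fun t ht => by rw [b1 t ht]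

theorem OpC.comap {τ : Type} {V : Finset σ} {V' : Finset τ} {K : σ → σ → ℂ} {a : ℝ}
    (h : OpC V K a) (f : τ → σ) (hf : Set.InjOn f V') (hV : ∀ t ∈ V', f t ∈ V) :
    OpC V' (fun t t' => K (f t) (f t')) a := by
  intro φ ψ
  obtain ⟨φ', a1, a2⟩ := LinAux.exists_ext f hf φ
  obtain ⟨ψ', b1, b2⟩ := LinAux.exists_ext f hf ψ
  have := h φ' ψ'
  rw [LinAux.sum_ext f hf hV (fun v hv => by simp [a2 v hv]),
    LinAux.sum_ext f hf hV (G := fun v => ‖φ' v‖ ^ 2) (fun v hv => by simp [a2 v hv]),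
    LinAux.sum_ext f hf hV (G := fun v => ‖ψ' v‖ ^ 2) (fun v hv => by simp [b2 v hv])] at this
  convert this using 2
  · refine sum_congr rfl fun t ht => ?_
    rw [LinAux.sum_ext f hf hV (fun v hv => by simp [b2 v hv])]
    exact sum_congr rfl fun t' ht' => by rw [a1 t ht, b1 t' ht']
  · congr 2
    · exact sum_congr rfl fun t ht => by rw [a1 t ht]
    · exact sum_congr rfl fun t ht => by rw [b1 t ht]

/-- the trivial bound -/
theorem OpC.card (V : Finset σ) {K : σ → σ → ℂ} (h : ∀ v v', ‖K v v'‖ ≤ 1) : OpC V K V.card := by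
  intro φ ψ
  have h1 : ∀ f : σ → ℂ, ∑ v ∈ V, ‖f v‖ ≤ √(V.card : ℝ) * √(∑ v ∈ V, ‖f v‖ ^ 2) := fun f => by
    have := Real.sum_mul_le_sqrt_mul_sqrt V (fun _ => (1 : ℝ)) fun v => ‖f v‖
    simpa using this
  calc ‖∑ v ∈ V, ∑ v' ∈ V, φ v * K v v' * ψ v'‖ ≤ ∑ v ∈ V, ∑ v' ∈ V, ‖φ v‖ * ‖ψ v'‖ := by
        refine (norm_sum_le _ _).trans (sum_le_sum fun v _ => (norm_sum_le _ _).trans
          (sum_le_sum fun v' _ => ?_))
        rw [norm_mul, norm_mul]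
        exact mul_le_mul_of_nonneg_right (mul_le_of_le_one_right (norm_nonneg _) (h v v'))
          (norm_nonneg _)
    _ = (∑ v ∈ V, ‖φ v‖) * ∑ v ∈ V, ‖ψ v‖ := by rw [sum_mul_sum]
    _ ≤ (√(V.card : ℝ) * √(∑ v ∈ V, ‖φ v‖ ^ 2)) * (√(V.card : ℝ) * √(∑ v ∈ V, ‖ψ v‖ ^ 2)) :=
        mul_le_mul (h1 φ) (h1 ψ) (sum_nonneg fun _ _ => norm_nonneg _) (by positivity)
    _ = _ := by
        rw [mul_mul_mul_comm, Real.mul_self_sqrt (Nat.cast_nonneg _)]

/-- diagonal rescaling -/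
theorem OpB.scale {V : Finset σ} {K : σ → σ → ℝ} {a c : ℝ} (h : OpB V K a) (ha : 0 ≤ a)
    (d : σ → ℝ) (hd : ∀ v ∈ V, d v ^ 2 ≤ c) :
    OpB V (fun v v' => d v * K v v' * d v') (c * a) := by
  intro φ ψ
  rcases V.eq_empty_or_nonempty with rfl | ⟨v₀, hv₀⟩
  · simp [nrm]
  have hc : 0 ≤ c := (sq_nonneg _).trans (hd v₀ hv₀)
  have h1 : ∀ f : σ → ℝ, nrm V (fun v => d v * f v) ≤ √c * nrm V f := fun f => by
    unfold nrm
    rw [← Real.sqrt_mul hc, mul_sum]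
    refine Real.sqrt_le_sqrt (sum_le_sum fun v hv => ?_)
    rw [mul_pow]
    exact mul_le_mul_of_nonneg_right (hd v hv) (sq_nonneg _)
  have h2 := h (fun v => d v * φ v) fun v => d v * ψ v
  have e : ∑ v ∈ V, ∑ v' ∈ V, φ v * (d v * K v v' * d v') * ψ v' =
      ∑ v ∈ V, ∑ v' ∈ V, d v * φ v * K v v' * (d v' * ψ v') :=
    sum_congr rfl fun v _ => sum_congr rfl fun v' _ => by ring
  rw [e]
  refine h2.trans ?_
  have h3 := mul_le_mul (h1 φ) (h1 ψ) (nrm_nonneg _ _)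
    (mul_nonneg (Real.sqrt_nonneg _) (nrm_nonneg _ _))
  rw [mul_mul_mul_comm, Real.mul_self_sqrt hc] at h3
  calc _ ≤ a * (c * (nrm V φ * nrm V ψ)) := mul_le_mul_of_nonneg_left h3 ha
    _ = _ := by ring

/-- Schur's test -/
theorem schur {V : Finset σ} {K R C : σ → σ → ℝ} {a b : ℝ} (ha : 0 ≤ a) (hb : 0 ≤ b)
    (hR : ∀ v ∈ V, ∀ v' ∈ V, 0 ≤ R v v') (hC : ∀ v ∈ V, ∀ v' ∈ V, 0 ≤ C v v')
    (hK : ∀ v ∈ V, ∀ v' ∈ V, K v v' ^ 2 ≤ R v v' * C v v')
    (hrow : ∀ v ∈ V, ∑ v' ∈ V, R v v' ≤ a) (hcol : ∀ v' ∈ V, ∑ v ∈ V, C v v' ≤ b) :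
    OpB V K (√(a * b)) := by
  intro φ ψ
  have h1 : |∑ v ∈ V, ∑ v' ∈ V, φ v * K v v' * ψ v'| ≤
      ∑ x ∈ V ×ˢ V, (|φ x.1| * √(R x.1 x.2)) * (|ψ x.2| * √(C x.1 x.2)) := by
    rw [sum_product]
    refine (abs_sum_le_sum_abs _ _).trans (sum_le_sum fun v hv => (abs_sum_le_sum_abs _ _).trans
      (sum_le_sum fun v' hv' => ?_))
    have : |K v v'| ≤ √(R v v') * √(C v v') := by
      rw [← Real.sqrt_mul (hR v hv v' hv')]
      exact Real.abs_le_sqrt (hK v hv v' hv')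
    rw [abs_mul, abs_mul]
    calc |φ v| * |K v v'| * |ψ v'| ≤ |φ v| * (√(R v v') * √(C v v')) * |ψ v'| := by gcongr
      _ = _ := by ring
  refine h1.trans ((Real.sum_mul_le_sqrt_mul_sqrt _ _ _).trans ?_)
  have h2 : ∑ x ∈ V ×ˢ V, (|φ x.1| * √(R x.1 x.2)) ^ 2 ≤ a * ∑ v ∈ V, φ v ^ 2 := by
    rw [sum_product, mul_sum]
    refine sum_le_sum fun v hv => ?_
    calc ∑ v' ∈ V, (|φ v| * √(R v v')) ^ 2 = (∑ v' ∈ V, R v v') * φ v ^ 2 := by
          rw [sum_mul]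
          exact sum_congr rfl fun v' hv' => by
            rw [mul_pow, sq_abs, Real.sq_sqrt (hR v hv v' hv'), mul_comm]
      _ ≤ _ := mul_le_mul_of_nonneg_right (hrow v hv) (sq_nonneg _)
  have h3 : ∑ x ∈ V ×ˢ V, (|ψ x.2| * √(C x.1 x.2)) ^ 2 ≤ b * ∑ v ∈ V, ψ v ^ 2 := by
    rw [sum_product_right, mul_sum]
    refine sum_le_sum fun v' hv' => ?_
    calc ∑ v ∈ V, (|ψ v'| * √(C v v')) ^ 2 = (∑ v ∈ V, C v v') * ψ v' ^ 2 := by
          rw [sum_mul]
          exact sum_congr rfl fun v hv => by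
            rw [mul_pow, sq_abs, Real.sq_sqrt (hC v hv v' hv'), mul_comm]
      _ ≤ _ := mul_le_mul_of_nonneg_right (hcol v' hv') (sq_nonneg _)
  refine (mul_le_mul (Real.sqrt_le_sqrt h2) (Real.sqrt_le_sqrt h3) (Real.sqrt_nonneg _)
    (Real.sqrt_nonneg _)).trans (le_of_eq ?_)
  unfold nrm
  rw [Real.sqrt_mul ha, Real.sqrt_mul hb, Real.sqrt_mul ha]
  ring

/-- block diagonal kernels -/
theorem OpB.fibre {τ : Type} [DecidableEq τ] {V : Finset σ} {K : σ → σ → ℝ} {a : ℝ} (ha : 0 ≤ a)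
    (c : σ → τ) (hc : ∀ v ∈ V, ∀ v' ∈ V, K v v' ≠ 0 → c v = c v')
    (h : ∀ v₀ ∈ V, OpB (V.filter fun v => c v = c v₀) K a) : OpB V K a := by
  intro φ ψ
  have hm : ∀ v ∈ V, c v ∈ V.image c := fun v hv => mem_image_of_mem c hv
  have e : ∑ v ∈ V, ∑ v' ∈ V, φ v * K v v' * ψ v' = ∑ t ∈ V.image c,
      ∑ v ∈ V.filter (fun v => c v = t), ∑ v' ∈ V.filter (fun v => c v = t),
        φ v * K v v' * ψ v' := by
    rw [← sum_fiberwise_of_maps_to hm]
    refine sum_congr rfl fun t _ => sum_congr rfl fun v hv => ?_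
    obtain ⟨hv1, hv2⟩ := mem_filter.1 hv
    refine (sum_filter_of_ne fun v' hv' hne => ?_).symm
    rw [← hv2]
    exact (hc v hv1 v' hv' fun h0 => hne (by simp [h0])).symm
  rw [e]
  refine (abs_sum_le_sum_abs _ _).trans ?_
  calc _ ≤ ∑ t ∈ V.image c, a * (nrm (V.filter fun v => c v = t) φ *
        nrm (V.filter fun v => c v = t) ψ) := sum_le_sum fun t ht => by
        obtain ⟨v₀, hv₀, rfl⟩ := mem_image.1 ht
        exact h v₀ hv₀ φ ψ
    _ ≤ _ := by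
        rw [← mul_sum]
        refine mul_le_mul_of_nonneg_left ((Real.sum_mul_le_sqrt_mul_sqrt _ _ _).trans
          (le_of_eq ?_)) ha
        simp only [LinAux.nrm_sq]
        rw [sum_fiberwise_of_maps_to hm, sum_fiberwise_of_maps_to hm]
        rfl

/-- band kernels, window dependent bounds -/
theorem band_le {V : Finset σ} {K : σ → σ → ℝ} (b : σ → ℤ) (lam : ℤ → ℝ)
    (hb : ∀ v ∈ V, ∀ v' ∈ V, K v v' ≠ 0 → |b v - b v'| ≤ 1)
    (h : ∀ m ∈ V.image b, OpB (V.filter fun v => |b v - m| ≤ 1) K (lam m)) (φ ψ : σ → ℝ) :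
    |∑ v ∈ V, ∑ v' ∈ V, φ v * K v v' * ψ v'| ≤ ∑ m ∈ V.image b,
      lam m * (nrm (V.filter fun v => b v = m) φ * nrm (V.filter fun v => |b v - m| ≤ 1) ψ) := by
  have hm : ∀ v ∈ V, b v ∈ V.image b := fun v hv => mem_image_of_mem b hv
  have e : ∑ v ∈ V, ∑ v' ∈ V, φ v * K v v' * ψ v' = ∑ m ∈ V.image b,
      ∑ v ∈ V.filter (fun v => b v = m), ∑ v' ∈ V.filter (fun v => |b v - m| ≤ 1),
        φ v * K v v' * ψ v' := by
    rw [← sum_fiberwise_of_maps_to hm]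
    refine sum_congr rfl fun t _ => sum_congr rfl fun v hv => ?_
    obtain ⟨hv1, hv2⟩ := mem_filter.1 hv
    refine (sum_filter_of_ne fun v' hv' hne => ?_).symm
    rw [← hv2, abs_sub_comm]
    exact hb v hv1 v' hv' fun h0 => hne (by simp [h0])
  rw [e]
  refine (abs_sum_le_sum_abs _ _).trans (sum_le_sum fun m hm => ?_)
  refine LinAux.two (h m hm) (fun v hv => ?_) Subset.rfl φ ψ
  obtain ⟨hv1, hv2⟩ := mem_filter.1 hv
  exact mem_filter.2 ⟨hv1, by simp [hv2]⟩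

/-- band kernels -/
theorem OpB.band {V : Finset σ} {K : σ → σ → ℝ} {a : ℝ} (ha : 0 ≤ a) (b : σ → ℤ)
    (hb : ∀ v ∈ V, ∀ v' ∈ V, K v v' ≠ 0 → |b v - b v'| ≤ 1)
    (h : ∀ m ∈ V.image b, OpB (V.filter fun v => |b v - m| ≤ 1) K a) : OpB V K (3 * a) := by
  intro φ ψ
  have hm : ∀ v ∈ V, b v ∈ V.image b := fun v hv => mem_image_of_mem b hv
  refine (band_le b (fun _ => a) hb h φ ψ).trans ?_
  rw [← mul_sum, mul_comm 3 a, mul_assoc]
  refine mul_le_mul_of_nonneg_left ((Real.sum_mul_le_sqrt_mul_sqrt _ _ _).trans ?_) ha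
  simp only [LinAux.nrm_sq]
  rw [sum_fiberwise_of_maps_to hm]
  have h1 : ∑ m ∈ V.image b, ∑ v ∈ V.filter (fun v => |b v - m| ≤ 1), ψ v ^ 2 ≤
      3 ^ 2 * ∑ v ∈ V, ψ v ^ 2 := by
    simp only [sum_filter]
    rw [sum_comm, mul_sum]
    refine sum_le_sum fun v _ => ?_
    rw [← sum_filter, sum_const, nsmul_eq_mul]
    refine mul_le_mul_of_nonneg_right ?_ (sq_nonneg _)
    have : ((V.image b).filter fun m => |b v - m| ≤ 1) ⊆ Icc (b v - 1) (b v + 1) := fun m hm => by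
      have := abs_le.1 (mem_filter.1 hm).2
      exact mem_Icc.2 ⟨by omega, by omega⟩
    have h2 := card_le_card this
    rw [Int.card_Icc, show b v + 1 + 1 - (b v - 1) = 3 by ring] at h2
    have h3 : (((V.image b).filter fun m => |b v - m| ≤ 1).card : ℝ) ≤ 3 := by exact_mod_cast h2
    linarith
  have h2 := Real.sqrt_le_sqrt h1
  rw [Real.sqrt_mul (by norm_num), Real.sqrt_sq (by norm_num)] at h2
  calc _ ≤ nrm V φ * (3 * nrm V ψ) := mul_le_mul_of_nonneg_left h2 (Real.sqrt_nonneg _)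
    _ = _ := by ring

theorem OpB.pw_le [DecidableEq σ] {V : Finset σ} {K : σ → σ → ℝ} {a : ℝ} (h : OpB V K a)
    (ha : 0 ≤ a) (n : ℕ) {v : σ} (hv : v ∈ V) : |pw V K n v v| ≤ a ^ n := by
  have key : ∀ n, nrm V (pw V K n v) ≤ a ^ n := by
    intro n
    induction n with
    | zero =>
      have : ∑ v' ∈ V, pw V K 0 v v' ^ 2 = 1 := by
        simp [pw, hv]
      rw [nrm, this]
      simp
    | succ n ih =>
      have h1 := h (pw V K n v) (pw V K (n + 1) v)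
      have e : ∑ u ∈ V, ∑ v' ∈ V, pw V K n v u * K u v' * pw V K (n + 1) v v' =
          nrm V (pw V K (n + 1) v) ^ 2 := by
        rw [LinAux.nrm_sq, sum_comm]
        refine sum_congr rfl fun v' _ => ?_
        rw [← sum_mul, sq]
        rfl
      rw [e, abs_of_nonneg (sq_nonneg _)] at h1
      have h2 := nrm_nonneg V (pw V K (n + 1) v)
      rcases h2.eq_or_lt with h3 | h3
      · rw [← h3]; positivity
      · have h4 : nrm V (pw V K (n + 1) v) ≤ a * nrm V (pw V K n v) := by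
          refine le_of_mul_le_mul_right ?_ h3
          nlinarith
        rw [pow_succ']
        exact h4.trans (mul_le_mul_of_nonneg_left ih ha)
  refine le_trans ?_ (key n)
  exact Real.abs_le_sqrt (single_le_sum (f := fun v' => pw V K n v v' ^ 2)
    (fun _ _ => sq_nonneg _) hv)

/-- the trace inequality (from `R5.Spec.abstract`) -/
theorem opB_trace [DecidableEq σ] {V : Finset σ} {K : σ → σ → ℝ}
    (hK : ∀ v ∈ V, ∀ v' ∈ V, K v v' = K v' v) {k : ℕ} (hk : 1 ≤ k) {θ : ℝ} (hθ : 0 < θ) :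
    0 ≤ ∑ v ∈ V, pw V K (2 * k) v v ∧
      OpB V K (3 / 2 * θ + θ / (2 * θ ^ (2 * k)) * ∑ v ∈ V, pw V K (2 * k) v v) := by
  set M : Matrix V V ℝ := Matrix.of fun i j => K i j with hM
  have hsym : M.transpose = M := by
    ext i j
    exact hK j j.2 i i.2
  have hpw : ∀ (n : ℕ) (i j : V), (M ^ n) i j = pw V K n i j := by
    intro n
    induction n with
    | zero =>
      intro i j
      rw [pow_zero, Matrix.one_apply]
      exact if_congr Subtype.ext_iff rfl rfl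
    | succ n ih =>
      intro i j
      rw [pow_succ, Matrix.mul_apply]
      simp only [ih, pw]
      exact sum_coe_sort V fun u => pw V K n i u * K u j
  have hT : ∑ v ∈ V, pw V K (2 * k) v v = ∑ i, ∑ j, (M ^ k) i j ^ 2 := by
    rw [← R5.Spec.trace_eq M hsym k, ← sum_coe_sort V]
    exact sum_congr rfl fun i _ => (hpw _ i i).symm
  have hT0 : 0 ≤ ∑ i, ∑ j, (M ^ k) i j ^ 2 :=
    sum_nonneg fun _ _ => sum_nonneg fun _ _ => sq_nonneg _
  refine ⟨hT ▸ hT0, fun φ ψ => ?_⟩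
  have h1 := R5.Spec.abstract M hsym (fun i => φ i) (fun i => ψ i) k θ hk hθ
  have e1 : (fun i : V => φ i) ⬝ᵥ (M.mulVec fun i : V => ψ i) =
      ∑ v ∈ V, ∑ v' ∈ V, φ v * K v v' * ψ v' := by
    rw [← sum_coe_sort V]
    refine sum_congr rfl fun i _ => ?_
    rw [← sum_coe_sort V]
    simp only [Matrix.mulVec, dotProduct, mul_sum, hM, Matrix.of_apply, mul_assoc]
  have e2 : ∀ f : σ → ℝ, √((fun i : V => f i) ⬝ᵥ fun i : V => f i) = nrm V f := fun f => by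
    unfold nrm
    rw [← sum_coe_sort V]
    simp only [dotProduct, sq]
  rw [e1, e2, e2] at h1
  refine h1.trans (mul_le_mul_of_nonneg_right ?_ (mul_nonneg (nrm_nonneg _ _) (nrm_nonneg _ _)))
  rw [hT]
  set T := ∑ i, ∑ j, (M ^ k) i j ^ 2
  have hp : 0 < θ ^ k := pow_pos hθ k
  have h2 : √T / θ ^ k ≤ 1 / 2 + T / (2 * θ ^ (2 * k)) := by
    have h3 : T / (2 * θ ^ (2 * k)) = (√T / θ ^ k) ^ 2 / 2 := by
      rw [div_pow, Real.sq_sqrt hT0, pow_mul']
      field_simp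
    rw [h3]
    nlinarith [sq_nonneg (√T / θ ^ k - 1)]
  calc θ + θ / θ ^ k * √T = θ + θ * (√T / θ ^ k) := by ring
    _ ≤ θ + θ * (1 / 2 + T / (2 * θ ^ (2 * k))) := by gcongr
    _ = _ := by ring

end Crest.Agent.R26
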