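import Crest.Agent.PVc.R26.Basic
import Crest.Agent.PVc.R26.Defs
import Crest.Agent.PVc.R8.Prime
import Crest.Agent.PVc.R5.Mertens
import Crest.Agent.PVc.R26.Lin

-- ▼ part PVc/R26/TII
section

/-! Row 26: the type II estimate. -/

set_option autoImplicit false

namespace Crest.Agent.R26

open Finset Filter
open Crest.Agent.R5 (pr pd ee nit)

namespace TIIAux

theorem card_gap {y A A₁ a Δ : ℕ} (hA : 1 ≤ A) (h1 : A ≤ A₁) (h2 : A₁ ≤ a) (h3 : a ≤ A₁ + Δ) :
    ((Ioc (y / a) (y / A₁)).card : ℝ) ≤ y * Δ / (A : ℝ) ^ 2 + 1 := by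
  have hA' : (1 : ℝ) ≤ A := by exact_mod_cast hA
  have h1' : (A : ℝ) ≤ A₁ := by exact_mod_cast h1
  have h2' : (A₁ : ℝ) ≤ a := by exact_mod_cast h2
  have h3' : (a : ℝ) ≤ A₁ + Δ := by exact_mod_cast h3
  have hle : y / a ≤ y / A₁ := Nat.div_le_div_left h2 (by omega)
  rw [Nat.card_Ioc, Nat.cast_sub hle]
  have e1 : ((y / A₁ : ℕ) : ℝ) ≤ y / A₁ := Nat.cast_div_le
  have e2 : (y : ℝ) / a < ((y / a : ℕ) : ℝ) + 1 := by
    rw [div_lt_iff₀ (by linarith)]
    have := Nat.lt_div_mul_add (a := y) (b := a) (by omega)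
    have h : (y : ℝ) < ((y / a : ℕ) : ℝ) * a + a := by exact_mod_cast this
    linarith
  have e3 : (y : ℝ) / A₁ - y / a ≤ y * Δ / (A : ℝ) ^ 2 := by
    rw [div_sub_div _ _ (by linarith) (by linarith)]
    have hy : (0 : ℝ) ≤ y := Nat.cast_nonneg _
    have hΔ : (0 : ℝ) ≤ Δ := Nat.cast_nonneg _
    refine div_le_div₀ (by positivity) (by nlinarith) (by positivity) (by nlinarith)
  linarith

theorem one_a {x A A₁ a Δ : ℕ} (hA : 1 ≤ A) (h1 : A ≤ A₁) (h2 : A₁ ≤ a) (h3 : a ≤ A₁ + Δ)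
    (w : ℕ → ℝ) (hw : ∀ b, |w b| ≤ 1) :
    |∑ b ∈ Icc 1 (2 * x), (if a * b ∈ Ioc x (2 * x) then w b else 0) -
      ∑ b ∈ Icc 1 (2 * x), (if b ∈ Ioc (x / A₁) (2 * x / A₁) then w b else 0)| ≤
      3 * x * Δ / (A : ℝ) ^ 2 + 2 := by
  have ha : 0 < a := by omega
  rw [← sum_sub_distrib]
  refine (abs_sum_le_sum_abs _ _).trans ?_
  have key : ∀ b ∈ Icc 1 (2 * x), |(if a * b ∈ Ioc x (2 * x) then w b else 0) -
      (if b ∈ Ioc (x / A₁) (2 * x / A₁) then w b else 0)| ≤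
      (if b ∈ Ioc (x / a) (x / A₁) then (1 : ℝ) else 0) +
        (if b ∈ Ioc (2 * x / a) (2 * x / A₁) then (1 : ℝ) else 0) := by
    intro b _
    have e : a * b ∈ Ioc x (2 * x) ↔ x / a < b ∧ b ≤ 2 * x / a := by
      rw [mem_Ioc, Nat.div_lt_iff_lt_mul ha, Nat.le_div_iff_mul_le ha, mul_comm b a]
    have l1 : x / a ≤ x / A₁ := Nat.div_le_div_left h2 (by omega)
    have l2 : 2 * x / a ≤ 2 * x / A₁ := Nat.div_le_div_left h2 (by omega)
    have hb := hw b
    have hb' : |-w b| ≤ 1 := by rwa [abs_neg]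
    simp only [e, mem_Ioc]
    split_ifs <;> first | (simp; done) | (simp; linarith) | (exfalso; omega)
  refine (sum_le_sum key).trans ?_
  rw [sum_add_distrib, ← sum_filter, ← sum_filter, sum_const, sum_const, nsmul_eq_mul,
    nsmul_eq_mul, mul_one, mul_one]
  have c1 : (((Icc 1 (2 * x)).filter fun b => b ∈ Ioc (x / a) (x / A₁)).card : ℝ) ≤
      (Ioc (x / a) (x / A₁)).card := by
    exact_mod_cast card_le_card fun b hb => (mem_filter.1 hb).2
  have c2 : (((Icc 1 (2 * x)).filter fun b => b ∈ Ioc (2 * x / a) (2 * x / A₁)).card : ℝ) ≤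
      (Ioc (2 * x / a) (2 * x / A₁)).card := by
    exact_mod_cast card_le_card fun b hb => (mem_filter.1 hb).2
  have d1 := card_gap (y := x) hA h1 h2 h3
  have d2 := card_gap (y := 2 * x) hA h1 h2 h3
  push_cast at d2
  have : 3 * (x : ℝ) * Δ / (A : ℝ) ^ 2 = x * Δ / (A : ℝ) ^ 2 + 2 * x * Δ / (A : ℝ) ^ 2 := by ring
  linarith

theorem pull {U N M : ℕ} (hU : 1 ≤ U) (h2 : 2 ≤ N) (hN : N ≤ M) (F : ℕ → ℝ) (c : ℝ) :
    ∑ t ∈ Icc 1 M, F t * (if N = U * t + 1 then c else 0) =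
      c * if U ∣ N - 1 then F ((N - 1) / U) else 0 := by
  split_ifs with h
  · obtain ⟨t, ht⟩ := h
    have ht1 : 1 ≤ t := by
      rcases Nat.eq_zero_or_pos t with h0 | h0
      · subst h0; omega
      · exact h0
    have ht2 : t ≤ M := by
      have : t ≤ U * t := Nat.le_mul_of_pos_left t hU
      omega
    rw [ht, Nat.mul_div_cancel_left t hU, sum_eq_single t]
    · rw [if_pos (by omega), mul_comm]
    · intro t' _ hne
      rw [if_neg, mul_zero]
      intro e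
      exact hne (Nat.eq_of_mul_eq_mul_left hU (by omega))
    · intro h; exact absurd (mem_Icc.2 ⟨ht1, ht2⟩) h
  · rw [mul_zero]
    refine sum_eq_zero fun t _ => ?_
    rw [if_neg, mul_zero]
    intro e
    exact h ⟨t, by omega⟩

theorem cls {a q : ℕ} (hq : 1 ≤ q) (h : Nat.Coprime a q) (ν : ℕ) :
    ∃ ν' : ℕ, ∀ b, a * b ≡ ν [MOD q] ↔ b ≡ ν' [MOD q] := by
  obtain ⟨a', ha'⟩ := Nat.exists_mul_mod_eq_of_coprime ν h (by omega)
  have h0 : a * a' ≡ ν [MOD q] := ha'.2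
  refine ⟨a', fun b => ⟨fun hb => ?_, fun hb => (hb.mul_left a).trans h0⟩⟩
  exact Nat.ModEq.cancel_left_of_coprime h.symm (hb.trans h0.symm)

theorem fibre (m x : ℕ) (i : Fin 400 → ℕ) (hi' : ∀ j, lo x j ≤ i j ∧ i j < hi x j) (A : ℕ)
    (As : Finset ℕ) :
    (Fintype.piFinset (grp m x)).filter (fun u => (fun j => Nat.log 2 (u j - 1)) = i) =
      (par m x i A As).tup := by
  ext u
  simp only [mem_filter, Fintype.mem_piFinset, Par.tup, par, grp, mem_Ioc, funext_iff]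
  constructor
  · rintro ⟨h1, h2⟩ j
    obtain ⟨⟨a1, a2⟩, a3⟩ := h1 j
    have h0 : u j - 1 ≠ 0 := by have := Nat.one_le_two_pow (n := lo x j); omega
    have b1 := Nat.pow_log_le_self 2 h0
    have b2 := Nat.lt_pow_succ_log_self (by norm_num : 1 < 2) (u j - 1)
    rw [h2 j] at b1 b2
    exact ⟨⟨by omega, by simp only [Nat.succ_eq_add_one] at b2; omega⟩, a3⟩
  · intro h
    refine ⟨fun j => ?_, fun j => ?_⟩
    · obtain ⟨⟨a1, a2⟩, a3⟩ := h j
      exact ⟨⟨(Nat.pow_le_pow_right (by norm_num) (hi' j).1).trans_lt a1,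
        a2.trans (Nat.pow_le_pow_right (by norm_num) (hi' j).2)⟩, a3⟩
    · obtain ⟨⟨a1, a2⟩, -⟩ := h j
      exact Nat.log_eq_of_pow_le_of_lt_pow (by omega) (by omega)

theorem maps (m x : ℕ) : ∀ u ∈ Fintype.piFinset (grp m x),
    (fun j => Nat.log 2 (u j - 1)) ∈ Fintype.piFinset fun j => Ico (lo x j) (hi x j) := by
  intro u hu
  rw [Fintype.mem_piFinset] at hu ⊢
  intro j
  obtain ⟨h1, -⟩ := mem_filter.1 (hu j)
  obtain ⟨a1, a2⟩ := mem_Ioc.1 h1
  have h0 : u j - 1 ≠ 0 := by have := Nat.one_le_two_pow (n := lo x j); omega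
  exact mem_Ico.2 ⟨(Nat.le_log_iff_pow_le (by norm_num) h0).2 (by omega),
    (Nat.log_lt_iff_lt_pow (by norm_num) h0).2 (by omega)⟩

theorem card_cells {x : ℕ} (hL : 1 ≤ Real.log x) :
    ((Fintype.piFinset fun j : Fin 400 => Ico (lo x j) (hi x j)).card : ℝ) ≤ Real.log x ^ 25 := by
  rw [Fintype.card_piFinset]
  push_cast
  have h : ∀ j : Fin 400, ((Ico (lo x j) (hi x j)).card : ℝ) ≤ Real.log x ^ (1 / 16 : ℝ) := by
    intro j
    have h1 : (Ico (lo x j) (hi x j)).card ≤ hi x j := by rw [Nat.card_Ico]; omega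
    have h2 : (hi x j : ℝ) ≤ Real.log x ^ ((2 * (j : ℝ) + 2) / 12800) :=
      Nat.floor_le (by positivity)
    have h3 : ((j : ℕ) : ℝ) ≤ 399 := by have := j.2; exact_mod_cast (by omega : (j : ℕ) ≤ 399)
    exact (Nat.cast_le.2 h1).trans (h2.trans (Real.rpow_le_rpow_of_exponent_le hL (by linarith)))
  refine (prod_le_prod (fun _ _ => Nat.cast_nonneg _) fun j _ => h j).trans (le_of_eq ?_)
  rw [prod_const, card_univ, Fintype.card_fin, ← Real.rpow_natCast, ← Real.rpow_mul (by linarith)]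
  norm_num

/-- the bilinear sum against `f0`, cell by cell -/
theorem split (m x A : ℕ) (hA : 1 ≤ A) (As : Finset ℕ) (hAs : ∀ a ∈ As, A < a ∧ a ≤ 2 * A)
    (α β F : ℕ → ℝ) :
    ∑ a ∈ As, ∑ b ∈ Icc 1 (2 * x / A), α a * β b * f0 (grp m x) F (a * b - 1) =
      ∑ i ∈ Fintype.piFinset (fun j : Fin 400 => Ico (lo x j) (hi x j)),
        ∑ u ∈ (par m x i A As).tup, ∑ t ∈ Icc 1 (2 * A * (2 * x / A)),
          F t * (par m x i A As).gg α β ((par m x i A As).pu u * t + 1) := by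
  have e1 : ∀ u ∈ Fintype.piFinset (grp m x), ∑ t ∈ Icc 1 (2 * A * (2 * x / A)),
      F t * (∑ a ∈ As, ∑ b ∈ Icc 1 (2 * x / A),
        if a * b = (∏ j, u j) * t + 1 then α a * β b else 0) =
      ∑ a ∈ As, ∑ b ∈ Icc 1 (2 * x / A), α a * β b *
        if (∏ j, u j) ∣ a * b - 1 then F ((a * b - 1) / ∏ j, u j) else 0 := by
    intro u hu
    have hU : 1 ≤ ∏ j, u j := prod_pos fun j _ =>
      (mem_filter.1 (Fintype.mem_piFinset.1 hu j)).2.1.pos
    simp only [mul_sum]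
    rw [sum_comm]
    refine sum_congr rfl fun a ha => ?_
    rw [sum_comm]
    refine sum_congr rfl fun b hb => ?_
    obtain ⟨b1, b2⟩ := mem_Icc.1 hb
    obtain ⟨a1, a2⟩ := hAs a ha
    exact pull hU (by nlinarith) (Nat.mul_le_mul a2 b2) F _
  have e2 : ∑ a ∈ As, ∑ b ∈ Icc 1 (2 * x / A), α a * β b * f0 (grp m x) F (a * b - 1) =
      ∑ u ∈ Fintype.piFinset (grp m x), ∑ a ∈ As, ∑ b ∈ Icc 1 (2 * x / A), α a * β b *
        if (∏ j, u j) ∣ a * b - 1 then F ((a * b - 1) / ∏ j, u j) else 0 := by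
    simp only [f0, mul_sum]
    rw [sum_comm (s := Fintype.piFinset (grp m x))]
    refine sum_congr rfl fun a _ => ?_
    rw [sum_comm]
  rw [e2, ← sum_congr rfl e1, ← sum_fiberwise_of_maps_to (maps m x)]
  refine sum_congr rfl fun i hi' => ?_
  rw [fibre m x i (fun j => mem_Ico.1 (Fintype.mem_piFinset.1 hi' j)) A As]
  rfl

theorem sw_bound {G : Par} (h : G.WF) {α β : ℕ → ℝ} (hα : ∀ a, |α a| ≤ 1) {y₁ y₂ : ℕ}
    (hy : y₂ ≤ G.B) {E : ℝ} (hE : 0 ≤ E) {q : ℕ} (hq : 1 ≤ q) (hQ : q ≤ G.Q)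
    (hβ : ∀ ν y, y ≤ y₂ → |∑ b ∈ (Ioc y₁ y).filter (fun b => b ≡ ν [MOD q]), β b| ≤ E)
    (ν y : ℕ) :
    |∑ N ∈ (Icc 1 y).filter (fun N => N ≡ ν [MOD q]),
      G.gg α (fun b => if b ∈ Ioc y₁ y₂ then β b else 0) N| ≤ G.A * E := by
  have e : ∑ N ∈ (Icc 1 y).filter (fun N => N ≡ ν [MOD q]),
      G.gg α (fun b => if b ∈ Ioc y₁ y₂ then β b else 0) N =
      ∑ a ∈ G.As, α a * ∑ b ∈ (Ioc y₁ (min y₂ (y / a))).filter (fun b => a * b ≡ ν [MOD q]),
        β b := by
    simp only [Par.gg]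
    rw [sum_comm]
    refine sum_congr rfl fun a ha => ?_
    have ha0 : 0 < a := by have := (h.As_sub a ha).1; omega
    rw [sum_comm, mul_sum]
    simp only [sum_ite_eq, mem_filter, mem_Icc]
    rw [← sum_filter, ← sum_filter_add_sum_filter_not _ (fun b => b ∈ Ioc y₁ y₂),
      sum_eq_zero (s := filter (fun b => b ∉ Ioc y₁ y₂) _)
        (fun b hb => by rw [if_neg (mem_filter.1 hb).2, mul_zero]), add_zero]
    refine sum_congr ?_ fun b hb => ?_
    · ext b
      simp only [mem_filter, mem_Icc, mem_Ioc, le_min_iff, Nat.le_div_iff_mul_le ha0,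
        mul_comm b a]
      constructor
      · rintro ⟨⟨_, ⟨_, h2⟩, h3⟩, h4, h5⟩
        exact ⟨⟨h4, h5, h2⟩, h3⟩
      · rintro ⟨⟨h4, h5, h2⟩, h3⟩
        exact ⟨⟨⟨by omega, by omega⟩, ⟨Nat.mul_pos ha0 (by omega), h2⟩, h3⟩, h4, h5⟩
    · obtain ⟨h1, h2⟩ := mem_Ioc.1 (mem_filter.1 hb).1
      rw [if_pos (mem_Ioc.2 ⟨h1, h2.trans (min_le_left _ _)⟩)]
  rw [e]
  refine (abs_sum_le_sum_abs _ _).trans ((sum_le_sum (g := fun _ => E) fun a ha => ?_).trans ?_)
  · have j0 : Fin G.J := ⟨0, by have := h.J_ge; omega⟩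
    have hQD : G.Q ≤ G.D := by
      have h1 := h.U_ge j0
      have h2 := h.U_le_D
      have h3 := h.BA_P_pos j0
      have h4 : G.Q ≤ G.Q ^ (30 * G.J) := Nat.le_self_pow (by have := h.J_ge; omega) _
      have h5 : G.Q ^ (30 * G.J) ≤ G.P j0 * G.Q ^ (30 * G.J) := Nat.le_mul_of_pos_left _ h3
      have h6 : G.U ≤ 2 ^ G.J * G.U := Nat.le_mul_of_pos_left _ (by positivity)
      omega
    have hc : Nat.Coprime a q := by
      refine Nat.isCoprime_iff_coprime.1 (h.coprime_small ha (by omega) ?_)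
      rw [abs_of_nonneg (by positivity)]
      have : q ≤ G.D ^ 2 := (hQ.trans hQD).trans (Nat.le_self_pow (by norm_num) _)
      exact_mod_cast this
    obtain ⟨ν', hν⟩ := cls hq hc ν
    simp only [hν]
    rw [abs_mul]
    exact (mul_le_of_le_one_left (abs_nonneg _) (hα a)).trans (hβ ν' _ (min_le_left _ _))
  · rw [sum_const, nsmul_eq_mul]
    refine mul_le_mul_of_nonneg_right ?_ hE
    have : G.As.card ≤ (Ioc G.A (2 * G.A)).card :=
      card_le_card fun a ha => mem_Ioc.2 (h.As_sub a ha)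
    rw [Nat.card_Ioc] at this
    exact_mod_cast (by omega : G.As.card ≤ G.A)

theorem ev (η K : ℝ) (hη : 0 < η) : ∀ᶠ x : ℕ in atTop,
    K ≤ Real.log x ∧ 2 * Real.log x ^ 12 ≤ zz η x := by
  have hL : Tendsto (fun x : ℕ => Real.log x) atTop atTop :=
    Real.tendsto_log_atTop.comp tendsto_natCast_atTop_atTop
  have h1 := (isLittleO_log_rpow_rpow_atTop (12 : ℝ) hη).bound (show (0 : ℝ) < 1 / 3 by norm_num)
  filter_upwards [hL.eventually_ge_atTop K, hL.eventually_ge_atTop 1,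
    tendsto_natCast_atTop_atTop.eventually h1] with x a b c
  refine ⟨a, ?_⟩
  have hx : (0 : ℝ) ≤ x := Nat.cast_nonneg _
  rw [Real.norm_of_nonneg (by positivity), Real.norm_of_nonneg (by positivity)] at c
  have e : Real.log x ^ (12 : ℝ) = Real.log x ^ 12 := by exact_mod_cast Real.rpow_natCast _ 12
  rw [e] at c
  have d : (x : ℝ) ^ η < (zz η x : ℝ) + 1 := Nat.lt_floor_add_one _
  have f : 1 ≤ Real.log x ^ 12 := one_le_pow₀ b
  linarith

end TIIAux

open TIIAux in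
theorem tii : CellStmt → ParamStmt → TIIStmt := by
  classical
  rintro ⟨C, hC, hcell⟩ hpar m η δ hm hη hη' hδ
  refine ⟨800000, ?_⟩
  filter_upwards [hpar m η δ hm hη hη' hδ, ev η (4 * C ^ 400 + 8) hη] with x hP hx
  intro F hF hf A α β hA hAx hα hβ hr hsw
  obtain ⟨hL, hz⟩ := hx
  have hC4 : 1 ≤ C ^ 400 := one_le_pow₀ hC
  set L := Real.log x with hLdef
  have hL2 : 2 ≤ L := by linarith
  have hx1 : (1 : ℝ) ≤ x := by
    by_contra h
    have : x = 0 := by
      have : (x : ℝ) < 1 := not_le.1 h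
      exact_mod_cast Nat.lt_one_iff.1 (by exact_mod_cast this)
    rw [this] at hLdef; simp at hLdef; linarith
  have hL12 : 1 ≤ L ^ 12 := one_le_pow₀ (by linarith)
  by_cases hex : ∃ a ∈ Ioc A (2 * A), α a ≠ 0
  swap
  · rw [sum_eq_zero, abs_zero]
    · positivity
    · intro a ha
      have : α a = 0 := by by_contra h; exact hex ⟨a, ha, h⟩
      simp [this]
  obtain ⟨a0, ha0, hα0⟩ := hex
  obtain ⟨a01, a02⟩ := mem_Ioc.1 ha0
  have hzA : zz η x ≤ 2 * A := by
    have h1 : a0 ≠ 1 := by omega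
    have h2 := hr a0 hα0 _ (Nat.minFac_prime h1) (Nat.minFac_dvd a0)
    have h3 := Nat.minFac_le (n := a0) (by omega)
    omega
  have hA' : (1 : ℝ) ≤ A := by exact_mod_cast hA
  have hAL : L ^ 12 ≤ A := by
    have : (zz η x : ℝ) ≤ 2 * A := by exact_mod_cast hzA
    linarith
  have hsq : (x : ℝ) ^ (1 / 2 : ℝ) * (x : ℝ) ^ (1 / 2 : ℝ) = x := by
    rw [← Real.rpow_add (by linarith)]; norm_num
  have hAs : (A : ℝ) ≤ (x : ℝ) ^ (1 / 2 : ℝ) :=
    hAx.trans (Real.rpow_le_rpow_of_exponent_le hx1 (by linarith))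
  have hzs : 2 * L ^ 12 ≤ (x : ℝ) ^ (1 / 2 : ℝ) :=
    hz.trans ((Nat.floor_le (by positivity)).trans
      (Real.rpow_le_rpow_of_exponent_le hx1 (by linarith)))
  have hAx' : 2 * A * L ^ 12 ≤ x := by nlinarith
  have hAxn : A ≤ x := by
    have : (A : ℝ) ≤ x := by nlinarith
    exact_mod_cast this
  set n0 := ⌈L ^ 12⌉₊ with hn0
  have hn1 : L ^ 12 ≤ n0 := Nat.le_ceil _
  have hn2 : (n0 : ℝ) ≤ 2 * L ^ 12 := by
    have := Nat.ceil_lt_add_one (show 0 ≤ L ^ 12 by positivity); linarith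
  have hn3 : 1 ≤ n0 := by exact_mod_cast hL12.trans hn1
  set Δ := A / n0 + 1 with hΔ
  have hΔ0 : 0 < Δ := Nat.succ_pos _
  have hΔ1 : A < n0 * Δ := by
    have := Nat.lt_div_mul_add (a := A) (b := n0) hn3
    rw [hΔ]; nlinarith
  have hΔ2 : (Δ : ℝ) ≤ A / L ^ 12 + 1 := by
    rw [hΔ]; push_cast
    have : ((A / n0 : ℕ) : ℝ) ≤ A / n0 := Nat.cast_div_le
    have h2 : (A : ℝ) / n0 ≤ A / L ^ 12 := div_le_div_of_nonneg_left (by linarith) (by linarith) hn1
    linarith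
  set s : ℕ → ℝ := fun N => f0 (grp m x) F (N - 1) with hs
  have hw : ∀ a b, |α a * β b * s (a * b)| ≤ 1 := by
    intro a b
    rw [abs_mul, abs_mul]
    exact mul_le_one₀ (mul_le_one₀ (hα a) (abs_nonneg _) (hβ b)) (abs_nonneg _) (hf _)
  set A1 : ℕ → ℕ := fun n => A + n * Δ with hA1
  -- narrow cells
  have step1 : |∑ a ∈ Ioc A (2 * A), ∑ b ∈ Icc 1 (2 * x),
        (if a * b ∈ Ioc x (2 * x) then α a * β b * s (a * b) else 0) -
      ∑ a ∈ Ioc A (2 * A), ∑ b ∈ Icc 1 (2 * x),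
        (if b ∈ Ioc (x / A1 ((a - A - 1) / Δ)) (2 * x / A1 ((a - A - 1) / Δ)) then
          α a * β b * s (a * b) else 0)| ≤ 7 * x / L ^ 12 := by
    rw [← sum_sub_distrib]
    refine (abs_sum_le_sum_abs _ _).trans ((sum_le_sum
      (g := fun _ => 3 * x * Δ / (A : ℝ) ^ 2 + 2) fun a ha => ?_).trans ?_)
    · obtain ⟨a1, a2⟩ := mem_Ioc.1 ha
      have d1 := Nat.div_mul_le_self (a - A - 1) Δ
      have d2 := Nat.lt_div_mul_add (a := a - A - 1) hΔ0
      have d3 : A1 ((a - A - 1) / Δ) = A + (a - A - 1) / Δ * Δ := rfl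
      exact one_a (A₁ := A1 ((a - A - 1) / Δ)) hA (by omega) (by omega) (by omega) _ (hw a)
    · rw [sum_const, Nat.card_Ioc, nsmul_eq_mul, show 2 * A - A = A by omega]
      have e1 : (A : ℝ) * (3 * x * Δ / (A : ℝ) ^ 2 + 2) = 3 * x * (Δ / A) + 2 * A := by
        field_simp
      have e2 : (Δ : ℝ) / A ≤ 2 / L ^ 12 := by
        rw [div_le_iff₀ (by linarith)]
        have : (1 : ℝ) ≤ A / L ^ 12 := by rw [le_div_iff₀ (by linarith)]; linarith
        have e : 2 / L ^ 12 * A = A / L ^ 12 + A / L ^ 12 := by ring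
        linarith
      have e3 : 2 * (A : ℝ) ≤ x / L ^ 12 := by rw [le_div_iff₀ (by linarith)]; linarith
      have e4 : 3 * (x : ℝ) * (Δ / A) ≤ 3 * x * (2 / L ^ 12) := by gcongr
      have e5 : 7 * (x : ℝ) / L ^ 12 = 3 * x * (2 / L ^ 12) + x / L ^ 12 := by ring
      linarith
  have hmap : ∀ a ∈ Ioc A (2 * A), (a - A - 1) / Δ ∈ range n0 := by
    intro a ha
    obtain ⟨a1, a2⟩ := mem_Ioc.1 ha
    exact mem_range.2 ((Nat.div_lt_iff_lt_mul hΔ0).2 (by omega))
  have hQ1 : L ^ 196 ≤ (⌈L ^ 196⌉₊ : ℝ) := Nat.le_ceil _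
  have hQ2 : (⌈L ^ 196⌉₊ : ℝ) ≤ L ^ 197 := by
    have h1 := Nat.ceil_lt_add_one (show 0 ≤ L ^ 196 by positivity)
    have h2 : 1 ≤ L ^ 196 := one_le_pow₀ (by linarith)
    have h3 : L ^ 197 = L ^ 196 * L := pow_succ _ _
    nlinarith
  have hAB1 : (A : ℝ) * ((2 * x / A : ℕ) : ℝ) ≤ 2 * x := by
    exact_mod_cast Nat.mul_div_le (2 * x) A
  have hAB2 : (x : ℝ) ≤ (A : ℝ) * ((2 * x / A : ℕ) : ℝ) := by
    have := Nat.lt_div_mul_add (a := 2 * x) (b := A) hA
    have h : x ≤ A * (2 * x / A) := by rw [mul_comm]; omega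
    exact_mod_cast h
  have step2 : ∀ n ∈ range n0,
      |∑ a ∈ (Ioc A (2 * A)).filter (fun a => (a - A - 1) / Δ = n), ∑ b ∈ Icc 1 (2 * x),
        (if b ∈ Ioc (x / A1 ((a - A - 1) / Δ)) (2 * x / A1 ((a - A - 1) / Δ)) then
          α a * β b * s (a * b) else 0)| ≤ L ^ 25 * (C ^ 400 * (2 * x) / L ^ 49) := by
    intro n _
    by_cases hne : ((Ioc A (2 * A)).filter (fun a => (a - A - 1) / Δ = n)).Nonempty
    swap
    · rw [not_nonempty_iff_eq_empty.1 hne, sum_empty, abs_zero]; positivity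
    have hA1le : A1 n ≤ 2 * A := by
      obtain ⟨a, ha⟩ := hne
      obtain ⟨h1, h2⟩ := mem_filter.1 ha
      obtain ⟨a1, a2⟩ := mem_Ioc.1 h1
      have d1 := Nat.div_mul_le_self (a - A - 1) Δ
      rw [h2] at d1
      simp only [hA1]; omega
    have hA1ge : A ≤ A1 n := Nat.le_add_right _ _
    set As := ((Ioc A (2 * A)).filter (fun a => (a - A - 1) / Δ = n)).filter
      (rough (zz η x)) with hAsdef
    set β' : ℕ → ℝ := fun b => if b ∈ Ioc (x / A1 n) (2 * x / A1 n) then β b else 0 with hβ'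
    have hy2 : 2 * x / A1 n ≤ 2 * x / A := Nat.div_le_div_left hA1ge hA
    have hy1 : x / (2 * A) ≤ x / A1 n := Nat.div_le_div_left hA1le (by omega)
    have hAs' : ∀ a ∈ As, A < a ∧ a ≤ 2 * A ∧ rough (zz η x) a := by
      intro a ha
      obtain ⟨h1, h2⟩ := mem_filter.1 ha
      obtain ⟨a1, a2⟩ := mem_Ioc.1 (mem_filter.1 h1).1
      exact ⟨a1, a2, h2⟩
    have e : ∑ a ∈ (Ioc A (2 * A)).filter (fun a => (a - A - 1) / Δ = n), ∑ b ∈ Icc 1 (2 * x),
        (if b ∈ Ioc (x / A1 ((a - A - 1) / Δ)) (2 * x / A1 ((a - A - 1) / Δ)) then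
          α a * β b * s (a * b) else 0) =
        ∑ a ∈ As, ∑ b ∈ Icc 1 (2 * x / A), α a * β' b * f0 (grp m x) F (a * b - 1) := by
      rw [hAsdef, sum_filter (p := rough (zz η x))]
      refine sum_congr rfl fun a ha => ?_
      rw [(mem_filter.1 ha).2]
      split_ifs with hro
      · symm
        refine (sum_subset (Icc_subset_Icc_right (Nat.div_le_self _ _)) fun b hb hb' => ?_).trans
          (sum_congr rfl fun b _ => ?_)
        · have : b ∉ Ioc (x / A1 n) (2 * x / A1 n) := by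
            intro h
            exact hb' (mem_Icc.2 ⟨(mem_Icc.1 hb).1, (mem_Ioc.1 h).2.trans hy2⟩)
          simp only [hβ', if_neg this, mul_zero, zero_mul]
        · simp only [hβ', hs]
          split_ifs <;> simp
      · have : α a = 0 := by by_contra h; exact hro (hr a h)
        simp [this]
    rw [e, split m x A hA As (fun a ha => ⟨(hAs' a ha).1, (hAs' a ha).2.1⟩)]
    refine (abs_sum_le_sum_abs _ _).trans ((sum_le_sum
      (g := fun _ => C ^ 400 * (2 * x) / L ^ 49) fun i hi' => ?_).trans ?_)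
    · obtain ⟨hWF, hpr⟩ := hP i A As (fun j => mem_Ico.1 (Fintype.mem_piFinset.1 hi' j)) hzA hAx
        hAs'
      have hco : (par m x i A As).Coef α β' := by
        refine ⟨hα, fun b => ?_, fun b hb => ?_, fun j _ q b t h1 h2 h3 h4 => ?_,
          fun q ν y h1 h2 => ?_⟩
        · simp only [hβ']; split_ifs; exacts [hβ b, by simp]
        · have hb' : b ∈ Ioc (x / A1 n) (2 * x / A1 n) := by
            by_contra h; exact hb (if_neg h)
          have h1 : x / (2 * A) < b := hy1.trans_lt (mem_Ioc.1 hb').1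
          rw [Nat.div_lt_iff_lt_mul (by omega)] at h1
          show 2 * x / A < 4 * b
          rw [Nat.div_lt_iff_lt_mul (by omega)]
          nlinarith
        · refine hpr j q b t h1 h2 h3 (h4.trans ?_)
          exact pow_le_pow_left₀ (by positivity) hAB1 3
        · have hq : (q : ℝ) ≤ L ^ 800000 := by
            have h3 : (q : ℝ) ≤ (⌈L ^ 196⌉₊ : ℝ) := by exact_mod_cast h2
            exact (h3.trans hQ2).trans (pow_le_pow_right₀ (by linarith) (by norm_num))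
          refine (sw_bound hWF hα (y₁ := x / A1 n) (y₂ := 2 * x / A1 n) hy2
            (E := (x : ℝ) / A / L ^ 800000) (by positivity) h1 h2
            (fun ν' y' hy' => hsw q ν' _ _ h1 hq hy1 (hy'.trans hy2)) ν y).trans ?_
          show (A : ℝ) * ((x : ℝ) / A / L ^ 800000) ≤
            (A : ℝ) * ((2 * x / A : ℕ) : ℝ) / (⌈L ^ 196⌉₊ : ℝ) ^ (10 * 400)
          have e1 : (A : ℝ) * ((x : ℝ) / A / L ^ 800000) = x / L ^ 800000 := by
            rw [← mul_div_assoc, mul_div_cancel₀ _ (by linarith)]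
          rw [e1]
          have hQ0 : (0 : ℝ) < (⌈L ^ 196⌉₊ : ℝ) := lt_of_lt_of_le (by positivity) hQ1
          refine div_le_div₀ (by positivity) hAB2 (pow_pos hQ0 _) ?_
          refine (pow_le_pow_left₀ hQ0.le hQ2 _).trans ?_
          rw [← pow_mul]
          exact pow_le_pow_right₀ (by linarith) (by norm_num)
      refine (hcell _ hWF α β' F hco hF).trans ?_
      show C ^ 400 * ((A : ℝ) * ((2 * x / A : ℕ) : ℝ)) / √(√(⌈L ^ 196⌉₊ : ℝ)) ≤ _
      refine div_le_div₀ (by positivity) (by gcongr) (by positivity) ?_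
      refine Real.le_sqrt_of_sq_le (Real.le_sqrt_of_sq_le (le_trans (le_of_eq ?_) hQ1))
      rw [← pow_mul, ← pow_mul]
    · rw [sum_const, nsmul_eq_mul]
      exact mul_le_mul_of_nonneg_right (card_cells (by linarith)) (by positivity)
  rw [← sum_fiberwise_of_maps_to hmap
    (fun a => ∑ b ∈ Icc 1 (2 * x),
        (if b ∈ Ioc (x / A1 ((a - A - 1) / Δ)) (2 * x / A1 ((a - A - 1) / Δ)) then
          α a * β b * s (a * b) else 0))] at step1
  have step3 := (abs_sum_le_sum_abs _ _).trans (sum_le_sum step2)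
  rw [sum_const, card_range, nsmul_eq_mul] at step3
  have e1 : (n0 : ℝ) * (L ^ 25 * (C ^ 400 * (2 * x) / L ^ 49)) ≤ 4 * C ^ 400 * x / L ^ 12 := by
    refine (mul_le_mul_of_nonneg_right hn2 (by positivity)).trans (le_of_eq ?_)
    generalize C ^ 400 = c
    field_simp
    ring
  have e2 : (4 * C ^ 400 + 7) * x / L ^ 12 ≤ x / L ^ 10 := by
    generalize C ^ 400 = c at hL hC4 ⊢
    rw [div_le_div_iff₀ (by positivity) (by positivity)]
    have : 4 * c + 7 ≤ L ^ 2 := by nlinarith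
    have h2 : L ^ 12 = L ^ 2 * L ^ 10 := by ring
    rw [h2]
    have h3 : 0 ≤ (x : ℝ) * L ^ 10 := by positivity
    nlinarith
  have e3 : (4 * C ^ 400 + 7) * x / L ^ 12 = 4 * C ^ 400 * x / L ^ 12 + 7 * x / L ^ 12 := by
    generalize C ^ 400 = c
    ring
  have := abs_sub_abs_le_abs_sub (∑ a ∈ Ioc A (2 * A), ∑ b ∈ Icc 1 (2 * x),
        (if a * b ∈ Ioc x (2 * x) then α a * β b * s (a * b) else 0))
    (∑ n ∈ range n0, ∑ a ∈ (Ioc A (2 * A)).filter (fun a => (a - A - 1) / Δ = n),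
      ∑ b ∈ Icc 1 (2 * x),
        (if b ∈ Ioc (x / A1 ((a - A - 1) / Δ)) (2 * x / A1 ((a - A - 1) / Δ)) then
          α a * β b * s (a * b) else 0))
  linarith

end Crest.Agent.R26
end

-- ▼ part PVc/R26/PrimeAP
section

/-! Row 26: primes in progressions. -/

set_option autoImplicit false

namespace Crest.Agent.R26

open Finset Filter
open Crest.Agent.R5 (pr pd ee nit)

namespace PrimeAP

open ArithmeticFunction

/-- the logarithm on the primes of a progression -/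
noncomputable def lp (r a n : ℕ) : ℝ := if n.Prime ∧ n ≡ a [MOD r] then Real.log n else 0

theorem half_le_log {r : ℕ} (hr : 1 ≤ r) : 1 / 2 ≤ Real.log (2 * r) := by
  have h1 : (1 : ℝ) ≤ r := by exact_mod_cast hr
  have h2 := Real.log_le_log (show (0 : ℝ) < 2 by norm_num) (show (2 : ℝ) ≤ 2 * r by linarith)
  linarith [Real.log_two_gt_d9]

theorem theta_ap (h : PsiStmt) : ∃ δ C : ℝ, 0 < δ ∧ δ ≤ 1 / 4 ∧ 0 < C ∧ ∀ r a N : ℕ, 1 ≤ r →
    Nat.Coprime a r → |∑ n ∈ Ioc 0 N, lp r a n - N / (r.totient : ℝ)| ≤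
      C * (N : ℝ) ^ (1 - δ) * Real.log (2 * r) := by
  obtain ⟨δ, C, hδ, hδ', hC, h⟩ := h
  obtain ⟨C', hC'⟩ := Chebyshev.psi_sub_theta_le_mul_sqrt
  refine ⟨δ, C + 2 * |C'|, hδ, hδ', by positivity, fun r a N hr ha => ?_⟩
  have hl := half_le_log hr
  rcases Nat.eq_zero_or_pos N with rfl | hN
  · simp only [Ioc_self, sum_empty, Nat.cast_zero, zero_div, sub_self, abs_zero]
    positivity
  have hN' : (1 : ℝ) ≤ N := by exact_mod_cast hN
  have h1 := h r a N 0 hr ha hN'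
  have e : ∀ n, nit n 0 = 1 := fun n => by simp [nit]
  simp only [e, mul_one, Complex.ofReal_zero, zero_mul, sub_zero, Complex.cpow_one, one_mul,
    abs_zero, zero_add, Nat.floor_natCast] at h1
  have h2 : |∑ n ∈ Ioc 0 N, (if n ≡ a [MOD r] then vonMangoldt n else 0) - N / (r.totient : ℝ)| ≤
      C * (N : ℝ) ^ (1 - δ) * Real.log (2 * r) := by
    rw [← sum_filter, ← Real.norm_eq_abs, ← Complex.norm_real, mul_comm (2 : ℝ)]
    push_cast
    exact h1
  have h3 : |∑ n ∈ Ioc 0 N, (if n ≡ a [MOD r] then vonMangoldt n else 0) -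
      ∑ n ∈ Ioc 0 N, lp r a n| ≤ |C'| * √N := by
    have h4 := hC' N
    rw [Chebyshev.psi_sub_theta_eq_sum_not_prime, Nat.floor_natCast, sum_filter] at h4
    rw [← sum_sub_distrib]
    refine (abs_sum_le_sum_abs _ _).trans ((sum_le_sum fun n _ => ?_).trans (h4.trans
      (mul_le_mul_of_nonneg_right (le_abs_self _) (Real.sqrt_nonneg _))))
    by_cases hp : n.Prime <;> by_cases hn : n ≡ a [MOD r] <;>
      simp [lp, hp, hn, vonMangoldt_apply_prime, abs_of_nonneg vonMangoldt_nonneg]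
  have h4 : √N ≤ (N : ℝ) ^ (1 - δ) := by
    rw [Real.sqrt_eq_rpow]
    exact Real.rpow_le_rpow_of_exponent_le hN' (by linarith)
  have h5 : |C'| * √N ≤ 2 * |C'| * (N : ℝ) ^ (1 - δ) * Real.log (2 * r) := by
    have h6 : 0 ≤ |C'| * (N : ℝ) ^ (1 - δ) := by positivity
    have h7 := mul_le_mul_of_nonneg_left h4 (abs_nonneg C')
    nlinarith
  rw [abs_le] at h2 h3 ⊢
  constructor <;> nlinarith [h2.1, h2.2, h3.1, h3.2]

theorem abel' (b : ℕ → ℝ) {w : ℕ → ℝ} (hw : Antitone w) (h0 : ∀ n, 0 ≤ w n) {M : ℝ} {X : ℕ}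
    (h : ∀ N ≤ X, |∑ n ∈ Ioc 0 N, b n| ≤ M) : |∑ n ∈ Ioc 0 X, w n * b n| ≤ M * w 0 := by
  have h1 := R8.Prime.abel (fun n => (b n : ℂ)) hw h0 (M := M) (X := X) fun N hN => by
    have := h N hN
    rw [← Real.norm_eq_abs, ← Complex.norm_real] at this
    push_cast at this
    exact this
  rw [← Real.norm_eq_abs, ← Complex.norm_real]
  push_cast
  exact h1

theorem ap (h : PsiStmt) : PrimeAPStmt := by
  obtain ⟨δ, C, hδ, hδ', hC, h⟩ := theta_ap h
  refine ⟨δ, 8 * C, hδ, hδ', by positivity, fun r a y₁ y₂ hr ha hy => ?_⟩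
  have hφ : (1 : ℝ) ≤ r.totient := by exact_mod_cast Nat.totient_pos.2 hr
  have hl := half_le_log hr
  have hr' : (1 : ℝ) ≤ r := by exact_mod_cast hr
  obtain ⟨M, hM⟩ : ∃ M : ℝ, M = C * (y₂ : ℝ) ^ (1 - δ) * Real.log (2 * r) := ⟨_, rfl⟩
  have hM0 : 0 ≤ M := by rw [hM]; positivity
  have h1 : ∀ N ≤ y₂, |∑ n ∈ Ioc 0 N, (lp r a n - lp 1 0 n / r.totient)| ≤ 2 * M := by
    intro N hN
    have h2 := h r a N hr ha
    have h3 := h 1 0 N le_rfl (by simp)
    have h4 : (N : ℝ) ^ (1 - δ) ≤ (y₂ : ℝ) ^ (1 - δ) :=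
      Real.rpow_le_rpow (Nat.cast_nonneg _) (Nat.cast_le.2 hN) (by linarith)
    have h5 : C * (N : ℝ) ^ (1 - δ) * Real.log (2 * r) ≤ M := by
      rw [hM]
      gcongr
    have h6 : C * (N : ℝ) ^ (1 - δ) * Real.log (2 * (1 : ℕ)) ≤
        C * (N : ℝ) ^ (1 - δ) * Real.log (2 * r) := by
      gcongr
    rw [Nat.totient_one, Nat.cast_one (R := ℝ), div_one] at h3
    have h7 : |(∑ n ∈ Ioc 0 N, lp 1 0 n - N) / r.totient| ≤ M := by
      rw [abs_div, abs_of_nonneg (by linarith : (0 : ℝ) ≤ r.totient)]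
      refine (div_le_self (abs_nonneg _) hφ).trans (h3.trans (le_trans ?_ h5))
      simpa using h6
    rw [sum_sub_distrib, ← sum_div]
    rw [sub_div] at h7
    rw [abs_le] at h2 h7 ⊢
    constructor <;> linarith [h2.1, h2.2, h7.1, h7.2]
  have hl2 : ∀ n : ℕ, 1 / 2 ≤ Real.log (max n 2 : ℕ) := fun n => by
    have h2 := Real.log_le_log (show (0 : ℝ) < 2 by norm_num)
      (show (2 : ℝ) ≤ (max n 2 : ℕ) by exact_mod_cast le_max_right n 2)
    linarith [Real.log_two_gt_d9]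
  have h2 : ∀ X ≤ y₂, |∑ n ∈ Ioc 0 X, ((if n.Prime ∧ n ≡ a [MOD r] then (1 : ℝ) else 0) -
      (if n.Prime then (1 : ℝ) else 0) / r.totient)| ≤ 4 * M := by
    intro X hX
    have h3 := abel' (fun n => lp r a n - lp 1 0 n / r.totient)
      (w := fun n => (Real.log (max n 2 : ℕ))⁻¹) (fun m n hmn => inv_anti₀ (by linarith [hl2 m])
        (Real.log_le_log (by positivity) (Nat.cast_le.2 (max_le_max_right 2 hmn))))
      (fun n => inv_nonneg.2 (by linarith [hl2 n])) (X := X) fun N hN => h1 N (hN.trans hX)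
    have h4 : (Real.log (max 0 2 : ℕ))⁻¹ ≤ 2 := inv_le_of_inv_le₀ two_pos (by linarith [hl2 0])
    refine le_trans (le_of_eq ?_) (h3.trans (by nlinarith))
    congr 1
    refine sum_congr rfl fun n _ => ?_
    by_cases hp : n.Prime
    · have h5 := hl2 n
      rw [max_eq_left hp.two_le] at h5 ⊢
      have h6 : Real.log n ≠ 0 := by linarith
      by_cases hn : n ≡ a [MOD r] <;> simp [lp, hp, hn, Nat.modEq_one] <;> field_simp
    · simp [lp, hp]
  have h3 := h2 y₂ le_rfl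
  have h4 := h2 y₁ hy
  rw [← sum_Ioc_consecutive _ (Nat.zero_le y₁) hy] at h3
  rw [card_filter, card_filter]
  push_cast
  rw [sum_div, ← sum_sub_distrib]
  rw [abs_le] at h3 h4 ⊢
  constructor <;> nlinarith [h3.1, h3.2, h4.1, h4.2]

theorem low (h : PsiStmt) : PrimeLowStmt := by
  obtain ⟨δ, C, hδ, hδ', hC, h⟩ := theta_ap h
  intro m hm
  have hφ : (0 : ℝ) < m.totient := by exact_mod_cast Nat.totient_pos.2 hm
  have hl := half_le_log hm
  refine ⟨1 / (4 * m.totient), by positivity, ?_⟩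
  have h1 : Tendsto (fun y : ℕ => 3 * C * Real.log (2 * m) * (y : ℝ) ^ (-δ)) atTop (nhds 0) := by
    simpa using ((tendsto_rpow_neg_atTop hδ).comp tendsto_natCast_atTop_atTop).const_mul
      (3 * C * Real.log (2 * m))
  filter_upwards [h1.eventually (ge_mem_nhds (show (0 : ℝ) < 1 / (2 * m.totient) by positivity)),
    eventually_ge_atTop 2] with y hy hy2
  have hy' : (2 : ℝ) ≤ y := by exact_mod_cast hy2
  have hy0 : (0 : ℝ) < y := by linarith
  have hly : 0 < Real.log y := Real.log_pos (by linarith)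
  have h2 := abs_le.1 (h m 1 (2 * y) hm (by simp))
  have h3 := abs_le.1 (h m 1 y hm (by simp))
  rw [← sum_Ioc_consecutive _ (Nat.zero_le y) (by omega : y ≤ 2 * y)] at h2
  have h4 : ∑ n ∈ Ioc y (2 * y), lp m 1 n ≤
      ((Ioc y (2 * y)).filter (fun p => p.Prime ∧ p ≡ 1 [MOD m])).card * (2 * Real.log y) := by
    rw [← nsmul_eq_mul]
    simp only [lp]
    rw [← sum_filter]
    refine sum_le_card_nsmul _ _ _ fun n hn => ?_
    have h5 := mem_Ioc.1 (mem_filter.1 hn).1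
    have h6 : (n : ℝ) ≤ y ^ 2 := by
      have : (n : ℝ) ≤ 2 * y := by exact_mod_cast h5.2
      nlinarith
    refine (Real.log_le_log (Nat.cast_pos.2 (by omega)) h6).trans_eq ?_
    rw [Real.log_pow]
    norm_num
  have h5 : ((2 * y : ℕ) : ℝ) ^ (1 - δ) ≤ 2 * (y : ℝ) ^ (1 - δ) := by
    push_cast
    rw [Real.mul_rpow zero_le_two hy0.le]
    refine mul_le_mul_of_nonneg_right ?_ (by positivity)
    exact (Real.rpow_le_rpow_of_exponent_le one_le_two (by linarith : 1 - δ ≤ 1)).trans_eq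
      (Real.rpow_one 2)
  have h6 : (y : ℝ) ^ (1 - δ) = y * (y : ℝ) ^ (-δ) := by
    rw [sub_eq_add_neg, Real.rpow_add hy0, Real.rpow_one]
  have h7 : C * ((2 * y : ℕ) : ℝ) ^ (1 - δ) * Real.log (2 * m) ≤
      C * (2 * (y : ℝ) ^ (1 - δ)) * Real.log (2 * m) := by gcongr
  have h8 : 3 * (C * (y : ℝ) ^ (1 - δ) * Real.log (2 * m)) ≤ y / m.totient / 2 := by
    calc _ = y * (3 * C * Real.log (2 * m) * (y : ℝ) ^ (-δ)) := by rw [h6]; ring
      _ ≤ y * (1 / (2 * m.totient)) := mul_le_mul_of_nonneg_left hy hy0.le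
      _ = _ := by field_simp
  have h9 : ((2 * y : ℕ) : ℝ) / m.totient = 2 * (y / m.totient) := by
    push_cast
    ring
  have h10 : 1 / (4 * (m.totient : ℝ)) * y = y / m.totient / 4 := by field_simp
  rw [div_le_iff₀ hly, h10]
  linarith [h2.1, h3.2]

end PrimeAP

theorem primeAP : PsiStmt → PrimeAPStmt ∧ PrimeLowStmt :=
  fun h => ⟨PrimeAP.ap h, PrimeAP.low h⟩

end Crest.Agent.R26
end

-- ▼ part PVc/R26/AsmAux1
section

/-! Row 26, `Asm`: combinatorial decomposition of `∑ ρ(N) log N g(N)`. -/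

set_option autoImplicit false

namespace Crest.Agent.R26

open Finset Filter

namespace AsmAux

open ArithmeticFunction

open Classical in
/-- indicator of the rough numbers -/
noncomputable def rh (z n : ℕ) : ℝ := if rough z n then 1 else 0

theorem rh_nonneg (z n : ℕ) : 0 ≤ rh z n := by
  unfold rh; split_ifs <;> norm_num

theorem rh_le (z n : ℕ) : rh z n ≤ 1 := by
  unfold rh; split_ifs <;> norm_num

theorem rh_of {z n : ℕ} (h : rough z n) : rh z n = 1 := by
  unfold rh; rw [if_pos h]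

theorem rough_of_rh {z n : ℕ} (h : rh z n ≠ 0) : rough z n := by
  unfold rh at h
  by_contra h'
  exact h (if_neg h')

theorem rough_mul {z m d : ℕ} : rough z (m * d) ↔ rough z m ∧ rough z d := by
  constructor
  · intro h
    exact ⟨fun p hp hd => h p hp (hd.mul_right _), fun p hp hd => h p hp (hd.mul_left _)⟩
  · rintro ⟨h1, h2⟩ p hp hd
    rcases (Nat.Prime.dvd_mul hp).1 hd with h | h
    · exact h1 p hp h
    · exact h2 p hp h

theorem rh_mul (z m d : ℕ) : rh z (m * d) = rh z m * rh z d := by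
  unfold rh
  by_cases h1 : rough z m <;> by_cases h2 : rough z d <;> simp [rough_mul, h1, h2]

theorem rough_one (z : ℕ) : rough z 1 := fun _ hp hd => absurd (Nat.dvd_one.1 hd) hp.ne_one

theorem lr_eq (z d : ℕ) : lr z d = rh z d * vonMangoldt d := by
  unfold lr rh; split_ifs <;> simp

theorem lr_nonneg (z d : ℕ) : 0 ≤ lr z d := by
  rw [lr_eq]; exact mul_nonneg (rh_nonneg _ _) vonMangoldt_nonneg

theorem lr_le (z d : ℕ) : lr z d ≤ vonMangoldt d := by
  rw [lr_eq]; exact mul_le_of_le_one_left vonMangoldt_nonneg (rh_le _ _)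

theorem rh_small {z m : ℕ} (h1 : 1 < m) (h : m ≤ z) : rh z m = 0 := by
  by_contra h0
  have := rough_of_rh h0 m.minFac (Nat.minFac_prime (by omega)) (Nat.minFac_dvd m)
  have := Nat.minFac_le (n := m) (by omega)
  omega

theorem lr_small {z d : ℕ} (h : d ≤ z) : lr z d = 0 := by
  rw [lr_eq]
  rcases Nat.lt_or_ge 1 d with h1 | h1
  · rw [rh_small h1 h, zero_mul]
  · interval_cases d <;> simp

theorem rough_of_lr {z d : ℕ} (h : lr z d ≠ 0) : rough z d := by
  rw [lr_eq] at h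
  exact rough_of_rh (left_ne_zero_of_mul h)

theorem conv (z M : ℕ) (G : ℕ → ℝ) (hG : ∀ n, M < n → G n = 0) :
    ∑ N ∈ Ioc 0 M, rh z N * Real.log N * G N =
      ∑ m ∈ Ioc 0 M, ∑ d ∈ Ioc 0 M, rh z m * lr z d * G (m * d) := by
  have h1 : ∀ m ∈ Ioc 0 M, ∀ d ∈ Ioc 0 M, rh z m * lr z d * G (m * d) =
      ∑ N ∈ Ioc 0 M, if m * d = N then rh z m * lr z d * G N else 0 := by
    intro m hm d hd
    rw [Finset.sum_ite_eq]
    split_ifs with h
    · rfl
    · have hm' := (mem_Ioc.1 hm).1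
      have hd' := (mem_Ioc.1 hd).1
      have : M < m * d := by
        by_contra hc
        exact h (mem_Ioc.2 ⟨Nat.mul_pos hm' hd', by omega⟩)
      rw [hG _ this, mul_zero]
  rw [Finset.sum_congr rfl fun m hm => Finset.sum_congr rfl fun d hd => h1 m hm d hd]
  rw [Finset.sum_congr rfl fun m _ => Finset.sum_comm, Finset.sum_comm]
  refine Finset.sum_congr rfl fun N hN => ?_
  have hN' := mem_Ioc.1 hN
  rw [← Finset.sum_product' (f := fun m d => if m * d = N then rh z m * lr z d * G N else 0),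
    ← Finset.sum_filter, ← Nat.divisorsAntidiagonal_eq_prod_filter_of_le hN'.1.ne' hN'.2,
    ← vonMangoldt_sum, ← Nat.sum_divisorsAntidiagonal' (fun _ d => vonMangoldt d),
    Finset.mul_sum, Finset.sum_mul]
  refine Finset.sum_congr rfl fun q hq => ?_
  have := (Nat.mem_divisorsAntidiagonal.1 hq).1
  rw [lr_eq, ← this, rh_mul]
  ring

theorem sum_cells (f : ℕ → ℝ) (z n : ℕ) :
    ∑ m ∈ Ioc z (z * 2 ^ n), f m = ∑ i ∈ range n, ∑ m ∈ Ioc (z * 2 ^ i) (2 * (z * 2 ^ i)), f m := by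
  induction n with
  | zero => simp
  | succ n ih =>
    rw [Finset.sum_range_succ, ← ih, Finset.sum_Ioc_consecutive]
    · congr 2; ring
    · exact Nat.le_mul_of_pos_right _ (by positivity)
    · omega

/-- the four parts -/
theorem split (z x Y : ℕ) (g : ℕ → ℝ) (hg : ∀ n, n ≤ x → g n = 0) (hz : 1 ≤ z) (hzY : z ≤ Y)
    (hY : Y * Y ≤ x) :
    ∑ m ∈ Ioc 0 (2 * x), ∑ d ∈ Ioc 0 (2 * x), rh z m * lr z d * g (m * d) =
      ∑ d ∈ Ioc 0 (2 * x), lr z d * g d +
      ∑ m ∈ Ioc z Y, ∑ d ∈ Ioc 0 (2 * x), rh z m * lr z d * g (m * d) +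
      ∑ d ∈ Ioc z Y, lr z d * ∑ m ∈ Ioc 0 (2 * x), rh z m * g (d * m) +
      ∑ d ∈ Ioc Y (2 * x), ∑ m ∈ Ioc Y (2 * x), rh z m * lr z d * g (m * d) := by
  have hYx : Y ≤ 2 * x := by nlinarith
  rw [← Finset.sum_Ioc_consecutive _ (Nat.zero_le Y) hYx,
    ← Finset.sum_Ioc_consecutive _ (Nat.zero_le z) hzY,
    ← Finset.sum_Ioc_consecutive _ (Nat.zero_le 1) hz]
  have e1 : ∑ m ∈ Ioc 0 1, ∑ d ∈ Ioc 0 (2 * x), rh z m * lr z d * g (m * d) =
      ∑ d ∈ Ioc 0 (2 * x), lr z d * g d := by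
    rw [show Ioc 0 1 = {1} from rfl, Finset.sum_singleton, rh_of (rough_one z)]
    simp
  have e2 : ∑ m ∈ Ioc 1 z, ∑ d ∈ Ioc 0 (2 * x), rh z m * lr z d * g (m * d) = 0 := by
    refine Finset.sum_eq_zero fun m hm => ?_
    rw [rh_small (mem_Ioc.1 hm).1 (mem_Ioc.1 hm).2]
    simp
  have e3 : ∑ m ∈ Ioc Y (2 * x), ∑ d ∈ Ioc 0 (2 * x), rh z m * lr z d * g (m * d) =
      ∑ d ∈ Ioc z Y, lr z d * ∑ m ∈ Ioc 0 (2 * x), rh z m * g (d * m) +
      ∑ d ∈ Ioc Y (2 * x), ∑ m ∈ Ioc Y (2 * x), rh z m * lr z d * g (m * d) := by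
    rw [Finset.sum_comm, ← Finset.sum_Ioc_consecutive _ (Nat.zero_le Y) hYx,
      ← Finset.sum_Ioc_consecutive _ (Nat.zero_le z) hzY]
    congr 1
    have : ∑ d ∈ Ioc 0 z, ∑ m ∈ Ioc Y (2 * x), rh z m * lr z d * g (m * d) = 0 := by
      refine Finset.sum_eq_zero fun d hd => ?_
      rw [lr_small (mem_Ioc.1 hd).2]
      simp
    rw [this, zero_add]
    refine Finset.sum_congr rfl fun d hd => ?_
    rw [← Finset.sum_Ioc_consecutive _ (Nat.zero_le Y) hYx]
    have : ∑ m ∈ Ioc 0 Y, rh z m * g (d * m) = 0 := by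
      refine Finset.sum_eq_zero fun m hm => ?_
      rw [hg _ ((Nat.mul_le_mul (mem_Ioc.1 hd).2 (mem_Ioc.1 hm).2).trans hY), mul_zero]
    rw [this, zero_add, Finset.mul_sum]
    refine Finset.sum_congr rfl fun m _ => ?_
    rw [mul_comm d m]; ring
  rw [e1, e2, e3]
  ring

end AsmAux

end Crest.Agent.R26
end

-- ▼ part PVc/R26/Rough
section

/-! Row 26: rough numbers. -/

set_option autoImplicit false

namespace Crest.Agent.R26

open Finset Filter
open Crest.Agent.R5 (pr pd ee nit)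

namespace RoughAux

open AsmAux ArithmeticFunction

/-- `n ↦ 1 / n` -/
noncomputable def invH : ℕ →* ℝ where
  toFun n := (n : ℝ)⁻¹
  map_one' := by simp
  map_mul' m n := by push_cast; rw [mul_inv]

theorem mem_pr {A B : ℝ} {p : ℕ} : p ∈ pr A B ↔ (1 ≤ p ∧ p ≤ ⌊B⌋₊) ∧ p.Prime ∧ A < p := by
  unfold pr; rw [mem_filter, mem_Icc]

open Classical in
theorem euler (z M : ℕ) :
    ∑ m ∈ (Icc 1 M).filter (rough z), 1 / (m : ℝ) ≤
      Real.exp (∑ p ∈ pr z M, 1 / (p : ℝ) + 2) := by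
  have hlt : ∀ {p : ℕ}, p.Prime → ‖invH p‖ < 1 := fun {p} hp => by
    have : (1 : ℝ) < p := by exact_mod_cast hp.one_lt
    show ‖(p : ℝ)⁻¹‖ < 1
    rw [Real.norm_of_nonneg (by positivity)]
    exact inv_lt_one_of_one_lt₀ this
  have hs := (EulerProduct.summable_and_hasSum_factoredNumbers_prod_filter_prime_geometric
    hlt (pr z M)).2
  have hf0 : ∀ n, 0 ≤ invH n := fun n => by
    show 0 ≤ (n : ℝ)⁻¹
    positivity
  have h2 := sum_le_hasSum ((Icc 1 M).filter (rough z))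
    (fun n _ => Set.indicator_nonneg (fun n _ => hf0 n) n) (hasSum_subtype_iff_indicator.1 hs)
  have h1 : ∑ m ∈ (Icc 1 M).filter (rough z), 1 / (m : ℝ) ≤
      ∏ p ∈ pr z M with p.Prime, (1 - invH p)⁻¹ := by
    refine le_trans (le_of_eq (sum_congr rfl fun n hn => ?_)) h2
    obtain ⟨h3, h4⟩ := mem_filter.1 hn
    obtain ⟨h5, h6⟩ := mem_Icc.1 h3
    have : n ∈ Nat.factoredNumbers (pr z M) := Nat.mem_factoredNumbers.2 ⟨by omega, fun p hp => by
      have hp1 := Nat.prime_of_mem_primeFactorsList hp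
      have hp2 := Nat.dvd_of_mem_primeFactorsList hp
      refine mem_pr.2 ⟨⟨hp1.one_le, ?_⟩, hp1, by exact_mod_cast h4 p hp1 hp2⟩
      rw [Nat.floor_natCast]
      exact (Nat.le_of_dvd h5 hp2).trans h6⟩
    rw [Set.indicator_of_mem this, one_div]
    rfl
  refine h1.trans ?_
  rw [filter_true_of_mem fun p hp => (mem_pr.1 hp).2.1]
  have h3 : ∏ p ∈ pr z M, (1 - invH p)⁻¹ ≤
      Real.exp (∑ p ∈ pr z M, (1 / (p : ℝ) + 2 * ((p : ℝ) ^ 2)⁻¹)) := by
    rw [Real.exp_sum]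
    refine prod_le_prod (fun p hp => ?_) fun p hp => ?_
    · have := hlt (mem_pr.1 hp).2.1
      rw [Real.norm_of_nonneg (hf0 p)] at this
      exact inv_nonneg.2 (by linarith)
    · have h0 : (2 : ℝ) ≤ p := by exact_mod_cast (mem_pr.1 hp).2.1.two_le
      refine le_trans ?_ (Real.add_one_le_exp _)
      show (1 - (p : ℝ)⁻¹)⁻¹ ≤ _
      have e : (1 - (p : ℝ)⁻¹)⁻¹ = p / (p - 1) := by
        have : (p : ℝ) - 1 ≠ 0 := by linarith
        field_simp
      rw [e, div_le_iff₀ (by linarith)]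
      have e2 : (1 / (p : ℝ) + 2 * ((p : ℝ) ^ 2)⁻¹ + 1) * (p - 1) = p + (p - 2) / p ^ 2 := by
        field_simp; ring
      rw [e2]
      have : 0 ≤ ((p : ℝ) - 2) / p ^ 2 := div_nonneg (by linarith) (by positivity)
      linarith
  refine h3.trans (Real.exp_le_exp.2 ?_)
  rw [sum_add_distrib, ← mul_sum]
  have h4 : ∑ p ∈ pr z M, ((p : ℝ) ^ 2)⁻¹ ≤ ∑ p ∈ Ioc 1 (M + 1), ((p : ℝ) ^ 2)⁻¹ := by
    refine sum_le_sum_of_subset_of_nonneg (fun p hp => ?_) fun _ _ _ => by positivity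
    obtain ⟨⟨_, h5⟩, h6, _⟩ := mem_pr.1 hp
    rw [Nat.floor_natCast] at h5
    exact mem_Ioc.2 ⟨h6.one_lt, by omega⟩
  have h5 := sum_Ioc_inv_sq_le_sub (α := ℝ) (k := 1) (n := M + 1) (by norm_num) (by omega)
  have h6 : (0 : ℝ) ≤ ((M + 1 : ℕ) : ℝ)⁻¹ := by positivity
  simp only [Nat.cast_one, inv_one] at h5
  linarith

theorem log_sum (z M : ℕ) :
    ∑ N ∈ Ioc 0 M, rh z N * Real.log N ≤ 6 * M * ∑ m ∈ Ioc 0 M, rh z m / m := by
  have h1 := conv z M (fun n => if n ≤ M then 1 else 0) (fun n hn => if_neg (by omega))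
  have h2 : ∑ N ∈ Ioc 0 M, rh z N * Real.log N =
      ∑ N ∈ Ioc 0 M, rh z N * Real.log N * (if N ≤ M then 1 else 0) :=
    sum_congr rfl fun N hN => by rw [if_pos (mem_Ioc.1 hN).2, mul_one]
  rw [h2, h1, mul_sum]
  refine sum_le_sum fun m hm => ?_
  have hm1 : (1 : ℝ) ≤ m := by exact_mod_cast (mem_Ioc.1 hm).1
  have hp := Chebyshev.psi_le_const_mul_self (x := (M : ℝ) / m) (by positivity)
  have h4 : Real.log 4 ≤ 2 := by
    rw [show (4 : ℝ) = 2 ^ 2 by norm_num, Real.log_pow]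
    have := Real.log_two_lt_d9
    push_cast; linarith
  have h5 : ∑ d ∈ Ioc 0 M, lr z d * (if m * d ≤ M then 1 else 0) ≤ Chebyshev.psi (M / m) := by
    unfold Chebyshev.psi
    have hsub : Ioc 0 ⌊(M : ℝ) / m⌋₊ ⊆ Ioc 0 M :=
      Ioc_subset_Ioc_right (Nat.floor_le_of_le (div_le_self (Nat.cast_nonneg _) hm1))
    rw [← sum_subset hsub]
    · refine sum_le_sum fun e _ => ?_
      split_ifs
      · rw [mul_one]; exact lr_le _ _
      · rw [mul_zero]; exact vonMangoldt_nonneg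
    · intro e he he'
      rw [if_neg, mul_zero]
      intro h2
      have h2' : (m : ℝ) * e ≤ M := by exact_mod_cast h2
      refine he' (mem_Ioc.2 ⟨(mem_Ioc.1 he).1, Nat.le_floor ?_⟩)
      rw [le_div_iff₀ (by linarith)]; linarith
  have h6 : (0 : ℝ) ≤ (M : ℝ) / m := by positivity
  calc ∑ d ∈ Ioc 0 M, rh z m * lr z d * (if m * d ≤ M then 1 else 0)
      = rh z m * ∑ d ∈ Ioc 0 M, lr z d * (if m * d ≤ M then 1 else 0) := by
        rw [mul_sum]; exact sum_congr rfl fun d _ => mul_assoc _ _ _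
    _ ≤ rh z m * (6 * (M / m)) :=
        mul_le_mul_of_nonneg_left (h5.trans (hp.trans (by nlinarith))) (rh_nonneg _ _)
    _ = _ := by ring

open Classical in
theorem count (z K : ℕ) {y : ℝ} (hy : 1 ≤ y) (hK : 4 * y ≤ K) :
    (((Icc 1 ⌊4 * y⌋₊).filter (fun m : ℕ => y < m ∧ rough z m)).card : ℝ) * Real.log y ≤
      24 * y * ∑ m ∈ (Icc 1 K).filter (rough z), 1 / (m : ℝ) := by
  have h1 := log_sum z ⌊4 * y⌋₊
  have e : ∀ M : ℕ, Icc 1 M = Ioc 0 M := fun M => by
    ext n; simp only [mem_Icc, mem_Ioc]; omega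
  have h2 : ∑ m ∈ Ioc 0 ⌊4 * y⌋₊, rh z m / m ≤ ∑ m ∈ (Icc 1 K).filter (rough z), 1 / (m : ℝ) := by
    rw [sum_filter, e]
    refine le_trans (le_of_eq (sum_congr rfl fun m _ => ?_))
      (sum_le_sum_of_subset_of_nonneg (Ioc_subset_Ioc_right (Nat.floor_le_of_le hK))
        fun m _ _ => by split_ifs <;> positivity)
    unfold rh
    split_ifs <;> simp
  have h3 : (((Icc 1 ⌊4 * y⌋₊).filter (fun m : ℕ => y < m ∧ rough z m)).card : ℝ) * Real.log y ≤
      ∑ N ∈ Ioc 0 ⌊4 * y⌋₊, rh z N * Real.log N := by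
    rw [card_filter, e]
    push_cast
    rw [sum_mul]
    refine sum_le_sum fun m _ => ?_
    split_ifs with h
    · rw [rh_of h.2]
      exact mul_le_mul_of_nonneg_left (Real.log_le_log (by linarith) h.1.le) zero_le_one
    · rw [zero_mul]
      exact mul_nonneg (rh_nonneg _ _) (Real.log_natCast_nonneg _)
  have h4 : (⌊4 * y⌋₊ : ℝ) ≤ 4 * y := Nat.floor_le (by linarith)
  refine h3.trans (h1.trans (mul_le_mul (by linarith) h2 ?_ (by linarith)))
  exact sum_nonneg fun m _ => div_nonneg (rh_nonneg _ _) (Nat.cast_nonneg _)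

end RoughAux

open RoughAux in
theorem roughOK : RoughStmt := by
  classical
  obtain ⟨C, hC, hM, -⟩ := Crest.Agent.R5.mertens
  obtain ⟨D, hD⟩ : ∃ D : ℝ, D = 4 * Real.exp (C + 2) := ⟨_, rfl⟩
  have hD0 : 0 < D := by rw [hD]; positivity
  refine ⟨96 * D, by positivity, fun η hη hη' => ?_⟩
  have tl : Tendsto (fun x : ℕ => η * Real.log x) atTop atTop :=
    (Real.tendsto_log_atTop.comp tendsto_natCast_atTop_atTop).const_mul_atTop hη
  have t1 : Tendsto (fun x : ℕ => (x : ℝ) ^ η) atTop atTop :=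
    (tendsto_rpow_atTop hη).comp tendsto_natCast_atTop_atTop
  filter_upwards [tl.eventually_ge_atTop 2, t1.eventually_ge_atTop 2, eventually_ge_atTop 8]
    with x hL h2 hx8
  have hx : (8 : ℝ) ≤ x := by exact_mod_cast hx8
  have hx0 : (0 : ℝ) < x := by linarith
  have hL0 : 0 < Real.log x := Real.log_pos (by linarith)
  have hz2 : (2 : ℝ) ≤ zz η x := by exact_mod_cast (Nat.le_floor h2 : 2 ≤ zz η x)
  have hzle : (zz η x : ℝ) ≤ ((8 * x : ℕ) : ℝ) := by
    have h1 : (zz η x : ℝ) ≤ (x : ℝ) ^ η := Nat.floor_le (by positivity)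
    have h3 : (x : ℝ) ^ η ≤ (x : ℝ) ^ (1 : ℝ) :=
      Real.rpow_le_rpow_of_exponent_le (by linarith) (by linarith)
    rw [Real.rpow_one] at h3
    push_cast; linarith
  have hzge : (x : ℝ) ^ η ≤ 2 * zz η x := by
    have := Nat.lt_floor_add_one ((x : ℝ) ^ η)
    change _ < (zz η x : ℝ) + 1 at this
    linarith
  have l1 := Real.log_le_log (by positivity) hzge
  rw [Real.log_rpow hx0, Real.log_mul (by norm_num) (by linarith)] at l1
  have l2 := Real.log_two_lt_d9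
  have l3 : η * Real.log x / 2 ≤ Real.log (zz η x) := by linarith
  have l4 : Real.log ((8 * x : ℕ) : ℝ) ≤ 2 * Real.log x := by
    push_cast
    rw [Real.log_mul (by norm_num) hx0.ne']
    have := Real.log_le_log (by norm_num) hx
    linarith
  have l5 : 0 < Real.log ((8 * x : ℕ) : ℝ) := Real.log_pos (by linarith)
  have m1 := (abs_le.1 (hM _ _ hz2 hzle)).2
  have m2 : C / Real.log (zz η x) ≤ C := div_le_self (by linarith) (by linarith)
  have main : ∑ m ∈ (Icc 1 (8 * x)).filter (rough (zz η x)), 1 / (m : ℝ) ≤ D / η := by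
    refine le_trans (by convert euler (zz η x) (8 * x)) ?_
    calc Real.exp (∑ p ∈ pr (zz η x) ((8 * x : ℕ) : ℝ), 1 / (p : ℝ) + 2)
        ≤ Real.exp (Real.log (Real.log ((8 * x : ℕ) : ℝ)) - Real.log (Real.log (zz η x)) +
          (C + 2)) := Real.exp_le_exp.2 (by linarith)
      _ = Real.log ((8 * x : ℕ) : ℝ) / Real.log (zz η x) * Real.exp (C + 2) := by
          rw [Real.exp_add, Real.exp_sub, Real.exp_log l5, Real.exp_log (by linarith)]
      _ ≤ (2 * Real.log x) / (η * Real.log x / 2) * Real.exp (C + 2) :=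
          mul_le_mul_of_nonneg_right (div_le_div₀ (by linarith) l4 (by linarith) l3)
            (Real.exp_pos _).le
      _ = D / η := by rw [hD]; field_simp; ring
  refine ⟨le_trans (by convert main) (div_le_div_of_nonneg_right (by linarith) hη.le),
    fun y hy1 hy2 => ?_⟩
  have hy0 : 1 ≤ y := (Real.one_le_rpow (by linarith) (by norm_num)).trans hy1
  have c1 := count (zz η x) (8 * x) hy0 (by push_cast; linarith)
  have c2 := Real.log_le_log (by positivity) hy1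
  rw [Real.log_rpow hx0] at c2
  have c3 := c1.trans (mul_le_mul_of_nonneg_left (by convert main) (by linarith))
  have c4 := (mul_le_mul_of_nonneg_left c2 (Nat.cast_nonneg _)).trans c3
  rw [le_div_iff₀ (by positivity)]
  have c5 := mul_le_mul_of_nonneg_left c4 (show 0 ≤ 4 * η by linarith)
  have e : 4 * η * (24 * y * (D / η)) = 96 * D * y := by field_simp; ring
  rw [e] at c5
  refine le_trans (le_of_eq ?_) c5
  ring

end Crest.Agent.R26
end

-- ▼ part PVc/R26/Count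
section

/-! Row 26: interval against period. -/

set_option autoImplicit false

namespace Crest.Agent.R26

open Finset Filter
open Crest.Agent.R5 (pr pd ee nit)

namespace Cnt

/-- zero, or the indicator of a class modulo a divisor of `N` -/
def Cyl (N : ℕ) (φ : ℕ → ℝ) : Prop :=
  (∀ j, φ j = 0) ∨ ∃ q r : ℕ, q ∣ N ∧ ∀ j, φ j = if j ≡ r [MOD q] then 1 else 0

theorem lcm_iff (a b m n : ℕ) : a ≡ b [MOD Nat.lcm m n] ↔ a ≡ b [MOD m] ∧ a ≡ b [MOD n] := by
  simp only [Nat.modEq_iff_dvd]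
  rw [← Int.coe_lcm_dvd_iff]
  rfl

theorem Cyl.one (N : ℕ) : Cyl N fun _ => 1 :=
  Or.inr ⟨1, 0, one_dvd _, fun j => by rw [if_pos Nat.modEq_one]⟩

theorem Cyl.mul {N : ℕ} {φ ψ : ℕ → ℝ} (h : Cyl N φ) (h' : Cyl N ψ) :
    Cyl N fun j => φ j * ψ j := by
  rcases h with h | ⟨q, r, hq, h⟩
  · exact Or.inl fun j => by simp [h]
  rcases h' with h' | ⟨q', r', hq', h'⟩
  · exact Or.inl fun j => by simp [h']
  by_cases e : ∃ j₀, j₀ ≡ r [MOD q] ∧ j₀ ≡ r' [MOD q']
  · obtain ⟨j₀, e1, e2⟩ := e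
    refine Or.inr ⟨Nat.lcm q q', j₀, Nat.lcm_dvd hq hq', fun j => ?_⟩
    have : j ≡ j₀ [MOD Nat.lcm q q'] ↔ j ≡ r [MOD q] ∧ j ≡ r' [MOD q'] := by
      rw [lcm_iff]
      exact ⟨fun a => ⟨a.1.trans e1, a.2.trans e2⟩, fun a => ⟨a.1.trans e1.symm, a.2.trans e2.symm⟩⟩
    simp only [h, h', this]
    by_cases a : j ≡ r [MOD q] <;> by_cases b : j ≡ r' [MOD q'] <;> simp [a, b]
  · refine Or.inl fun j => ?_
    simp only [h, h']
    split_ifs with a b
    · exact absurd ⟨j, a, b⟩ e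
    all_goals simp

theorem Cyl.single {N p : ℕ} (hp : p ∣ N) (c : ℕ) : Cyl N fun j => if j % p = c then 1 else 0 := by
  by_cases e : ∃ j₀, j₀ % p = c
  · obtain ⟨j₀, rfl⟩ := e
    exact Or.inr ⟨p, j₀, hp, fun j => rfl⟩
  · exact Or.inl fun j => if_neg fun h => e ⟨j, h⟩

theorem Cyl.all {N : ℕ} (c : ℕ → ℕ) (T : Finset ℕ) (hT : ∀ p ∈ T, p ∣ N) :
    Cyl N fun j => if ∀ p ∈ T, j % p = c p then 1 else 0 := by
  induction T using Finset.induction_on with
  | empty => simpa using Cyl.one N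
  | insert p T _ ih =>
    have := (Cyl.single (hT p (mem_insert_self _ _)) (c p)).mul
      (ih fun q hq => hT q (mem_insert_of_mem hq))
    convert this using 2 with j
    simp only [forall_mem_insert]
    by_cases a : j % p = c p <;> by_cases b : ∀ q ∈ T, j % q = c q <;> simp [a, b]

/-- the discrepancy functional -/
noncomputable def disc (W N : ℕ) (φ : ℕ → ℝ) : ℝ :=
  ∑ j ∈ range W, φ j - W * ((∑ j ∈ range N, φ j) / N)

theorem disc_sum {σ : Type} (W N : ℕ) (V : Finset σ) (a : σ → ℝ) (φ : σ → ℕ → ℝ) :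
    disc W N (fun j => ∑ v ∈ V, a v * φ v j) = ∑ v ∈ V, a v * disc W N (φ v) := by
  simp only [disc, mul_sub, sum_sub_distrib]
  rw [sum_comm, sum_comm (s := range N)]
  simp only [← mul_sum]
  rw [sum_div, mul_sum]
  congr 1
  exact sum_congr rfl fun v _ => by ring

theorem sum_ind (W q r : ℕ) : ∑ j ∈ range W, (if j ≡ r [MOD q] then (1 : ℝ) else 0) =
    (W.count (· ≡ r [MOD q]) : ℕ) := by
  rw [Nat.count_eq_card_filter_range, sum_boole]

theorem Cyl.disc_le {W N : ℕ} (hN : 0 < N) {φ : ℕ → ℝ} (h : Cyl N φ) : |disc W N φ| ≤ 1 := by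
  rcases h with h | ⟨q, r, ⟨m, rfl⟩, h⟩
  · simp [disc, h]
  have hq : 0 < q := Nat.pos_of_mul_pos_right hN
  have hm : 0 < m := Nat.pos_of_mul_pos_left hN
  have hq' : (0 : ℝ) < q := by exact_mod_cast hq
  have hm' : (0 : ℝ) < m := by exact_mod_cast hm
  simp only [disc, h, sum_ind, Nat.count_modEq_card _ hq, Nat.mul_mod_right, Nat.not_lt_zero,
    if_false, add_zero, Nat.mul_div_cancel_left _ hq]
  have e : (W : ℝ) * ((m : ℝ) / ((q * m : ℕ) : ℝ)) = W / q := by
    push_cast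
    field_simp
  have h1 : ((W / q : ℕ) : ℝ) ≤ W / q := Nat.cast_div_le
  have h2 : (W : ℝ) / q < (W / q : ℕ) + 1 := by
    rw [div_lt_iff₀ hq']
    exact_mod_cast (Nat.div_lt_iff_lt_mul hq).1 (Nat.lt_succ_self _)
  rw [e, abs_le]
  split_ifs <;> push_cast at * <;> constructor <;> linarith

theorem pw_nonneg {σ : Type} [DecidableEq σ] (V : Finset σ) (K : σ → σ → ℝ) (n : ℕ) (v v' : σ) :
    0 ≤ pw V (fun a b => |K a b|) n v v' := by
  induction n generalizing v' with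
  | zero => simp only [pw]; split_ifs <;> norm_num
  | succ n ih => exact sum_nonneg fun w _ => mul_nonneg (ih w) (abs_nonneg _)

theorem pw_row {σ : Type} [DecidableEq σ] {V : Finset σ} {K : σ → σ → ℝ} {ρ : ℝ} (hρ : 0 ≤ ρ)
    (h : ∀ v ∈ V, ∑ v' ∈ V, |K v v'| ≤ ρ) (n : ℕ) {v : σ} (hv : v ∈ V) :
    ∑ v' ∈ V, pw V (fun a b => |K a b|) n v v' ≤ ρ ^ n := by
  induction n with
  | zero => simp [pw, hv]
  | succ n ih =>
    simp only [pw]
    rw [sum_comm]
    calc _ ≤ ∑ w ∈ V, pw V (fun a b => |K a b|) n v w * ρ := sum_le_sum fun w hw => by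
          rw [← mul_sum]
          exact mul_le_mul_of_nonneg_left (h w hw) (pw_nonneg V K n v w)
      _ ≤ ρ ^ (n + 1) := by
          rw [← sum_mul, pow_succ]
          exact mul_le_mul_of_nonneg_right ih hρ

theorem main {σ : Type} [DecidableEq σ] {V : Finset σ} {bk : σ → Finset ℕ} {cl : σ → ℕ → ℕ}
    (K : σ → σ → ℝ) (W : ℕ) {N : ℕ} (hN : 0 < N) (hfit : ∀ v ∈ V, Cyl N fun j => fit bk cl j v)
    (v : σ) (n : ℕ) : ∀ φ, Cyl N φ → ∀ v' ∈ V,
      |disc W N fun j => φ j * pw V (kj bk cl K j) n v v'| ≤ pw V (fun a b => |K a b|) n v v' := by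
  induction n with
  | zero =>
    intro φ hφ v' _
    simp only [pw]
    split_ifs
    · simpa using hφ.disc_le hN
    · simp [disc]
  | succ n ih =>
    intro φ hφ v' hv'
    have e : (fun j => φ j * pw V (kj bk cl K j) (n + 1) v v') = fun j => ∑ w ∈ V, K w v' *
        (φ j * fit bk cl j w * fit bk cl j v' * pw V (kj bk cl K j) n v w) := by
      funext j
      simp only [pw, mul_sum]
      exact sum_congr rfl fun w _ => by rw [kj]; ring
    rw [e, disc_sum]
    refine (abs_sum_le_sum_abs _ _).trans (sum_le_sum fun w hw => ?_)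
    rw [abs_mul, mul_comm]
    exact mul_le_mul_of_nonneg_right
      (ih _ ((hφ.mul (hfit w hw)).mul (hfit v' hv')) w hw) (abs_nonneg _)

end Cnt

theorem count : CountStmt := by
  intro σ _ S V bk cl K Jd n W ρ hA hρ hK v hv
  have hN : 0 < pd S := prod_pos fun p hp => (hA.prime p hp).pos
  have h := Cnt.main K W hN (bk := bk) (cl := cl) (V := V) (fun w hw => Cnt.Cyl.all (cl w) (bk w)
    fun p hp => dvd_prod_of_mem (fun q => q) (hA.sub w hw hp)) v n _ (Cnt.Cyl.one _) v hv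
  simp only [one_mul] at h
  exact h.trans ((single_le_sum (fun w _ => Cnt.pw_nonneg V K n v w) hv).trans
    (Cnt.pw_row hρ hK n hv))

end Crest.Agent.R26
end

-- ▼ part PVc/R26/Box1
section

/-! Row 26: boxes of density zero. -/

set_option autoImplicit false

namespace Crest.Agent.R26

open Finset Filter
open Crest.Agent.R5 (pr pd ee nit)

namespace Box1

open ArithmeticFunction (vonMangoldt)

/-- the convolution of `c` with `lr z` -/
noncomputable def cv (N z : ℕ) (c : ℕ → ℝ) (b : ℕ) : ℝ :=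
  ∑ m ∈ Icc 1 N, ∑ d ∈ Icc 1 N, if m * d = b then c m * lr z d else 0

theorem sum_cv (N z : ℕ) (c F : ℕ → ℝ) (T : Finset ℕ) :
    ∑ b ∈ T, cv N z c b * F b =
      ∑ m ∈ Icc 1 N, ∑ d ∈ Icc 1 N, if m * d ∈ T then c m * lr z d * F (m * d) else 0 := by
  simp only [cv, sum_mul, ite_mul, zero_mul]
  rw [sum_comm]
  refine sum_congr rfl fun m _ => ?_
  rw [sum_comm]
  exact sum_congr rfl fun d _ => sum_ite_eq _ _ _

theorem lr_nonneg (z d : ℕ) : 0 ≤ lr z d := by
  unfold lr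
  split_ifs
  · exact ArithmeticFunction.vonMangoldt_nonneg
  · exact le_rfl

theorem lr_le (z d : ℕ) : lr z d ≤ vonMangoldt d := by
  unfold lr
  split_ifs
  · exact le_rfl
  · exact ArithmeticFunction.vonMangoldt_nonneg

theorem abs_cv_le (N z : ℕ) {c : ℕ → ℝ} (hc : ∀ m, |c m| ≤ 1) (b : ℕ) :
    |cv N z c b| ≤ Real.log b := by
  rw [cv, ← sum_product', ← sum_filter, ← ArithmeticFunction.vonMangoldt_sum,
    ← Nat.sum_divisorsAntidiagonal' (fun _ d => vonMangoldt d)]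
  refine (abs_sum_le_sum_abs _ _).trans ((sum_le_sum fun p _ => ?_).trans
    (sum_le_sum_of_subset_of_nonneg (fun p hp => ?_)
      fun _ _ _ => ArithmeticFunction.vonMangoldt_nonneg))
  · rw [abs_mul, abs_of_nonneg (lr_nonneg _ _)]
    exact (mul_le_of_le_one_left (lr_nonneg _ _) (hc _)).trans (lr_le _ _)
  · simp only [mem_filter, mem_product, mem_Icc] at hp
    refine Nat.mem_divisorsAntidiagonal.2 ⟨hp.2, ?_⟩
    rw [← hp.2]
    exact Nat.mul_ne_zero (by omega) (by omega)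

/-- the prime number theorem in progressions, real form -/
def PsiR (δ C : ℝ) : Prop := ∀ (r a : ℕ) (y : ℝ), 1 ≤ r → Nat.Coprime a r → 1 ≤ y →
  |∑ n ∈ Ioc 0 ⌊y⌋₊, (if n ≡ a [MOD r] then vonMangoldt n else 0) - y / r.totient| ≤
    C * y ^ (1 - δ) * Real.log (2 * r)

theorem psiR (h : PsiStmt) : ∃ δ C : ℝ, 0 < δ ∧ δ ≤ 1 / 4 ∧ 0 < C ∧ PsiR δ C := by
  obtain ⟨δ, C, h1, h2, h3, h⟩ := h
  refine ⟨δ, C, h1, h2, h3, fun r a y hr ha hy => ?_⟩
  have h4 := h r a y 0 hr ha hy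
  rw [abs_zero, zero_add, mul_comm (r : ℝ)] at h4
  refine le_trans (le_of_eq ?_) h4
  rw [← sum_filter, ← Icc_add_one_left_eq_Ioc, zero_add, ← Real.norm_eq_abs, ← Complex.norm_real]
  simp [nit]

theorem rpow_le {δ z y Y : ℝ} (hδ : 0 ≤ δ) (hz : 0 < z) (h1 : z ≤ y) (h2 : y ≤ Y) :
    y ^ (1 - δ) ≤ Y * z ^ (-δ) := by
  have hy := hz.trans_le h1
  rw [sub_eq_add_neg, Real.rpow_add hy, Real.rpow_one]
  exact mul_le_mul h2 (Real.rpow_le_rpow_of_nonpos hz h1 (by linarith)) (by positivity)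
    (hy.le.trans h2)

theorem one_m {δ C : ℝ} (hδ : 0 < δ) (hδ' : δ ≤ 1 / 4) (hC : 0 < C) (hψ : PsiR δ C)
    {N z q m ν y₁ y₂ : ℕ} (hq : 1 ≤ q) (hqz : q ≤ z) (hqN : 2 * q ≤ N) (hm : 1 ≤ m)
    (hr : rough z m) (hν : ν.Coprime q) (h1 : z * m ≤ y₁) (h12 : y₁ ≤ y₂) (hN : y₂ ≤ N) :
    |∑ d ∈ Icc 1 N, (if m * d ∈ (Ioc y₁ y₂).filter (fun b => b ≡ ν [MOD q]) then lr z d else 0) -
      ((y₂ : ℝ) - y₁) / q.totient / m| ≤ (2 * C + 2) * Real.log N * y₂ * (z : ℝ) ^ (-δ) / m := by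
  have hmq : m.Coprime q := Nat.coprime_of_dvd fun p hp h2 h3 =>
    absurd (hr p hp h2) (not_lt.2 ((Nat.le_of_dvd hq h3).trans hqz))
  obtain ⟨a, -, ha⟩ := Nat.exists_mul_mod_eq_of_coprime ν hmq (by omega)
  have ha' : m * a ≡ ν [MOD q] := ha
  have haq : a.Coprime q := Nat.Coprime.coprime_mul_left (k := m) (ha'.gcd_eq.trans hν)
  have key : ∀ d, m * d ∈ (Ioc y₁ y₂).filter (fun b => b ≡ ν [MOD q]) ↔
      d ∈ Ioc (y₁ / m) (y₂ / m) ∧ d ≡ a [MOD q] := fun d => by
    rw [mem_filter, mem_Ioc, mem_Ioc, Nat.div_lt_iff_lt_mul hm, Nat.le_div_iff_mul_le hm,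
      mul_comm d]
    exact and_congr_right fun _ => ⟨fun h => Nat.ModEq.cancel_left_of_coprime hmq.symm
      (h.trans ha'.symm), fun h => (h.mul_left m).trans ha'⟩
  have e1 : ∑ d ∈ Icc 1 N,
      (if m * d ∈ (Ioc y₁ y₂).filter (fun b => b ≡ ν [MOD q]) then lr z d else 0) =
      ∑ d ∈ Ioc (y₁ / m) (y₂ / m), if d ≡ a [MOD q] then lr z d else 0 := by
    refine sum_congr_of_eq_on_inter (fun d _ hd => if_neg fun h => hd ((key d).1 h).1)
      (fun d hd hd' => absurd (mem_Icc.2 ?_) hd') fun d _ hd => ?_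
    · exact ⟨(Nat.zero_le _).trans_lt (mem_Ioc.1 hd).1,
        (mem_Ioc.1 hd).2.trans ((Nat.div_le_self y₂ m).trans hN)⟩
    · simp only [key, hd, true_and]
  have hz : z ≤ y₁ / m := (Nat.le_div_iff_mul_le hm).2 h1
  have hm0 : (0 : ℝ) < m := by exact_mod_cast hm
  have hz1 : (1 : ℝ) ≤ z := by exact_mod_cast hq.trans hqz
  have r1 : (z : ℝ) ≤ y₁ / m := by
    rw [le_div_iff₀ hm0]
    exact_mod_cast h1
  have r2 : (y₁ : ℝ) / m ≤ y₂ / m := div_le_div_of_nonneg_right (by exact_mod_cast h12) hm0.le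
  have r3 : (y₂ : ℝ) / m ≤ N :=
    (div_le_self (Nat.cast_nonneg _) (by exact_mod_cast hm)).trans (by exact_mod_cast hN)
  have p1 := hψ q a _ hq haq (hz1.trans r1)
  have p2 := hψ q a _ hq haq (hz1.trans (r1.trans r2))
  have p3 := Chebyshev.psi_sub_theta_le (hz1.trans (r1.trans r2))
  rw [Chebyshev.psi_sub_theta_eq_sum_not_prime] at p3
  rw [Nat.floor_div_eq_div] at p1 p2 p3
  have e2 := sum_Ioc_consecutive (fun n => if n ≡ a [MOD q] then vonMangoldt n else 0)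
    (Nat.zero_le (y₁ / m)) (Nat.div_le_div_right (c := m) h12)
  have a1 : ∑ d ∈ Ioc (y₁ / m) (y₂ / m), (if d ≡ a [MOD q] then lr z d else 0) ≤
      ∑ d ∈ Ioc (y₁ / m) (y₂ / m), if d ≡ a [MOD q] then vonMangoldt d else 0 :=
    sum_le_sum fun d _ => by
      split_ifs
      · exact lr_le _ _
      · exact le_rfl
  have a2 : ∑ d ∈ Ioc (y₁ / m) (y₂ / m), (if d ≡ a [MOD q] then vonMangoldt d else 0) -
      ∑ d ∈ Ioc (y₁ / m) (y₂ / m), (if d ≡ a [MOD q] then lr z d else 0) ≤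
      ∑ d ∈ Ioc 0 (y₂ / m) with ¬d.Prime, vonMangoldt d := by
    rw [← sum_sub_distrib]
    refine le_trans ?_ (sum_le_sum_of_subset_of_nonneg
      (filter_subset_filter _ (Ioc_subset_Ioc_left (Nat.zero_le (y₁ / m))))
      fun _ _ _ => ArithmeticFunction.vonMangoldt_nonneg)
    rw [sum_filter]
    refine sum_le_sum fun d hd => ?_
    have h0 : 0 ≤ vonMangoldt d := ArithmeticFunction.vonMangoldt_nonneg
    by_cases hp : d.Prime
    · have : rough z d := fun p hp' hd' => by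
        rw [(Nat.prime_dvd_prime_iff_eq hp' hp).1 hd']
        exact hz.trans_lt (mem_Ioc.1 hd).1
      rw [lr, if_pos this, sub_self, if_neg (not_not.2 hp)]
    · rw [if_pos hp]
      split_ifs
      · linarith [lr_nonneg z d]
      · linarith
  set E : ℝ := (y₂ : ℝ) / m * (z : ℝ) ^ (-δ) with hE
  have hE0 : 0 ≤ E := by positivity
  have l1 : Real.log (2 * q) ≤ Real.log N :=
    Real.log_le_log (by positivity) (by exact_mod_cast hqN)
  have l0 : 0 ≤ Real.log (2 * q) := Real.log_nonneg (by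
    have : (1 : ℝ) ≤ q := by exact_mod_cast hq
    linarith)
  have b : ∀ y : ℝ, z ≤ y → y ≤ y₂ / m →
      C * y ^ (1 - δ) * Real.log (2 * q) ≤ C * E * Real.log N := fun y u v =>
    mul_le_mul (mul_le_mul_of_nonneg_left (rpow_le hδ.le (by linarith) u v) hC.le) l1 l0
      (by positivity)
  have b3 : 2 * √((y₂ : ℝ) / m) * Real.log ((y₂ : ℝ) / m) ≤ 2 * E * Real.log N := by
    refine mul_le_mul (mul_le_mul_of_nonneg_left ?_ zero_le_two)
      (Real.log_le_log (by linarith) r3) (Real.log_nonneg (by linarith)) (by positivity)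
    rw [Real.sqrt_eq_rpow]
    exact (Real.rpow_le_rpow_of_exponent_le (by linarith) (by linarith)).trans
      (rpow_le hδ.le (by linarith) (r1.trans r2) le_rfl)
  have c1 := abs_le.1 (p1.trans (b _ r1 r2))
  have c2 := abs_le.1 (p2.trans (b _ (r1.trans r2) le_rfl))
  have e3 : ((y₂ : ℝ) - y₁) / q.totient / m = y₂ / m / q.totient - y₁ / m / q.totient := by ring
  have e4 : (2 * C + 2) * Real.log N * y₂ * (z : ℝ) ^ (-δ) / m =
      2 * (C * E * Real.log N) + 2 * E * Real.log N := by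
    rw [hE]
    ring
  have hl : 0 ≤ 2 * E * Real.log N := by
    have := l0.trans l1
    positivity
  rw [e1, e3, e4, abs_le]
  constructor <;> linarith [c1.1, c1.2, c2.1, c2.2]

theorem sw {δ C : ℝ} (hδ : 0 < δ) (hδ' : δ ≤ 1 / 4) (hC : 0 < C) (hψ : PsiR δ C)
    {N z q ν y₁ y₂ : ℕ} {c : ℕ → ℝ} (hq : 1 ≤ q) (hqz : q ≤ z) (hqN : 2 * q ≤ N)
    (hc : ∀ m, |c m| ≤ 1) (hs : ∀ m, c m ≠ 0 → rough z m ∧ z * m ≤ y₁)
    (hd : ∑ m ∈ Icc 1 N, c m / m = 0) (hN : y₂ ≤ N) :
    |∑ b ∈ (Ioc y₁ y₂).filter (fun b => b ≡ ν [MOD q]), cv N z c b| ≤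
      (2 * C + 2) * Real.log N * y₂ * (z : ℝ) ^ (-δ) * (1 + Real.log N) := by
  have hl : 0 ≤ Real.log N := Real.log_natCast_nonneg N
  rcases lt_or_ge y₂ y₁ with h12 | h12
  · rw [Ioc_eq_empty (by omega), filter_empty, sum_empty, abs_zero]
    positivity
  have e := sum_cv N z c (fun _ => 1) ((Ioc y₁ y₂).filter fun b => b ≡ ν [MOD q])
  simp only [mul_one, ← mul_ite_zero, ← mul_sum] at e
  rw [e]
  by_cases hν : ν.Coprime q
  · have hd' : ∑ m ∈ Icc 1 N, c m * (((y₂ : ℝ) - y₁) / q.totient / m) = 0 := by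
      rw [← mul_zero (((y₂ : ℝ) - y₁) / q.totient), ← hd, mul_sum]
      exact sum_congr rfl fun m _ => by ring
    refine le_trans (le_of_eq (congrArg _ (((sub_zero _).symm.trans
      (congrArg _ hd'.symm)).trans (sum_sub_distrib _ _).symm))) ?_
    have hh := harmonic_le_one_add_log N
    simp only [harmonic_eq_sum_Icc, Rat.cast_sum, Rat.cast_inv, Rat.cast_natCast] at hh
    refine (abs_sum_le_sum_abs _ _).trans (le_trans ?_
      (mul_le_mul_of_nonneg_left hh (by positivity)))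
    rw [mul_sum]
    refine sum_le_sum fun m hm => ?_
    by_cases h0 : c m = 0
    · rw [h0, zero_mul, zero_mul, sub_zero, abs_zero]
      positivity
    · have h1 := one_m hδ hδ' hC hψ hq hqz hqN (mem_Icc.1 hm).1 (hs m h0).1 hν (hs m h0).2 h12 hN
      rw [← div_eq_mul_inv, ← mul_sub, abs_mul]
      exact (mul_le_of_le_one_left (abs_nonneg _) (hc m)).trans h1
  · obtain ⟨p, hp, h1, h2⟩ := Nat.Prime.not_coprime_iff_dvd.1 hν
    have hpz : ¬ z < p := not_lt.2 ((Nat.le_of_dvd hq h2).trans hqz)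
    rw [sum_eq_zero fun m _ => ?_, abs_zero]
    · positivity
    by_cases h0 : c m = 0
    · rw [h0, zero_mul]
    refine mul_eq_zero_of_right _ (sum_eq_zero fun d _ => ?_)
    split_ifs with h
    · rcases (Nat.Prime.dvd_mul hp).1 (((mem_filter.1 h).2.dvd_iff h2).2 h1) with h3 | h3
      · exact absurd ((hs m h0).1 p hp h3) hpz
      · exact if_neg fun hr => hpz (hr p hp h3)
    · rfl

theorem ev {η δ K : ℝ} (hη : 0 < η) (hη' : η ≤ 1) (hδ : 0 < δ) (hδ' : δ ≤ 1) (hK : 0 < K) (k : ℕ) :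
    ∀ᶠ x : ℕ in atTop, 2 ≤ x ∧ 1 ≤ Real.log x ∧ 1 ≤ zz η x ∧ zz η x ≤ x ∧
      K * Real.log x ^ k ≤ (zz η x : ℝ) ^ δ := by
  have h1 := tendsto_natCast_atTop_atTop.eventually
    ((isLittleO_log_rpow_rpow_atTop (k : ℝ) (mul_pos hη hδ)).bound
      (show 0 < 1 / (2 * K) by positivity))
  have h2 := (Real.tendsto_log_atTop.comp tendsto_natCast_atTop_atTop).eventually_ge_atTop 1
  filter_upwards [h1, h2, eventually_ge_atTop 2] with x a1 a2 a3
  have a2' : 1 ≤ Real.log x := a2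
  have hx : (1 : ℝ) ≤ x := by exact_mod_cast (by omega : 1 ≤ x)
  have b1 : 1 ≤ (x : ℝ) ^ η := Real.one_le_rpow hx hη.le
  have b2 : 1 ≤ zz η x := Nat.le_floor (by exact_mod_cast b1)
  have b3 : (x : ℝ) ^ η ≤ 2 * zz η x := by
    have := Nat.lt_floor_add_one ((x : ℝ) ^ η)
    have b4 : (1 : ℝ) ≤ zz η x := by exact_mod_cast b2
    unfold zz at *
    linarith
  refine ⟨a3, a2', b2, ?_, ?_⟩
  · refine Nat.floor_le_of_le ?_
    simpa using Real.rpow_le_rpow_of_exponent_le hx hη'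
  · rw [Real.norm_of_nonneg (by positivity), Real.norm_of_nonneg (by positivity),
      Real.rpow_natCast, Real.rpow_mul (by positivity)] at a1
    have b4 := Real.rpow_le_rpow (by positivity) b3 hδ.le
    rw [Real.mul_rpow zero_le_two (by positivity)] at b4
    have b5 : (2 : ℝ) ^ δ ≤ 2 := by
      simpa using Real.rpow_le_rpow_of_exponent_le one_le_two hδ'
    have b6 := b4.trans (mul_le_mul_of_nonneg_right b5 (by positivity))
    calc K * Real.log x ^ k ≤ K * (1 / (2 * K) * (2 * (zz η x : ℝ) ^ δ)) :=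
          mul_le_mul_of_nonneg_left
            (a1.trans (mul_le_mul_of_nonneg_left b6 (by positivity))) hK.le
      _ = _ := by field_simp

theorem box_eq {η δ : ℝ} {x A : ℕ} {α c : ℕ → ℝ} (h : BoxOK η δ x A α c) (s : ℕ → ℝ) :
    box η x s α c = ∑ a ∈ Ioc A (2 * A), ∑ b ∈ Icc 1 (2 * x),
      if a * b ∈ Ioc x (2 * x) then α a * cv (2 * x) (zz η x) c b * s (a * b) else 0 := by
  refine sum_congr_of_eq_on_inter (fun a _ ha => ?_) (fun a ha ha' => ?_) fun a ha _ => ?_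
  · have : α a = 0 := by
      by_contra h0
      exact ha (mem_Ioc.2 ⟨(h.α_supp a h0).1, (h.α_supp a h0).2.1⟩)
    simp [this]
  · refine sum_eq_zero fun b hb => if_neg fun hab => ha' (mem_Icc.2 ⟨?_, ?_⟩)
    · have := (mem_Ioc.1 ha).1
      omega
    · exact (Nat.le_mul_of_pos_right a (mem_Icc.1 hb).1).trans (mem_Ioc.1 hab).2
  · have e := sum_cv (2 * x) (zz η x) c
      (fun b => if a * b ∈ Ioc x (2 * x) then α a * s (a * b) else 0) (Icc 1 (2 * x))
    refine Eq.trans ?_ (e.symm.trans (sum_congr rfl fun b _ => ?_))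
    · refine sum_congr rfl fun m hm => sum_congr rfl fun d hd => ?_
      rw [mul_assoc a]
      by_cases h1 : a * (m * d) ∈ Ioc x (2 * x)
      · rw [if_pos h1, if_pos h1, if_pos (mem_Icc.2 ⟨Nat.mul_pos (mem_Icc.1 hm).1 (mem_Icc.1 hd).1,
          (Nat.le_mul_of_pos_left _ (mem_Icc.1 ha).1).trans (mem_Ioc.1 h1).2⟩)]
        ring
      · rw [if_neg h1, if_neg h1, mul_zero, ite_self]
    · split_ifs
      · ring
      · exact mul_zero _

end Box1

open Box1 in
theorem box1 : PsiStmt → Box1Stmt := by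
  intro hψ η δ k hη hη' hδ
  obtain ⟨δ₀, C, h1, h2, hC, hψ⟩ := psiR hψ
  filter_upwards [ev hη (by linarith) h1 (by linarith) (show 0 < 12 * C + 12 by positivity)
    (k + 1)] with x ⟨x2, hL, z1, zx, hz⟩ s hs A α c h hd
  have hx : (2 : ℝ) ≤ x := by exact_mod_cast x2
  set L := Real.log x with hLd
  have l2 : Real.log ((2 * x : ℕ) : ℝ) ≤ 2 * L := by
    rw [Nat.cast_mul, Real.log_mul (by norm_num) (by positivity), two_mul]
    exact add_le_add_left (Real.log_le_log (by norm_num) (by exact_mod_cast x2)) _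
  have hA := h.A_ge
  have hA' : (0 : ℝ) < A := by exact_mod_cast hA
  have z1' : (1 : ℝ) ≤ zz η x := by exact_mod_cast z1
  have key := hs A α (fun b => if b ≤ 2 * x then cv (2 * x) (zz η x) c b / (2 * L) else 0) hA
    h.A_le h.α_le (fun b => ?_) (fun a ha => (h.α_supp a ha).2.2) fun q ν y₁ y₂ hq hqL hy₁ hy₂ => ?_
  · have e : box η x s α c = 2 * L * ∑ a ∈ Ioc A (2 * A), ∑ b ∈ Icc 1 (2 * x),
        if a * b ∈ Ioc x (2 * x) then α a *
          (if b ≤ 2 * x then cv (2 * x) (zz η x) c b / (2 * L) else 0) * s (a * b) else 0 := by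
      rw [box_eq h, mul_sum]
      refine sum_congr rfl fun a _ => ?_
      rw [mul_sum]
      refine sum_congr rfl fun b hb => ?_
      rw [if_pos (mem_Icc.1 hb).2]
      split_ifs
      · field_simp
      · exact (mul_zero _).symm
    rw [e, abs_mul, abs_of_pos (by positivity : 0 < 2 * L)]
    refine (mul_le_mul_of_nonneg_left key (by positivity)).trans_eq ?_
    rw [← hLd]
    field_simp
  · split_ifs with hb
    · rw [abs_div, abs_of_pos (by positivity : 0 < 2 * L), div_le_one (by positivity)]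
      refine (abs_cv_le _ _ h.c_le b).trans (le_trans ?_ l2)
      rcases Nat.eq_zero_or_pos b with rfl | hb0
      · rw [Nat.cast_zero, Real.log_zero]
        exact Real.log_natCast_nonneg _
      · exact Real.log_le_log (by exact_mod_cast hb0) (by exact_mod_cast hb)
    · rw [abs_zero]
      exact zero_le_one
  · have hN : y₂ ≤ 2 * x := hy₂.trans (Nat.div_le_self _ _)
    have hLk : 0 < L ^ k := by positivity
    have hqz : q ≤ zz η x := by
      have a1 : (zz η x : ℝ) ^ δ₀ ≤ zz η x := by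
        simpa using Real.rpow_le_rpow_of_exponent_le z1' (show δ₀ ≤ 1 by linarith)
      have a2 : L ^ k ≤ (12 * C + 12) * L ^ (k + 1) :=
        (pow_le_pow_right₀ hL (Nat.le_succ k)).trans
          (le_mul_of_one_le_left (by positivity) (by linarith))
      exact_mod_cast hqL.trans (a2.trans (hz.trans a1))
    have a1 := sw (ν := ν) h1 h2 hC hψ hq hqz (show 2 * q ≤ 2 * x by omega) h.c_le
      (fun m hm => ⟨(h.c_supp m hm).2.1, le_trans ((Nat.le_div_iff_mul_le (by omega)).2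
        ((le_of_eq (by ring)).trans (h.c_supp m hm).2.2)) hy₁⟩) hd hN
    rw [sum_congr rfl fun b hb => if_pos ((mem_Ioc.1 (mem_filter.1 hb).1).2.trans hN), ← sum_div,
      abs_div, abs_of_pos (by positivity : 0 < 2 * L), div_le_iff₀ (by positivity)]
    refine a1.trans ?_
    have a2 : (y₂ : ℝ) ≤ 2 * (x / A) := by
      refine le_trans (by exact_mod_cast hy₂) (Nat.cast_div_le.trans_eq ?_)
      push_cast
      ring
    have a3 : (zz η x : ℝ) ^ (-δ₀) ≤ ((12 * C + 12) * L ^ (k + 1))⁻¹ := by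
      rw [Real.rpow_neg (by positivity)]
      exact inv_anti₀ (by positivity) hz
    have a4 := Real.log_natCast_nonneg (2 * x)
    calc _ ≤ (2 * C + 2) * (2 * L) * (2 * (x / A)) * ((12 * C + 12) * L ^ (k + 1))⁻¹ * (3 * L) := by
          gcongr
          linarith
      _ = _ := by
          rw [← hLd]
          field_simp
          ring

end Crest.Agent.R26
end

-- ▼ part PVc/R26/AsmAux2
section

/-! Row 26, `Asm`: the error terms. -/

set_option autoImplicit false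

namespace Crest.Agent.R26

open Finset Filter

namespace AsmAux

open ArithmeticFunction

/-- the standing hypotheses -/
structure H (x z : ℕ) (g : ℕ → ℝ) (W y0 : ℝ) : Prop where
  g1 : ∀ n, |g n| ≤ 1
  g0 : ∀ n, g n ≠ 0 → x < n ∧ n ≤ 2 * x
  cnt : ∀ y : ℝ, y0 ≤ y → y ≤ 2 * x →
    ∑ m ∈ Ioc 0 (2 * x), (if y < m ∧ (m : ℝ) ≤ 4 * y then rh z m else 0) ≤ W * y
  W0 : 0 ≤ W
  x1 : 1 ≤ x
  z1 : 1 ≤ z

variable {x z : ℕ} {g : ℕ → ℝ} {W y0 : ℝ}

theorem log_two_le : Real.log 2 ≤ 1 := by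
  have := Real.log_two_lt_d9; linarith

theorem log_four_le : Real.log 4 ≤ 2 := by
  rw [show (4 : ℝ) = 2 ^ 2 by norm_num, Real.log_pow]
  have := log_two_le
  push_cast; linarith

theorem H.count (h : H x z g W y0) {a : ℕ} (ha : 1 ≤ a) (hy : y0 ≤ (x : ℝ) / a) :
    ∑ b ∈ Ioc 0 (2 * x), rh z b * |g (a * b)| ≤ W * (x / a) := by
  have ha' : (1 : ℝ) ≤ a := by exact_mod_cast ha
  have hx : (0 : ℝ) ≤ x := Nat.cast_nonneg x
  refine le_trans (Finset.sum_le_sum fun b _ => ?_)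
    (h.cnt _ hy ((div_le_self hx ha').trans (by linarith)))
  by_cases h0 : g (a * b) = 0
  · rw [h0, abs_zero, mul_zero]
    split_ifs
    · exact rh_nonneg _ _
    · exact le_rfl
  · obtain ⟨h1, h2⟩ := h.g0 _ h0
    have h1' : (x : ℝ) < a * b := by exact_mod_cast h1
    have h2' : (a : ℝ) * b ≤ 2 * x := by exact_mod_cast h2
    rw [if_pos]
    · exact mul_le_of_le_one_right (rh_nonneg _ _) (h.g1 _)
    · constructor
      · rw [div_lt_iff₀ (by linarith)]; linarith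
      · rw [← mul_div_assoc, le_div_iff₀ (by linarith)]; linarith

theorem H.uv (h : H x z g W y0) {a : ℕ} (ha : 1 ≤ a) (hy : y0 ≤ (x : ℝ) / a) :
    |Real.log (x / a) * ∑ b ∈ Ioc 0 (2 * x), rh z b * g (a * b) -
      ∑ b ∈ Ioc 0 (2 * x), rh z b * Real.log b * g (a * b)| ≤ W * (x / a) := by
  have ha' : (1 : ℝ) ≤ a := by exact_mod_cast ha
  have hx : (1 : ℝ) ≤ x := by exact_mod_cast h.x1
  rw [Finset.mul_sum, ← Finset.sum_sub_distrib]
  refine (Finset.abs_sum_le_sum_abs _ _).trans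
    (le_trans (Finset.sum_le_sum fun b _ => ?_) (h.count ha hy))
  by_cases h0 : g (a * b) = 0
  · simp [h0]
  · obtain ⟨h1, h2⟩ := h.g0 _ h0
    have h1' : (x : ℝ) < a * b := by exact_mod_cast h1
    have h2' : (a : ℝ) * b ≤ 2 * x := by exact_mod_cast h2
    have hxa : 0 < (x : ℝ) / a := by positivity
    have e1 : (x : ℝ) / a ≤ b := by rw [div_le_iff₀ (by linarith)]; linarith
    have e2 : (b : ℝ) ≤ 2 * (x / a) := by
      rw [← mul_div_assoc, le_div_iff₀ (by linarith)]; linarith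
    have l1 := Real.log_le_log hxa e1
    have l2 := Real.log_le_log (by linarith) e2
    rw [Real.log_mul (by norm_num) hxa.ne'] at l2
    have l3 := log_two_le
    have : Real.log (x / a) * (rh z b * g (a * b)) - rh z b * Real.log b * g (a * b) =
        (Real.log (x / a) - Real.log b) * (rh z b * g (a * b)) := by ring
    rw [this, abs_mul, abs_mul, abs_of_nonneg (rh_nonneg _ _)]
    refine mul_le_of_le_one_left (mul_nonneg (rh_nonneg _ _) (abs_nonneg _)) ?_
    rw [abs_le]; constructor <;> linarith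

theorem H.cheb (h : H x z g W y0) {n : ℕ} (hn : 1 ≤ n) :
    |∑ e ∈ Ioc 0 (2 * x), lr z e * g (n * e)| ≤ 12 * (x / n) := by
  have hn' : (1 : ℝ) ≤ n := by exact_mod_cast hn
  have hx : (0 : ℝ) ≤ x := Nat.cast_nonneg x
  have hp := Chebyshev.psi_le_const_mul_self (x := 2 * (x : ℝ) / n) (by positivity)
  have h4 := log_four_le
  have hb : Chebyshev.psi (2 * (x : ℝ) / n) ≤ 12 * (x / n) := by
    refine hp.trans ?_
    have : (0 : ℝ) ≤ x / n := by positivity
    rw [mul_div_assoc]; nlinarith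
  refine (Finset.abs_sum_le_sum_abs _ _).trans (le_trans ?_ hb)
  unfold Chebyshev.psi
  have hsub : Ioc 0 ⌊2 * (x : ℝ) / n⌋₊ ⊆ Ioc 0 (2 * x) := by
    refine Ioc_subset_Ioc_right (Nat.floor_le_of_le ?_)
    push_cast
    exact div_le_self (by linarith) hn'
  rw [← Finset.sum_subset hsub]
  · refine Finset.sum_le_sum fun e _ => ?_
    rw [abs_mul, abs_of_nonneg (lr_nonneg _ _)]
    exact (mul_le_of_le_one_right (lr_nonneg _ _) (h.g1 _)).trans (lr_le _ _)
  · intro e he he'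
    have : g (n * e) = 0 := by
      by_contra h0
      have h2 := (h.g0 _ h0).2
      have h2' : (n : ℝ) * e ≤ 2 * x := by exact_mod_cast h2
      refine he' (mem_Ioc.2 ⟨(mem_Ioc.1 he).1, Nat.le_floor ?_⟩)
      rw [le_div_iff₀ (by linarith)]; linarith
    simp [this]

theorem H.cheb0 (h : H x z g W y0) {n : ℕ} (hn : 2 * x < n * z) :
    ∑ e ∈ Ioc 0 (2 * x), lr z e * g (n * e) = 0 := by
  refine Finset.sum_eq_zero fun e _ => ?_
  rcases le_or_gt e z with he | he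
  · rw [lr_small he, zero_mul]
  · have : g (n * e) = 0 := by
      by_contra h0
      have h2 := (h.g0 _ h0).2
      have := Nat.mul_le_mul_left n he.le
      omega
    rw [this, mul_zero]

/-- the truncated coefficient -/
noncomputable def cc (x z A m : ℕ) : ℝ := if 1 ≤ m ∧ 2 * A * m * z ≤ x then rh z m else 0

theorem H.vw (h : H x z g W y0) {A a : ℕ} (hA : 1 ≤ A) (ha : A < a)
    (hy : y0 ≤ (x : ℝ) / (2 * A * z)) :
    |∑ b ∈ Ioc 0 (2 * x), rh z b * Real.log b * g (a * b) -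
      ∑ m ∈ Ioc 0 (2 * x), ∑ e ∈ Ioc 0 (2 * x), cc x z A m * lr z e * g (a * m * e)| ≤
      12 * (W * (x / a)) := by
  have hA' : (1 : ℝ) ≤ A := by exact_mod_cast hA
  have ha' : (A : ℝ) < a := by exact_mod_cast ha
  have hz' : (1 : ℝ) ≤ z := by exact_mod_cast h.z1
  have hx : (1 : ℝ) ≤ x := by exact_mod_cast h.x1
  have hAz : (1 : ℝ) ≤ 2 * A * z := by nlinarith
  rw [conv z (2 * x) (fun b => g (a * b)) (fun n hn => by
    by_contra h0
    have h2 := (h.g0 _ h0).2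
    have := Nat.mul_le_mul_right n (show 1 ≤ a by omega)
    omega), ← Finset.sum_sub_distrib]
  obtain ⟨y, hyd⟩ : ∃ y : ℝ, y = (x : ℝ) / (2 * A * z) := ⟨_, rfl⟩
  have hy0 : 0 < y := by rw [hyd]; positivity
  have hy2 : y ≤ 2 * x := by
    rw [hyd]; exact (div_le_self (by linarith) hAz).trans (by linarith)
  have hc := h.cnt y (hyd ▸ hy) hy2
  have hxa : 0 < (x : ℝ) / a := div_pos (by linarith) (by linarith)
  have key : ∀ m ∈ Ioc 0 (2 * x), |∑ d ∈ Ioc 0 (2 * x), rh z m * lr z d * g (a * (m * d)) -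
      ∑ e ∈ Ioc 0 (2 * x), cc x z A m * lr z e * g (a * m * e)| ≤
      12 * (x / a) / y * (if y < m ∧ (m : ℝ) ≤ 4 * y then rh z m else 0) := by
    intro m hm
    have hm1 : 1 ≤ m := (mem_Ioc.1 hm).1
    have hm' : (1 : ℝ) ≤ m := by exact_mod_cast hm1
    have e0 : ∑ d ∈ Ioc 0 (2 * x), rh z m * lr z d * g (a * (m * d)) -
        ∑ e ∈ Ioc 0 (2 * x), cc x z A m * lr z e * g (a * m * e) =
        (rh z m - cc x z A m) * ∑ e ∈ Ioc 0 (2 * x), lr z e * g (a * m * e) := by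
      rw [← Finset.sum_sub_distrib, Finset.mul_sum]
      refine Finset.sum_congr rfl fun e _ => ?_
      rw [mul_assoc a m e]; ring
    rw [e0]
    have hnn : 0 ≤ 12 * ((x : ℝ) / a) / y *
        (if y < m ∧ (m : ℝ) ≤ 4 * y then rh z m else 0) := by
      refine mul_nonneg (by positivity) ?_
      split_ifs
      · exact rh_nonneg _ _
      · exact le_rfl
    by_cases h1 : 2 * A * m * z ≤ x
    · rw [cc, if_pos ⟨hm1, h1⟩, sub_self, zero_mul, abs_zero]; exact hnn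
    · have h1' : (x : ℝ) < 2 * A * m * z := by exact_mod_cast not_le.1 h1
      have hym : y < m := by
        rw [hyd, div_lt_iff₀ (by linarith)]; linarith
      rw [cc, if_neg (fun hh => h1 hh.2), sub_zero]
      by_cases h2 : (m : ℝ) ≤ 4 * y
      · rw [if_pos ⟨hym, h2⟩, abs_mul, abs_of_nonneg (rh_nonneg _ _), mul_comm]
        refine mul_le_mul_of_nonneg_right ?_ (rh_nonneg _ _)
        refine (h.cheb (n := a * m) (Nat.mul_pos (by omega) hm1)).trans ?_
        push_cast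
        rw [← div_div, ← mul_div_assoc]
        exact div_le_div_of_nonneg_left (by positivity) hy0 hym.le
      · rw [h.cheb0, mul_zero, abs_zero]
        · exact hnn
        · have h3 : 4 * y < m := not_le.1 h2
          rw [hyd, ← mul_div_assoc, div_lt_iff₀ (by linarith)] at h3
          have h5 : (A : ℝ) * (m * z) ≤ a * (m * z) :=
            mul_le_mul_of_nonneg_right ha'.le (by positivity)
          have : (2 * x : ℝ) < a * m * z := by nlinarith
          exact_mod_cast this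
  refine (Finset.abs_sum_le_sum_abs _ _).trans ((Finset.sum_le_sum key).trans ?_)
  rw [← Finset.mul_sum]
  calc _ ≤ 12 * ((x : ℝ) / a) / y * (W * y) := mul_le_mul_of_nonneg_left hc (by positivity)
    _ = _ := by field_simp

/-- the part `m = 1` -/
theorem H.p1 (h : H x z g W y0) (hzx : z ≤ x) (hy : y0 ≤ x) :
    |∑ d ∈ Ioc 0 (2 * x), lr z d * g d -
      Real.log x * ∑ d ∈ Ioc 0 (2 * x), (if d.Prime then g d else 0)| ≤
      W * x + 2 * √(2 * x) * Real.log (2 * x) := by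
  have hx : (1 : ℝ) ≤ x := by exact_mod_cast h.x1
  have hc := h.count (a := 1) le_rfl (by simpa using hy)
  simp only [one_mul, Nat.cast_one, div_one] at hc
  have hp := Chebyshev.psi_sub_theta_le (x := 2 * (x : ℝ)) (by linarith)
  rw [Chebyshev.psi_sub_theta_eq_sum_not_prime, Finset.sum_filter,
    show ⌊2 * (x : ℝ)⌋₊ = 2 * x by exact_mod_cast Nat.floor_natCast (R := ℝ) (2 * x)] at hp
  rw [Finset.mul_sum, ← Finset.sum_sub_distrib]
  refine (Finset.abs_sum_le_sum_abs _ _).trans (le_trans ?_ (add_le_add hc hp))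
  rw [← Finset.sum_add_distrib]
  refine Finset.sum_le_sum fun d _ => ?_
  have hr : 0 ≤ rh z d * |g d| := mul_nonneg (rh_nonneg _ _) (abs_nonneg _)
  by_cases hd : d.Prime
  · rw [if_pos hd, if_neg (not_not.2 hd), add_zero]
    by_cases h0 : g d = 0
    · simp [h0]
    · obtain ⟨h1, h2⟩ := h.g0 _ h0
      have hro : rough z d := fun p hp hpd => by
        rw [(Nat.prime_dvd_prime_iff_eq hp hd).1 hpd]; omega
      have h1' : (x : ℝ) < d := by exact_mod_cast h1
      have h2' : (d : ℝ) ≤ 2 * x := by exact_mod_cast h2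
      have l1 := Real.log_le_log (by linarith) h1'.le
      have l2 := Real.log_le_log (by linarith) h2'
      rw [Real.log_mul (by norm_num) (by linarith)] at l2
      have l3 := log_two_le
      rw [lr_eq, rh_of hro, vonMangoldt_apply_prime hd, one_mul, one_mul, ← sub_mul, abs_mul]
      refine mul_le_of_le_one_left (abs_nonneg _) ?_
      rw [abs_le]; constructor <;> linarith
  · rw [if_neg hd, if_pos hd, mul_zero, sub_zero, abs_mul, abs_of_nonneg (lr_nonneg _ _)]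
    have := (mul_le_of_le_one_right (lr_nonneg z d) (h.g1 d)).trans (lr_le _ _)
    linarith

theorem mertens_le {N : ℕ} (hN : 1 ≤ N) :
    ∑ n ∈ Ioc 0 N, vonMangoldt n / n ≤ Real.log N + 7 := by
  have := (abs_le.1 (Crest.Agent.R5.Mertens.vonMangoldt_bd hN)).2
  have := log_four_le
  linarith

theorem mertens_ge {N : ℕ} (hN : 1 ≤ N) :
    Real.log N - 7 ≤ ∑ n ∈ Ioc 0 N, vonMangoldt n / n := by
  have := (abs_le.1 (Crest.Agent.R5.Mertens.vonMangoldt_bd hN)).1
  have := log_four_le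
  linarith

/-- the middle part -/
theorem H.p4 (h : H x z g W y0) {Y : ℕ} (hY1 : 1 ≤ Y) (hY : Y * Y ≤ x) (hy : y0 ≤ (Y : ℝ) / 2) :
    |∑ d ∈ Ioc Y (2 * x), ∑ m ∈ Ioc Y (2 * x), rh z m * lr z d * g (m * d)| ≤
      W * x * (Real.log x - 2 * Real.log Y + 15) := by
  have hx : (1 : ℝ) ≤ x := by exact_mod_cast h.x1
  have hY' : (1 : ℝ) ≤ Y := by exact_mod_cast hY1
  obtain ⟨Z, hZ⟩ : ∃ Z, Z = 2 * x / Y := ⟨_, rfl⟩
  have hYZ : Y ≤ Z := by rw [hZ, Nat.le_div_iff_mul_le hY1]; omega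
  have hZx : Z ≤ 2 * x := hZ ▸ Nat.div_le_self _ _
  have hZY : Z * Y ≤ 2 * x := hZ ▸ Nat.div_mul_le_self _ _
  have hZY' : (Z : ℝ) * Y ≤ 2 * x := by exact_mod_cast hZY
  have hZ1 : (1 : ℝ) ≤ Z := by exact_mod_cast hY1.trans hYZ
  rw [← Finset.sum_Ioc_consecutive _ hYZ hZx]
  have e0 : ∑ d ∈ Ioc Z (2 * x), ∑ m ∈ Ioc Y (2 * x), rh z m * lr z d * g (m * d) = 0 := by
    refine Finset.sum_eq_zero fun d hd => Finset.sum_eq_zero fun m hm => ?_
    have : g (m * d) = 0 := by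
      by_contra h0
      have h2 := (h.g0 _ h0).2
      have h3 : 2 * x / Y < d := hZ ▸ (mem_Ioc.1 hd).1
      rw [Nat.div_lt_iff_lt_mul hY1] at h3
      have := Nat.mul_le_mul_left d (mem_Ioc.1 hm).1.le
      nlinarith
    rw [this, mul_zero]
  rw [e0, add_zero]
  have key : ∀ d ∈ Ioc Y Z, |∑ m ∈ Ioc Y (2 * x), rh z m * lr z d * g (m * d)| ≤
      W * x * (vonMangoldt d / d) := by
    intro d hd
    obtain ⟨hd1, hd2⟩ := mem_Ioc.1 hd
    have hd1' : (Y : ℝ) < d := by exact_mod_cast hd1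
    have hd2' : (d : ℝ) ≤ Z := by exact_mod_cast hd2
    have hc := h.count (a := d) (by omega) (hy.trans (by
      rw [div_le_div_iff₀ (by norm_num) (by linarith)]; nlinarith))
    refine (Finset.abs_sum_le_sum_abs _ _).trans ?_
    calc ∑ m ∈ Ioc Y (2 * x), |rh z m * lr z d * g (m * d)|
        ≤ ∑ m ∈ Ioc 0 (2 * x), |rh z m * lr z d * g (m * d)| :=
          Finset.sum_le_sum_of_subset_of_nonneg (Ioc_subset_Ioc_left (Nat.zero_le _))
            fun _ _ _ => abs_nonneg _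
      _ = lr z d * ∑ m ∈ Ioc 0 (2 * x), rh z m * |g (d * m)| := by
          rw [Finset.mul_sum]
          refine Finset.sum_congr rfl fun m _ => ?_
          rw [abs_mul, abs_mul, abs_of_nonneg (rh_nonneg _ _), abs_of_nonneg (lr_nonneg _ _),
            mul_comm m d]
          ring
      _ ≤ vonMangoldt d * (W * (x / d)) :=
          mul_le_mul (lr_le _ _) hc
            (Finset.sum_nonneg fun m _ => mul_nonneg (rh_nonneg _ _) (abs_nonneg _))
            vonMangoldt_nonneg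
      _ = _ := by ring
  refine (Finset.abs_sum_le_sum_abs _ _).trans ((Finset.sum_le_sum key).trans ?_)
  rw [← Finset.mul_sum]
  refine mul_le_mul_of_nonneg_left ?_ (mul_nonneg h.W0 (by linarith))
  have m1 := mertens_le (hY1.trans hYZ)
  have m2 := mertens_ge hY1
  rw [← Finset.sum_Ioc_consecutive _ (Nat.zero_le Y) hYZ] at m1
  have l1 := Real.log_le_log (by positivity) hZY'
  rw [Real.log_mul (by linarith) (by linarith), Real.log_mul (by norm_num) (by linarith)] at l1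
  have l3 := log_two_le
  linarith

end AsmAux

end Crest.Agent.R26
end

-- ▼ part PVc/R26/AsmAux3
section

/-! Row 26, `Asm`: the cells and the deterministic inequality. -/

set_option autoImplicit false

namespace Crest.Agent.R26

open Finset Filter

namespace AsmAux

open ArithmeticFunction

variable {x z : ℕ} {g : ℕ → ℝ} {W y0 : ℝ}

/-- the box bound for the cell `A` -/
def HB (x z : ℕ) (g : ℕ → ℝ) (B E : ℝ) (A : ℕ) : Prop :=
  ∀ α c : ℕ → ℝ, (∀ a, |α a| ≤ 1) → (∀ a, α a ≠ 0 → A < a ∧ a ≤ 2 * A ∧ rough z a) →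
    (∀ m, |c m| ≤ 1) → (∀ m, c m ≠ 0 → 1 ≤ m ∧ rough z m ∧ 2 * A * m * z ≤ x) →
    |∑ a ∈ Ioc 0 (2 * x), ∑ m ∈ Ioc 0 (2 * x), ∑ d ∈ Ioc 0 (2 * x),
        α a * c m * lr z d * g (a * m * d)| ≤
      B * (|∑ a ∈ Ioc 0 (2 * x), α a / a| * |∑ m ∈ Ioc 0 (2 * x), c m / m|) + E

theorem sum_cut {A M : ℕ} (hA : 2 * A ≤ M) (f : ℕ → ℝ) (F : ℕ → ℝ → ℝ) (hF : ∀ a, F a 0 = 0) :
    ∑ a ∈ Ioc 0 M, F a (if a ∈ Ioc A (2 * A) then f a else 0) = ∑ a ∈ Ioc A (2 * A), F a (f a) := by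
  rw [← Finset.sum_subset (Ioc_subset_Ioc (Nat.zero_le A) hA)]
  · exact Finset.sum_congr rfl fun a ha => by rw [if_pos ha]
  · intro a _ ha
    rw [if_neg ha, hF]

theorem H.p2cell (h : H x z g W y0) {B E : ℝ} {A : ℕ} (hb : HB x z g B E A)
    (hA : 2 * A * z ≤ x) :
    |∑ m ∈ Ioc A (2 * A), ∑ d ∈ Ioc 0 (2 * x), rh z m * lr z d * g (m * d)| ≤
      B * ∑ m ∈ Ioc A (2 * A), rh z m / m + E := by
  have hz := h.z1
  have hx := h.x1
  have hA2 : 2 * A ≤ 2 * x := by nlinarith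
  have := hb (fun a => if a ∈ Ioc A (2 * A) then rh z a else 0) (fun m => if m = 1 then 1 else 0)
    (fun a => by
      split_ifs
      · rw [abs_of_nonneg (rh_nonneg _ _)]; exact rh_le _ _
      · simp)
    (fun a ha => by
      by_cases h1 : a ∈ Ioc A (2 * A)
      · simp only [if_pos h1] at ha
        exact ⟨(mem_Ioc.1 h1).1, (mem_Ioc.1 h1).2, rough_of_rh ha⟩
      · simp only [if_neg h1] at ha
        exact absurd rfl ha)
    (fun m => by split_ifs <;> simp)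
    (fun m hm => by
      by_cases h1 : m = 1
      · subst h1
        exact ⟨le_rfl, rough_one z, by simpa using hA⟩
      · simp only [if_neg h1] at hm
        exact absurd rfl hm)
  have h1 : (1 : ℕ) ∈ Ioc 0 (2 * x) := mem_Ioc.2 ⟨by norm_num, by omega⟩
  rw [sum_cut hA2 (rh z) (fun a t => ∑ m ∈ Ioc 0 (2 * x), ∑ d ∈ Ioc 0 (2 * x),
      t * (if m = 1 then 1 else 0) * lr z d * g (a * m * d)) (by simp),
    sum_cut hA2 (rh z) (fun a t => t / a) (by simp)] at this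
  have e1 : ∑ m ∈ Ioc 0 (2 * x), (if m = 1 then (1 : ℝ) else 0) / m = 1 := by
    rw [Finset.sum_eq_single_of_mem 1 h1]
    · simp
    · intro b _ hb; simp [hb]
  have e2 : ∀ a : ℕ, ∑ m ∈ Ioc 0 (2 * x), ∑ d ∈ Ioc 0 (2 * x),
      rh z a * (if m = 1 then 1 else 0) * lr z d * g (a * m * d) =
      ∑ d ∈ Ioc 0 (2 * x), rh z a * lr z d * g (a * d) := by
    intro a
    rw [Finset.sum_eq_single_of_mem 1 h1]
    · simp
    · intro b _ hb; simp [hb]
  rw [e1, abs_one, mul_one, Finset.sum_congr rfl fun a _ => e2 a,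
    abs_of_nonneg (a := ∑ a ∈ Ioc A (2 * A), rh z a / a)
      (Finset.sum_nonneg fun a _ => div_nonneg (rh_nonneg _ _) (Nat.cast_nonneg _))] at this
  exact this

theorem cc_nonneg (x z A m : ℕ) : 0 ≤ cc x z A m := by
  unfold cc; split_ifs
  · exact rh_nonneg _ _
  · exact le_rfl

theorem cc_le (x z A m : ℕ) : cc x z A m ≤ rh z m := by
  unfold cc; split_ifs
  · exact le_rfl
  · exact rh_nonneg _ _

theorem log_facts {x a : ℕ} (ha : 1 ≤ a) (h : a * a ≤ x) :
    Real.log a ≤ Real.log (x / a) ∧ Real.log x / 2 ≤ Real.log (x / a) := by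
  have ha' : (1 : ℝ) ≤ a := by exact_mod_cast ha
  have h' : (a : ℝ) * a ≤ x := by exact_mod_cast h
  have l1 := Real.log_le_log (by positivity) h'
  rw [Real.log_mul (by linarith) (by linarith)] at l1
  rw [Real.log_div (by nlinarith) (by linarith)]
  constructor <;> linarith

theorem H.p3cell (h : H x z g W y0) {B E D : ℝ} {A : ℕ} (hb : HB x z g B E A) (hB : 0 ≤ B)
    (hA1 : 1 ≤ A) (hA : 2 * A * (2 * A) ≤ x) (hy : y0 ≤ (x : ℝ) / (2 * A * z))
    (hD : ∑ m ∈ Ioc 0 (2 * x), rh z m / m ≤ D) (hL : 0 < Real.log x) :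
    |∑ d ∈ Ioc A (2 * A), lr z d * ∑ m ∈ Ioc 0 (2 * x), rh z m * g (d * m)| ≤
      (B * D + 13 * (W * x)) * (2 / Real.log x) * ∑ d ∈ Ioc A (2 * A), lr z d / d + E := by
  have hz : (1 : ℝ) ≤ z := by exact_mod_cast h.z1
  have hx : (1 : ℝ) ≤ x := by exact_mod_cast h.x1
  have hA1' : (1 : ℝ) ≤ A := by exact_mod_cast hA1
  have hA2 : 2 * A ≤ 2 * x := by nlinarith
  have hW := h.W0
  have hl : ∀ a ∈ Ioc A (2 * A), Real.log a ≤ Real.log (x / a) ∧
      Real.log x / 2 ≤ Real.log (x / a) := fun a ha =>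
    log_facts (by have := (mem_Ioc.1 ha).1; omega)
      ((Nat.mul_le_mul (mem_Ioc.1 ha).2 (mem_Ioc.1 ha).2).trans hA)
  have hpos : ∀ a ∈ Ioc A (2 * A), 0 < Real.log (x / a) := fun a ha =>
    lt_of_lt_of_le (by linarith) (hl a ha).2
  have hq : ∀ a ∈ Ioc A (2 * A), lr z a / Real.log (x / a) ≤ 2 / Real.log x * lr z a := by
    intro a ha
    calc lr z a / Real.log (x / a) ≤ lr z a / (Real.log x / 2) :=
          div_le_div_of_nonneg_left (lr_nonneg _ _) (by linarith) (hl a ha).2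
      _ = _ := by field_simp
  have hq0 : ∀ a ∈ Ioc A (2 * A), 0 ≤ lr z a / Real.log (x / a) := fun a ha =>
    div_nonneg (lr_nonneg _ _) (hpos a ha).le
  have := hb (fun a => if a ∈ Ioc A (2 * A) then lr z a / Real.log (x / a) else 0) (cc x z A)
    (fun a => by
      split_ifs with ha
      · rw [abs_of_nonneg (hq0 a ha), div_le_one (hpos a ha)]
        exact ((lr_le _ _).trans vonMangoldt_le_log).trans (hl a ha).1
      · simp)
    (fun a ha => by
      by_cases h1 : a ∈ Ioc A (2 * A)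
      · simp only [if_pos h1] at ha
        exact ⟨(mem_Ioc.1 h1).1, (mem_Ioc.1 h1).2, rough_of_lr (div_ne_zero_iff.1 ha).1⟩
      · simp only [if_neg h1] at ha
        exact absurd rfl ha)
    (fun m => by
      rw [abs_of_nonneg (cc_nonneg _ _ _ _)]; exact (cc_le _ _ _ _).trans (rh_le _ _))
    (fun m hm => by
      by_cases h1 : 1 ≤ m ∧ 2 * A * m * z ≤ x
      · rw [cc, if_pos h1] at hm
        exact ⟨h1.1, rough_of_rh hm, h1.2⟩
      · rw [cc, if_neg h1] at hm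
        exact absurd rfl hm)
  rw [sum_cut hA2 (fun a => lr z a / Real.log (x / a))
      (fun a t => ∑ m ∈ Ioc 0 (2 * x), ∑ d ∈ Ioc 0 (2 * x),
        t * cc x z A m * lr z d * g (a * m * d)) (by simp),
    sum_cut hA2 (fun a => lr z a / Real.log (x / a)) (fun a t => t / a) (by simp)] at this
  obtain ⟨S, hS⟩ : ∃ S, S = ∑ d ∈ Ioc A (2 * A), lr z d / d := ⟨_, rfl⟩
  have hS0 : 0 ≤ S := hS ▸ Finset.sum_nonneg fun a _ =>
    div_nonneg (lr_nonneg _ _) (Nat.cast_nonneg _)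
  have d1 : |∑ a ∈ Ioc A (2 * A), lr z a / Real.log (x / a) / a| ≤ 2 / Real.log x * S := by
    rw [abs_of_nonneg (Finset.sum_nonneg fun a ha => div_nonneg (hq0 a ha) (Nat.cast_nonneg _)),
      hS, Finset.mul_sum]
    refine Finset.sum_le_sum fun a ha => ?_
    rw [← mul_div_assoc]
    exact div_le_div_of_nonneg_right (hq a ha) (Nat.cast_nonneg _)
  have d2 : |∑ m ∈ Ioc 0 (2 * x), cc x z A m / m| ≤ D := by
    rw [abs_of_nonneg (Finset.sum_nonneg fun a _ =>
      div_nonneg (cc_nonneg _ _ _ _) (Nat.cast_nonneg _))]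
    exact le_trans (Finset.sum_le_sum fun m _ =>
      div_le_div_of_nonneg_right (cc_le _ _ _ _) (Nat.cast_nonneg _)) hD
  have d3 := mul_le_mul_of_nonneg_left
    (mul_le_mul d1 d2 (abs_nonneg _) (by positivity)) hB
  have d4 : |∑ d ∈ Ioc A (2 * A), lr z d * ∑ m ∈ Ioc 0 (2 * x), rh z m * g (d * m) -
      ∑ a ∈ Ioc A (2 * A), ∑ m ∈ Ioc 0 (2 * x), ∑ d ∈ Ioc 0 (2 * x),
        lr z a / Real.log (x / a) * cc x z A m * lr z d * g (a * m * d)| ≤
      13 * (W * x) * (2 / Real.log x * S) := by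
    rw [← Finset.sum_sub_distrib, hS, Finset.mul_sum, Finset.mul_sum]
    refine (Finset.abs_sum_le_sum_abs _ _).trans (Finset.sum_le_sum fun a ha => ?_)
    obtain ⟨ha1, ha2⟩ := mem_Ioc.1 ha
    have ha1' : (A : ℝ) < a := by exact_mod_cast ha1
    have ha2' : (a : ℝ) ≤ 2 * A := by exact_mod_cast ha2
    have hya : y0 ≤ (x : ℝ) / a := hy.trans
      (div_le_div_of_nonneg_left (by linarith) (by linarith) (by nlinarith))
    have u1 := h.uv (a := a) (by omega) hya
    have u2 := h.vw hA1 ha1 hy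
    have u3 := (abs_sub_le _ _ _).trans (add_le_add u1 u2)
    have e : lr z a * ∑ m ∈ Ioc 0 (2 * x), rh z m * g (a * m) -
        ∑ m ∈ Ioc 0 (2 * x), ∑ d ∈ Ioc 0 (2 * x),
          lr z a / Real.log (x / a) * cc x z A m * lr z d * g (a * m * d) =
        lr z a / Real.log (x / a) * (Real.log (x / a) * ∑ b ∈ Ioc 0 (2 * x), rh z b * g (a * b) -
          ∑ m ∈ Ioc 0 (2 * x), ∑ e ∈ Ioc 0 (2 * x), cc x z A m * lr z e * g (a * m * e)) := by
      rw [mul_sub, ← mul_assoc, div_mul_cancel₀ _ (hpos a ha).ne']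
      congr 1
      rw [Finset.mul_sum]
      refine Finset.sum_congr rfl fun m _ => ?_
      rw [Finset.mul_sum]
      refine Finset.sum_congr rfl fun d _ => ?_
      ring
    rw [e, abs_mul, abs_of_nonneg (hq0 a ha)]
    refine (mul_le_mul (hq a ha) u3 (abs_nonneg _)
      (mul_nonneg (by positivity) (lr_nonneg _ _))).trans (le_of_eq ?_)
    ring
  rw [← hS]
  have d5 := abs_sub_abs_le_abs_sub
    (∑ d ∈ Ioc A (2 * A), lr z d * ∑ m ∈ Ioc 0 (2 * x), rh z m * g (d * m))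
    (∑ a ∈ Ioc A (2 * A), ∑ m ∈ Ioc 0 (2 * x), ∑ d ∈ Ioc 0 (2 * x),
        lr z a / Real.log (x / a) * cc x z A m * lr z d * g (a * m * d))
  have e5 : (B * D + 13 * (W * x)) * (2 / Real.log x) * S =
      B * (2 / Real.log x * S * D) + 13 * (W * x) * (2 / Real.log x * S) := by ring
  rw [e5]
  linarith

/-- the deterministic inequality -/
theorem H.det (h : H x z g W y0) {B E D : ℝ} {n : ℕ} (hb : ∀ i < n, HB x z g B E (z * 2 ^ i))
    (hB : 0 ≤ B) (hY : z * 2 ^ n * (z * 2 ^ n) ≤ x) (hy0 : 1 ≤ y0)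
    (hy1 : y0 ≤ (x : ℝ) / ((z * 2 ^ n : ℕ) * z)) (hy2 : y0 ≤ ((z * 2 ^ n : ℕ) : ℝ) / 2)
    (hD : ∑ m ∈ Ioc 0 (2 * x), rh z m / m ≤ D) (hL : 14 ≤ Real.log x) :
    Real.log x * |∑ d ∈ Ioc 0 (2 * x), (if d.Prime then g d else 0) -
        ∑ d ∈ Ioc 0 (2 * x), rh z d * g d| ≤
      3 * (B * D) + 2 * (n * E) + W * x * (Real.log x - 2 * Real.log (z * 2 ^ n : ℕ) + 43) +
        2 * √(2 * x) * Real.log (2 * x) := by
  have hz1 := h.z1
  have hz : (1 : ℝ) ≤ z := by exact_mod_cast h.z1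
  have hx : (1 : ℝ) ≤ x := by exact_mod_cast h.x1
  have hW := h.W0
  have hzY : z ≤ z * 2 ^ n := Nat.le_mul_of_pos_right _ (by positivity)
  have hcell : ∀ i < n, 2 * (z * 2 ^ i) ≤ z * 2 ^ n := by
    intro i hi
    calc 2 * (z * 2 ^ i) = z * 2 ^ (i + 1) := by ring
      _ ≤ _ := Nat.mul_le_mul_left _ (Nat.pow_le_pow_right (by norm_num) hi)
  have hcell1 : ∀ i, 1 ≤ z * 2 ^ i := fun i => Nat.mul_pos hz1 (by positivity)
  have hY1 := hcell1 n
  have p2 : |∑ m ∈ Ioc z (z * 2 ^ n), ∑ d ∈ Ioc 0 (2 * x), rh z m * lr z d * g (m * d)| ≤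
      B * D + n * E := by
    rw [sum_cells]
    refine (Finset.abs_sum_le_sum_abs _ _).trans ((Finset.sum_le_sum fun i hi =>
      h.p2cell (hb i (mem_range.1 hi)) ?_).trans ?_)
    · exact (Nat.mul_le_mul (hcell i (mem_range.1 hi)) hzY).trans hY
    · rw [Finset.sum_add_distrib, ← Finset.mul_sum, ← sum_cells (fun m => rh z m / m),
        Finset.sum_const, card_range, nsmul_eq_mul]
      refine add_le_add (mul_le_mul_of_nonneg_left (le_trans ?_ hD) hB) le_rfl
      exact Finset.sum_le_sum_of_subset_of_nonneg (Ioc_subset_Ioc (Nat.zero_le _) (by nlinarith))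
        fun _ _ _ => div_nonneg (rh_nonneg _ _) (Nat.cast_nonneg _)
  have hD0 : 0 ≤ D := le_trans (Finset.sum_nonneg fun _ _ =>
    div_nonneg (rh_nonneg _ _) (Nat.cast_nonneg _)) hD
  have p3 : |∑ d ∈ Ioc z (z * 2 ^ n), lr z d * ∑ m ∈ Ioc 0 (2 * x), rh z m * g (d * m)| ≤
      2 * (B * D + 13 * (W * x)) + n * E := by
    rw [sum_cells]
    refine (Finset.abs_sum_le_sum_abs _ _).trans ((Finset.sum_le_sum fun i hi =>
      h.p3cell (hb i (mem_range.1 hi)) hB (hcell1 i) ?_ ?_ hD (by linarith)).trans ?_)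
    · exact (Nat.mul_le_mul (hcell i (mem_range.1 hi)) (hcell i (mem_range.1 hi))).trans hY
    · refine hy1.trans (div_le_div_of_nonneg_left (by linarith) ?_ ?_)
      · have : (1 : ℝ) ≤ (z * 2 ^ i : ℕ) := by exact_mod_cast hcell1 i
        positivity
      · refine mul_le_mul_of_nonneg_right ?_ (by linarith)
        exact_mod_cast hcell i (mem_range.1 hi)
    · rw [Finset.sum_add_distrib, ← Finset.mul_sum, ← sum_cells (fun m => lr z m / m),
        Finset.sum_const, card_range, nsmul_eq_mul]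
      refine add_le_add ?_ le_rfl
      have m1 := mertens_le hY1
      have hY' : ((z * 2 ^ n : ℕ) : ℝ) * (z * 2 ^ n : ℕ) ≤ x := by exact_mod_cast hY
      have hY1' : (1 : ℝ) ≤ (z * 2 ^ n : ℕ) := by exact_mod_cast hY1
      have l1 := Real.log_le_log (by positivity) hY'
      rw [Real.log_mul (by linarith) (by linarith)] at l1
      have m2 : ∑ m ∈ Ioc z (z * 2 ^ n), lr z m / m ≤ Real.log x := by
        calc ∑ m ∈ Ioc z (z * 2 ^ n), lr z m / m
            ≤ ∑ m ∈ Ioc z (z * 2 ^ n), vonMangoldt m / m := Finset.sum_le_sum fun m _ =>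
              div_le_div_of_nonneg_right (lr_le _ _) (Nat.cast_nonneg _)
          _ ≤ ∑ m ∈ Ioc 0 (z * 2 ^ n), vonMangoldt m / m :=
              Finset.sum_le_sum_of_subset_of_nonneg (Ioc_subset_Ioc_left (Nat.zero_le _))
                fun _ _ _ => div_nonneg vonMangoldt_nonneg (Nat.cast_nonneg _)
          _ ≤ _ := by linarith
      have hLp : 0 < Real.log x := by linarith
      calc _ ≤ (B * D + 13 * (W * x)) * (2 / Real.log x) * Real.log x :=
            mul_le_mul_of_nonneg_left m2 (by positivity)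
        _ = _ := by field_simp
  have hYx : z * 2 ^ n ≤ x := by nlinarith
  have hyx : y0 ≤ x := by
    have : ((z * 2 ^ n : ℕ) : ℝ) ≤ x := by exact_mod_cast hYx
    linarith
  have p4 := h.p4 hY1 hY hy2
  have p1 := h.p1 (hzY.trans hYx) hyx
  have p0 := h.uv (a := 1) le_rfl (by simpa using hyx)
  simp only [one_mul, Nat.cast_one, div_one] at p0
  rw [conv z (2 * x) g (fun N hN => by
      by_contra h0
      have := (h.g0 _ h0).2
      omega),
    split z x (z * 2 ^ n) g (fun N hN => by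
      by_contra h0
      have := (h.g0 _ h0).1
      omega) hz1 hzY hY] at p0
  rw [← abs_of_nonneg (a := Real.log x) (by linarith), ← abs_mul,
    abs_of_nonneg (a := Real.log x) (by linarith), mul_sub]
  obtain ⟨a0, a0'⟩ := abs_le.1 p0
  obtain ⟨a1, a1'⟩ := abs_le.1 p1
  obtain ⟨a2, a2'⟩ := abs_le.1 p2
  obtain ⟨a3, a3'⟩ := abs_le.1 p3
  obtain ⟨a4, a4'⟩ := abs_le.1 p4
  rw [abs_le]
  constructor <;> linarith

end AsmAux

end Crest.Agent.R26
end

-- ▼ part PVc/R26/Asm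
section

/-! Row 26: from boxes to primes. -/

set_option autoImplicit false

namespace Crest.Agent.R26

open Finset Filter
open Crest.Agent.R5 (pr pd ee nit)

namespace AsmAux

theorem exists_n {z : ℕ} (hz : 1 ≤ z) {X : ℝ} (hX : (z : ℝ) ≤ X) :
    ∃ n : ℕ, (∀ i < n, ((z * 2 ^ i : ℕ) : ℝ) ≤ X) ∧ X < (z * 2 ^ n : ℕ) ∧
      ((z * 2 ^ n : ℕ) : ℝ) ≤ 2 * X := by
  have hz' : (1 : ℝ) ≤ z := by exact_mod_cast hz
  have hex : ∃ n : ℕ, X < (z * 2 ^ n : ℕ) := by
    obtain ⟨n, hn⟩ := pow_unbounded_of_one_lt X (show (1 : ℝ) < 2 by norm_num)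
    refine ⟨n, hn.trans_le ?_⟩
    push_cast
    exact le_mul_of_one_le_left (by positivity) hz'
  classical
  have h1 : ∀ i < Nat.find hex, ((z * 2 ^ i : ℕ) : ℝ) ≤ X := fun i hi =>
    not_lt.1 (Nat.find_min hex hi)
  refine ⟨Nat.find hex, h1, Nat.find_spec hex, ?_⟩
  rcases Nat.eq_zero_or_pos (Nat.find hex) with h0 | h0
  · rw [h0]; simp; linarith
  · obtain ⟨k, hk⟩ : ∃ k, Nat.find hex = k + 1 := ⟨_, (Nat.succ_pred_eq_of_pos h0).symm⟩
    have := h1 k (by omega)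
    rw [hk]
    push_cast at this ⊢
    rw [pow_succ]; linarith

theorem ev_sqrt {ε : ℝ} (hε : 0 < ε) :
    ∀ᶠ x : ℕ in atTop, 2 * √(2 * (x : ℝ)) * Real.log (2 * x) ≤ ε / 4 * x := by
  have h1 := (isLittleO_log_rpow_atTop (show (0 : ℝ) < 1 / 2 by norm_num)).bound
    (show 0 < ε / 16 by positivity)
  have h2 : Tendsto (fun x : ℕ => 2 * (x : ℝ)) atTop atTop :=
    tendsto_natCast_atTop_atTop.const_mul_atTop (by norm_num)
  filter_upwards [h2.eventually h1] with x hx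
  have h0 : (0 : ℝ) ≤ 2 * x := by positivity
  rw [← Real.sqrt_eq_rpow, Real.norm_eq_abs, Real.norm_eq_abs,
    abs_of_nonneg (Real.sqrt_nonneg _)] at hx
  have h3 := (le_abs_self _).trans hx
  have h4 := Real.mul_self_sqrt h0
  have h5 := Real.sqrt_nonneg (2 * (x : ℝ))
  calc 2 * √(2 * (x : ℝ)) * Real.log (2 * x) ≤ 2 * √(2 * (x : ℝ)) * (ε / 16 * √(2 * (x : ℝ))) :=
        mul_le_mul_of_nonneg_left h3 (by positivity)
    _ = ε / 8 * (√(2 * (x : ℝ)) * √(2 * (x : ℝ))) := by ring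
    _ = _ := by rw [h4]; ring

theorem icc_eq (M : ℕ) : Icc 1 M = Ioc 0 M := by
  ext n; simp only [mem_Icc, mem_Ioc]; omega

/-- the truncated sequence -/
def tr (x : ℕ) (s : ℕ → ℝ) (n : ℕ) : ℝ := if n ∈ Ioc x (2 * x) then s n else 0

theorem box_eq (η : ℝ) (x : ℕ) (s α c : ℕ → ℝ) :
    box η x s α c = ∑ a ∈ Ioc 0 (2 * x), ∑ m ∈ Ioc 0 (2 * x), ∑ d ∈ Ioc 0 (2 * x),
      α a * c m * lr (zz η x) d * tr x s (a * m * d) := by
  unfold box tr
  rw [icc_eq]
  refine Finset.sum_congr rfl fun a _ => Finset.sum_congr rfl fun m _ =>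
    Finset.sum_congr rfl fun d _ => ?_
  split_ifs <;> simp

theorem Sp_eq (x : ℕ) (s : ℕ → ℝ) :
    Sp x s = ∑ d ∈ Ioc 0 (2 * x), if d.Prime then tr x s d else 0 := by
  unfold Sp tr
  rw [Finset.sum_filter, ← Finset.sum_subset (Ioc_subset_Ioc_left (Nat.zero_le x))]
  · exact Finset.sum_congr rfl fun d hd => by rw [if_pos hd]
  · intro d _ hd
    rw [if_neg hd]; simp

theorem R1_eq (η : ℝ) (x : ℕ) (s : ℕ → ℝ) :
    R1 η x s = ∑ d ∈ Ioc 0 (2 * x), rh (zz η x) d * tr x s d := by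
  unfold R1 tr rh
  rw [Finset.sum_filter, ← Finset.sum_subset (Ioc_subset_Ioc_left (Nat.zero_le x))]
  · refine Finset.sum_congr rfl fun d hd => ?_
    rw [if_pos hd]
    split_ifs <;> simp
  · intro d _ hd
    rw [if_neg hd]; simp

open Classical in
theorem dens_le (x z : ℕ) :
    ∑ m ∈ Ioc 0 (2 * x), rh z m / m ≤ ∑ m ∈ (Icc 1 (8 * x)).filter (rough z), 1 / (m : ℝ) := by
  rw [Finset.sum_filter, icc_eq]
  refine le_trans (le_of_eq (Finset.sum_congr rfl fun m _ => ?_))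
    (Finset.sum_le_sum_of_subset_of_nonneg (Ioc_subset_Ioc_right (by omega : 2 * x ≤ 8 * x))
      fun m _ _ => by split_ifs <;> positivity)
  unfold rh
  split_ifs <;> simp

open Classical in
theorem cnt_le (x z : ℕ) (y : ℝ) :
    ∑ m ∈ Ioc 0 (2 * x), (if y < m ∧ (m : ℝ) ≤ 4 * y then rh z m else 0) ≤
      (((Icc 1 ⌊4 * y⌋₊).filter (fun m : ℕ => y < m ∧ rough z m)).card : ℝ) := by
  have : ∑ m ∈ Ioc 0 (2 * x), (if y < m ∧ (m : ℝ) ≤ 4 * y then rh z m else 0) =
      (((Ioc 0 (2 * x)).filter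
        (fun m : ℕ => (y < m ∧ (m : ℝ) ≤ 4 * y) ∧ rough z m)).card : ℝ) := by
    rw [Finset.card_filter]
    push_cast
    refine Finset.sum_congr rfl fun m _ => ?_
    unfold rh
    by_cases h1 : y < m ∧ (m : ℝ) ≤ 4 * y <;> by_cases h2 : rough z m <;> simp [h1, h2]
  rw [this]
  refine Nat.cast_le.2 (Finset.card_le_card fun m hm => ?_)
  simp only [mem_filter, mem_Ioc, mem_Icc] at hm ⊢
  exact ⟨⟨hm.1.1, Nat.le_floor hm.2.1.2⟩, hm.2.1.1, hm.2.2⟩

theorem final {L x C C₀ η ε δ κ n lY T Q : ℝ} (hL : 14 ≤ L) (hx : 0 < x) (hC : 0 < C)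
    (hη : 0 < η) (hn : n ≤ L) (hY : (1 / 2 - δ) * L ≤ lY) (hδ : δ ≤ ε * η / (4 * C))
    (hQ : Q ≤ ε / 4 * x) (hb : 3 * C₀ * C / η ^ 2 + 2 + 43 * C / η ≤ ε / 4 * L)
    (h : L * T ≤ 3 * ((κ + C₀ / (η * L)) * x * (C / η)) + 2 * (n * (x / L ^ 5)) +
      C / (η * L) * x * (L - 2 * lY + 43) + Q) :
    T ≤ (3 * C * κ / η + ε) * x / L := by
  have hL0 : 0 < L := by linarith
  rw [le_div_iff₀ hL0, mul_comm]
  refine h.trans ?_
  have e1 : n * (x / L ^ 5) ≤ x / L := by
    calc n * (x / L ^ 5) ≤ L * (x / L ^ 5) := mul_le_mul_of_nonneg_right hn (by positivity)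
      _ = x / L ^ 4 := by field_simp
      _ ≤ x / L := div_le_div_of_nonneg_left hx.le hL0
          (le_self_pow₀ (by linarith) (by norm_num))
  have e2 : C / (η * L) * x * (L - 2 * lY + 43) ≤ C / (η * L) * x * (2 * δ * L + 43) :=
    mul_le_mul_of_nonneg_left (by linarith) (by positivity)
  have e3 : C / (η * L) * x * (2 * δ * L + 43) = 2 * C / η * x * δ + 43 * C / η * (x / L) := by
    field_simp
  have e4 : 2 * C / η * x * δ ≤ ε / 2 * x := by
    calc 2 * C / η * x * δ ≤ 2 * C / η * x * (ε * η / (4 * C)) :=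
          mul_le_mul_of_nonneg_left hδ (by positivity)
      _ = _ := by field_simp; ring
  have e5 : 3 * ((κ + C₀ / (η * L)) * x * (C / η)) =
      3 * C * κ / η * x + 3 * C₀ * C / η ^ 2 * (x / L) := by
    field_simp
  have e6 : (3 * C₀ * C / η ^ 2 + 2 + 43 * C / η) * (x / L) ≤ ε / 4 * x := by
    calc _ ≤ ε / 4 * L * (x / L) := mul_le_mul_of_nonneg_right hb (by positivity)
      _ = _ := by field_simp
  rw [e5]
  linarith

end AsmAux

open AsmAux in
theorem asm : RoughStmt → Box2Stmt → AsmStmt := by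
  rintro ⟨C, hC, hR⟩ ⟨C₀, hC₀, hB⟩
  refine ⟨3 * C, by positivity, fun η ε hη hη' hε => ?_⟩
  obtain ⟨δ, hδ⟩ : ∃ δ : ℝ, δ = min (1 / 8) (ε * η / (4 * C)) := ⟨_, rfl⟩
  have hδ0 : 0 < δ := hδ ▸ lt_min (by norm_num) (by positivity)
  have hδ8 : δ ≤ 1 / 8 := hδ ▸ min_le_left _ _
  have hδε : δ ≤ ε * η / (4 * C) := hδ ▸ min_le_right _ _
  refine ⟨δ, hδ0, fun K => ?_⟩
  have tl : Tendsto (fun x : ℕ => Real.log x) atTop atTop :=
    Real.tendsto_log_atTop.comp tendsto_natCast_atTop_atTop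
  have t1 : Tendsto (fun x : ℕ => (x : ℝ) ^ (2 * δ)) atTop atTop :=
    (tendsto_rpow_atTop (by linarith)).comp tendsto_natCast_atTop_atTop
  have t2 : Tendsto (fun x : ℕ => (x : ℝ) ^ (1 / 8 : ℝ)) atTop atTop :=
    (tendsto_rpow_atTop (by norm_num)).comp tendsto_natCast_atTop_atTop
  have t3 : Tendsto (fun x : ℕ => ε / 4 * Real.log x) atTop atTop :=
    tl.const_mul_atTop (by positivity)
  filter_upwards [hR η hη hη', hB η δ K hη hη' hδ0 (by linarith), ev_sqrt hε,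
    tl.eventually_ge_atTop 14, t1.eventually_ge_atTop 4, t2.eventually_ge_atTop 2,
    t3.eventually_ge_atTop (3 * C₀ * C / η ^ 2 + 2 + 43 * C / η), eventually_ge_atTop 1]
    with x hR hB hsq hL h4 h2 hb hx1 s hs hT κ hκ hR2
  have hx : (1 : ℝ) ≤ x := by exact_mod_cast hx1
  have hx0 : (0 : ℝ) < x := by linarith
  have hL0 : 0 < Real.log x := by linarith
  have hz1 : 1 ≤ zz η x := Nat.le_floor (by simpa using Real.one_le_rpow hx hη.le)
  have hzle : (zz η x : ℝ) ≤ (x : ℝ) ^ (1 / 4 : ℝ) :=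
    (Nat.floor_le (by positivity)).trans (Real.rpow_le_rpow_of_exponent_le hx (by linarith))
  obtain ⟨n, hn1, hn2, hn3⟩ := exists_n hz1 (X := (x : ℝ) ^ (1 / 2 - δ))
    (hzle.trans (Real.rpow_le_rpow_of_exponent_le hx (by linarith)))
  have hY1 : 1 ≤ zz η x * 2 ^ n := Nat.mul_pos hz1 (by positivity)
  have hY1' : (1 : ℝ) ≤ (zz η x * 2 ^ n : ℕ) := by exact_mod_cast hY1
  have hz1' : (1 : ℝ) ≤ zz η x := by exact_mod_cast hz1
  have hXX : (x : ℝ) ^ (1 / 2 - δ) * (x : ℝ) ^ (1 / 2 - δ) * (x : ℝ) ^ (2 * δ) = x := by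
    rw [← Real.rpow_add hx0, ← Real.rpow_add hx0, show 1 / 2 - δ + (1 / 2 - δ) + 2 * δ = 1 by ring,
      Real.rpow_one]
  have hX0 : 0 < (x : ℝ) ^ (1 / 2 - δ) := by positivity
  have hYY : ((zz η x * 2 ^ n : ℕ) : ℝ) * (zz η x * 2 ^ n : ℕ) ≤ x := by
    calc _ ≤ 2 * (x : ℝ) ^ (1 / 2 - δ) * (2 * (x : ℝ) ^ (1 / 2 - δ)) :=
          mul_le_mul hn3 hn3 (by linarith) (by linarith)
      _ = (x : ℝ) ^ (1 / 2 - δ) * (x : ℝ) ^ (1 / 2 - δ) * 4 := by ring
      _ ≤ (x : ℝ) ^ (1 / 2 - δ) * (x : ℝ) ^ (1 / 2 - δ) * (x : ℝ) ^ (2 * δ) :=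
          mul_le_mul_of_nonneg_left h4 (by positivity)
      _ = x := hXX
  have hYh : ((zz η x * 2 ^ n : ℕ) : ℝ) ≤ (x : ℝ) ^ (1 / 2 : ℝ) := by
    rw [← Real.sqrt_eq_rpow]
    exact Real.le_sqrt_of_sq_le (by rw [sq]; exact hYY)
  have hH : H x (zz η x) (tr x s) (C / (η * Real.log x)) ((x : ℝ) ^ (1 / 4 : ℝ)) :=
    { g1 := fun m => by
        unfold tr
        split_ifs
        · exact hs m
        · simp
      g0 := fun m hm => by
        unfold tr at hm
        by_contra hc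
        exact hm (if_neg fun h => hc (mem_Ioc.1 h))
      cnt := fun y hy1 hy2 => (cnt_le x _ y).trans ((hR.2 y hy1 hy2).trans (le_of_eq (by ring)))
      W0 := by positivity
      x1 := hx1
      z1 := hz1 }
  have hd := hH.det (n := n) (B := (κ + C₀ / (η * Real.log x)) * x) (E := x / Real.log x ^ 5)
    (D := C / η)
    (fun i hi α c a1 a2 c1 c2 => by
      have := hB s hs hT κ hκ hR2 (zz η x * 2 ^ i) α c
        ⟨Nat.mul_pos hz1 (by positivity), hn1 i hi, a1, a2, c1, c2⟩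
      rw [box_eq, dens, dens, icc_eq] at this
      exact this)
    (by positivity) (by exact_mod_cast hYY) (Real.one_le_rpow hx (by norm_num))
    (by
      rw [le_div_iff₀ (by positivity)]
      calc _ ≤ (x : ℝ) ^ (1 / 4 : ℝ) * ((x : ℝ) ^ (1 / 2 : ℝ) * (x : ℝ) ^ (1 / 4 : ℝ)) :=
            mul_le_mul_of_nonneg_left (mul_le_mul hYh hzle (by linarith) (by positivity))
              (by positivity)
        _ = x := by
          rw [← Real.rpow_add hx0, ← Real.rpow_add hx0]; norm_num)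
    (by
      have e : (x : ℝ) ^ (1 / 4 : ℝ) * (x : ℝ) ^ (1 / 8 : ℝ) ≤ (x : ℝ) ^ (1 / 2 - δ) := by
        rw [← Real.rpow_add hx0]
        exact Real.rpow_le_rpow_of_exponent_le hx (by linarith)
      have e' := mul_le_mul_of_nonneg_left h2 (show 0 ≤ (x : ℝ) ^ (1 / 4 : ℝ) by positivity)
      linarith)
    ((dens_le x _).trans hR.1) hL
  rw [← Sp_eq, ← R1_eq] at hd
  have l1 := Real.log_le_log hX0 hn2.le
  rw [Real.log_rpow hx0] at l1
  have hn : (n : ℝ) ≤ Real.log x := by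
    have l2 := Real.log_le_log (by linarith) hYh
    rw [Real.log_rpow hx0] at l2
    have l3 : (2 : ℝ) ^ n ≤ (zz η x * 2 ^ n : ℕ) := by
      push_cast
      exact le_mul_of_one_le_left (by positivity) hz1'
    have l4 := Real.log_le_log (by positivity) l3
    rw [Real.log_pow] at l4
    have l5 := Real.log_two_gt_d9
    have l6 : (n : ℝ) * (1 / 2) ≤ n * Real.log 2 :=
      mul_le_mul_of_nonneg_left (by linarith) (Nat.cast_nonneg n)
    linarith
  exact final hL hx0 hC hη hn l1 hδε hsq hb hd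

end Crest.Agent.R26
end

-- ▼ part PVc/R26/Box2

/-! Row 26: all boxes. -/

set_option autoImplicit false

namespace Crest.Agent.R26

open Finset Filter
open Crest.Agent.R5 (pr pd ee nit)

namespace Box2Aux

open AsmAux

theorem box_comm (η : ℝ) (x : ℕ) (s α c : ℕ → ℝ) : box η x s α c = box η x s c α := by
  rw [box_eq, box_eq, Finset.sum_comm]
  refine Finset.sum_congr rfl fun a _ => Finset.sum_congr rfl fun m _ =>
    Finset.sum_congr rfl fun d _ => ?_
  rw [mul_comm m a, mul_comm (α m)]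

theorem box_lin (η : ℝ) (x : ℕ) (s α c e : ℕ → ℝ) (t S : ℝ) :
    box η x s α (fun m => (c m - t * e m) / S) = (box η x s α c - t * box η x s α e) / S := by
  rw [box_eq, box_eq, box_eq, Finset.mul_sum, ← Finset.sum_sub_distrib, Finset.sum_div]
  refine Finset.sum_congr rfl fun a _ => ?_
  rw [Finset.mul_sum, ← Finset.sum_sub_distrib, Finset.sum_div]
  refine Finset.sum_congr rfl fun m _ => ?_
  rw [Finset.mul_sum, ← Finset.sum_sub_distrib, Finset.sum_div]
  refine Finset.sum_congr rfl fun d _ => ?_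
  ring

theorem dens_lin (x : ℕ) (c e : ℕ → ℝ) (t S : ℝ) :
    dens x (fun m => (c m - t * e m) / S) = (dens x c - t * dens x e) / S := by
  unfold dens
  rw [Finset.mul_sum, ← Finset.sum_sub_distrib, Finset.sum_div]
  refine Finset.sum_congr rfl fun m _ => ?_
  ring

/-- replace the long coefficient by a model -/
theorem step {η δ E : ℝ} {x A : ℕ} {s α c e : ℕ → ℝ}
    (h1 : ∀ c, BoxOK η δ x A α c → dens x c = 0 → |box η x s α c| ≤ E)
    (hc : BoxOK η δ x A α c) (he : BoxOK η δ x A α e) (hd : dens x e ≠ 0) :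
    |box η x s α c| ≤ |dens x c / dens x e| * |box η x s α e| + (1 + |dens x c / dens x e|) * E := by
  obtain ⟨t, ht⟩ : ∃ t, t = dens x c / dens x e := ⟨_, rfl⟩
  rw [← ht]
  have hS : 0 < 1 + |t| := by positivity
  have := h1 (fun m => (c m - t * e m) / (1 + |t|))
    { A_ge := hc.A_ge
      A_le := hc.A_le
      α_le := hc.α_le
      α_supp := hc.α_supp
      c_le := fun m => by
        rw [abs_div, abs_of_pos hS, div_le_one hS]
        refine (abs_sub _ _).trans (add_le_add (hc.c_le m) ?_)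
        rw [abs_mul]
        exact mul_le_of_le_one_right (abs_nonneg _) (he.c_le m)
      c_supp := fun m hm => by
        by_cases h0 : c m = 0
        · refine he.c_supp m fun h => hm ?_
          simp [h0, h]
        · exact hc.c_supp m h0 }
    (by rw [dens_lin, ht, div_mul_cancel₀ _ hd, sub_self, zero_div])
  rw [box_lin, abs_div, abs_of_pos hS, div_le_iff₀ hS] at this
  have h2 := abs_sub_abs_le_abs_sub (box η x s α c) (t * box η x s α e)
  rw [abs_mul] at h2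
  linarith

/-- the primes of `(z, 2z]` -/
noncomputable def pp (z r : ℕ) : ℝ := if r.Prime ∧ z < r ∧ r ≤ 2 * z then 1 else 0

theorem pp_nonneg (z r : ℕ) : 0 ≤ pp z r := by
  unfold pp; split_ifs <;> norm_num

theorem pp_abs (z r : ℕ) : |pp z r| ≤ 1 := by
  unfold pp; split_ifs <;> norm_num

theorem pp_supp {z r : ℕ} (h : pp z r ≠ 0) : r.Prime ∧ z < r ∧ r ≤ 2 * z := by
  unfold pp at h
  by_contra h'
  exact h (if_neg h')

theorem pp_rough {z r : ℕ} (h : pp z r ≠ 0) : rough z r := fun p hp hd => by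
  obtain ⟨h1, h2, -⟩ := pp_supp h
  rw [(Nat.prime_dvd_prime_iff_eq hp h1).1 hd]; exact h2

theorem dens_pp {x z : ℕ} (hz : 1 ≤ z) (hzx : z ≤ x) :
    (((Ioc z (2 * z)).filter (fun p => p.Prime ∧ p ≡ 1 [MOD 1])).card : ℝ) / (2 * z) ≤
      dens x (pp z) := by
  have hz' : (1 : ℝ) ≤ z := by exact_mod_cast hz
  unfold dens
  rw [Finset.card_filter, icc_eq]
  push_cast
  rw [Finset.sum_div]
  refine le_trans (Finset.sum_le_sum fun r hr => ?_)
    (Finset.sum_le_sum_of_subset_of_nonneg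
      (Ioc_subset_Ioc (Nat.zero_le z) (by omega : 2 * z ≤ 2 * x))
      fun r _ _ => div_nonneg (pp_nonneg _ _) (Nat.cast_nonneg _))
  obtain ⟨h1, h2⟩ := mem_Ioc.1 hr
  have h1' : (z : ℝ) < r := by exact_mod_cast h1
  have h2' : (r : ℝ) ≤ 2 * z := by exact_mod_cast h2
  split_ifs with h
  · rw [pp, if_pos ⟨h.1, h1, h2⟩]
    exact div_le_div_of_nonneg_left zero_le_one (by linarith) h2'
  · rw [zero_div]
    exact div_nonneg (pp_nonneg _ _) (Nat.cast_nonneg _)

theorem dens_abs {x z : ℕ} {c : ℕ → ℝ} (h1 : ∀ m, |c m| ≤ 1) (h2 : ∀ m, c m ≠ 0 → rough z m) :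
    |dens x c| ≤ ∑ m ∈ Ioc 0 (2 * x), rh z m / m := by
  unfold dens
  rw [icc_eq]
  refine (Finset.abs_sum_le_sum_abs _ _).trans (Finset.sum_le_sum fun m _ => ?_)
  rw [abs_div, Nat.abs_cast]
  refine div_le_div_of_nonneg_right ?_ (Nat.cast_nonneg _)
  by_cases h0 : c m = 0
  · rw [h0, abs_zero]; exact rh_nonneg _ _
  · rw [rh_of (h2 m h0)]; exact h1 m

theorem dens_cc {x z : ℕ} (hx : 1 ≤ x) (hz : 2 * z * z ≤ x) : 1 ≤ dens x (cc x z z) := by
  unfold dens
  have h1 : (1 : ℕ) ∈ Icc 1 (2 * x) := mem_Icc.2 ⟨le_rfl, by omega⟩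
  refine le_trans (le_of_eq ?_) (Finset.single_le_sum (f := fun m => cc x z z m / m)
    (fun m _ => div_nonneg (cc_nonneg _ _ _ _) (Nat.cast_nonneg _)) h1)
  simp only [cc]
  rw [if_pos ⟨le_rfl, by simpa using hz⟩, rh_of (rough_one z)]
  simp

theorem R2_eq (η : ℝ) (x : ℕ) (s : ℕ → ℝ) (r : ℕ) :
    R2 η x s r = ∑ b ∈ Ioc 0 (2 * x), rh (zz η x) b * tr x s (r * b) := by
  unfold R2 tr rh
  rw [Finset.sum_filter, icc_eq]
  refine Finset.sum_congr rfl fun d _ => ?_
  by_cases h1 : r * d ∈ Ioc x (2 * x) <;> by_cases h2 : rough (zz η x) d <;> simp [h1, h2]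

/-- the model box -/
theorem model {η κ W y0 : ℝ} {x : ℕ} {s : ℕ → ℝ} (h : H x (zz η x) (tr x s) W y0)
    (hκ : R2le η x s κ) (hzx : 2 * zz η x ≤ x) (hL : 0 < Real.log x)
    (hy : y0 ≤ (x : ℝ) / (2 * zz η x * zz η x)) :
    |box η x s (pp (zz η x)) (cc x (zz η x) (zz η x))| ≤
      (κ + 13 * W) * x * dens x (pp (zz η x)) := by
  have hz : (1 : ℝ) ≤ zz η x := by exact_mod_cast h.z1
  have hx : (1 : ℝ) ≤ x := by exact_mod_cast h.x1
  rw [box_eq, dens, icc_eq, Finset.mul_sum]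
  refine (Finset.abs_sum_le_sum_abs _ _).trans (Finset.sum_le_sum fun r _ => ?_)
  by_cases h0 : pp (zz η x) r = 0
  · simp [h0]
  obtain ⟨h1, h2, h3⟩ := pp_supp h0
  have h2' : (zz η x : ℝ) < r := by exact_mod_cast h2
  have h3' : (r : ℝ) ≤ 2 * zz η x := by exact_mod_cast h3
  have hrx : (r : ℝ) ≤ x := by exact_mod_cast h3.trans hzx
  have e1 : pp (zz η x) r = 1 := by rw [pp, if_pos ⟨h1, h2, h3⟩]
  have hya : y0 ≤ (x : ℝ) / r := hy.trans
    (div_le_div_of_nonneg_left (by linarith) (by linarith) (by nlinarith))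
  have u1 := h.uv (a := r) h1.one_le hya
  have u2 := h.vw h.z1 h2 hy
  have u3 := (abs_sub_le _ _ _).trans (add_le_add u1 u2)
  rw [← R2_eq] at u3
  have u4 := hκ r h1 h2 h3
  have l0 : 0 ≤ Real.log (x / r) := Real.log_nonneg (by rw [le_div_iff₀ (by linarith)]; linarith)
  have l1 : Real.log (x / r) ≤ Real.log x :=
    Real.log_le_log (div_pos (by linarith) (by linarith)) (div_le_self (by linarith) (by linarith))
  have u5 : |Real.log (x / r) * R2 η x s r| ≤ κ * (x / r) := by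
    rw [abs_mul, abs_of_nonneg l0]
    refine (mul_le_mul l1 u4 (abs_nonneg _) hL.le).trans (le_of_eq ?_)
    have : (r : ℝ) ≠ 0 := by linarith
    field_simp
  simp only [e1, one_mul]
  have u6 := abs_sub_abs_le_abs_sub
    (∑ m ∈ Ioc 0 (2 * x), ∑ e ∈ Ioc 0 (2 * x),
      cc x (zz η x) (zz η x) m * lr (zz η x) e * tr x s (r * m * e))
    (Real.log (x / r) * R2 η x s r)
  rw [abs_sub_comm] at u6
  have e2 : (κ + 13 * W) * x * (1 / r) = κ * (x / r) + 13 * (W * (x / r)) := by ring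
  rw [e2]
  linarith

theorem chain {T T₁ T₂ B E p q da dc K L c₁ x : ℝ} (hp : c₁ / (2 * L) ≤ p) (hc : 0 < c₁)
    (hq : 1 ≤ q) (hL : 1 ≤ L) (hx : 0 ≤ x) (hB : 0 ≤ B) (hE : E = 2 * x / L ^ 9)
    (ha : |da| ≤ K) (hd : |dc| ≤ K) (hK : 2 + 4 / c₁ * (2 * K + K ^ 2) ≤ L)
    (h1 : T ≤ |dc / p| * T₁ + (1 + |dc / p|) * E) (h2 : T₁ ≤ |da / q| * T₂ + (1 + |da / q|) * E)
    (h3 : T₂ ≤ B * p) : T ≤ B * (|da| * |dc|) + x / L ^ 5 := by
  have hL0 : 0 < L := by linarith
  have hp0 : 0 < p := lt_of_lt_of_le (by positivity) hp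
  have hK0 : 0 ≤ K := (abs_nonneg _).trans ha
  have hE0 : 0 ≤ E := by rw [hE]; positivity
  have a1 : |da / q| ≤ |da| := by
    rw [abs_div, abs_of_pos (by linarith : 0 < q)]
    exact div_le_self (abs_nonneg _) hq
  have a2 : |dc / p| = |dc| / p := by rw [abs_div, abs_of_pos hp0]
  have a3 : |dc| / p ≤ K * (2 * L / c₁) := by
    calc |dc| / p ≤ K / (c₁ / (2 * L)) := div_le_div₀ hK0 hd (by positivity) hp
      _ = _ := by field_simp
  have a4 : T₁ ≤ |da| * (B * p) + (1 + K) * E := by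
    refine h2.trans (add_le_add ?_ (mul_le_mul_of_nonneg_right (by linarith) hE0))
    exact (mul_le_mul_of_nonneg_left h3 (abs_nonneg _)).trans
      (mul_le_mul_of_nonneg_right a1 (by positivity))
  rw [a2] at h1
  have a5 := mul_le_mul_of_nonneg_left a4 (show 0 ≤ |dc| / p by positivity)
  have a6 : |dc| / p * (|da| * (B * p) + (1 + K) * E) =
      B * (|da| * |dc|) + |dc| / p * ((1 + K) * E) := by field_simp
  have a7 : |dc| / p * ((2 + K) * E) ≤ K * (2 * L / c₁) * ((2 + K) * E) :=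
    mul_le_mul_of_nonneg_right a3 (by positivity)
  have a8 : (1 + K * (2 * L / c₁) * (2 + K)) * E ≤ x / L ^ 5 := by
    have b1 : 2 * (1 + K * (2 * L / c₁) * (2 + K)) ≤ L ^ 4 := by
      have e : 2 * (1 + K * (2 * L / c₁) * (2 + K)) = 2 + 4 / c₁ * (2 * K + K ^ 2) * L := by
        ring
      have b2 : 0 ≤ 4 / c₁ * (2 * K + K ^ 2) := by positivity
      calc _ ≤ (2 + 4 / c₁ * (2 * K + K ^ 2)) * L := by rw [e]; nlinarith
        _ ≤ L * L := mul_le_mul_of_nonneg_right hK hL0.le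
        _ = L ^ 2 := by ring
        _ ≤ L ^ 4 := pow_le_pow_right₀ hL (by norm_num)
    calc _ = 2 * (1 + K * (2 * L / c₁) * (2 + K)) * (x / L ^ 9) := by rw [hE]; ring
      _ ≤ L ^ 4 * (x / L ^ 9) := mul_le_mul_of_nonneg_right b1 (by positivity)
      _ = _ := by field_simp
  nlinarith

end Box2Aux

open AsmAux Box2Aux in
theorem box2 : PrimeLowStmt → RoughStmt → Box1Stmt → Box2Stmt := by
  rintro hP ⟨C, hC, hR⟩ hB
  obtain ⟨c₁, hc₁, hP⟩ := hP 1 le_rfl
  refine ⟨13 * C, by positivity, fun η δ K hη hη' hδ hδ' => ?_⟩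
  have tl : Tendsto (fun x : ℕ => Real.log x) atTop atTop :=
    Real.tendsto_log_atTop.comp tendsto_natCast_atTop_atTop
  have t2 : Tendsto (fun x : ℕ => (x : ℝ) ^ (1 / 4 : ℝ)) atTop atTop :=
    (tendsto_rpow_atTop (by norm_num)).comp tendsto_natCast_atTop_atTop
  have tz : Tendsto (fun x : ℕ => zz η x) atTop atTop :=
    tendsto_nat_floor_atTop.comp ((tendsto_rpow_atTop hη).comp tendsto_natCast_atTop_atTop)
  filter_upwards [hR η hη hη', hB η δ K hη hη' hδ, tz.eventually hP, tz.eventually_ge_atTop 2,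
    tl.eventually_ge_atTop 1, t2.eventually_ge_atTop 4,
    tl.eventually_ge_atTop (2 + 4 / c₁ * (2 * (C / η) + (C / η) ^ 2)), eventually_ge_atTop 1]
    with x hR hB hP hz2 hL h4 hK hx1 s hs hT κ hκ hR2 A α c hok
  have hx : (1 : ℝ) ≤ x := by exact_mod_cast hx1
  have hx0 : (0 : ℝ) < x := by linarith
  have hL0 : 0 < Real.log x := by linarith
  have hz1 : 1 ≤ zz η x := by omega
  have hz2' : (2 : ℝ) ≤ zz η x := by exact_mod_cast hz2
  have hz8 : (zz η x : ℝ) ≤ (x : ℝ) ^ (1 / 8 : ℝ) :=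
    (Nat.floor_le (by positivity)).trans (Real.rpow_le_rpow_of_exponent_le hx (by linarith))
  have hzz : (zz η x : ℝ) * zz η x ≤ (x : ℝ) ^ (1 / 4 : ℝ) := by
    refine (mul_le_mul hz8 hz8 (by linarith) (by positivity)).trans (le_of_eq ?_)
    rw [← Real.rpow_add hx0]; norm_num
  have hA : (A : ℝ) ≤ (x : ℝ) ^ (1 / 4 : ℝ) * (x : ℝ) ^ (1 / 4 : ℝ) := by
    rw [← Real.rpow_add hx0]
    exact hok.A_le.trans (Real.rpow_le_rpow_of_exponent_le hx (by linarith))
  have hzδ : (zz η x : ℝ) ≤ (x : ℝ) ^ (1 / 2 - δ) :=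
    hz8.trans (Real.rpow_le_rpow_of_exponent_le hx (by linarith))
  obtain ⟨y, hy⟩ : ∃ y : ℝ, y = (x : ℝ) ^ (1 / 4 : ℝ) := ⟨_, rfl⟩
  have hy4 : y * y * y * y = x := by
    rw [hy, ← Real.rpow_add hx0, ← Real.rpow_add hx0, ← Real.rpow_add hx0]; norm_num
  rw [← hy] at hzz hA h4
  have hA1 : (1 : ℝ) ≤ A := by exact_mod_cast hok.A_ge
  have hAz : 4 * A * (zz η x * zz η x) ≤ x := by
    have : (4 : ℝ) * A * (zz η x * zz η x) ≤ x := by
      calc (4 : ℝ) * A * (zz η x * zz η x) ≤ y * (y * y) * y :=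
            mul_le_mul (mul_le_mul h4 hA (by linarith) (by linarith)) hzz (by positivity)
              (by positivity)
        _ = x := by rw [← hy4]; ring
    exact_mod_cast this
  have hA1' := hok.A_ge
  have hzzx : 2 * zz η x * zz η x ≤ x := by nlinarith
  have hzx : 2 * zz η x ≤ x := by nlinarith
  have hH : H x (zz η x) (tr x s) (C / (η * Real.log x)) ((x : ℝ) ^ (1 / 4 : ℝ)) :=
    { g1 := fun m => by
        unfold tr
        split_ifs
        · exact hs m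
        · simp
      g0 := fun m hm => by
        unfold tr at hm
        by_contra hc
        exact hm (if_neg fun h => hc (mem_Ioc.1 h))
      cnt := fun y hy1 hy2 => (cnt_le x _ y).trans ((hR.2 y hy1 hy2).trans (le_of_eq (by ring)))
      W0 := by positivity
      x1 := hx1
      z1 := hz1 }
  have h3 := model hH hR2 hzx hL0 (by
    rw [← hy, le_div_iff₀ (by positivity)]
    calc y * (2 * zz η x * zz η x) = 2 * y * (zz η x * zz η x) := by ring
      _ ≤ y * y * y * y := by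
        refine mul_le_mul ?_ hzz (by positivity) (by positivity)
        nlinarith
      _ = x := hy4)
  have hp : c₁ / (2 * Real.log x) ≤ dens x (pp (zz η x)) := by
    refine le_trans ?_ (dens_pp hz1 (by omega))
    refine le_trans ?_ (div_le_div_of_nonneg_right hP (by positivity))
    have l0 : 0 < Real.log (zz η x) := Real.log_pos (by linarith)
    have l1 : Real.log (zz η x) ≤ Real.log x :=
      Real.log_le_log (by linarith) (by exact_mod_cast (by omega : zz η x ≤ x))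
    calc c₁ / (2 * Real.log x) ≤ c₁ / (2 * Real.log (zz η x)) :=
          div_le_div_of_nonneg_left hc₁.le (by positivity) (by linarith)
      _ = _ := by field_simp
  have hp0 : 0 < dens x (pp (zz η x)) := lt_of_lt_of_le (by positivity) hp
  have hq := dens_cc hx1 hzzx
  have ok1 : BoxOK η δ x A α (pp (zz η x)) :=
    { A_ge := hok.A_ge
      A_le := hok.A_le
      α_le := hok.α_le
      α_supp := hok.α_supp
      c_le := pp_abs _
      c_supp := fun m hm => by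
        obtain ⟨h1, -, h2⟩ := pp_supp hm
        refine ⟨h1.one_le, pp_rough hm, le_trans ?_ hAz⟩
        calc 2 * A * m * zz η x ≤ 2 * A * (2 * zz η x) * zz η x := by gcongr
          _ = _ := by ring }
  have ok2 : BoxOK η δ x (zz η x) (pp (zz η x)) α :=
    { A_ge := hz1
      A_le := hzδ
      α_le := pp_abs _
      α_supp := fun m hm => ⟨(pp_supp hm).2.1, (pp_supp hm).2.2, pp_rough hm⟩
      c_le := hok.α_le
      c_supp := fun m hm => by
        obtain ⟨h1, h2, h3⟩ := hok.α_supp m hm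
        refine ⟨by omega, h3, le_trans ?_ hAz⟩
        calc 2 * zz η x * m * zz η x ≤ 2 * zz η x * (2 * A) * zz η x := by gcongr
          _ = _ := by ring }
  have ok3 : BoxOK η δ x (zz η x) (pp (zz η x)) (cc x (zz η x) (zz η x)) :=
    { A_ge := hz1
      A_le := hzδ
      α_le := pp_abs _
      α_supp := ok2.α_supp
      c_le := fun m => by
        rw [abs_of_nonneg (cc_nonneg _ _ _ _)]; exact (cc_le _ _ _ _).trans (rh_le _ _)
      c_supp := fun m hm => by
        by_cases h1 : 1 ≤ m ∧ 2 * zz η x * m * zz η x ≤ x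
        · rw [cc, if_pos h1] at hm
          exact ⟨h1.1, rough_of_rh hm, h1.2⟩
        · rw [cc, if_neg h1] at hm
          exact absurd rfl hm }
  have h1 := step (fun c => hB s hT A α c) hok ok1 hp0.ne'
  have h2 := step (fun c => hB s hT _ _ c) ok2 ok3 (by linarith)
  rw [box_comm η x s (pp (zz η x)) α] at h2
  have hD := (dens_le x (zz η x)).trans hR.1
  have := chain hp hc₁ hq hL hx0.le (by positivity) rfl
    ((dens_abs hok.α_le fun m hm => (hok.α_supp m hm).2.2).trans hD)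
    ((dens_abs hok.c_le fun m hm => (hok.c_supp m hm).2.1).trans hD) hK h1 h2 h3
  rw [mul_div_assoc 13 C]
  exact this

end Crest.Agent.R26
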