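import Crest.Agent.PVc.R26.Lin
import Crest.Agent.PVc.R26.Basic
import Crest.Agent.PVc.R5.Defs
import Crest.Agent.PVc.Lib.PNT.Fejer
import Crest.Agent.PVc.R8.Defs
import Crest.Agent.PVc.R5.TV
import Crest.Agent.PVc.R5.Point
import Crest.Agent.PVc.R26.Defs

-- ▼ part PVc/R26/FF1
section

/-! Row 26: one shared bank. -/

set_option autoImplicit false

namespace Crest.Agent.R26

open Finset Filter
open Crest.Agent.R5 (pr pd ee nit)

namespace FF1

variable {G : Par}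

theorem ker_zero (hK : KerStmt) (h : G.WF) {n : ℤ} (hn : (G.h : ℤ) < |n|) :
    ker G.Q G.h n = 0 := by
  have h1 := (hK G.Q G.h (by linarith [h.Q_ge]) h.h_bounds.1).2.1 n hn.le
  have h2 : n ≠ 0 := by
    rintro rfl
    simp only [abs_zero] at hn
    omega
  simp [ker, del, h1, h2]

theorem Qpow_le (h : G.WF) (j : Fin G.J) : G.P j * G.Q ^ 12 ≤ G.U :=
  (Nat.mul_le_mul_left _ (Nat.pow_le_pow_right (by linarith [h.Q_ge])
    (by linarith [h.J_ge]))).trans (h.U_ge j)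

/-- the bound of the Fourier multiplier times the symplectic kernel -/
theorem xi_bound (hK : KerStmt) (h : G.WF) (j : Fin G.J) {C N : ℝ} (hC : 0 < C)
    (hN : (G.U : ℝ) ≤ N) {Z : Finset (ℤ × ℤ)} (hc : (Z.card : ℝ) ≤ 15 * N)
    (hZ : ∀ (ξ : ℝ) (a : ℤ) (q : ℕ), 1 ≤ q → IsCoprime a (q : ℤ) → |ξ - a / q| ≤ 1 / (q : ℝ) ^ 2 →
      OpC Z (fun z z' => ee (ξ * det z z')) (√(C * N * (N / q + √N * Real.log (2 * q) +
        N / G.Y j + 1 / (2 / (G.P j : ℝ)) + q * Real.log (2 * q))))) (ξ : ℝ) :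
    ∃ e : ℝ, 0 ≤ e ∧ OpC Z (fun z z' => ee (ξ * det z z')) e ∧
      ‖hat (ker G.Q G.h) G.h ξ‖ * e ≤ (315 + √(5 * C)) * N / √(G.Q : ℝ) := by
  have hQn := h.Q_ge
  have hQ : (21 : ℝ) ≤ G.Q := by exact_mod_cast hQn
  have hQ0 : (0 : ℝ) < G.Q := by linarith
  have hQ1 : (1 : ℝ) ≤ G.Q := by linarith
  have hP : (1 : ℝ) ≤ G.P j := by exact_mod_cast h.BA_P_pos j
  have hPU : (G.P j : ℝ) * G.Q ^ 12 ≤ G.U := by exact_mod_cast Qpow_le h j
  have hUn : G.Q ^ 12 ≤ G.U := (Nat.le_mul_of_pos_left _ (h.BA_P_pos j)).trans (Qpow_le h j)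
  have hU : (G.Q : ℝ) ^ 12 ≤ G.U := by exact_mod_cast hUn
  have hU0 : (0 : ℝ) < G.U := lt_of_lt_of_le (by positivity) hU
  have hN0 : 0 < N := hU0.trans_le hN
  have hs0 : 0 < √(G.Q : ℝ) := Real.sqrt_pos.2 hQ0
  obtain ⟨k1, k2⟩ := (hK G.Q G.h (by omega) h.h_bounds.1).2.2.2.2 h.h_bounds.2.2.2
  have hd : 0 < G.U / G.Q ^ 2 :=
    Nat.div_pos ((Nat.pow_le_pow_right (by omega) (by norm_num)).trans hUn) (by positivity)
  have hd1 : ((G.U / G.Q ^ 2 : ℕ) : ℝ) ≤ G.U / G.Q ^ 2 := by exact_mod_cast Nat.cast_div_le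
  have hd2 : (G.U : ℝ) / G.Q ^ 2 ≤ (G.U / G.Q ^ 2 : ℕ) + 1 := by
    rw [div_le_iff₀ (by positivity)]
    have := Nat.lt_div_mul_add (a := G.U) (b := G.Q ^ 2) (by positivity)
    have h2 : (G.U : ℝ) < (G.U / G.Q ^ 2 : ℕ) * G.Q ^ 2 + G.Q ^ 2 := by exact_mod_cast this
    linarith
  obtain ⟨q, hq1, hq2⟩ := Real.exists_rat_abs_sub_le_and_den_le ξ hd
  rw [Rat.cast_def] at hq1
  have hco : IsCoprime q.num (q.den : ℤ) := Int.isCoprime_iff_gcd_eq_one.2 q.reduced
  have hq0 : (1 : ℝ) ≤ q.den := by exact_mod_cast q.pos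
  have hq3 : (q.den : ℝ) ≤ (G.U / G.Q ^ 2 : ℕ) := by exact_mod_cast hq2
  generalize G.U / G.Q ^ 2 = d at *
  have hd0 : (0 : ℝ) < d + 1 := by positivity
  rcases le_or_gt q.den G.Q with hq | hq
  · refine ⟨Z.card, Nat.cast_nonneg _,
      OpC.card Z fun _ _ => (Complex.norm_exp_ofReal_mul_I _).le, ?_⟩
    have b1 : 1 / ((d : ℝ) + 1) ≤ G.Q ^ 2 / G.U :=
      (one_div_le_one_div_of_le (by positivity) hd2).trans_eq (one_div_div _ _)
    have b2 : (G.Q : ℝ) ^ 2 / G.U ≤ 1 / (2 * (G.Q : ℝ) ^ 2) := by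
      rw [div_le_div_iff₀ hU0 (by positivity)]
      have : (G.Q : ℝ) ^ 5 ≤ G.Q ^ 12 := pow_le_pow_right₀ hQ1 (by norm_num)
      nlinarith [pow_pos hQ0 4]
    have b3 := k2 ξ (G.Q ^ 2 / G.U) q.num q.den q.pos hq hco (hq1.trans
      ((one_div_le_one_div_of_le hd0 (le_mul_of_one_le_right hd0.le hq0)).trans b1)) b2
    have b4 : (G.h : ℝ) * (G.Q ^ 2 / G.U) ≤ 1 / G.Q := by
      have : (G.h : ℝ) ≤ G.U / G.Q ^ 3 := by exact_mod_cast Nat.cast_div_le
      exact (mul_le_mul_of_nonneg_right this (by positivity)).trans_eq (by field_simp)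
    have b5 : (G.Q : ℝ) ^ 4 ≤ G.h := by
      have : G.Q ^ 4 ≤ G.h := (Nat.le_div_iff_mul_le (by positivity)).2
        (by rw [← pow_add]; exact (Nat.pow_le_pow_right (by omega) (by norm_num)).trans hUn)
      exact_mod_cast this
    have b6 : (G.Q : ℝ) ^ 6 / (G.h : ℝ) ^ 2 ≤ (1 / G.Q) ^ 2 :=
      (div_le_div_of_nonneg_left (by positivity) (by positivity)
        (pow_le_pow_left₀ (by positivity) b5 2)).trans_eq (by field_simp)
    have b7 := pow_le_pow_left₀ (by positivity) b4 2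
    have b8 : (1 / (G.Q : ℝ)) ^ 2 ≤ 1 / √(G.Q : ℝ) := by
      rw [one_div_pow]
      refine one_div_le_one_div_of_le hs0 (Real.sqrt_le_iff.2 ⟨by positivity, ?_⟩)
      rw [← pow_mul]
      exact le_self_pow₀ hQ1 (by norm_num)
    calc _ ≤ 21 * (1 / √(G.Q : ℝ)) * (15 * N) :=
          mul_le_mul (by linarith) hc (Nat.cast_nonneg _) (by positivity)
      _ = 315 * N / √(G.Q : ℝ) := by ring
      _ ≤ _ := by
          gcongr
          exact le_add_of_nonneg_right (Real.sqrt_nonneg _)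
  · refine ⟨_, Real.sqrt_nonneg _, hZ ξ q.num q.den q.pos hco (hq1.trans
      (one_div_le_one_div_of_le (by positivity) (by nlinarith))), ?_⟩
    have hq' : (G.Q : ℝ) ≤ q.den := by exact_mod_cast hq.le
    have hqU : (q.den : ℝ) * G.Q ^ 2 ≤ G.U := (le_div_iff₀ (by positivity)).1 (hq3.trans hd1)
    have hl : Real.log (2 * q.den) ≤ G.Q := (Real.log_le_log (by positivity)
      (by nlinarith [one_le_pow₀ hQ1 (n := 2)])).trans h.logU
    have t1 : N / q.den ≤ N / G.Q := by gcongr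
    have t2 : √N * Real.log (2 * q.den) ≤ N / G.Q := by
      have a1 : (G.Q : ℝ) ^ 2 ≤ √N := Real.le_sqrt_of_sq_le (by
        rw [← pow_mul]
        exact (pow_le_pow_right₀ hQ1 (by norm_num)).trans (hU.trans hN))
      have a2 := Real.mul_self_sqrt hN0.le
      rw [le_div_iff₀ hQ0]
      nlinarith [mul_le_mul_of_nonneg_left hl (mul_nonneg (Real.sqrt_nonneg N) hQ0.le),
        mul_le_mul_of_nonneg_left a1 (Real.sqrt_nonneg N)]
    have t3 : N / G.Y j ≤ N / G.Q := by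
      have : G.Q ≤ G.Y j :=
        (Nat.le_self_pow (by linarith [h.J_ge] : 0 < 10 * G.J).ne' _).trans (h.Y_ge j)
      gcongr
    have t4 : 1 / (2 / (G.P j : ℝ)) ≤ N / G.Q := by
      rw [one_div_div, div_le_div_iff₀ two_pos hQ0]
      have : (G.Q : ℝ) ≤ G.Q ^ 12 := le_self_pow₀ hQ1 (by norm_num)
      nlinarith
    have t5 : q.den * Real.log (2 * q.den) ≤ N / G.Q := by
      rw [le_div_iff₀ hQ0]
      nlinarith [mul_le_mul_of_nonneg_left hl (mul_nonneg (zero_le_one.trans hq0) hQ0.le)]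
    calc _ ≤ 1 * √(5 * C * (N ^ 2 / G.Q)) := by
          refine mul_le_mul (k1 ξ) (Real.sqrt_le_sqrt ?_) (Real.sqrt_nonneg _) zero_le_one
          calc _ ≤ C * N * (5 * (N / G.Q)) :=
                mul_le_mul_of_nonneg_left (by linarith) (by positivity)
            _ = _ := by ring
      _ = √(5 * C) * N / √(G.Q : ℝ) := by
          rw [one_mul, Real.sqrt_mul (by positivity), Real.sqrt_div (by positivity),
            Real.sqrt_sq hN0.le, mul_div_assoc]
      _ ≤ _ := by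
          gcongr
          exact le_add_of_nonneg_left (by norm_num)

theorem A_pos (h : G.WF) : 0 < G.A := by
  have h1 := h.A_ge
  have h2 := h.card_banks_le
  nlinarith

/-- the use of goodness -/
theorem sep (h : G.WF) {sh : G.Bank} (hs : sh ∈ G.shs) {X : ℤ × ℤ} {u : G.Tup}
    (ha : ∃ a ∈ G.As, X.1 = (a : ℤ)) (hu : u ∈ G.outs sh) (hg : G.good X (G.add sh u))
    (j : Fin G.J) {p q : ℤ} (hpq : p * X.1 + q * X.2 = 1) (m t : ℤ) (hm : m ≠ 0)
    (hY : |(m : ℝ)| ≤ G.Y j) : 2 / (G.P j : ℝ) ≤ |m * (G.pb sh * q / X.1 : ℝ) + t| := by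
  obtain ⟨a, ha, e⟩ := ha
  obtain ⟨a1, a2⟩ := h.As_sub a ha
  obtain ⟨-, b2, b3⟩ := h.add_mem hs hu
  have hU := (h.pu_bounds (mem_filter.1 hu).1).1
  have hdiv : G.pb (G.add sh u) / G.pu u = G.pb sh := by
    rw [b2, Nat.mul_div_cancel _ (h.BA_U_pos.trans_le hU)]
  have hY' : |m| ≤ G.Y j := by exact_mod_cast hY
  have hg' := hg.2 j u b3 u b3 m.toNat (-m).toNat (by rw [abs_le] at hY'; omega)
    (by rw [abs_le] at hY'; omega) (G.pb sh * m * q + t * X.1)
  rw [hdiv] at hg'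
  have h1 : ¬ |G.pb sh * m * q + t * X.1| * G.P j ≤ 4 * G.A := fun h1 => by
    have h2 := hg' h1 ⟨t * X.2 - G.pb sh * m * p, by
      push_cast
      rw [← mul_sub, Int.toNat_sub_toNat_neg]
      linear_combination (G.pb sh * m : ℤ) * hpq⟩
    have h3 := Nat.eq_of_mul_eq_mul_left (h.pb_sh_le hs).1 h2
    omega
  rw [e] at h1 ⊢
  have ha0 : (0 : ℝ) < a := by exact_mod_cast (Nat.zero_le _).trans_lt a1
  have hP : (0 : ℝ) < G.P j := by exact_mod_cast h.BA_P_pos j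
  have h2 : (4 * G.A : ℝ) < |(G.pb sh * m * q + t * a : ℝ)| * G.P j := by
    exact_mod_cast not_le.1 h1
  have h3 : (a : ℝ) ≤ 2 * G.A := by exact_mod_cast a2
  have h4 : (m * (G.pb sh * q / ((a : ℤ) : ℝ)) + t : ℝ) = (G.pb sh * m * q + t * a) / a := by
    push_cast
    field_simp
  rw [h4, abs_div, abs_of_pos ha0, div_le_div_iff₀ hP ha0]
  linarith

/-- one window -/
theorem window (hK : KerStmt) (hP : PlanStmt) {C : ℝ} (hC : 0 < C)
    (hL : ∀ (θ N Y τ : ℝ) (Z : Finset (ℤ × ℤ)), 1 ≤ N → 1 ≤ Y → 0 < τ →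
      (∀ z ∈ Z, |(z.1 : ℝ)| ≤ N ∧ |z.1 * θ + z.2| ≤ 2) →
      (∀ m t : ℤ, m ≠ 0 → |(m : ℝ)| ≤ Y → τ ≤ |m * θ + t|) → (Z.card : ℝ) ≤ 15 * N ∧
      ∀ (ξ : ℝ) (a : ℤ) (q : ℕ), 1 ≤ q → IsCoprime a (q : ℤ) → |ξ - a / q| ≤ 1 / (q : ℝ) ^ 2 →
        OpC Z (fun z z' => ee (ξ * det z z'))
          (√(C * N * (N / q + √N * Real.log (2 * q) + N / Y + 1 / τ + q * Real.log (2 * q)))))
    (h : G.WF) {sh : G.Bank} (hs : sh ∈ G.shs) {N : ℝ} (hN : (G.U : ℝ) ≤ N)
    (W : Finset ((ℤ × ℤ) × G.Tup))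
    (hW : ∀ s ∈ W, (∃ a ∈ G.As, s.1.1 = (a : ℤ)) ∧ s.2 ∈ G.outs sh ∧ G.good s.1 (G.add sh s.2))
    (hd : ∀ s ∈ W, ∀ s' ∈ W, (G.pb sh : ℤ) ∣ det s.1 s'.1 ∧ |(det s.1 s'.1 : ℝ)| ≤ G.pb sh * N) :
    OpB W (fun s s' => kk (ker G.Q G.h) (G.pb sh) ((G.pu s'.2 : ℤ) - G.pu s.2) s.1 s'.1)
      ((315 + √(5 * C)) * N / √(G.Q : ℝ)) := by
  rcases W.eq_empty_or_nonempty with rfl | ⟨s₀, h₀⟩
  · intro φ ψ
    simp [nrm]
  obtain ⟨w1, w2, w3⟩ := hW s₀ h₀
  obtain ⟨p, q, hpq⟩ := w3.1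
  have hg : (0 : ℤ) < G.pb sh := by exact_mod_cast (h.pb_sh_le hs).1
  have hgR : (0 : ℝ) < G.pb sh := by exact_mod_cast hg
  have hU1 : (1 : ℝ) ≤ G.U := by exact_mod_cast h.BA_U_pos
  have j : Fin G.J := ⟨0, by linarith [h.J_ge]⟩
  let f : ℤ × ℤ → ℤ × ℤ := fun X => (det X s₀.1 / G.pb sh, det (q, -p) X)
  have hf : ∀ s ∈ W, G.pb sh * (f s.1).1 = det s.1 s₀.1 := fun s hs =>
    Int.mul_ediv_cancel' (hd s hs s₀ h₀).1
  have hf1 : ∀ s ∈ W, s.1.1 = G.pb sh * (f s.1).1 * q + (f s.1).2 * s₀.1.1 := fun s hs => by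
    rw [hf s hs]
    simp only [f, det]
    linear_combination (-s.1.1) * hpq
  have hf2 : ∀ s ∈ W, s.1.2 = -(G.pb sh * (f s.1).1 * p) + (f s.1).2 * s₀.1.2 := fun s hs => by
    rw [hf s hs]
    simp only [f, det]
    linear_combination (-s.1.2) * hpq
  clear_value f
  have hdet : ∀ s ∈ W, ∀ s' ∈ W, det s.1 s'.1 = G.pb sh * det (f s.1) (f s'.1) := by
    intro s hs s' hs'
    rw [det, hf1 s hs, hf2 s hs, hf1 s' hs', hf2 s' hs', det]
    linear_combination (G.pb sh * ((f s.1).1 * (f s'.1).2 - (f s.1).2 * (f s'.1).1) : ℤ) * hpq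
  obtain ⟨l1, l2⟩ := hL (G.pb sh * q / s₀.1.1) N (G.Y j) (2 / G.P j) (W.image fun s => f s.1)
    (hU1.trans hN) (by exact_mod_cast (h.BA_Qpow_pos _).trans_le (h.Y_ge j))
    (div_pos two_pos (by exact_mod_cast h.BA_P_pos j)) (fun z hz => by
      obtain ⟨s, hs, rfl⟩ := mem_image.1 hz
      constructor
      · have h1 := (hd s hs s₀ h₀).2
        rw [← hf s hs] at h1
        push_cast at h1
        rw [abs_mul, abs_of_pos hgR] at h1
        exact le_of_mul_le_mul_left h1 hgR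
      · obtain ⟨a, ha, e⟩ := (hW s hs).1
        obtain ⟨a₀, ha₀, e₀⟩ := w1
        have h1 := hf1 s hs
        rw [e, e₀] at h1
        have h2 : (a : ℝ) = G.pb sh * (f s.1).1 * q + (f s.1).2 * a₀ := by exact_mod_cast h1
        have h3 : (G.A : ℝ) < a₀ := by exact_mod_cast (h.As_sub a₀ ha₀).1
        have h4 : (a : ℝ) ≤ 2 * G.A := by exact_mod_cast (h.As_sub a ha).2
        have h5 : (0 : ℝ) < a₀ := (Nat.cast_nonneg _).trans_lt h3
        have h6 : ((f s.1).1 * (G.pb sh * q / (s₀.1.1 : ℤ)) + (f s.1).2 : ℝ) = a / a₀ := by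
          rw [h2, e₀]
          push_cast
          field_simp
        rw [h6, abs_of_nonneg (by positivity), div_le_iff₀ h5]
        linarith) (sep h hs w1 w2 w3 j hpq)
  have hX := xi_bound hK h j hC hN l1 l2
  have hinj : Set.InjOn (fun u : G.Tup => (G.pu u : ℤ)) G.tup :=
    fun u hu u' hu' e => h.pu_inj hu hu' (Int.natCast_inj.1 e)
  have hN0 : 0 ≤ N := by linarith
  have key := hP (ℤ × ℤ) G.Tup (W.image fun s => f s.1) G.tup det (fun u => (G.pu u : ℤ))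
    (ker G.Q G.h) G.h ((315 + √(5 * C)) * N / √(G.Q : ℝ)) hinj (fun n => ker_zero hK h)
    (by positivity) fun ξ => by exact hX ξ
  have k2 := key.comap (V' := W) (fun s => (f s.1, s.2)) (fun s hs s' hs' e => by
    obtain ⟨e1, e2⟩ := Prod.mk.inj e
    refine Prod.ext (Prod.ext ?_ ?_) e2
    · rw [hf1 s hs, hf1 s' hs', e1]
    · rw [hf2 s hs, hf2 s' hs', e1]) fun s hs =>
    mem_product.2 ⟨mem_image_of_mem _ hs, (mem_filter.1 (hW s hs).2.1).1⟩
  refine k2.congr fun s hs s' hs' => ?_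
  rw [kk, if_pos (hd s hs s' hs').1, hdet s hs s' hs', Int.mul_ediv_cancel_left _ hg.ne']

theorem det_trans {g : ℤ} {X Y Z : ℤ × ℤ} (hc : IsCoprime Y.1 g) (h1 : g ∣ det Y X)
    (h2 : g ∣ det Y Z) : g ∣ det X Z := by
  refine hc.symm.dvd_of_dvd_mul_left ?_
  have : Y.1 * det X Z = X.1 * det Y Z - Z.1 * det Y X := by
    simp only [det]
    ring
  rw [this]
  exact (h2.mul_left _).sub (h1.mul_left _)

theorem det_slope {X Y : ℤ × ℤ} (hX : (0 : ℝ) < X.1) (hY : (0 : ℝ) < Y.1) :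
    |(det X Y : ℝ)| = X.1 * Y.1 * |(X.2 / X.1 - Y.2 / Y.1 : ℝ)| := by
  rw [← abs_of_pos (mul_pos hX hY), ← abs_mul, ← abs_neg]
  congr 1
  simp only [det]
  push_cast
  field_simp
  ring

end FF1

open FF1 in
theorem ff1 : KerStmt → LatStmt → PlanStmt → FF1Stmt := by
  classical
  rintro hK ⟨C, hC, hL⟩ hP
  have hc : 1 ≤ 72 * (315 + √(5 * C)) := by linarith [Real.sqrt_nonneg (5 * C)]
  refine ⟨72 * (315 + √(5 * C)) * 2, by linarith, fun G h sh hs T hT => ?_⟩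
  obtain ⟨g1, g2⟩ := h.pb_sh_le hs
  have hU0 := h.BA_U_pos
  have hU1 : (1 : ℝ) ≤ G.U := by exact_mod_cast hU0
  have h2J : (1 : ℝ) ≤ 2 ^ G.J := one_le_pow₀ one_le_two
  have hg : (0 : ℤ) < G.pb sh := by exact_mod_cast g1
  have hgR : (0 : ℝ) < G.pb sh := by exact_mod_cast hg
  have hA : (0 : ℝ) < G.A := by exact_mod_cast A_pos h
  have hco : ∀ s ∈ T, IsCoprime s.1.1 (G.pb sh : ℤ) := fun s hs => by
    obtain ⟨a, ha, e⟩ := (hT s hs).1
    rw [e]
    refine h.coprime_small ha hg.ne' ?_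
    rw [abs_of_pos hg]
    have : G.pb sh ≤ G.D ^ 2 :=
      ((Nat.le_mul_of_pos_right _ (by positivity)).trans g2).trans (Nat.le_self_pow two_ne_zero _)
    exact_mod_cast this
  have hsz : ∀ s ∈ T, (G.A : ℝ) < s.1.1 ∧ (s.1.1 : ℝ) ≤ 2 * G.A := fun s hs => by
    obtain ⟨a, ha, e⟩ := (hT s hs).1
    rw [e]
    exact_mod_cast h.As_sub a ha
  have hker : ∀ s ∈ T, ∀ s' ∈ T,
      kk (ker G.Q G.h) (G.pb sh) ((G.pu s'.2 : ℤ) - G.pu s.2) s.1 s'.1 ≠ 0 →
      (G.pb sh : ℤ) ∣ det s.1 s'.1 ∧ |(det s.1 s'.1 : ℝ)| ≤ G.pb sh * (2 * 2 ^ G.J * G.U) := by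
    intro s hs s' hs' hne
    have h1 : (G.pb sh : ℤ) ∣ det s.1 s'.1 := by
      by_contra h1
      exact hne (if_neg h1)
    refine ⟨h1, ?_⟩
    rw [kk, if_pos h1] at hne
    obtain ⟨m, hm⟩ := h1
    rw [hm, Int.mul_ediv_cancel_left _ hg.ne'] at hne
    have h2 := abs_le.1 (not_lt.1 fun h2 => hne (ker_zero hK h h2))
    have h3 := h.pu_bounds (mem_filter.1 (hT s hs).2.1).1
    have h4 := h.pu_bounds (mem_filter.1 (hT s' hs').2.1).1
    have h5 := h.h_bounds.2.1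
    have h6 : |m| ≤ (2 * (2 ^ G.J * G.U) : ℕ) := by
      rw [abs_le]
      omega
    have h7 : |(m : ℝ)| ≤ 2 * (2 ^ G.J * G.U) := by exact_mod_cast h6
    rw [hm]
    push_cast
    rw [abs_mul, abs_of_pos hgR]
    exact mul_le_mul_of_nonneg_left (by linarith) hgR.le
  set H : ℝ := 2 * 2 ^ G.J * G.U with hH
  have hUH : (G.U : ℝ) ≤ H := by nlinarith
  have hH0 : 0 < H := by linarith
  refine OpB.mono (a := 3 * ((315 + √(5 * C)) * (12 * H) / √(G.Q : ℝ))) ?_ ?_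
  · refine OpB.fibre (by positivity) (fun s => T.filter fun s' => (G.pb sh : ℤ) ∣ det s.1 s'.1)
      (fun s hs s' hs' hne => filter_congr fun t _ => ?_) fun s₀ h₀ => ?_
    · have h1 := (hker s hs s' hs' hne).1
      refine ⟨det_trans (hco s hs) h1, det_trans (hco s' hs') ?_⟩
      exact det_trans (hco s hs) h1 (by simp [det, mul_comm])
    · refine OpB.band (by positivity) (fun s => ⌊(G.A : ℝ) ^ 2 / (G.pb sh * H) * (s.1.2 / s.1.1)⌋)
        (fun s hs s' hs' hne => ?_) fun m _ => ?_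
      · have a1 := hsz s (mem_filter.1 hs).1
        have a2 := hsz s' (mem_filter.1 hs').1
        have h1 := (hker s (mem_filter.1 hs).1 s' (mem_filter.1 hs').1 hne).2
        rw [det_slope (hA.trans a1.1) (hA.trans a2.1)] at h1
        have h2 : |(G.A : ℝ) ^ 2 / (G.pb sh * H) * (s.1.2 / s.1.1) -
            (G.A : ℝ) ^ 2 / (G.pb sh * H) * (s'.1.2 / s'.1.1)| ≤ 1 := by
          rw [← mul_sub, abs_mul, abs_of_pos (by positivity), div_mul_eq_mul_div,
            div_le_one (by positivity)]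
          exact (mul_le_mul_of_nonneg_right (by nlinarith) (abs_nonneg _)).trans h1
        rw [abs_le] at h2 ⊢
        constructor
        · rw [neg_le_sub_iff_le_add, ← Int.floor_add_one]
          exact Int.floor_le_floor (by linarith)
        · rw [sub_le_iff_le_add', ← Int.floor_add_one]
          exact Int.floor_le_floor (by linarith)
      · refine window hK hP hC hL h hs (by linarith) _
          (fun s hs => hT s (mem_filter.1 (mem_filter.1 hs).1).1) fun s hs s' hs' => ?_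
        obtain ⟨b1, b2⟩ := mem_filter.1 hs
        obtain ⟨b3, b4⟩ := mem_filter.1 hs'
        obtain ⟨c1, c2⟩ := mem_filter.1 b1
        obtain ⟨c3, c4⟩ := mem_filter.1 b3
        have d : ∀ t ∈ T, (T.filter fun s' => (G.pb sh : ℤ) ∣ det t.1 s'.1) =
            (T.filter fun s' => (G.pb sh : ℤ) ∣ det s₀.1 s'.1) → (G.pb sh : ℤ) ∣ det s₀.1 t.1 :=
          fun t ht e => (mem_filter.1 (e ▸ mem_filter.2 ⟨ht, by simp [det, mul_comm]⟩ :
            t ∈ T.filter fun s' => (G.pb sh : ℤ) ∣ det s₀.1 s'.1)).2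
        refine ⟨det_trans (hco s₀ h₀) (d s c1 c2) (d s' c3 c4), ?_⟩
        have a1 := hsz s c1
        have a2 := hsz s' c3
        rw [det_slope (hA.trans a1.1) (hA.trans a2.1)]
        have h2 : |(G.A : ℝ) ^ 2 / (G.pb sh * H) * (s.1.2 / s.1.1) -
            (G.A : ℝ) ^ 2 / (G.pb sh * H) * (s'.1.2 / s'.1.1)| ≤ 3 := by
          generalize (G.A : ℝ) ^ 2 / (G.pb sh * H) * (s.1.2 / s.1.1) = x at *
          generalize (G.A : ℝ) ^ 2 / (G.pb sh * H) * (s'.1.2 / s'.1.1) = y at *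
          rw [abs_le] at b2 b4 ⊢
          have e1 : (⌊x⌋ : ℝ) ≤ ⌊y⌋ + 2 := by exact_mod_cast (by omega : ⌊x⌋ ≤ ⌊y⌋ + 2)
          have e2 : (⌊y⌋ : ℝ) ≤ ⌊x⌋ + 2 := by exact_mod_cast (by omega : ⌊y⌋ ≤ ⌊x⌋ + 2)
          constructor <;>
            linarith [Int.floor_le x, Int.floor_le y, Int.lt_floor_add_one x, Int.lt_floor_add_one y]
        rw [← mul_sub, abs_mul, abs_of_pos (by positivity), div_mul_eq_mul_div,
          div_le_iff₀ (by positivity)] at h2
        have h3 : (s.1.1 : ℝ) * s'.1.1 ≤ 4 * (G.A : ℝ) ^ 2 := by nlinarith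
        linarith [mul_le_mul_of_nonneg_right h3
          (abs_nonneg ((s.1.2 : ℝ) / s.1.1 - s'.1.2 / s'.1.1))]
  · have h1 : 72 * (315 + √(5 * C)) ≤ (72 * (315 + √(5 * C))) ^ G.J :=
      le_self_pow₀ hc (by linarith [h.J_ge] : 0 < G.J).ne'
    rw [← mul_div_assoc, mul_pow]
    refine div_le_div_of_nonneg_right ?_ (Real.sqrt_nonneg _)
    calc _ = 72 * (315 + √(5 * C)) * 2 ^ G.J * G.U := by rw [hH]; ring
      _ ≤ _ := by gcongr

end Crest.Agent.R26
end

-- ▼ part PVc/R26/FF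
section

/-! Row 26: steps without memory event, concrete. -/

set_option autoImplicit false

namespace Crest.Agent.R26

open Finset Filter
open Crest.Agent.R5 (pr pd ee nit)

namespace FFH

open Par Par.BasicAux

theorem lift {σ β τ : Type} (V : Finset σ) (SH : Finset β) (T : β → Finset (σ × τ))
    {K : σ → σ → ℝ} (L : β → σ × τ → σ × τ → ℝ) {a m : ℝ} (ha : 0 ≤ a) (hm : 0 ≤ m)
    (hK : ∀ φ ψ : σ → ℝ, ∑ v ∈ V, ∑ v' ∈ V, φ v * K v v' * ψ v' =
      ∑ b ∈ SH, ∑ x ∈ T b, ∑ x' ∈ T b, φ x.1 * L b x x' * ψ x'.1)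
    (hL : ∀ b ∈ SH, OpB (T b) (L b) a)
    (hc : ∀ φ : σ → ℝ, ∑ b ∈ SH, ∑ x ∈ T b, φ x.1 ^ 2 ≤ m * ∑ v ∈ V, φ v ^ 2) :
    OpB V K (a * m) := by
  intro φ ψ
  rw [hK]
  refine (abs_sum_le_sum_abs _ _).trans ((sum_le_sum fun b hb =>
    hL b hb (fun x => φ x.1) fun x => ψ x.1).trans ?_)
  rw [← mul_sum, mul_assoc]
  refine mul_le_mul_of_nonneg_left ?_ ha
  refine (Real.sum_sqrt_mul_sqrt_le _ (fun _ => sum_nonneg fun _ _ => sq_nonneg _)
    fun _ => sum_nonneg fun _ _ => sq_nonneg _).trans ?_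
  refine (mul_le_mul (Real.sqrt_le_sqrt (hc φ)) (Real.sqrt_le_sqrt (hc ψ)) (Real.sqrt_nonneg _)
    (Real.sqrt_nonneg _)).trans_eq ?_
  rw [Real.sqrt_mul hm, Real.sqrt_mul hm, mul_mul_mul_comm, Real.mul_self_sqrt hm]
  rfl

theorem kk_sum {σ : Type} (W : Finset σ) (f : σ → ℤ × ℤ) (X : ℤ × ℤ) {k : ℤ → ℝ} {h : ℕ}
    (hk : ∀ n : ℤ, (h : ℤ) < |n| → k n = 0) (g : ℕ) (e : ℤ)
    (hW : Set.InjOn (fun v => det X (f v)) W) :
    ∑ v ∈ W, |kk k g e X (f v)| ≤ ∑ n ∈ Icc (-(h : ℤ)) h, |k n| := by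
  have h1 : Set.InjOn (fun v => det X (f v) / g - e)
      (W.filter fun v => |kk k g e X (f v)| ≠ 0 : Finset σ) := fun a ha b hb hab => by
    obtain ⟨a1, a2⟩ := mem_filter.1 ha
    obtain ⟨b1, b2⟩ := mem_filter.1 hb
    refine hW a1 b1 ?_
    simp only
    rw [← Int.mul_ediv_cancel' (ite_ne_right_iff.1 (abs_ne_zero.1 a2)).1,
      ← Int.mul_ediv_cancel' (ite_ne_right_iff.1 (abs_ne_zero.1 b2)).1, sub_left_inj.1 hab]
  rw [← sum_filter_ne_zero, sum_congr rfl fun v hv => by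
    rw [kk, if_pos (ite_ne_right_iff.1 (abs_ne_zero.1 (mem_filter.1 hv).2)).1],
    ← sum_image (f := fun n => |k n|) h1]
  refine sum_le_sum_of_subset_of_nonneg (fun n hn => ?_) fun _ _ _ => abs_nonneg _
  obtain ⟨v, hv, rfl⟩ := mem_image.1 hn
  exact mem_Icc.2 (abs_le.1 (not_lt.1 fun h0 =>
    (ite_ne_right_iff.1 (abs_ne_zero.1 (mem_filter.1 hv).2)).2 (hk _ h0)))

variable {G : Par}

/-- states with a chosen label -/
def TT (V : Finset G.St) (sh : G.Bank) : Finset (G.St × G.Tup) :=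
  (V ×ˢ G.outs sh).filter fun x => x.1.2 = G.add sh x.2

theorem mem_TT {V : Finset G.St} {sh : G.Bank} {x : G.St × G.Tup} :
    x ∈ TT V sh ↔ x.1 ∈ V ∧ x.2 ∈ G.outs sh ∧ x.1.2 = G.add sh x.2 := by
  rw [TT, mem_filter, mem_product, and_assoc]

theorem sum_TT (V : Finset G.St) (sh : G.Bank) (f : G.St × G.Tup → ℝ) :
    ∑ x ∈ TT V sh, f x =
      ∑ v ∈ V, ∑ u ∈ G.outs sh, if v.2 = G.add sh u then f (v, u) else 0 := by
  rw [TT, sum_filter, sum_product]

/-- the rescaled kernel -/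
noncomputable def full (k : ℤ → ℝ) (sh : G.Bank) (x x' : G.St × G.Tup) : ℝ :=
  1 / √(G.pu x.2 : ℝ) * kk k (G.pb sh) ((G.pu x'.2 : ℤ) - G.pu x.2) x.1.1 x'.1.1 *
    (1 / √(G.pu x'.2 : ℝ))

theorem khat_eq (h : G.WF) (k : ℤ → ℝ) (v v' : G.St) : khat G.bk (G.K0 k) v v' =
    ∑ sh ∈ G.shs, ∑ u ∈ G.outs sh, if v.2 = G.add sh u then ∑ w ∈ G.outs sh,
      (if v'.2 = G.add sh w then
        (if ∀ j, u j ≠ w j then full k sh (v, u) (v', w) else 0) else 0) else 0 := by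
  have e : khat G.bk (G.K0 k) v v' = ∑ e ∈ G.edges,
      if v.2 = G.add e.1 e.2.1 ∧ v'.2 = G.add e.1 e.2.2 then
        full k e.1 (v, e.2.1) (v', e.2.2) else 0 := by
    rw [khat, K0, sum_div]
    refine sum_congr rfl fun e he => ?_
    split_ifs with h1
    · obtain ⟨a1, a2, a3, a4, -⟩ := edge_facts h he
      rw [← h1.1] at a1 a2 a3 a4
      obtain ⟨-, -, b1, b2⟩ := h.prod_births a1 a2 a3 (h1.2.trans a4) fun p => (p : ℝ)
      rw [pd, pd, Nat.cast_prod, Nat.cast_prod, b1, b2, full, pu, pu, Nat.cast_prod, Nat.cast_prod,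
        Real.sqrt_mul (prod_nonneg fun _ _ => Nat.cast_nonneg _)]
      simp only [Nat.cast_prod]
      ring
    · exact zero_div _
  rw [e, sum_finset_product G.edges G.shs
    (fun sh => (G.outs sh ×ˢ G.outs sh).filter fun x => ∀ j, x.1 j ≠ x.2 j) fun e => by
      rw [mem_edges, mem_filter, mem_product, and_assoc]]
  refine sum_congr rfl fun sh _ => ?_
  rw [sum_filter, sum_product]
  refine sum_congr rfl fun u _ => ?_
  by_cases h1 : v.2 = G.add sh u
  · rw [if_pos h1]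
    refine sum_congr rfl fun w _ => ?_
    simp only [h1, true_and]
    split_ifs <;> rfl
  · simp [h1]

theorem count (h : G.WF) {b : G.Bank} (hb : b ∈ G.banks) :
    ∑ sh ∈ G.shs, ∑ u ∈ G.outs sh, (if b = G.add sh u then (1 : ℝ) else 0) ≤ (G.z : ℝ) ^ G.J := by
  rw [sum_sigma', sum_boole, ← Nat.cast_pow, ← h.card_choices hb, Nat.cast_le]
  refine card_le_card_of_injOn (fun x => x.2) (fun x hx => ?_) fun x hx y hy e => ?_
  · obtain ⟨a1, a2⟩ := mem_filter.1 (mem_coe.1 hx)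
    rw [a2]
    exact (h.add_mem (mem_sigma.1 a1).1 (mem_sigma.1 a1).2).2.2
  · obtain ⟨a1, a2⟩ := mem_filter.1 (mem_coe.1 hx)
    obtain ⟨b1, b2⟩ := mem_filter.1 (mem_coe.1 hy)
    have e' : x.2 = y.2 := e
    refine Sigma.ext ?_ (heq_of_eq e')
    rw [← erase_add (mem_sigma.1 a1).2, ← erase_add (mem_sigma.1 b1).2, ← a2, ← b2, e']

theorem card_bad (h : G.WF) {u : G.Tup} (hu : u ∈ G.tup) :
    (G.tup.filter fun w => ¬ ∀ j, u j ≠ w j).card * G.Q ^ (30 * G.J) ≤ G.J * G.U := by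
  have h1 : (G.tup.filter fun w => ¬ ∀ j, u j ≠ w j) ⊆
      univ.biUnion fun j => G.tup.filter fun w => w j = u j := fun w hw => by
    obtain ⟨a1, a2⟩ := mem_filter.1 hw
    obtain ⟨j, hj⟩ := not_forall.1 a2
    exact mem_biUnion.2 ⟨j, mem_univ _, mem_filter.2 ⟨a1, (not_not.1 hj).symm⟩⟩
  refine (Nat.mul_le_mul_right _ ((card_le_card h1).trans card_biUnion_le)).trans ?_
  rw [sum_mul]
  refine (sum_le_card_nsmul _ _ G.U fun j _ => ?_).trans_eq (by simp)
  rw [tup, Fintype.card_filter_piFinset_eq_of_mem _ _ (Fintype.mem_piFinset.1 hu j), U,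
    ← prod_erase_mul _ _ (mem_univ j)]
  exact Nat.mul_le_mul (prod_le_prod' fun i _ => h.card_S_le i) (h.P_ge j)

theorem d_le (h : G.WF) {u : G.Tup} (hu : u ∈ G.tup) : (1 / √(G.pu u : ℝ)) ^ 2 ≤ 1 / G.U := by
  rw [div_pow, one_pow, Real.sq_sqrt (Nat.cast_nonneg _)]
  exact one_div_le_one_div_of_le (Nat.cast_pos.2 h.BA_U_pos) (Nat.cast_le.2 (h.pu_bounds hu).1)

theorem row (h : G.WF) {V : Finset G.St} (hV : G.Adm V) {k : ℤ → ℝ}
    (hk : ∀ n : ℤ, (G.h : ℤ) < |n| → k n = 0)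
    (hs : ∑ n ∈ Icc (-(G.h : ℤ)) G.h, |k n| ≤ 1 + (G.Q : ℝ) ^ 2) {sh : G.Bank}
    {x : G.St × G.Tup} (hx : x ∈ TT V sh) :
    ∑ x' ∈ TT V sh, |if ∀ j, x.2 j ≠ x'.2 j then 0 else
      kk k (G.pb sh) ((G.pu x'.2 : ℤ) - G.pu x.2) x.1.1 x'.1.1| ≤ G.U / √(G.Q : ℝ) := by
  obtain ⟨a1, a2, -⟩ := mem_TT.1 hx
  have h1 : (((G.tup.filter fun w => ¬ ∀ j, x.2 j ≠ w j).card : ℕ) : ℝ) * (G.Q : ℝ) ^ (30 * G.J) ≤
      G.J * G.U := by exact_mod_cast card_bad h (mem_filter.1 a2).1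
  have hQ : (21 : ℝ) ≤ G.Q := by exact_mod_cast h.Q_ge
  have hJ : (G.J : ℝ) ≤ G.Q := by exact_mod_cast h.J_lt.le
  have h2 : (G.J : ℝ) * ((1 + (G.Q : ℝ) ^ 2) * √(G.Q : ℝ)) ≤ (G.Q : ℝ) ^ (30 * G.J) := by
    have b1 : √(G.Q : ℝ) ≤ G.Q := Real.sqrt_le_self_iff.2 (Or.inr (by linarith))
    have b2 : 1 + (G.Q : ℝ) ^ 2 ≤ (G.Q : ℝ) ^ 3 := by nlinarith
    calc _ ≤ (G.Q : ℝ) * ((G.Q : ℝ) ^ 3 * G.Q) := by gcongr
      _ = (G.Q : ℝ) ^ 5 := by ring
      _ ≤ _ := pow_le_pow_right₀ (by linarith) (by have := h.J_ge; omega)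
  rw [sum_TT, sum_comm]
  calc _ ≤ ∑ w ∈ G.outs sh, if ¬ ∀ j, x.2 j ≠ w j then 1 + (G.Q : ℝ) ^ 2 else 0 := by
        refine sum_le_sum fun w _ => ?_
        by_cases h3 : ∀ j, x.2 j ≠ w j
        · simp only [if_pos h3, abs_zero, ite_self, sum_const_zero, if_neg (not_not.2 h3), le_refl]
        · simp only [if_neg h3, if_pos h3]
          rw [← sum_filter]
          refine (kk_sum _ (fun v : G.St => v.1) _ hk _ _ fun a ha b hb e => ?_).trans hs
          obtain ⟨b1, b2⟩ := mem_filter.1 (mem_coe.1 ha)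
          obtain ⟨c1, c2⟩ := mem_filter.1 (mem_coe.1 hb)
          exact Prod.ext (h.eq_of_det (hV _ a1).1 (hV _ a1).2.2.1 (hV _ b1).1 (hV _ c1).1 e)
            (b2.trans c2.symm)
    _ ≤ ((G.tup.filter fun w => ¬ ∀ j, x.2 j ≠ w j).card : ℕ) * (1 + (G.Q : ℝ) ^ 2) := by
        rw [← sum_filter, sum_const, nsmul_eq_mul]
        gcongr
        exact filter_subset _ _
    _ ≤ _ := by
        rw [le_div_iff₀ (Real.sqrt_pos.2 (by linarith))]
        refine le_of_mul_le_mul_right ?_ (show (0 : ℝ) < (G.Q : ℝ) ^ (30 * G.J) by positivity)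
        calc _ = ((G.tup.filter fun w => ¬ ∀ j, x.2 j ≠ w j).card : ℕ) * (G.Q : ℝ) ^ (30 * G.J) *
              ((1 + (G.Q : ℝ) ^ 2) * √(G.Q : ℝ)) := by ring
          _ ≤ G.J * G.U * ((1 + (G.Q : ℝ) ^ 2) * √(G.Q : ℝ)) := by gcongr
          _ = G.U * (G.J * ((1 + (G.Q : ℝ) ^ 2) * √(G.Q : ℝ))) := by ring
          _ ≤ _ := by gcongr

end FFH

open FFH in
theorem ff : KerStmt → FF1Stmt → FFStmt := by
  rintro hK ⟨C, hC, H⟩
  refine ⟨2 * C, by linarith, fun G h V hV => ?_⟩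
  obtain ⟨k1, k2, -, k3, -⟩ := hK G.Q G.h (by have := h.Q_ge; omega) h.h_bounds.1
  have hk0 : ∀ n, ker G.Q G.h (-n) = ker G.Q G.h n := fun n => by
    simp only [ker, del, k1, neg_eq_zero]
  have hk : ∀ n : ℤ, (G.h : ℤ) < |n| → ker G.Q G.h n = 0 := fun n hn => by
    rw [ker, k2 n hn.le, del, if_neg (by rintro rfl; simp at hn; omega), sub_zero]
  have hs : ∑ n ∈ Icc (-(G.h : ℤ)) G.h, |ker G.Q G.h n| ≤ 1 + (G.Q : ℝ) ^ 2 := by
    refine (sum_le_sum fun n _ => abs_sub _ _).trans ?_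
    rw [sum_add_distrib]
    refine add_le_add ?_ k3
    simp [del, apply_ite abs]
  have hU : (0 : ℝ) < G.U := Nat.cast_pos.2 h.BA_U_pos
  have hC1 : 1 ≤ C ^ G.J := one_le_pow₀ hC
  refine (lift V G.shs (TT V) (fun sh x x' =>
    if ∀ j, x.2 j ≠ x'.2 j then full (ker G.Q G.h) sh x x' else 0)
    (a := 1 / G.U * (C ^ G.J * G.U / √(G.Q : ℝ) + √(G.U / √(G.Q : ℝ) * (G.U / √(G.Q : ℝ)))))
    (m := (G.z : ℝ) ^ G.J) (by positivity) (by positivity) (fun φ ψ => ?_) (fun sh hsh => ?_)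
    fun φ => ?_).mono ?_
  · simp only [khat_eq h, sum_TT, mul_sum, sum_mul]
    rw [sum_congr rfl fun _ _ => sum_comm, sum_comm]
    refine sum_congr rfl fun sh _ => sum_congr rfl fun v _ => ?_
    rw [sum_comm]
    refine sum_congr rfl fun u _ => ?_
    split_ifs
    · simp only [mul_sum, sum_mul, mul_ite, ite_mul, mul_zero, zero_mul]
    · simp
  · have h1 := (H G h sh hsh ((TT V sh).image fun x => (x.1.1, x.2)) fun s hs => by
      obtain ⟨x, hx, rfl⟩ := mem_image.1 hs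
      obtain ⟨a1, a2, a3⟩ := mem_TT.1 hx
      exact ⟨(hV _ a1).1, a2, a3 ▸ (hV _ a1).2.2⟩).comap (V' := TT V sh) (fun x => (x.1.1, x.2))
      (fun x hx y hy e => by
        obtain ⟨e1, e2⟩ := Prod.mk.inj e
        exact Prod.ext (Prod.ext e1 (by
          rw [(mem_TT.1 hx).2.2, (mem_TT.1 hy).2.2, e2])) e2) fun x hx => mem_image_of_mem _ hx
    have h2 := schur (V := TT V sh) (K := fun x x' => if ∀ j, x.2 j ≠ x'.2 j then 0 else
        kk (ker G.Q G.h) (G.pb sh) ((G.pu x'.2 : ℤ) - G.pu x.2) x.1.1 x'.1.1)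
      (b := G.U / √(G.Q : ℝ)) (by positivity) (by positivity) (fun _ _ _ _ => abs_nonneg _) (fun _ _ _ _ => abs_nonneg _)
      (fun _ _ _ _ => ((sq _).trans (abs_mul_abs_self _).symm).le)
      (fun x hx => row h hV hk hs hx) fun x hx => by
        refine le_trans (le_of_eq (sum_congr rfl fun x' _ => ?_)) (row h hV hk hs hx)
        rw [Par.BasicAux.kk_symm hk0]
        simp only [ne_comm]
    refine ((h1.sub h2).scale (by positivity) (fun x => 1 / √(G.pu x.2 : ℝ)) fun x hx =>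
      d_le h (mem_filter.1 (mem_TT.1 hx).2.1).1).congr fun x _ x' _ => ?_
    split_ifs
    · rw [sub_zero, full]
    · rw [sub_self, mul_zero, zero_mul]
  · simp only [sum_TT]
    rw [sum_comm, mul_sum]
    refine sum_le_sum fun v hv => le_trans (le_of_eq ?_)
      (mul_le_mul_of_nonneg_right (count h (hV v hv).2.1) (sq_nonneg (φ v)))
    simp only [sum_mul, ite_mul, one_mul, zero_mul]
  · have h2 : (2 : ℝ) ≤ 2 ^ G.J := le_self_pow₀ one_le_two (by have := h.J_ge; omega)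
    rw [Real.sqrt_mul_self (by positivity), mul_pow]
    calc _ = (C ^ G.J + 1) * (G.z : ℝ) ^ G.J / √(G.Q : ℝ) := by field_simp
      _ ≤ _ := by
        gcongr
        nlinarith

end Crest.Agent.R26
end

-- ▼ part PVc/R26/RhoD
section

/-! Row 26: recalls, delta part. -/

set_option autoImplicit false

namespace Crest.Agent.R26

open Finset Filter
open Crest.Agent.R5 (pr pd ee nit)

namespace RhoD

open Par Par.BasicB

variable {G : Par}

theorem split {n : ℕ} (f : Fin n → ℕ) (j : Fin n) : ∏ i, f i =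
    f j * ((∏ i ∈ univ.filter (fun i => i < j), f i) * ∏ i ∈ univ.filter (fun i => j < i), f i) := by
  have : ∏ i, f i = ∏ i, (if i = j then f i else 1) *
      ((if i < j then f i else 1) * if j < i then f i else 1) := by
    refine prod_congr rfl fun i _ => ?_
    rcases lt_trichotomy i j with h | h | h
    · simp [h, h.ne, h.not_gt]
    · simp [h]
    · simp [h, h.ne', h.not_gt]
  rw [this, prod_mul_distrib, prod_mul_distrib, prod_ite_eq', prod_filter, prod_filter]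
  simp

/-- the cofactor of `w j` -/
def yy (w : G.Tup) (j : Fin G.J) : ℕ :=
  (∏ i ∈ univ.filter (fun i => i < j), w i) * ∏ i ∈ univ.filter (fun i => j < i), w i

/-- lower product -/
def LL (G : Par) (j : Fin G.J) : ℕ := ∏ i ∈ univ.filter (fun i => i < j), 2 * G.P i

/-- upper product -/
def HH (G : Par) (j : Fin G.J) : ℕ := ∏ i ∈ univ.filter (fun i => j < i), G.P i

theorem yy_le (h : G.WF) {w : G.Tup} (hw : ∀ j, w j ∈ G.S j) (j : Fin G.J) :
    yy w j ≤ LL G j * (2 ^ (univ.filter (fun i => j < i)).card * HH G j) := by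
  rw [HH, ← prod_const, ← prod_mul_distrib]
  exact Nat.mul_le_mul (prod_le_prod' fun i _ => (h.prime i _ (hw i)).2.2)
    (prod_le_prod' fun i _ => (h.prime i _ (hw i)).2.2)

/-- the triples -/
def Tr (V : Finset G.St) (v : G.St) : Finset (Σ _ : G.Tup × G.Tup, G.St) :=
  (Fintype.piFinset v.2 ×ˢ G.outs v.2).sigma fun x => G.nbr V v x.1 x.2 0

variable {V : Finset G.St} {v : G.St}

theorem mem_Tr {t : Σ _ : G.Tup × G.Tup, G.St} : t ∈ Tr V v ↔
    (t.1.1 ∈ Fintype.piFinset v.2 ∧ t.1.2 ∈ G.outs v.2) ∧ t.2 ∈ G.nbr V v t.1.1 t.1.2 0 := by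
  rw [Tr, mem_sigma, mem_product]

theorem det_eq (h : G.WF) (hb : v.2 ∈ G.banks) {t : Σ _ : G.Tup × G.Tup, G.St} (ht : t ∈ Tr V v)
    (j : Fin G.J) : det v.1 t.2.1 =
      t.1.2 j * ((G.pb v.2 / G.pu t.1.1 * yy t.1.2 j : ℕ) : ℤ) - G.pb v.2 := by
  obtain ⟨⟨hu, -⟩, h2⟩ := mem_Tr.1 ht
  obtain ⟨e1, e2, e3, e4⟩ := h.erase_mem hb hu
  have e5 := (h.add_mem e1 e2).2.1
  rw [e3, ← e4] at e5
  have e6 : G.pu t.1.2 = t.1.2 j * yy t.1.2 j := split _ j
  rw [(mem_filter.1 h2).2.2, e6]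
  generalize G.pb v.2 / G.pu t.1.1 = g at e5 ⊢
  rw [e5]
  push_cast
  ring

theorem pair (h : G.WF) (hV : G.Adm V) (hv : v ∈ V) {t s : Σ _ : G.Tup × G.Tup, G.St}
    (ht : t ∈ Tr V v) (hs : s ∈ Tr V v) {j : Fin G.J} (e1 : t.1.2 j = s.1.2 j)
    (e2 : G.cl t.2 (t.1.2 j) = G.cl s.2 (s.1.2 j)) {y₁ y₂ : ℕ} (h1 : y₁ ≤ G.Y j) (h2 : y₂ ≤ G.Y j)
    (e : ((G.pb v.2 / G.pu t.1.1 * yy t.1.2 j : ℕ) : ℤ) -
      ((G.pb v.2 / G.pu s.1.1 * yy s.1.2 j : ℕ) : ℤ) =
      ((G.pb v.2 / G.pu t.1.1 * y₁ : ℕ) : ℤ) - ((G.pb v.2 / G.pu s.1.1 * y₂ : ℕ) : ℤ)) : t = s := by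
  obtain ⟨-, hb, hg⟩ := hV v hv
  have d1 := det_eq h hb ht j
  have d2 := det_eq h hb hs j
  obtain ⟨⟨hu, hw⟩, hn⟩ := mem_Tr.1 ht
  obtain ⟨⟨hu', hw'⟩, hn'⟩ := mem_Tr.1 hs
  have a1 := (hV _ (mem_filter.1 hn).1).1
  have a2 := (hV _ (mem_filter.1 hn').1).1
  have hp := (mem_outs.1 hw).1 j
  rw [← e1] at e2 d2
  have hd := (h.cl_eq_iff a1 a2 (mem_biUnion.2 ⟨j, mem_univ j, hp⟩)).1 e2
  have hnd : ¬ (t.1.2 j : ℤ) ∣ det v.1 t.2.1 := fun hh => by
    rw [d1] at hh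
    exact h.not_dvd_pb hb hw j (Int.natCast_dvd_natCast.1
      ((dvd_sub_right (dvd_mul_right _ _)).1 hh))
  have key := h.sep hg a1 a2 hp hd hnd hu hu' h1 h2 (by rw [d1, d2, ← e]; ring)
  rw [d1, d2, sub_left_inj] at key
  have key' : t.1.2 j * (G.pb v.2 / G.pu t.1.1 * yy t.1.2 j) =
      t.1.2 j * (G.pb v.2 / G.pu s.1.1 * yy s.1.2 j) := by exact_mod_cast key
  obtain ⟨b1, -, -, b4⟩ := h.erase_mem hb hu
  obtain ⟨c1, -, -, c4⟩ := h.erase_mem hb hu'
  obtain ⟨b5, b6, -⟩ := h.add_mem b1 (u := t.1.2)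
    (mem_outs.2 ⟨(mem_outs.1 hw).1, fun i hi => (mem_outs.1 hw).2 i (mem_of_mem_erase hi)⟩)
  obtain ⟨c5, c6, -⟩ := h.add_mem c1 (u := s.1.2)
    (mem_outs.2 ⟨(mem_outs.1 hw').1, fun i hi => (mem_outs.1 hw').2 i (mem_of_mem_erase hi)⟩)
  have f1 : G.pu t.1.2 = t.1.2 j * yy t.1.2 j := split _ j
  have f2 : G.pu s.1.2 = t.1.2 j * yy s.1.2 j := by rw [e1]; exact split _ j
  have hsw := h.pb_inj b5 c5 (by
    rw [b6, c6, ← b4, ← c4, f1, f2, mul_left_comm, key', mul_left_comm])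
  have hsw' : ∀ i, insert (t.1.2 i) ((v.2 i).erase (t.1.1 i)) =
      insert (s.1.2 i) ((v.2 i).erase (s.1.1 i)) := fun i => congrFun hsw i
  have g1 : t.1.2 = s.1.2 := funext fun i => by
    have := mem_insert_self (t.1.2 i) ((v.2 i).erase (t.1.1 i))
    rw [hsw', mem_insert] at this
    exact this.resolve_right fun hi => (mem_outs.1 hw).2 i (mem_of_mem_erase hi)
  have g2 : t.1.1 = s.1.1 := funext fun i => by
    by_contra hne
    have hi := Fintype.mem_piFinset.1 hu i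
    have : t.1.1 i ∈ insert (s.1.2 i) ((v.2 i).erase (s.1.1 i)) :=
      mem_insert_of_mem (mem_erase.2 ⟨hne, hi⟩)
    rw [← hsw', mem_insert] at this
    rcases this with h3 | h3
    · exact (mem_outs.1 hw).2 i (h3 ▸ hi)
    · exact notMem_erase _ _ h3
  rw [← g1, ← g2] at hn'
  obtain ⟨⟨u, w⟩, x⟩ := t
  obtain ⟨⟨u', w'⟩, x'⟩ := s
  obtain rfl : w = w' := g1
  obtain rfl : u = u' := g2
  obtain rfl : x = x' := card_le_one.1 (h.card_nbr hV hv u w 0) _ hn _ hn'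
  rfl

/-- the triples which match an item -/
def Mt (V : Finset G.St) (v : G.St) (j : Fin G.J) (x : ℕ × ℕ) :
    Finset (Σ _ : G.Tup × G.Tup, G.St) :=
  (Tr V v).filter fun t => (t.1.2 j, G.cl t.2 (t.1.2 j)) = x

theorem LL_le (h : G.WF) (j : Fin G.J) : (G.Q ^ G.J) ^ 10 * LL G j ≤ G.Y j := by
  rw [← pow_mul, mul_comm G.J]; exact h.sepY j

theorem card_top (h : G.WF) (hV : G.Adm V) (hv : v ∈ V) {j : Fin G.J} (hj : ∀ i, ¬ j < i)
    (x : ℕ × ℕ) : (Mt V v j x).card ≤ 1 := by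
  have hy : ∀ t ∈ Tr V v, yy t.1.2 j ≤ G.Y j := fun t ht => by
    have h1 := yy_le h (mem_outs.1 (mem_Tr.1 ht).1.2).1 j
    rw [HH, filter_false_of_mem fun i _ => hj i] at h1
    have h2 := LL_le h j
    have h3 : 1 ≤ (G.Q ^ G.J) ^ 10 := Nat.one_le_pow _ _ (h.BA_Qpow_pos _)
    simp only [card_empty, pow_zero, prod_empty, mul_one] at h1
    nlinarith
  refine card_le_one.2 fun t ht s hs => ?_
  obtain ⟨ht, e⟩ := mem_filter.1 ht
  obtain ⟨hs, e'⟩ := mem_filter.1 hs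
  have := Prod.mk.inj (e.trans e'.symm)
  exact pair h hV hv ht hs this.1 this.2 (hy t ht) (hy s hs) rfl

theorem card_low (h : G.WF) (hV : G.Adm V) (hv : v ∈ V) (j : Fin G.J) (x : ℕ × ℕ) :
    (Mt V v j x).card ≤ G.z ^ G.J * (LL G j * (2 ^ G.J * HH G j) / (G.Y j + 1) + 1) := by
  have hb := (hV v hv).2.1
  rw [← h.card_choices hb, ← card_range (_ / _ + 1), ← card_product]
  refine card_le_card_of_injOn (fun t => (t.1.1, yy t.1.2 j / (G.Y j + 1))) (fun t ht => ?_) ?_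
  · have ht := mem_Tr.1 (mem_filter.1 ht).1
    refine mem_coe.2 (mem_product.2 ⟨ht.1.1, mem_range.2 (Nat.lt_succ_of_le
      (Nat.div_le_div_right ((yy_le h (mem_outs.1 ht.1.2).1 j).trans ?_)))⟩)
    gcongr
    · norm_num
    · exact (card_le_univ _).trans_eq (Fintype.card_fin _)
  · intro t ht s hs e0
    wlog hle : yy s.1.2 j ≤ yy t.1.2 j generalizing t s
    · exact (this hs ht e0.symm (le_of_not_ge hle)).symm
    obtain ⟨ht, e⟩ := mem_filter.1 ht
    obtain ⟨hs, e'⟩ := mem_filter.1 hs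
    have h1 := Prod.mk.inj (e.trans e'.symm)
    obtain ⟨h2, h3⟩ := Prod.mk.inj e0
    have h4 : yy t.1.2 j - yy s.1.2 j ≤ G.Y j := by
      have a1 := Nat.div_add_mod (yy t.1.2 j) (G.Y j + 1)
      have a2 := Nat.div_add_mod (yy s.1.2 j) (G.Y j + 1)
      have a3 := Nat.mod_lt (yy t.1.2 j) (Nat.add_one_pos (G.Y j))
      rw [h3] at a1
      omega
    refine pair h hV hv ht hs h1.1 h1.2 h4 (Nat.zero_le _) ?_
    rw [← h2]
    generalize G.pb v.2 / G.pu t.1.1 = g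
    push_cast [Nat.cast_sub hle]
    ring

theorem num_low (h : G.WF) {j i : Fin G.J} (hj : j < i) :
    G.J * (G.κ * (2 ^ G.J * (G.z ^ G.J * (LL G j * (2 ^ G.J * HH G j) / (G.Y j + 1) + 1)))) ≤
      HH G j := by
  have hQ := h.Q_ge
  have hJ := h.J_ge
  have r0 : G.Q ≤ G.Q ^ G.J := Nat.le_self_pow (by omega) _
  have r1 : G.J ≤ G.Q ^ G.J := h.J_lt.le.trans r0
  have r2 : G.κ ≤ G.Q ^ G.J := h.κ_lt.le.trans r0
  have r3 : 2 ^ G.J ≤ G.Q ^ G.J := Nat.pow_le_pow_left (by omega) _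
  have r4 : G.z ^ G.J ≤ G.Q ^ G.J := Nat.pow_le_pow_left h.z_le _
  have r5 := LL_le h j
  have r6 : (G.Q ^ G.J) ^ 10 ≤ HH G j := by
    refine le_trans ?_ ((h.P_ge i).trans (single_le_prod' (f := G.P) (fun k _ => h.BA_P_pos k)
      (mem_filter.2 ⟨mem_univ i, hj⟩)))
    rw [← pow_mul]
    exact Nat.pow_le_pow_right (by omega) (by omega)
  have r7 := Nat.div_mul_le_self (LL G j * (2 ^ G.J * HH G j)) (G.Y j + 1)
  generalize LL G j * (2 ^ G.J * HH G j) / (G.Y j + 1) = D at r7 ⊢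
  have hR : 2 ≤ G.Q ^ G.J := by omega
  generalize G.Q ^ G.J = R at *
  have r8 : R ^ 10 * D ≤ R * HH G j := by
    refine Nat.le_of_mul_le_mul_right ?_ (Nat.add_one_pos (G.Y j))
    calc R ^ 10 * D * (G.Y j + 1) = R ^ 10 * (D * (G.Y j + 1)) := by ring
      _ ≤ R ^ 10 * (LL G j * (2 ^ G.J * HH G j)) := by gcongr
      _ = R ^ 10 * LL G j * (2 ^ G.J * HH G j) := by ring
      _ ≤ (G.Y j + 1) * (R * HH G j) := by gcongr; omega
      _ = _ := by ring
  refine Nat.le_of_mul_le_mul_left ?_ (Nat.pow_pos (n := 6) (by omega : 0 < R))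
  calc _ ≤ R ^ 6 * (R * (R * (R * (R * (D + 1))))) := by gcongr
    _ = R ^ 10 * D + R ^ 10 := by ring
    _ ≤ (R + 1) * HH G j := by rw [add_mul, one_mul]; gcongr
    _ ≤ R ^ 6 * HH G j := by
        gcongr
        calc R + 1 ≤ R ^ 2 := by nlinarith
          _ ≤ R ^ 6 := Nat.pow_le_pow_right (by omega) (by norm_num)

theorem weight_le (h : G.WF) {w : G.Tup} (hw : ∀ j, w j ∈ G.S j) (c : Fin G.J → Prop)
    [DecidablePred c] : ∏ j, (1 / (w j : ℝ) + if c j then 1 else 0) - ∏ j, 1 / (w j : ℝ) ≤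
      ∑ j, if c j then (2 : ℝ) ^ G.J / HH G j else 0 := by
  have h0 : ∀ j, 0 ≤ if c j then (2 : ℝ) ^ G.J / HH G j else 0 := fun j => by
    split_ifs <;> positivity
  by_cases hc : (univ.filter c).Nonempty
  · obtain ⟨j, hj, hmax⟩ := exists_max_image _ id hc
    refine le_trans ?_ (single_le_sum (fun i _ => h0 i) (mem_univ j))
    rw [if_pos (mem_filter.1 hj).2]
    have h1 : (2 : ℝ) ^ G.J / HH G j = ∏ i, 2 * if j < i then 1 / (G.P i : ℝ) else 1 := by
      rw [prod_mul_distrib, prod_const, card_univ, Fintype.card_fin, ← prod_filter, HH,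
        prod_div_distrib]
      simp [div_eq_mul_inv]
    refine (sub_le_self _ (prod_nonneg fun _ _ => by positivity)).trans ?_
    rw [h1]
    refine prod_le_prod (fun i _ => by split_ifs <;> positivity) fun i _ => ?_
    have hP : (1 : ℝ) ≤ G.P i := by exact_mod_cast h.BA_P_pos i
    have h2 : 1 / (w i : ℝ) ≤ 1 / G.P i :=
      one_div_le_one_div_of_le (by positivity) (by exact_mod_cast (h.prime i _ (hw i)).2.1.le)
    have h3 : 1 / (G.P i : ℝ) ≤ 1 := (div_le_one (by positivity)).2 hP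
    have h4 : 0 ≤ 1 / (G.P i : ℝ) := by positivity
    by_cases hi : j < i
    · rw [if_pos hi, if_neg fun hci => (hmax i (mem_filter.2 ⟨mem_univ i, hci⟩)).not_gt hi]
      linarith
    · rw [if_neg hi]
      split_ifs <;> linarith
  · have : ∀ j, ¬ c j := fun j hj => hc ⟨j, mem_filter.2 ⟨mem_univ j, hj⟩⟩
    simp [this]

end RhoD

open RhoD Par.BasicB in
theorem rhoD : RhoDStmt := by
  intro G h V hV v hv m hm
  have hb := (hV v hv).2.1
  have hJ := h.J_ge
  refine (h.row_le hV hv (k := del) (fun n hn => if_neg fun h0 => ?_) _ fun v' _ =>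
    sub_nonneg.2 (prod_le_prod (fun _ _ => by positivity) fun _ _ =>
      le_add_of_nonneg_right (by split_ifs <;> norm_num))).trans ?_
  · rw [h0, abs_zero] at hn
    omega
  have e1 : ∀ F : ℤ → ℝ, ∑ n ∈ Icc (-(G.h : ℤ)) G.h, |del n| * F n = F 0 := fun F => by
    rw [sum_eq_single_of_mem 0 (by simp) fun n _ hn => by simp [del, hn]]
    simp [del]
  simp only [e1]
  rw [← sum_product', sum_sigma']
  calc _ ≤ ∑ t ∈ Tr V v, ∑ j, ∑ x ∈ m, if (t.1.2 j, G.cl t.2 (t.1.2 j)) = x then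
        (2 : ℝ) ^ G.J / HH G j else 0 := by
        refine sum_le_sum fun t ht => ?_
        obtain ⟨⟨hu, hw⟩, hn⟩ := mem_Tr.1 ht
        have e := (mem_filter.1 hn).2.1
        rw [(h.prod_births hb hu hw e _).2.2.1, (h.prod_births hb hu hw e _).2.2.1]
        simp only [sum_ite_eq]
        exact weight_le h (mem_outs.1 hw).1 _
    _ = ∑ j, ∑ x ∈ m, (Mt V v j x).card * ((2 : ℝ) ^ G.J / HH G j) := by
        rw [sum_comm]
        refine sum_congr rfl fun j _ => ?_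
        rw [sum_comm]
        refine sum_congr rfl fun x _ => ?_
        rw [← sum_filter, sum_const, nsmul_eq_mul, Mt]
    _ ≤ ∑ j : Fin G.J, ((if j = ⟨G.J - 1, by omega⟩ then (2 : ℝ) ^ G.J * G.κ else 0) +
          1 / G.J) := by
        refine sum_le_sum fun j _ => ?_
        have hκ : (m.card : ℝ) ≤ G.κ := by exact_mod_cast hm
        split_ifs with hj
        · have hj' : ∀ i, ¬ j < i := fun i hi => by
            have := i.2
            rw [hj, Fin.lt_def] at hi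
            simp only at hi
            omega
          have hH : HH G j = 1 := by rw [HH, filter_false_of_mem fun i _ => hj' i, prod_empty]
          refine (sum_le_card_nsmul _ _ ((2 : ℝ) ^ G.J) fun x _ => ?_).trans ?_
          · have : ((Mt V v j x).card : ℝ) ≤ 1 := by exact_mod_cast card_top h hV hv hj' x
            rw [hH, Nat.cast_one, div_one]
            exact mul_le_of_le_one_left (by positivity) this
          · rw [nsmul_eq_mul, mul_comm]
            exact le_add_of_le_of_nonneg (by gcongr) (by positivity)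
        · have hj' : j < ⟨G.J - 1, by omega⟩ := by
            have := j.2
            rw [Fin.ext_iff] at hj
            rw [Fin.lt_def]
            simp only at hj ⊢
            omega
          have h1 := (Nat.cast_le (α := ℝ)).2 (num_low h hj')
          have hH : (0 : ℝ) < HH G j := by
            exact_mod_cast prod_pos fun i _ => h.BA_P_pos i
          have hJ' : (0 : ℝ) < G.J := by exact_mod_cast (by omega : 0 < G.J)
          have h2 := fun x => (Nat.cast_le (α := ℝ)).2 (card_low h hV hv j x)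
          generalize G.z ^ G.J * (LL G j * (2 ^ G.J * HH G j) / (G.Y j + 1) + 1) = N at h1 h2
          push_cast at h1
          refine (sum_le_card_nsmul _ _ (N * ((2 : ℝ) ^ G.J / HH G j)) fun x _ =>
            mul_le_mul_of_nonneg_right (h2 x) (by positivity)).trans ?_
          rw [nsmul_eq_mul, zero_add, le_div_iff₀ hJ', ← mul_div_assoc, ← mul_div_assoc,
            div_mul_eq_mul_div, div_le_one hH]
          refine le_trans ?_ h1
          calc _ = G.J * (m.card * (2 ^ G.J * (N : ℝ))) := by ring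
            _ ≤ _ := by gcongr
    _ = _ := by
        rw [sum_add_distrib, sum_ite_eq', if_pos (mem_univ _), sum_const, card_univ,
          Fintype.card_fin, nsmul_eq_mul, mul_one_div_cancel]
        exact_mod_cast (by omega : G.J ≠ 0)

end Crest.Agent.R26
end

-- ▼ part PVc/R5/Short
section

/-! Row 5: short sums are controlled by logarithmic windows. -/

set_option autoImplicit false

namespace Crest.Agent.R5

open Finset MeasureTheory

namespace Short

open Classical in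
/-- the window sum -/
noncomputable def Sig (S : Finset ℕ) (a : ℕ → ℂ) (ε u : ℝ) : ℂ :=
  ∑ n ∈ S.filter (fun n : ℕ => u < Real.log n ∧ Real.log n ≤ u + ε), a n

theorem Sig_eq (S : Finset ℕ) (a : ℕ → ℂ) (ε : ℝ) : Sig S a ε =
    fun u => ∑ n ∈ S, (Set.Ico (Real.log n - ε) (Real.log n)).indicator (fun _ => a n) u := by
  classical
  funext u
  rw [Sig, Finset.sum_filter]
  refine Finset.sum_congr rfl fun n _ => ?_
  rw [Set.indicator_apply]
  refine if_congr ?_ rfl rfl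
  rw [Set.mem_Ico]
  constructor <;> rintro ⟨h1, h2⟩ <;> constructor <;> linarith

theorem memLp_Sig (S : Finset ℕ) (a : ℕ → ℂ) (ε : ℝ) (p : ENNReal) :
    MemLp (Sig S a ε) p volume := by
  rw [Sig_eq]
  exact memLp_finsetSum _ fun n _ =>
    memLp_indicator_const p measurableSet_Ico _ (Or.inr (by simp))

theorem integrable_Sig (S : Finset ℕ) (a : ℕ → ℂ) (ε : ℝ) : Integrable (Sig S a ε) :=
  memLp_one_iff_integrable.mp (memLp_Sig S a ε 1)

theorem integrable_Sig_sq (S : Finset ℕ) (a : ℕ → ℂ) (ε : ℝ) :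
    Integrable (fun u => ‖Sig S a ε u‖ ^ 2) :=
  (memLp_Sig S a ε 2).integrable_norm_pow (by norm_num)

theorem setIntegral_Sig (S : Finset ℕ) (a : ℕ → ℂ) (ε : ℝ) (I : Set ℝ) :
    ∫ u in I, Sig S a ε u =
      ∑ n ∈ S, (volume.real (Set.Ico (Real.log n - ε) (Real.log n) ∩ I) : ℂ) * a n := by
  rw [Sig_eq, integral_finsetSum]
  · refine Finset.sum_congr rfl fun n _ => ?_
    rw [integral_indicator_const _ measurableSet_Ico, measureReal_restrict_apply measurableSet_Ico,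
      Complex.real_smul]
  · intro n _
    exact ((integrable_indicator_iff measurableSet_Ico).mpr
      (integrableOn_const (by simp))).integrableOn

/-- Cauchy–Schwarz on an interval. -/
theorem cs {f : ℝ → ℂ} (hf : Integrable f) (hf2 : Integrable (fun u => ‖f u‖ ^ 2)) {x y z L : ℝ}
    (hyz : y ≤ z) (hL : 0 < L) (hxz : x ≤ z) (hlen : z - x ≤ L) :
    ‖∫ u in Set.Ico x y, f u‖ ^ 2 ≤ L * ∫ u in Set.Ico x z, ‖f u‖ ^ 2 := by
  set I := ∫ u in Set.Ico x z, ‖f u‖ with hI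
  have h1 : ‖∫ u in Set.Ico x y, f u‖ ≤ I :=
    (norm_integral_le_integral_norm _).trans (setIntegral_mono_set hf.norm.integrableOn
      (Filter.Eventually.of_forall fun u => norm_nonneg _)
      (Set.Ico_subset_Ico_right hyz).eventuallyLE)
  have hc : IntegrableOn (fun _ : ℝ => (I / L) ^ 2) (Set.Ico x z) := integrableOn_const (by simp)
  have h2 : ∫ u in Set.Ico x z, 2 * (I / L) * ‖f u‖ ≤
      ∫ u in Set.Ico x z, (‖f u‖ ^ 2 + (I / L) ^ 2) :=
    integral_mono (hf.norm.integrableOn.const_mul _) (hf2.integrableOn.add hc)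
      fun u => by nlinarith [sq_nonneg (‖f u‖ - I / L)]
  rw [integral_const_mul, integral_add hf2.integrableOn hc, setIntegral_const,
    Real.volume_real_Ico_of_le hxz, smul_eq_mul, ← hI] at h2
  have h3 : (z - x) * (I / L) ^ 2 ≤ L * (I / L) ^ 2 :=
    mul_le_mul_of_nonneg_right hlen (sq_nonneg _)
  have h4 : I ^ 2 = L * (L * (I / L) ^ 2) := by field_simp
  have h5 : 2 * (I / L) * I = 2 * (L * (I / L) ^ 2) := by field_simp
  calc _ ≤ I ^ 2 := pow_le_pow_left₀ (norm_nonneg _) h1 2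
    _ ≤ _ := by rw [h4]; exact mul_le_mul_of_nonneg_left (by linarith) hL.le

theorem card_Ioc_floor {x y : ℝ} (hx : 0 ≤ x) (hxy : x ≤ y) :
    ((Ioc ⌊x⌋₊ ⌊y⌋₊).card : ℝ) ≤ y - x + 1 := by
  rw [Nat.card_Ioc, Nat.cast_sub (Nat.floor_mono hxy)]
  have := Nat.floor_le (hx.trans hxy)
  have := Nat.lt_floor_add_one x
  linarith

/-- the error term -/
theorem err (S : Finset ℕ) (a : ℕ → ℂ) {G ε : ℝ} {N h t : ℕ} (hS : ∀ n ∈ S, 1 ≤ n)
    (ha : ∀ n ∈ S, ‖a n‖ ≤ G) (hG : 0 ≤ G) (hε : 0 < ε) (hε1 : ε ≤ 1) (hN : 1 ≤ N) (hh : h ≤ N)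
    (ht : N ≤ t) (ht' : t < 3 * N) :
    ‖∑ n ∈ S.filter (fun n => t < n ∧ n ≤ t + h), a n -
      (ε : ℂ)⁻¹ * ∫ u in Set.Ico (Real.log t) (Real.log (t + h) - ε), Sig S a ε u‖ ≤
        G * (10 * ε * N + 2) := by
  classical
  set I := Set.Ico (Real.log t) (Real.log (t + h) - ε) with hI
  set v : ℕ → ℝ := fun n => volume.real (Set.Ico (Real.log n - ε) (Real.log n) ∩ I) with hv
  have ht0 : (0 : ℝ) < t := by exact_mod_cast (by omega : 0 < t)
  have hth : (0 : ℝ) < t + h := by positivity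
  set E := Ioc ⌊(t : ℝ)⌋₊ ⌊t * Real.exp ε⌋₊ ∪ Ioc ⌊(t + h : ℝ) * Real.exp (-ε)⌋₊ ⌊(t + h : ℝ)⌋₊
    with hE
  have he1 : Real.exp ε ≤ 1 + 2 * ε := by
    have := Real.abs_exp_sub_one_le (x := ε) (by rw [abs_of_pos hε]; exact hε1)
    rw [abs_of_pos hε] at this
    linarith [le_abs_self (Real.exp ε - 1)]
  have he2 : 1 - ε ≤ Real.exp (-ε) := by linarith [Real.add_one_le_exp (-ε)]
  have he3 : 1 ≤ Real.exp ε := Real.one_le_exp hε.le
  have he4 : Real.exp (-ε) ≤ 1 := Real.exp_le_one_iff.mpr (by linarith)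
  have hcard : (E.card : ℝ) ≤ 10 * ε * N + 2 := by
    have h1 := card_Ioc_floor ht0.le (le_mul_of_one_le_right ht0.le he3)
    have h2 := card_Ioc_floor (x := (t + h : ℝ) * Real.exp (-ε)) (by positivity)
      (mul_le_of_le_one_right hth.le he4)
    have h3 : (E.card : ℝ) ≤ (Ioc ⌊(t : ℝ)⌋₊ ⌊t * Real.exp ε⌋₊).card +
        (Ioc ⌊(t + h : ℝ) * Real.exp (-ε)⌋₊ ⌊(t + h : ℝ)⌋₊).card := by
      rw [← Nat.cast_add, Nat.cast_le]
      exact Finset.card_union_le _ _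
    have h4 : (t : ℝ) ≤ 3 * N := by exact_mod_cast ht'.le
    have h5 : (h : ℝ) ≤ N := by exact_mod_cast hh
    have h6 : (t : ℝ) * Real.exp ε - t ≤ 6 * ε * N := by nlinarith
    have h7 : (t + h : ℝ) - (t + h) * Real.exp (-ε) ≤ 4 * ε * N := by nlinarith
    linarith
  have hv0 : ∀ n, 0 ≤ v n := fun n => measureReal_nonneg
  have hv1 : ∀ n, v n ≤ ε := fun n => by
    refine (measureReal_mono Set.inter_subset_left (by simp)).trans ?_
    rw [Real.volume_real_Ico_of_le (by linarith)]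
    linarith
  rw [setIntegral_Sig, Finset.sum_filter, Finset.mul_sum, ← Finset.sum_sub_distrib]
  refine (norm_sum_le _ _).trans ?_
  have key : ∀ n ∈ S, ‖(if t < n ∧ n ≤ t + h then a n else 0) - (ε : ℂ)⁻¹ * ((v n : ℂ) * a n)‖ ≤
      if n ∈ E then G else 0 := by
    intro n hn
    have hn0 : (0 : ℝ) < n := by exact_mod_cast hS n hn
    have hεc : (ε : ℂ) ≠ 0 := by exact_mod_cast hε.ne'
    by_cases hin : t < n ∧ n ≤ t + h
    · rw [if_pos hin]
      have e1 : a n - (ε : ℂ)⁻¹ * ((v n : ℂ) * a n) = ((1 - v n / ε : ℝ) : ℂ) * a n := by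
        push_cast; field_simp
      rw [e1, norm_mul, Complex.norm_real, Real.norm_eq_abs]
      split_ifs with hnE
      · have h1 : v n / ε ≤ 1 := (div_le_one hε).mpr (hv1 n)
        have h2 : 0 ≤ v n / ε := div_nonneg (hv0 n) hε.le
        rw [abs_of_nonneg (by linarith)]
        exact (mul_le_mul (by linarith) (ha n hn) (norm_nonneg _) zero_le_one).trans_eq (one_mul G)
      · rw [hE, Finset.mem_union, not_or, Finset.mem_Ioc, Finset.mem_Ioc, Nat.floor_natCast,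
          ← Nat.cast_add, Nat.floor_natCast] at hnE
        have h1 : ⌊t * Real.exp ε⌋₊ < n := by have := hnE.1; omega
        have h2 : n ≤ ⌊((t + h : ℕ) : ℝ) * Real.exp (-ε)⌋₊ := by have := hnE.2; omega
        have h3 := (Nat.floor_lt (by positivity)).mp h1
        have h4 := (Nat.le_floor_iff (by positivity)).mp h2
        have h5 := Real.log_le_log (by positivity) h3.le
        have h6 := Real.log_le_log hn0 h4
        rw [Real.log_mul ht0.ne' (Real.exp_pos _).ne', Real.log_exp] at h5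
        push_cast at h6
        rw [Real.log_mul hth.ne' (Real.exp_pos _).ne', Real.log_exp] at h6
        have h7 : v n = ε := by
          simp only [hv]
          rw [Set.inter_eq_left.mpr (Set.Ico_subset_Ico (by linarith) (by linarith)),
            Real.volume_real_Ico_of_le (by linarith)]
          ring
        rw [h7, div_self hε.ne', sub_self, abs_zero, zero_mul]
    · have h7 : v n = 0 := by
        have : Set.Ico (Real.log n - ε) (Real.log n) ∩ I = ∅ := by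
          rw [Set.eq_empty_iff_forall_notMem]
          rintro u ⟨⟨h1, h2⟩, h3, h4⟩
          by_cases h5 : t < n
          · have h6 : (t + h : ℝ) ≤ n := by exact_mod_cast (by omega : t + h ≤ n)
            have := Real.log_le_log hth h6
            linarith
          · have h6 : (n : ℝ) ≤ t := by exact_mod_cast not_lt.mp h5
            have := Real.log_le_log hn0 h6
            linarith
        simp only [hv, this, measureReal_empty]
      rw [if_neg hin, h7]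
      simp only [Complex.ofReal_zero, zero_mul, mul_zero, sub_zero, norm_zero]
      split_ifs
      · exact hG
      · exact le_rfl
  refine (Finset.sum_le_sum key).trans ?_
  rw [← Finset.sum_filter, Finset.sum_const, nsmul_eq_mul, mul_comm]
  refine mul_le_mul_of_nonneg_left (le_trans ?_ hcard) hG
  exact_mod_cast Finset.card_le_card fun n hn => (Finset.mem_filter.mp hn).2

/-- each point lies in at most `h` windows -/
theorem overlap {f : ℝ → ℝ} (hf : Integrable f) (hf0 : ∀ u, 0 ≤ f u) (T : Finset ℕ)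
    (hT : ∀ t ∈ T, 1 ≤ t) (h : ℕ) :
    ∑ t ∈ T, ∫ u in Set.Ico (Real.log t) (Real.log (t + h)), f u ≤ h * ∫ u, f u := by
  classical
  simp_rw [← integral_indicator measurableSet_Ico]
  rw [← integral_finsetSum _ (fun t _ => hf.indicator measurableSet_Ico), ← integral_const_mul]
  refine integral_mono (integrable_finsetSum _ fun t _ => hf.indicator measurableSet_Ico)
    (hf.const_mul _) fun u => ?_
  simp only [Set.indicator_apply]
  rw [← Finset.sum_filter, Finset.sum_const, nsmul_eq_mul]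
  refine mul_le_mul_of_nonneg_right ?_ (hf0 u)
  have : T.filter (fun t : ℕ => u ∈ Set.Ico (Real.log t) (Real.log (t + h))) ⊆
      Icc (⌊Real.exp u⌋₊ + 1 - h) ⌊Real.exp u⌋₊ := by
    intro t ht
    obtain ⟨ht, h1, h2⟩ := Finset.mem_filter.mp ht
    have ht0 : (0 : ℝ) < t := by exact_mod_cast hT t ht
    rw [Real.log_le_iff_le_exp ht0] at h1
    rw [Real.lt_log_iff_exp_lt (by positivity)] at h2
    have h3 := (Nat.le_floor_iff (Real.exp_pos u).le).mpr h1
    have h4 : ⌊Real.exp u⌋₊ < t + h := (Nat.floor_lt (Real.exp_pos u).le).mpr (by exact_mod_cast h2)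
    rw [Finset.mem_Icc]
    omega
  have h5 := Finset.card_le_card this
  rw [Nat.card_Icc] at h5
  exact_mod_cast h5.trans (by omega)

end Short

open Short in
theorem short : ShortStmt := by
  intro S a G ε N h hS ha hG hε hε1 hh hhN
  change _ ≤ _ * (∫ u, ‖Sig S a ε u‖ ^ 2) + _
  have hN : 1 ≤ N := hh.trans hhN
  have hN0 : (0 : ℝ) < N := by exact_mod_cast hN
  have hh0 : (0 : ℝ) < h := by exact_mod_cast hh
  have key : ∀ t ∈ Ico N (3 * N), ‖∑ n ∈ S.filter (fun n => t < n ∧ n ≤ t + h), a n‖ ^ 2 ≤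
      2 * h / (ε ^ 2 * N) * (∫ u in Set.Ico (Real.log t) (Real.log (t + h)), ‖Sig S a ε u‖ ^ 2) +
        2 * (G * (10 * ε * N + 2)) ^ 2 := by
    intro t ht
    obtain ⟨ht, ht'⟩ := Finset.mem_Ico.mp ht
    have htN : (N : ℝ) ≤ t := by exact_mod_cast ht
    have ht0 : (0 : ℝ) < t := hN0.trans_le htN
    have h1 := err S a hS ha hG hε hε1 hN hhN ht ht'
    have hlen : Real.log (t + h) - Real.log t ≤ h / N := by
      rw [← Real.log_div (by positivity) ht0.ne']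
      refine (Real.log_le_sub_one_of_pos (by positivity)).trans ?_
      rw [add_div, div_self ht0.ne', add_sub_cancel_left]
      exact div_le_div_of_nonneg_left hh0.le hN0 htN
    have h2 := cs (integrable_Sig S a ε) (integrable_Sig_sq S a ε) (x := Real.log t)
      (y := Real.log (t + h) - ε) (z := Real.log (t + h)) (by linarith) (div_pos hh0 hN0)
      (Real.log_le_log ht0 (by linarith)) hlen
    set x := ∑ n ∈ S.filter (fun n => t < n ∧ n ≤ t + h), a n
    set m := ∫ u in Set.Ico (Real.log t) (Real.log (t + h) - ε), Sig S a ε u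
    set Q := ∫ u in Set.Ico (Real.log t) (Real.log (t + h)), ‖Sig S a ε u‖ ^ 2
    have h3 : ‖x‖ ≤ ε⁻¹ * ‖m‖ + G * (10 * ε * N + 2) := by
      have := norm_add_le ((ε : ℂ)⁻¹ * m) (x - (ε : ℂ)⁻¹ * m)
      rw [add_sub_cancel, norm_mul, norm_inv, Complex.norm_real, Real.norm_eq_abs,
        abs_of_pos hε] at this
      linarith
    have h4 : (ε⁻¹ * ‖m‖) ^ 2 ≤ h / (ε ^ 2 * N) * Q := by
      rw [mul_pow]
      refine (mul_le_mul_of_nonneg_left h2 (sq_nonneg _)).trans_eq ?_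
      field_simp
    have h5 := pow_le_pow_left₀ (norm_nonneg _) h3 2
    rw [mul_div_assoc, mul_assoc]
    nlinarith [sq_nonneg (ε⁻¹ * ‖m‖ - G * (10 * ε * N + 2))]
  refine (Finset.sum_le_sum key).trans ?_
  rw [Finset.sum_add_distrib, ← Finset.mul_sum, Finset.sum_const, Nat.card_Ico, nsmul_eq_mul]
  have h6 := overlap (integrable_Sig_sq S a ε) (fun u => sq_nonneg _) (Ico N (3 * N))
    (fun t ht => hN.trans (Finset.mem_Ico.mp ht).1) h
  have h7 : 0 ≤ ∫ u, ‖Sig S a ε u‖ ^ 2 := integral_nonneg fun u => sq_nonneg _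
  refine add_le_add ((mul_le_mul_of_nonneg_left h6 (by positivity)).trans ?_) (le_of_eq ?_)
  · rw [← mul_assoc]
    refine mul_le_mul_of_nonneg_right ?_ h7
    rw [div_mul_eq_mul_div]
    exact div_le_div_of_nonneg_right (by nlinarith) (by positivity)
  · rw [show 3 * N - N = 2 * N by omega]
    push_cast; ring

end Crest.Agent.R5
end

-- ▼ part PVc/R5/Fejer
section

/-! Row 5: short sums in the logarithmic scale against the Dirichlet polynomial (Fejer kernel). -/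

set_option autoImplicit false

namespace Crest.Agent.R5

open MeasureTheory Filter Topology Set
open scoped FourierTransform ComplexConjugate
open Crest.Agent.Lib.PNT

namespace Fejer

/-- the triangle -/
noncomputable def tri (x : ℝ) : ℂ := ((max (1 - |x|) 0 : ℝ) : ℂ)

theorem continuous_tri : Continuous tri := by unfold tri; fun_prop

theorem tri_support {x : ℝ} (h : tri x ≠ 0) : x ∈ Ioc (-1 : ℝ) 1 := by
  by_contra hx
  apply h
  have : 1 ≤ |x| := by
    rw [mem_Ioc, not_and_or, not_lt, not_le] at hx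
    rcases hx with hx | hx
    · have := neg_le_abs x; linarith
    · have := le_abs_self x; linarith
  simp [tri, max_eq_right (show 1 - |x| ≤ 0 by linarith)]

theorem integrable_tri : Integrable tri := by
  refine continuous_tri.integrable_of_hasCompactSupport ?_
  refine HasCompactSupport.intro (isCompact_Icc (a := -1) (b := 1)) fun x hx => ?_
  by_contra h
  exact hx (Ioc_subset_Icc_self (tri_support h))

theorem fourier_tri (w : ℝ) : 𝓕 tri w = ((2 * fej (2 * Real.pi * w) : ℝ) : ℂ) := by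
  rw [Real.fourier_real_eq_integral_exp_smul]
  set g : ℝ → ℂ := fun v => Complex.exp (↑(-2 * Real.pi * v * w) * Complex.I) • tri v with hg
  have hgc : Continuous g := by
    have := continuous_tri
    rw [hg]; fun_prop
  rw [← intervalIntegral.integral_eq_integral_of_support_subset (a := -1) (b := 1) (fun x hx =>
    tri_support fun h => hx (by simp [h]))]
  rw [← intervalIntegral.integral_add_adjacent_intervals (b := 0) (hgc.intervalIntegrable _ _)
    (hgc.intervalIntegrable _ _)]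
  have h1 : ∫ x in (-1 : ℝ)..0, g x = ∫ x in (0 : ℝ)..1, g (-x) := by
    rw [intervalIntegral.integral_comp_neg]; simp
  have hgc' : Continuous fun x => g (-x) := hgc.comp continuous_neg
  rw [h1, ← intervalIntegral.integral_add (hgc'.intervalIntegrable _ _)
    (hgc.intervalIntegrable _ _), fej, ← intervalIntegral.integral_const_mul,
    ← intervalIntegral.integral_ofReal]
  refine intervalIntegral.integral_congr fun x hx => ?_
  rw [uIcc_of_le zero_le_one] at hx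
  simp only [hg, tri, abs_neg, abs_of_nonneg hx.1, max_eq_left (show 0 ≤ 1 - x by linarith [hx.2]),
    smul_eq_mul]
  push_cast
  rw [Complex.cos]
  have e1 : (-2 * (Real.pi : ℂ) * -(x : ℂ) * w * Complex.I) =
      x * (2 * Real.pi * w) * Complex.I := by ring
  have e2 : (-2 * (Real.pi : ℂ) * (x : ℂ) * w * Complex.I) =
      -(x * (2 * Real.pi * w)) * Complex.I := by ring
  rw [e1, e2]; ring

theorem tri_inv (ε v : ℝ) (hε : 0 < ε) :
    ((max (ε - |v|) 0 : ℝ) : ℂ) = ∫ s : ℝ, ((ε ^ 2 / Real.pi * fej (ε * s) : ℝ) : ℂ) *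
      Complex.exp (((-(s * v) : ℝ) : ℂ) * Complex.I) := by
  have hF : 𝓕 tri = fun w => ((2 * fej (2 * Real.pi * w) : ℝ) : ℂ) := funext fourier_tri
  have hint : Integrable (𝓕 tri) := by
    rw [hF]
    refine Integrable.ofReal ?_
    exact (integrable_fej.comp_mul_left' (by positivity)).const_mul 2
  have h := congrFun (continuous_tri.fourierInv_fourier_eq integrable_tri hint) (-v / ε)
  rw [Real.fourierInv_eq', hF] at h
  have h2 := Measure.integral_comp_mul_left (fun w : ℝ =>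
    Complex.exp (((2 * Real.pi * inner ℝ w (-v / ε) : ℝ) : ℂ) * Complex.I) •
      ((2 * fej (2 * Real.pi * w) : ℝ) : ℂ)) (ε / (2 * Real.pi))
  rw [h] at h2
  have hπ := Real.pi_pos
  have e1 : ∀ s : ℝ, ((ε ^ 2 / Real.pi * fej (ε * s) : ℝ) : ℂ) *
      Complex.exp (((-(s * v) : ℝ) : ℂ) * Complex.I) = ((ε ^ 2 / (2 * Real.pi) : ℝ) : ℂ) *
      (Complex.exp (((2 * Real.pi * inner ℝ (ε / (2 * Real.pi) * s) (-v / ε) : ℝ) : ℂ) *
        Complex.I) • ((2 * fej (2 * Real.pi * (ε / (2 * Real.pi) * s)) : ℝ) : ℂ)) := by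
    intro s
    have a1 : 2 * Real.pi * (ε / (2 * Real.pi) * s) = ε * s := by field_simp
    have a2 : 2 * Real.pi * inner ℝ (ε / (2 * Real.pi) * s) (-v / ε) = -(s * v) := by
      simp only [RCLike.inner_apply, conj_trivial]; field_simp
    rw [a1, a2, smul_eq_mul]
    have : (Real.pi : ℂ) ≠ 0 := by exact_mod_cast hπ.ne'
    push_cast; field_simp
  simp_rw [e1]
  rw [integral_const_mul, h2, tri,
    abs_of_pos (show 0 < (ε / (2 * Real.pi))⁻¹ by positivity), Complex.real_smul]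
  rw [← Complex.ofReal_mul, ← Complex.ofReal_mul]
  congr 1
  rw [abs_div, abs_neg, abs_of_pos hε]
  have e2 : ε - |v| = ε * (1 - |v| / ε) := by field_simp
  have e3 : max (ε - |v|) 0 = ε * max (1 - |v| / ε) 0 := by
    rw [mul_max_of_nonneg _ _ hε.le, mul_zero, e2]
  rw [e3]; field_simp

theorem vol_inter (x y ε : ℝ) :
    (volume (Ico (x - ε) x ∩ Ico (y - ε) y)).toReal = max (ε - |x - y|) 0 := by
  rw [Ico_inter_Ico, Real.volume_Ico, ENNReal.toReal_ofReal']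
  congr 1
  rcases le_total x y with h | h
  · rw [min_eq_left h, max_eq_right (by linarith), abs_of_nonpos (by linarith)]; ring
  · rw [min_eq_right h, max_eq_left (by linarith), abs_of_nonneg (by linarith)]; ring

theorem normsq_sum {ι : Type*} (S : Finset ι) (b : ι → ℂ) :
    ((‖∑ n ∈ S, b n‖ ^ 2 : ℝ) : ℂ) = ∑ n ∈ S, ∑ m ∈ S, b n * conj (b m) := by
  rw [← Finset.sum_mul_sum, ← map_sum, Complex.mul_conj, Complex.normSq_eq_norm_sq]

open Classical in
theorem ident (S : Finset ℕ) (a : ℕ → ℂ) (ε : ℝ) (hε : 0 < ε) :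
    ∫ u : ℝ, ‖∑ n ∈ S.filter (fun n : ℕ => u < Real.log n ∧ Real.log n ≤ u + ε), a n‖ ^ 2 =
      ∫ s : ℝ, ε ^ 2 / Real.pi * fej (ε * s) * ‖∑ n ∈ S, a n * nit n s‖ ^ 2 := by
  apply Complex.ofReal_injective
  rw [← integral_complex_ofReal, ← integral_complex_ofReal]
  set I : ℕ → Set ℝ := fun n => Ico (Real.log n - ε) (Real.log n) with hI
  have e1 : ∀ u : ℝ, ((‖∑ n ∈ S.filter (fun n : ℕ => u < Real.log n ∧ Real.log n ≤ u + ε),
      a n‖ ^ 2 : ℝ) : ℂ) =
      ∑ n ∈ S, ∑ m ∈ S, (I n ∩ I m).indicator (fun _ => a n * conj (a m)) u := by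
    intro u
    rw [Finset.sum_filter, normsq_sum]
    refine Finset.sum_congr rfl fun n _ => Finset.sum_congr rfl fun m _ => ?_
    have k : ∀ n : ℕ, (u < Real.log n ∧ Real.log n ≤ u + ε) ↔ u ∈ I n := fun n => by
      simp only [hI, mem_Ico]
      constructor <;> rintro ⟨h1, h2⟩ <;> constructor <;> linarith
    simp only [k, indicator, mem_inter_iff]
    by_cases h1 : u ∈ I n <;> by_cases h2 : u ∈ I m <;> simp [h1, h2]
  have e2 : ∀ s : ℝ, ((ε ^ 2 / Real.pi * fej (ε * s) * ‖∑ n ∈ S, a n * nit n s‖ ^ 2 : ℝ) : ℂ) =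
      ∑ n ∈ S, ∑ m ∈ S, a n * conj (a m) * (((ε ^ 2 / Real.pi * fej (ε * s) : ℝ) : ℂ) *
        Complex.exp (((-(s * (Real.log n - Real.log m)) : ℝ) : ℂ) * Complex.I)) := by
    intro s
    rw [Complex.ofReal_mul, normsq_sum, Finset.mul_sum]
    refine Finset.sum_congr rfl fun n _ => ?_
    rw [Finset.mul_sum]
    refine Finset.sum_congr rfl fun m _ => ?_
    have : nit n s * conj (nit m s) =
        Complex.exp (((-(s * (Real.log n - Real.log m)) : ℝ) : ℂ) * Complex.I) := by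
      unfold nit
      rw [← Complex.exp_conj, ← Complex.exp_add, map_mul, Complex.conj_ofReal, Complex.conj_I]
      congr 1
      push_cast; ring
    rw [← this, map_mul]; ring
  have hm : ∀ n m, MeasurableSet (I n ∩ I m) := fun n m => measurableSet_Ico.inter measurableSet_Ico
  have i1 : ∀ n m, Integrable ((I n ∩ I m).indicator (fun _ : ℝ => a n * conj (a m))) := by
    intro n m
    refine (integrable_indicator_iff (hm n m)).mpr (integrableOn_const ?_)
    exact ((measure_mono inter_subset_left).trans_lt measure_Ico_lt_top).ne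
  have i2 : ∀ n m : ℕ, Integrable fun s : ℝ => a n * conj (a m) *
      (((ε ^ 2 / Real.pi * fej (ε * s) : ℝ) : ℂ) *
        Complex.exp (((-(s * (Real.log n - Real.log m)) : ℝ) : ℂ) * Complex.I)) := by
    intro n m
    refine Integrable.const_mul ?_ _
    refine Integrable.mul_bdd (c := 1) (Integrable.ofReal
      ((integrable_fej.comp_mul_left' hε.ne').const_mul _)) (by fun_prop)
      (Eventually.of_forall fun s => ?_)
    rw [Complex.norm_exp_ofReal_mul_I]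
  change ∫ u : ℝ, ((‖∑ n ∈ S.filter (fun n : ℕ => u < Real.log n ∧ Real.log n ≤ u + ε),
      a n‖ ^ 2 : ℝ) : ℂ) =
    ∫ s : ℝ, ((ε ^ 2 / Real.pi * fej (ε * s) * ‖∑ n ∈ S, a n * nit n s‖ ^ 2 : ℝ) : ℂ)
  simp_rw [e1, e2]
  rw [integral_finsetSum _ fun n _ => integrable_finsetSum _ fun m _ => i1 n m,
    integral_finsetSum _ fun n _ => integrable_finsetSum _ fun m _ => i2 n m]
  refine Finset.sum_congr rfl fun n _ => ?_
  rw [integral_finsetSum _ fun m _ => i1 n m, integral_finsetSum _ fun m _ => i2 n m]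
  refine Finset.sum_congr rfl fun m _ => ?_
  rw [integral_indicator_const _ (hm n m), integral_const_mul, ← tri_inv ε _ hε, measureReal_def,
    vol_inter, Complex.real_smul, mul_comm]

theorem tail (φ G : ℝ → ℝ) (hφ : Continuous φ) (hG : Continuous G) (hφi : Integrable φ)
    (A B T : ℝ) (hA : 0 ≤ A) (hB : 0 ≤ B) (hT : 0 < T) (hG0 : ∀ s, 0 ≤ G s)
    (hle : ∀ s R, 0 < R → R ≤ |s| → φ s ≤ 2 / 3 / R ^ 2 * G s)
    (hmv : ∀ R, 0 ≤ R → ∫ s in (-R)..R, G s ≤ (2 * R + B) * A) :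
    ∫ s, φ s ≤ (∫ s in (-T)..T, φ s) + (8 / T + B / T ^ 2) * A := by
  have step : ∀ R, 0 < R → (∫ s in (-(2 * R))..(2 * R), φ s) + (8 / (2 * R) + B / (2 * R) ^ 2) * A
      ≤ (∫ s in (-R)..R, φ s) + (8 / R + B / R ^ 2) * A := by
    intro R hR
    have split : ∀ f : ℝ → ℝ, Continuous f → ∫ s in (-(2 * R))..(2 * R), f s =
        (∫ s in (-(2 * R))..(-R), f s) + (∫ s in (-R)..R, f s) + ∫ s in R..(2 * R), f s := by
      intro f hf
      rw [intervalIntegral.integral_add_adjacent_intervals (hf.intervalIntegrable _ _)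
        (hf.intervalIntegrable _ _), intervalIntegral.integral_add_adjacent_intervals
        (hf.intervalIntegrable _ _) (hf.intervalIntegrable _ _)]
    have hc : Continuous fun s => 2 / 3 / R ^ 2 * G s := by fun_prop
    have h1 : ∫ s in (-(2 * R))..(-R), φ s ≤ 2 / 3 / R ^ 2 * ∫ s in (-(2 * R))..(-R), G s := by
      rw [← intervalIntegral.integral_const_mul]
      refine intervalIntegral.integral_mono_on (by linarith) (hφ.intervalIntegrable _ _)
        (hc.intervalIntegrable _ _) fun s hs => hle s R hR ?_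
      have := neg_le_abs s
      linarith [hs.2]
    have h2 : ∫ s in R..(2 * R), φ s ≤ 2 / 3 / R ^ 2 * ∫ s in R..(2 * R), G s := by
      rw [← intervalIntegral.integral_const_mul]
      refine intervalIntegral.integral_mono_on (by linarith) (hφ.intervalIntegrable _ _)
        (hc.intervalIntegrable _ _) fun s hs => hle s R hR ?_
      have := le_abs_self s
      linarith [hs.1]
    have h3 : 0 ≤ ∫ s in (-R)..R, G s :=
      intervalIntegral.integral_nonneg (by linarith) fun s _ => hG0 s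
    have h4 := hmv (2 * R) (by linarith)
    rw [split G hG] at h4
    rw [split φ hφ]
    have h5 : 2 / 3 / R ^ 2 * ((∫ s in (-(2 * R))..(-R), G s) + ∫ s in R..(2 * R), G s) ≤
        2 / 3 / R ^ 2 * ((2 * (2 * R) + B) * A) :=
      mul_le_mul_of_nonneg_left (by linarith) (by positivity)
    have h6 : 2 / 3 / R ^ 2 * ((2 * (2 * R) + B) * A) + (8 / (2 * R) + B / (2 * R) ^ 2) * A ≤
        (8 / R + B / R ^ 2) * A := by
      have e : (8 / R + B / R ^ 2) * A - (2 / 3 / R ^ 2 * ((2 * (2 * R) + B) * A) +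
          (8 / (2 * R) + B / (2 * R) ^ 2) * A) = (4 / 3 / R + B / 12 / R ^ 2) * A := by
        field_simp; ring
      have : 0 ≤ (4 / 3 / R + B / 12 / R ^ 2) * A := by positivity
      linarith
    linarith
  have ind : ∀ J : ℕ, (∫ s in (-(2 ^ J * T))..(2 ^ J * T), φ s) +
      (8 / (2 ^ J * T) + B / (2 ^ J * T) ^ 2) * A ≤
      (∫ s in (-T)..T, φ s) + (8 / T + B / T ^ 2) * A := by
    intro J
    induction J with
    | zero => simp
    | succ J ih =>
      have := step (2 ^ J * T) (by positivity)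
      rw [show (2 : ℝ) ^ (J + 1) * T = 2 * (2 ^ J * T) by ring]
      linarith
  have ht : Tendsto (fun J : ℕ => (2 : ℝ) ^ J * T) atTop atTop :=
    (tendsto_pow_atTop_atTop_of_one_lt one_lt_two).atTop_mul_const hT
  refine le_of_tendsto' (intervalIntegral_tendsto_integral hφi
    (tendsto_neg_atTop_atBot.comp ht) ht) fun J => ?_
  have h1 := ind J
  have h2 : 0 ≤ (8 / (2 ^ J * T) + B / (2 ^ J * T) ^ 2) * A := by positivity
  simp only [Function.comp]
  linarith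

end Fejer


end Crest.Agent.R5
end

-- ▼ part PVc/R5/Approx
section

/-! Row 5: the Type-I approximant of the indicator of smooth numbers. -/

set_option autoImplicit false

namespace Crest.Agent.R5

open Finset Filter
open Crest.NumberTheoryR.SmoothNumbers

namespace Approx


variable {P : Finset ℕ}










/-- the set of moduli -/
noncomputable def RR (y X W : ℝ) : Finset ℕ :=
  ((pr y X).powerset.filter fun s => (pd s : ℝ) ≤ W).image pd

/-- the coefficients -/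
noncomputable def cc (d : ℕ) : ℝ := (-1) ^ d.primeFactors.card





end Approx

open Approx


end Crest.Agent.R5
end

-- ▼ part PVc/R8/LamW
section

/-! Row 8: the Liouville function with a weight depending on the small prime factors. -/

set_option autoImplicit false

namespace Crest.Agent.R8

open Finset Filter
open Crest.Agent.R5

namespace LamW





theorem abel (a f : ℕ → ℂ) (A : ℕ) (M : ℝ) (N : ℕ)
    (h : ∀ n ≤ N, ‖∑ m ∈ Ioc A (A + n), a m‖ ≤ M) :
    ‖∑ m ∈ Ioc A (A + N), a m * f m - (∑ m ∈ Ioc A (A + N), a m) * f (A + N)‖ ≤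
      M * ∑ i ∈ range N, ‖f (A + i + 1) - f (A + i)‖ := by
  induction N with
  | zero => simp
  | succ N ih =>
    rw [← add_assoc, sum_Ioc_succ_top (Nat.le_add_right _ _),
      sum_Ioc_succ_top (Nat.le_add_right _ _), sum_range_succ, mul_add]
    have e : ∑ m ∈ Ioc A (A + N), a m * f m + a (A + N + 1) * f (A + N + 1) -
        (∑ m ∈ Ioc A (A + N), a m + a (A + N + 1)) * f (A + N + 1) =
        (∑ m ∈ Ioc A (A + N), a m * f m - (∑ m ∈ Ioc A (A + N), a m) * f (A + N)) -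
          (∑ m ∈ Ioc A (A + N), a m) * (f (A + N + 1) - f (A + N)) := by ring
    rw [e]
    refine (norm_sub_le _ _).trans (add_le_add (ih fun n hn => h n (by omega)) ?_)
    rw [norm_mul]
    exact mul_le_mul_of_nonneg_right (h N (by omega)) (norm_nonneg _)

theorem twist (a : ℕ → ℝ) {Lo : ℕ} (hLo : 1 ≤ Lo) {M : ℝ}
    (h : ∀ x ≤ 16 * Lo, |∑ m ∈ Ioc 0 x, a m| ≤ M) (t : ℝ) :
    ‖∑ m ∈ Ioc Lo (16 * Lo), (a m : ℂ) * nit m t‖ ≤ 2 * M * (1 + 3 * |t|) := by
  have hM : 0 ≤ M := (abs_nonneg _).trans (h 0 (by omega))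
  have ha : ∀ n ≤ 15 * Lo, ‖∑ m ∈ Ioc Lo (Lo + n), (a m : ℂ)‖ ≤ 2 * M := fun n hn => by
    rw [← Complex.ofReal_sum, Complex.norm_real, Real.norm_eq_abs,
      eq_sub_of_add_eq' (sum_Ioc_consecutive a (Nat.zero_le Lo) (Nat.le_add_right Lo n))]
    linarith [abs_sub (∑ m ∈ Ioc 0 (Lo + n), a m) (∑ m ∈ Ioc 0 Lo, a m), h (Lo + n) (by omega),
      h Lo (by omega)]
  have h1 := abel (fun m => (a m : ℂ)) (fun m => nit m t) Lo (2 * M) (15 * Lo) ha
  have h2 : ∑ i ∈ range (15 * Lo), ‖nit (Lo + i + 1) t - nit (Lo + i) t‖ ≤ 3 * |t| := by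
    refine (sum_le_sum fun i _ => Point.norm_nit_sub (n := Lo + i) (by omega) t).trans ?_
    rw [← mul_sum, mul_comm]
    refine mul_le_mul_of_nonneg_right ?_ (abs_nonneg t)
    have h3 := sum_range_sub (fun i => Real.log ((Lo + i : ℕ) : ℝ)) (15 * Lo)
    simp only [← add_assoc] at h3
    have hLo' : (0 : ℝ) < Lo := by exact_mod_cast hLo
    rw [h3, show ((Lo + 15 * Lo : ℕ) : ℝ) = 2 ^ 4 * Lo by push_cast; ring, add_zero,
      Real.log_mul (by norm_num) hLo'.ne', Real.log_pow]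
    have := Real.log_two_lt_d9
    push_cast
    linarith
  have h4 : ‖(∑ m ∈ Ioc Lo (Lo + 15 * Lo), (a m : ℂ)) * nit (Lo + 15 * Lo) t‖ ≤ 2 * M := by
    rw [norm_mul, Point.norm_nit, mul_one]
    exact ha _ le_rfl
  rw [show 16 * Lo = Lo + 15 * Lo by ring]
  have h5 := norm_add_le (∑ m ∈ Ioc Lo (Lo + 15 * Lo), (a m : ℂ) * nit m t -
    (∑ m ∈ Ioc Lo (Lo + 15 * Lo), (a m : ℂ)) * nit (Lo + 15 * Lo) t)
    ((∑ m ∈ Ioc Lo (Lo + 15 * Lo), (a m : ℂ)) * nit (Lo + 15 * Lo) t)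
  rw [sub_add_cancel] at h5
  have h6 := mul_le_mul_of_nonneg_left h2 (show 0 ≤ 2 * M by positivity)
  linarith


end LamW


end Crest.Agent.R8
end

-- ▼ part PVc/R26/MajCore

/-! Row 26: short sums of a convolution. -/

set_option autoImplicit false

namespace Crest.Agent.R26

open Finset Filter
open Crest.Agent.R5 (pr pd ee nit)

namespace MajCore

open MeasureTheory Crest.Agent.Lib.PNT

theorem nit_mul {m n : ℕ} (hm : m ≠ 0) (hn : n ≠ 0) (t : ℝ) :
    nit (m * n) t = nit m t * nit n t := by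
  unfold nit
  rw [← Complex.exp_add, Nat.cast_mul, Real.log_mul (by exact_mod_cast hm) (by exact_mod_cast hn)]
  congr 1
  push_cast; ring

theorem norm_poly (S : Finset ℕ) (a : ℕ → ℂ) (s : ℝ) :
    ‖∑ n ∈ S, a n * nit n s‖ ≤ ∑ n ∈ S, ‖a n‖ := by
  refine (norm_sum_le _ _).trans (le_of_eq (sum_congr rfl fun n _ => ?_))
  rw [norm_mul, R5.Point.norm_nit, mul_one]

theorem integrable_phi (S : Finset ℕ) (a : ℕ → ℂ) {ε : ℝ} (hε : 0 < ε) :
    Integrable fun s => ε ^ 2 / Real.pi * fej (ε * s) * ‖∑ n ∈ S, a n * nit n s‖ ^ 2 := by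
  have hGc : Continuous fun s => ‖∑ n ∈ S, a n * nit n s‖ ^ 2 := by
    unfold nit; fun_prop
  have hk : Integrable fun s => ε ^ 2 / Real.pi * fej (ε * s) :=
    (integrable_fej.comp_mul_left' hε.ne').const_mul _
  refine hk.mul_bdd (c := (∑ n ∈ S, ‖a n‖) ^ 2) hGc.aestronglyMeasurable
    (Eventually.of_forall fun s => ?_)
  rw [Real.norm_eq_abs, abs_of_nonneg (sq_nonneg _)]
  exact pow_le_pow_left₀ (norm_nonneg _) (norm_poly S a s) 2

/-- the mean square of a polynomial shorter than the window is diagonal -/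
theorem mid (M : ℕ) (a : ℕ → ℂ) {τ ε : ℝ} (ha : ∀ n, ‖a n‖ ≤ τ) (hε : 0 < ε) (hε1 : ε ≤ 1)
    (hM : M * ε ≤ 2) :
    ∫ s : ℝ, ε ^ 2 / Real.pi * fej (ε * s) * ‖∑ n ∈ Icc 1 M, a n * nit n s‖ ^ 2 ≤
      5 * τ ^ 2 * (M * ε) := by
  classical
  have hτ : 0 ≤ τ := (norm_nonneg _).trans (ha 0)
  rw [← R5.Fejer.ident _ a ε hε]
  have hi : ∀ n : ℕ, Integrable ((Set.Ico (Real.log n - ε) (Real.log n)).indicator
      fun _ : ℝ => (1 : ℝ)) := fun n =>
    (integrable_indicator_iff measurableSet_Ico).mpr (integrableOn_const (by simp))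
  have e : ∫ u : ℝ, 5 * τ ^ 2 * ∑ n ∈ Icc 1 M,
      (Set.Ico (Real.log n - ε) (Real.log n)).indicator (fun _ : ℝ => (1 : ℝ)) u =
      5 * τ ^ 2 * (M * ε) := by
    rw [integral_const_mul, integral_finsetSum _ fun n _ => hi n]
    congr 1
    rw [sum_congr rfl (g := fun _ => ε)]
    · simp
    · intro n _
      rw [integral_indicator_const _ measurableSet_Ico, Real.volume_real_Ico_of_le (by linarith)]
      simp
  rw [← e]
  refine integral_mono (R5.Short.integrable_Sig_sq (Icc 1 M) a ε)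
    ((integrable_finsetSum _ fun n _ => hi n).const_mul _) fun u => ?_
  set W := (Icc 1 M).filter fun n : ℕ => u < Real.log n ∧ Real.log n ≤ u + ε with hW
  have e1 : ∑ n ∈ Icc 1 M, (Set.Ico (Real.log n - ε) (Real.log n)).indicator
      (fun _ : ℝ => (1 : ℝ)) u = W.card := by
    rw [hW, card_filter]
    push_cast
    refine sum_congr rfl fun n _ => ?_
    rw [Set.indicator_apply]
    refine if_congr ?_ rfl rfl
    rw [Set.mem_Ico]
    constructor <;> rintro ⟨h1, h2⟩ <;> constructor <;> linarith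
  have e2 : W.card ≤ 5 := by
    rcases W.eq_empty_or_nonempty with h | h
    · simp [h]
    have hm := min'_mem W h
    have : W ⊆ Icc (W.min' h) (W.min' h + 4) := by
      intro n hn
      refine mem_Icc.2 ⟨min'_le _ _ hn, ?_⟩
      obtain ⟨a1, a2, -⟩ := mem_filter.1 hm
      obtain ⟨b1, -, b3⟩ := mem_filter.1 hn
      generalize W.min' h = m at *
      have m1 : (0 : ℝ) < m := by exact_mod_cast (mem_Icc.1 a1).1
      have m2 : (m : ℝ) ≤ M := by exact_mod_cast (mem_Icc.1 a1).2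
      have n1 : (0 : ℝ) < n := by exact_mod_cast (mem_Icc.1 b1).1
      have c1 : (n : ℝ) ≤ m * Real.exp ε := by
        rw [← Real.log_le_log_iff n1 (by positivity), Real.log_mul m1.ne' (Real.exp_pos _).ne',
          Real.log_exp]
        linarith
      have he1 : Real.exp ε ≤ 1 + 2 * ε := by
        have := Real.abs_exp_sub_one_le (x := ε) (by rw [abs_of_pos hε]; exact hε1)
        rw [abs_of_pos hε] at this
        linarith [le_abs_self (Real.exp ε - 1)]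
      have : (n : ℝ) ≤ m + 4 := by nlinarith
      exact_mod_cast this
    have h2 := card_le_card this
    rw [Nat.card_Icc] at h2
    omega
  have e3 : ‖∑ n ∈ W, a n‖ ≤ W.card * τ :=
    (norm_sum_le _ _).trans ((sum_le_card_nsmul _ _ _ fun n _ => ha n).trans_eq (nsmul_eq_mul _ _))
  have e4 : (W.card : ℝ) ≤ 5 := by exact_mod_cast e2
  have e5 : (0 : ℝ) ≤ W.card := by positivity
  show ‖∑ n ∈ W, a n‖ ^ 2 ≤ _
  rw [e1]
  calc ‖∑ n ∈ W, a n‖ ^ 2 ≤ (W.card * τ) ^ 2 := pow_le_pow_left₀ (norm_nonneg _) e3 2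
    _ = W.card * τ ^ 2 * W.card := by ring
    _ ≤ 5 * τ ^ 2 * W.card := by gcongr

theorem cauchy {T : ℝ} (hT : 0 < T) :
    Integrable (fun s : ℝ => (1 + (s / T) ^ 2)⁻¹) ∧ ∫ s : ℝ, (1 + (s / T) ^ 2)⁻¹ ≤ 4 * T := by
  refine ⟨integrable_inv_one_add_sq.comp_div hT.ne', ?_⟩
  rw [Measure.integral_comp_div (fun s : ℝ => (1 + s ^ 2)⁻¹) T, integral_univ_inv_one_add_sq,
    abs_of_pos hT, smul_eq_mul, mul_comm]
  exact mul_le_mul_of_nonneg_right Real.pi_le_four hT.le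

/-- the spectral integral -/
theorem spec (D G : ℝ → ℂ) {ε a₀ a₁ a₂ T₀ T₁ : ℝ} (hε : 0 < ε) (hT₀ : 0 < T₀) (hT₁ : 0 < T₁)
    (hG : Integrable fun s => ε ^ 2 / Real.pi * fej (ε * s) * ‖G s‖ ^ 2)
    (h0 : ∀ s, |s| ≤ T₀ → ‖D s * G s‖ ≤ a₀) (h1 : ∀ s, T₀ ≤ |s| → |s| ≤ T₁ → ‖D s‖ ≤ a₁)
    (h2 : ∀ s, ‖D s * G s‖ ≤ a₂) :
    ∫ s : ℝ, ε ^ 2 / Real.pi * fej (ε * s) * ‖D s * G s‖ ^ 2 ≤
      a₁ ^ 2 * (∫ s : ℝ, ε ^ 2 / Real.pi * fej (ε * s) * ‖G s‖ ^ 2) +
        8 * ε ^ 2 * a₀ ^ 2 * T₀ + 8 * a₂ ^ 2 / T₁ := by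
  have hπ := Real.pi_gt_three
  obtain ⟨i0, j0⟩ := cauchy hT₀
  obtain ⟨i1, j1⟩ := cauchy hT₁
  have key : ∀ s : ℝ, ε ^ 2 / Real.pi * fej (ε * s) * ‖D s * G s‖ ^ 2 ≤
      a₁ ^ 2 * (ε ^ 2 / Real.pi * fej (ε * s) * ‖G s‖ ^ 2) +
        2 * ε ^ 2 * a₀ ^ 2 * (1 + (s / T₀) ^ 2)⁻¹ + 2 * a₂ ^ 2 / T₁ ^ 2 * (1 + (s / T₁) ^ 2)⁻¹ := by
    intro s
    have f0 := fej_nonneg (ε * s)
    have p0 : 0 ≤ ε ^ 2 / Real.pi * fej (ε * s) := by positivity
    have p1 : 0 ≤ a₁ ^ 2 * (ε ^ 2 / Real.pi * fej (ε * s) * ‖G s‖ ^ 2) := by positivity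
    have p2 : 0 ≤ 2 * ε ^ 2 * a₀ ^ 2 * (1 + (s / T₀) ^ 2)⁻¹ := by positivity
    have p3 : 0 ≤ 2 * a₂ ^ 2 / T₁ ^ 2 * (1 + (s / T₁) ^ 2)⁻¹ := by positivity
    rcases le_total |s| T₀ with h | h
    · have b1 : ε ^ 2 / Real.pi * fej (ε * s) ≤ ε ^ 2 := by
        have a1 := fej_le_one (ε * s)
        have a2 : ε ^ 2 / Real.pi ≤ ε ^ 2 := div_le_self (sq_nonneg _) (by linarith)
        have a3 : 0 ≤ ε ^ 2 / Real.pi := by positivity
        nlinarith
      have b2 : ‖D s * G s‖ ^ 2 ≤ a₀ ^ 2 := pow_le_pow_left₀ (norm_nonneg _) (h0 s h) 2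
      have b3 : 1 / 2 ≤ (1 + (s / T₀) ^ 2)⁻¹ := by
        rw [one_div]
        refine inv_anti₀ (by positivity) ?_
        have : (s / T₀) ^ 2 ≤ 1 := by
          rw [div_pow, div_le_one (by positivity), ← sq_abs s]
          exact pow_le_pow_left₀ (abs_nonneg _) h 2
        linarith
      have b4 := mul_le_mul b1 b2 (sq_nonneg _) (sq_nonneg _)
      have b5 := mul_le_mul_of_nonneg_left b3 (show 0 ≤ 2 * ε ^ 2 * a₀ ^ 2 by positivity)
      linarith
    rcases le_total |s| T₁ with h' | h'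
    · have b2 : ‖D s * G s‖ ^ 2 ≤ a₁ ^ 2 * ‖G s‖ ^ 2 := by
        rw [norm_mul, mul_pow]
        exact mul_le_mul_of_nonneg_right (pow_le_pow_left₀ (norm_nonneg _) (h1 s h h') 2)
          (sq_nonneg _)
      have b4 := mul_le_mul_of_nonneg_left b2 p0
      linarith
    · have hs0 : s ≠ 0 := by
        rintro rfl
        rw [abs_zero] at h'; linarith
      have hs2 : 0 < s ^ 2 := by positivity
      have b1 : ε ^ 2 / Real.pi * fej (ε * s) ≤ 1 / s ^ 2 := by
        rw [fej_eq (mul_ne_zero hε.ne' hs0)]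
        have a2 := Real.neg_one_le_cos (ε * s)
        have e : ε ^ 2 / Real.pi * ((1 - Real.cos (ε * s)) / (ε * s) ^ 2) =
            (1 - Real.cos (ε * s)) / Real.pi / s ^ 2 := by field_simp
        rw [e]
        refine div_le_div_of_nonneg_right ?_ hs2.le
        rw [div_le_one (by linarith)]; linarith
      have b2 : ‖D s * G s‖ ^ 2 ≤ a₂ ^ 2 := pow_le_pow_left₀ (norm_nonneg _) (h2 s) 2
      have b3 : 1 / s ^ 2 ≤ 2 / T₁ ^ 2 * (1 + (s / T₁) ^ 2)⁻¹ := by
        have c1 : T₁ ^ 2 ≤ s ^ 2 := by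
          rw [← sq_abs s]; exact pow_le_pow_left₀ hT₁.le h' 2
        have e : 2 / T₁ ^ 2 * (1 + (s / T₁) ^ 2)⁻¹ = 2 / (T₁ ^ 2 + s ^ 2) := by field_simp
        rw [e, div_le_div_iff₀ hs2 (by positivity)]
        linarith
      have b4 := mul_le_mul (b1.trans b3) b2 (sq_nonneg _) (by positivity)
      have e : 2 / T₁ ^ 2 * (1 + (s / T₁) ^ 2)⁻¹ * a₂ ^ 2 =
          2 * a₂ ^ 2 / T₁ ^ 2 * (1 + (s / T₁) ^ 2)⁻¹ := by ring
      linarith
  have i2 : Integrable fun s : ℝ => a₁ ^ 2 * (ε ^ 2 / Real.pi * fej (ε * s) * ‖G s‖ ^ 2) +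
      2 * ε ^ 2 * a₀ ^ 2 * (1 + (s / T₀) ^ 2)⁻¹ :=
    (hG.const_mul (a₁ ^ 2)).add (i0.const_mul (2 * ε ^ 2 * a₀ ^ 2))
  refine (integral_mono_of_nonneg (Eventually.of_forall fun s => ?_)
    (i2.add (i1.const_mul (2 * a₂ ^ 2 / T₁ ^ 2))) (Eventually.of_forall key)).trans ?_
  · have f0 := fej_nonneg (ε * s)
    positivity
  · simp only [Pi.add_apply]
    rw [integral_add i2 (i1.const_mul _), integral_add (hG.const_mul _) (i0.const_mul _),
      integral_const_mul, integral_const_mul, integral_const_mul]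
    have k0 := mul_le_mul_of_nonneg_left j0 (show 0 ≤ 2 * ε ^ 2 * a₀ ^ 2 by positivity)
    have k1 := mul_le_mul_of_nonneg_left j1 (show 0 ≤ 2 * a₂ ^ 2 / T₁ ^ 2 by positivity)
    have e : 2 * a₂ ^ 2 / T₁ ^ 2 * (4 * T₁) = 8 * a₂ ^ 2 / T₁ := by field_simp; ring
    linarith

/-- small frequencies -/
theorem small (g : ℕ → ℝ) {X : ℕ} (hX : 16 ≤ X) {M : ℝ}
    (hs : ∀ s, g s ≠ 0 → X ≤ 8 * s ∧ s ≤ 2 * X) (h : ∀ y, |∑ s ∈ Icc 1 y, g s| ≤ M) (t : ℝ) :
    ‖∑ s ∈ Icc 1 (2 * X), (g s : ℂ) * nit s t‖ ≤ 4 * M * (1 + 3 * |t|) := by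
  have h' : ∀ x, |∑ m ∈ Ioc 0 x, g m| ≤ M := fun x => h x
  have a1 := R8.LamW.twist g (Lo := X / 16) (by omega) (fun x _ => h' x) t
  have a2 := R8.LamW.twist g (Lo := 16 * (X / 16)) (by omega) (fun x _ => h' x) t
  have e : ∑ s ∈ Icc 1 (2 * X), (g s : ℂ) * nit s t =
      ∑ s ∈ Ioc (X / 16) (16 * (16 * (X / 16))), (g s : ℂ) * nit s t := by
    have k1 : Icc 1 (2 * X) ⊆ Icc 1 (16 * (16 * (X / 16))) := Icc_subset_Icc_right (by omega)
    have k2 : Ioc (X / 16) (16 * (16 * (X / 16))) ⊆ Icc 1 (16 * (16 * (X / 16))) := by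
      intro s hs'
      rw [mem_Ioc] at hs'
      rw [mem_Icc]; omega
    rw [sum_subset k1, sum_subset k2]
    · intro s h1 h2
      have : g s = 0 := by
        by_contra h0
        have := hs s h0
        rw [mem_Ioc] at h2
        omega
      simp [this]
    · intro s h1 h2
      have : g s = 0 := by
        by_contra h0
        have := hs s h0
        rw [mem_Icc] at h1 h2
        omega
      simp [this]
  rw [e, ← sum_Ioc_consecutive _ (show X / 16 ≤ 16 * (X / 16) by omega)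
    (show 16 * (X / 16) ≤ 16 * (16 * (X / 16)) by omega)]
  refine (norm_add_le _ _).trans ?_
  linarith

theorem factor (R : Finset ℕ) (g : ℕ → ℝ) (Y M : ℕ) (hR : ∀ u ∈ R, 1 ≤ u ∧ u * Y ≤ M) (t : ℝ) :
    ∑ m ∈ Icc 1 M, ((∑ u ∈ R, ∑ s ∈ Icc 1 Y, if u * s = m then g s else 0 : ℝ) : ℂ) * nit m t =
      (∑ u ∈ R, nit u t) * ∑ s ∈ Icc 1 Y, (g s : ℂ) * nit s t := by
  simp only [Complex.ofReal_sum, sum_mul]
  rw [sum_comm]
  refine sum_congr rfl fun u hu => ?_
  rw [sum_comm, mul_sum]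
  refine sum_congr rfl fun s hs => ?_
  obtain ⟨h1, h2⟩ := hR u hu
  obtain ⟨h3, h4⟩ := mem_Icc.1 hs
  rw [sum_eq_single (u * s)]
  · rw [if_pos rfl, nit_mul (by omega) (by omega)]; ring
  · intro m _ hm
    rw [if_neg (Ne.symm hm)]; simp
  · intro h
    exact absurd (mem_Icc.2 ⟨Nat.mul_pos h1 h3, (Nat.mul_le_mul_left _ h4).trans h2⟩) h

theorem cover (F : ℕ → ℝ) (N₀ : ℕ) {B : ℝ} (n : ℕ)
    (h : ∀ i < n, ∑ y ∈ Ico (2 ^ i * N₀) (2 ^ (i + 1) * N₀), F y ≤ B) :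
    ∑ y ∈ Ico N₀ (2 ^ n * N₀), F y ≤ n * B := by
  induction n with
  | zero => simp
  | succ n ih =>
    have a1 : N₀ ≤ 2 ^ n * N₀ := Nat.le_mul_of_pos_left _ (by positivity)
    have a2 : 2 ^ n * N₀ ≤ 2 ^ (n + 1) * N₀ := by rw [pow_succ]; nlinarith
    rw [← sum_Ico_consecutive _ a1 a2]
    have := ih fun i hi => h i (by omega)
    have := h n (by omega)
    push_cast
    linarith

end MajCore

open MajCore in
theorem majCore : MajCoreStmt := by
  classical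
  refine ⟨10 ^ 8, by norm_num, ?_⟩
  intro R g U X K h Γ τ E εP εg T₀ T₁ hh hU hX hE hEh hT₀ hT₁ hΓ hτ hεP hεg hR hRc hgs hg hγ hP hS
  set γ : ℕ → ℝ := fun m => ∑ u ∈ R, ∑ s ∈ Icc 1 (2 * X), if u * s = m then g s else 0 with hγd
  obtain ⟨X₀, hX₀, hX1, hX2⟩ : ∃ X₀ : ℕ, 1 ≤ X₀ ∧ 16 * X₀ ≤ X ∧ X ≤ 32 * X₀ :=
    ⟨X / 16, by omega, by omega, by omega⟩
  have hU1 : 1 ≤ U := hh.trans hU
  set N₀ := U * X₀ with hN₀
  set Nm := 2 ^ (K + 5) * N₀ with hNm
  have hN₀h : h ≤ N₀ := hU.trans (Nat.le_mul_of_pos_right _ hX₀)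
  have hNm1 : 2 ^ K * (U * X) ≤ Nm := by
    rw [hNm, hN₀, pow_add, mul_assoc]
    refine Nat.mul_le_mul_left _ ?_
    nlinarith
  have hNm2 : Nm ≤ 2 ^ K * (2 * (U * X)) := by
    rw [hNm, hN₀, pow_add, mul_assoc]
    refine Nat.mul_le_mul_left _ ?_
    nlinarith
  have h2K : 1 ≤ 2 ^ K := Nat.one_le_two_pow
  have hr : (0 : ℝ) < h := by exact_mod_cast hh
  have Ur : (1 : ℝ) ≤ U := by exact_mod_cast hU1
  have Xr : (16 : ℝ) ≤ X := by exact_mod_cast hX
  have hUr : (h : ℝ) ≤ U := by exact_mod_cast hU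
  have N0r : (U : ℝ) * X ≤ 32 * N₀ := by
    have : U * X ≤ 32 * N₀ := by rw [hN₀]; nlinarith
    exact_mod_cast this
  have Nm1 : (U : ℝ) * X ≤ Nm := by
    have : U * X ≤ Nm := le_trans (Nat.le_mul_of_pos_left _ h2K) hNm1
    exact_mod_cast this
  have Nm2 : (Nm : ℝ) ≤ 2 ^ K * (2 * (U * X)) := by exact_mod_cast hNm2
  have UX : (0 : ℝ) < U * X := by positivity
  have Nm0 : (0 : ℝ) < Nm := UX.trans_le Nm1
  have N00 : (0 : ℝ) < N₀ := by linarith
  have E0 : 0 < E := by linarith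
  set ε : ℝ := h / (E * Nm) with hε
  have ε0 : 0 < ε := by positivity
  have εN : ε * Nm = h / E := by rw [hε]; field_simp
  have hE1 : 1 ≤ h / E := by rw [le_div_iff₀ E0]; linarith
  have hE2 : h / E ≤ U := (div_le_self hr.le hE).trans hUr
  have εX : ((2 * X : ℕ) : ℝ) * ε ≤ 2 := by
    have : ε * (U * X) ≤ U := (mul_le_mul_of_nonneg_left Nm1 ε0.le).trans (εN.trans_le hE2)
    have h2 : ε * X ≤ 1 := by
      by_contra hc
      push Not at hc
      nlinarith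
    push_cast; linarith
  have ε1 : ε ≤ 1 := by push_cast at εX; nlinarith
  -- the spectral integral
  set I := ∫ u : ℝ, ‖∑ n ∈ (Icc 1 (4 * Nm)).filter
    (fun n : ℕ => u < Real.log n ∧ Real.log n ≤ u + ε), (γ n : ℂ)‖ ^ 2 with hI
  have hD : ∀ t, ‖∑ u ∈ R, nit u t‖ ≤ U := by
    intro t
    refine (norm_sum_le _ _).trans ?_
    simp only [R5.Point.norm_nit, sum_const, nsmul_eq_mul, mul_one]
    exact_mod_cast hRc
  have hIle : I ≤ (εP * U) ^ 2 * (5 * τ ^ 2 * (((2 * X : ℕ) : ℝ) * ε)) +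
      8 * ε ^ 2 * (U * (16 * (εg * X) * T₀)) ^ 2 * T₀ + 8 * (U * (2 * X * τ)) ^ 2 / T₁ := by
    rw [hI, R5.Fejer.ident _ _ ε ε0]
    simp only [hγd]
    have hf := factor R g (2 * X) (4 * Nm) (fun u hu => ⟨hU1.trans (hR u hu).1, by
      have := Nat.mul_le_mul_right (2 * X) (hR u hu).2
      nlinarith⟩)
    simp only [hf]
    have hg' : ∀ n, ‖(g n : ℂ)‖ ≤ τ := fun n => by
      rw [Complex.norm_real, Real.norm_eq_abs]; exact hg n
    refine (spec _ _ ε0 (by linarith) hT₁ (integrable_phi _ _ ε0) (a₀ := U * (16 * (εg * X) * T₀))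
      (a₂ := U * (2 * X * τ)) (fun s hs => ?_) hP (fun s => ?_)).trans ?_
    · rw [norm_mul]
      refine mul_le_mul (hD s) ((small g hX hgs hS s).trans ?_) (norm_nonneg _) (by positivity)
      have : 0 ≤ εg * X := by positivity
      nlinarith
    · rw [norm_mul]
      refine mul_le_mul (hD s) ((norm_poly _ _ s).trans ?_) (norm_nonneg _) (by positivity)
      refine (sum_le_card_nsmul _ _ _ fun n _ => hg' n).trans ?_
      simp
    · have := mul_le_mul_of_nonneg_left (mid (2 * X) (fun n => (g n : ℂ)) hg' ε0 ε1 εX)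
        (sq_nonneg (εP * U))
      linarith
  have I0 : 0 ≤ I := MeasureTheory.integral_nonneg fun u => sq_nonneg _
  set F : ℕ → ℝ := fun y => (∑ m ∈ Ioc y (y + h), γ m) ^ 2 with hF
  have F0 : ∀ y, 0 ≤ F y := fun y => sq_nonneg _
  set B := 4 * (h : ℝ) ^ 2 / (ε ^ 2 * N₀) * I + 4 * Nm * (Γ * (12 * (h / E))) ^ 2 with hB
  have hblock : ∀ i < K + 6, ∑ y ∈ Ico (2 ^ i * N₀) (2 ^ (i + 1) * N₀), F y ≤ B := by
    intro i hi
    set N := 2 ^ i * N₀ with hN
    have a1 : N₀ ≤ N := Nat.le_mul_of_pos_left _ (by positivity)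
    have a2 : N ≤ Nm := Nat.mul_le_mul_right _ (Nat.pow_le_pow_right (by norm_num) (by omega))
    have a3 : 2 ^ (i + 1) * N₀ = 2 * N := by rw [hN, pow_succ]; ring
    have a1' : (N₀ : ℝ) ≤ N := by exact_mod_cast a1
    have a2' : (N : ℝ) ≤ Nm := by exact_mod_cast a2
    have hs := R5.short (Icc 1 (4 * Nm)) (fun n => (γ n : ℂ)) Γ ε N h (fun n hn => (mem_Icc.1 hn).1)
      (fun n _ => by rw [Complex.norm_real, Real.norm_eq_abs]; exact hγ n) hΓ ε0 ε1 hh
      (hN₀h.trans a1)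
    rw [a3]
    calc ∑ y ∈ Ico N (2 * N), F y ≤ ∑ y ∈ Ico N (3 * N), F y :=
          sum_le_sum_of_subset_of_nonneg (Ico_subset_Ico_right (by omega)) fun y _ _ => F0 y
      _ = ∑ t ∈ Ico N (3 * N), ‖∑ n ∈ (Icc 1 (4 * Nm)).filter (fun n => t < n ∧ n ≤ t + h),
            (γ n : ℂ)‖ ^ 2 := by
          refine sum_congr rfl fun t ht => ?_
          have : (Icc 1 (4 * Nm)).filter (fun n => t < n ∧ n ≤ t + h) = Ioc t (t + h) := by
            ext n
            rw [mem_Ico] at ht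
            simp only [mem_filter, mem_Icc, mem_Ioc]
            omega
          rw [this, ← Complex.ofReal_sum, Complex.norm_real, Real.norm_eq_abs, sq_abs]
      _ ≤ _ := hs
      _ ≤ B := by
          refine add_le_add (mul_le_mul_of_nonneg_right ?_ I0) ?_
          · gcongr
          · have : 10 * ε * N + 2 ≤ 12 * (h / E) := by
              have := mul_le_mul_of_nonneg_left a2' ε0.le
              linarith
            gcongr
  have hzero : ∀ y < N₀, F y = 0 := by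
    intro y hy
    simp only [hF]
    rw [sum_eq_zero]
    · simp
    intro m hm
    refine sum_eq_zero fun u hu => sum_eq_zero fun s _ => ?_
    split_ifs with h1
    · by_contra h0
      have b1 := (hgs s h0).1
      have b2 := (hR u hu).1
      have b3 := (mem_Ioc.1 hm).2
      have b4 : U * (2 * X₀) ≤ u * s := Nat.mul_le_mul b2 (by omega)
      have b5 : U * (2 * X₀) = 2 * N₀ := by rw [hN₀]; ring
      omega
    · rfl
  have htot : ∑ y ∈ range (2 ^ (K + 1) * U * X), F y ≤ (K + 6 : ℕ) * B := by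
    refine le_trans ?_ (cover F N₀ (K + 6) hblock)
    rw [← sum_filter_ne_zero]
    refine sum_le_sum_of_subset_of_nonneg (fun y hy => ?_) fun y _ _ => F0 y
    obtain ⟨h1, h2⟩ := mem_filter.1 hy
    refine mem_Ico.2 ⟨not_lt.1 fun h => h2 (hzero y h), (mem_range.1 h1).trans_le ?_⟩
    have e1 : 2 ^ (K + 6) * N₀ = 2 * Nm := by rw [hNm]; ring
    have e2 : 2 ^ (K + 1) * U * X = 2 * (2 ^ K * (U * X)) := by ring
    omega
  refine htot.trans ?_
  -- numerics
  have q1 : (1 : ℝ) ≤ 2 ^ K := one_le_pow₀ (by norm_num)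
  have hK : ((K + 6 : ℕ) : ℝ) ≤ 6 * 2 ^ K := by
    have : K + 6 ≤ 6 * 2 ^ K := by have := Nat.lt_two_pow_self (n := K); omega
    exact_mod_cast this
  set q : ℝ := 2 ^ K with hq
  have e8 : (8 : ℝ) ^ K = q ^ 3 := by rw [hq, ← pow_mul, mul_comm, pow_mul]; norm_num
  have iε : ε⁻¹ ≤ E * (q * (2 * (U * X))) / h := by
    rw [hε, inv_div]; gcongr
  have iN : (N₀ : ℝ)⁻¹ ≤ 32 / (U * X) := by
    rw [inv_eq_one_div, div_le_div_iff₀ N00 UX]; linarith
  set a := Γ ^ 2 / E ^ 2 with ha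
  set b := τ ^ 2 * εP ^ 2 * E * U / h with hb
  set c := T₀ ^ 3 * εg ^ 2 with hc
  set d := τ ^ 2 * E ^ 2 * ((U : ℝ) / h) ^ 2 * (X : ℝ) ^ 2 / T₁ with hd
  have a0 : 0 ≤ a := by positivity
  have b0 : 0 ≤ b := by positivity
  have c0 : 0 ≤ c := by positivity
  have d0 : 0 ≤ d := by positivity
  set Z := (h : ℝ) ^ 2 * (U * X) with hZ
  have Z0 : 0 ≤ Z := by positivity
  have t1 : 4 * Nm * (Γ * (12 * (h / E))) ^ 2 ≤ 1152 * q * Z * a := by
    calc 4 * Nm * (Γ * (12 * (h / E))) ^ 2 ≤ 4 * (q * (2 * (U * X))) * (Γ * (12 * (h / E))) ^ 2 := by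
          gcongr
      _ = _ := by rw [hZ, ha]; field_simp; ring
  have t2 : 4 * (h : ℝ) ^ 2 / (ε ^ 2 * N₀) *
      ((εP * U) ^ 2 * (5 * τ ^ 2 * (((2 * X : ℕ) : ℝ) * ε))) ≤ 2560 * q * Z * b := by
    calc _ = 40 * (h : ℝ) ^ 2 * (εP * U) ^ 2 * τ ^ 2 * X * (ε⁻¹ * (N₀ : ℝ)⁻¹) := by
          push_cast; field_simp; ring
      _ ≤ 40 * (h : ℝ) ^ 2 * (εP * U) ^ 2 * τ ^ 2 * X *
            (E * (q * (2 * (U * X))) / h * (32 / (U * X))) := by gcongr
      _ = _ := by rw [hZ, hb]; field_simp; ring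
  have t3 : 4 * (h : ℝ) ^ 2 / (ε ^ 2 * N₀) *
      (8 * ε ^ 2 * (U * (16 * (εg * X) * T₀)) ^ 2 * T₀) ≤ 262144 * Z * c := by
    calc _ = 32 * (h : ℝ) ^ 2 * (U * (16 * (εg * X) * T₀)) ^ 2 * T₀ * (N₀ : ℝ)⁻¹ := by
          field_simp; ring
      _ ≤ 32 * (h : ℝ) ^ 2 * (U * (16 * (εg * X) * T₀)) ^ 2 * T₀ * (32 / (U * X)) := by gcongr
      _ = _ := by rw [hZ, hc]; field_simp; ring
  have t4 : 4 * (h : ℝ) ^ 2 / (ε ^ 2 * N₀) * (8 * (U * (2 * X * τ)) ^ 2 / T₁) ≤
      16384 * q ^ 2 * Z * d := by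
    calc _ = 32 * (h : ℝ) ^ 2 * (U * (2 * X * τ)) ^ 2 / T₁ * (ε⁻¹ ^ 2 * (N₀ : ℝ)⁻¹) := by
          field_simp; ring
      _ ≤ 32 * (h : ℝ) ^ 2 * (U * (2 * X * τ)) ^ 2 / T₁ *
            ((E * (q * (2 * (U * X))) / h) ^ 2 * (32 / (U * X))) := by gcongr
      _ = _ := by rw [hZ, hd]; field_simp; ring
  have hBle : B ≤ 262144 * q ^ 2 * Z * (a + b + c + d) := by
    have m1 := mul_le_mul_of_nonneg_left hIle
      (show 0 ≤ 4 * (h : ℝ) ^ 2 / (ε ^ 2 * N₀) by positivity)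
    rw [mul_add, mul_add] at m1
    have q2 : q ≤ q ^ 2 := by nlinarith
    have q3 : 1 ≤ q ^ 2 := q1.trans q2
    have u1 := mul_le_mul_of_nonneg_right q2 (mul_nonneg Z0 a0)
    have u2 := mul_le_mul_of_nonneg_right q2 (mul_nonneg Z0 b0)
    have u3 := mul_le_mul_of_nonneg_right q3 (mul_nonneg Z0 c0)
    have u4 : 0 ≤ q ^ 2 * (Z * a) := by positivity
    have u5 : 0 ≤ q ^ 2 * (Z * b) := by positivity
    have u6 : 0 ≤ q ^ 2 * (Z * d) := by positivity
    rw [hB]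
    linarith
  have B0 : 0 ≤ B := by positivity
  calc ((K + 6 : ℕ) : ℝ) * B ≤ 6 * q * (262144 * q ^ 2 * Z * (a + b + c + d)) := by gcongr
    _ = 1572864 * (q ^ 3 * Z * (a + b + c + d)) := by ring
    _ ≤ 10 ^ 8 * (q ^ 3 * Z * (a + b + c + d)) := by gcongr; norm_num
    _ = _ := by rw [e8, hZ]; ring

end Crest.Agent.R26
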