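import Crest.Agent.PVc.R5.Defs
import Crest.Prelude.Def_StickBreaking

/-! Row 26, Poisson–Dirichlet half: definitions and module statements.

`MainStmt` (Type-I functions with large prime moduli average to zero over shifted primes) is the
arithmetic input.  A number `n ≤ e^y` is broken by size-biased sampling: a prime `q ∣ n` is picked
with weight `log q / y`, the ratio `u = (y - log q)/y` is recorded, and one continues with
`n / q` and `y - log q`.  `cwt K m a y n` is the total weight of the `m`-step samples whose ratios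
lie in the cube `∏ (a j / K, (a j + 1) / K]`. -/

set_option autoImplicit false

namespace Crest.Agent.R26

open Finset Filter MeasureTheory
open Crest.NumberTheoryR.PrimePredecessor

/-- the arithmetic input -/
def MainStmt : Prop :=
  ∀ κ B η : ℝ, 0 < κ → κ < 1 → 0 < η → ∀ᶠ X : ℕ in atTop,
    ∀ (R : Finset ℕ) (c : ℕ → ℝ), R5.TypeI X κ B R c →
      (∀ d ∈ R, ∀ p : ℕ, p.Prime → p ∣ d → (X : ℝ) ^ κ < p) →
      |∑ p ∈ (Icc 1 X).filter Nat.Prime, R5.gI R c (p - 1)| ≤ η * X / Real.log X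

open Classical in
/-- primes `q ≤ e^y` with `(y - log q) / y ∈ (a / K, (a+1) / K]` -/
noncomputable def iv (K a : ℕ) (y : ℝ) : Finset ℕ :=
  (Icc 1 ⌊Real.exp y⌋₊).filter fun q => q.Prime ∧ (a : ℝ) / K * y < y - Real.log q ∧
    y - Real.log q ≤ ((a : ℝ) + 1) / K * y

/-- weight of the size-biased samples in the cube `a` -/
noncomputable def cwt (K : ℕ) : (m : ℕ) → (Fin m → ℕ) → ℝ → ℕ → ℝ
  | 0, _, _, _ => 1
  | m + 1, a, y, n => ∑ q ∈ (iv K (a 0) y).filter (fun q => q ∣ n),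
      Real.log q / y * cwt K m (Fin.tail a) (y - Real.log q) (n / q)

/-- the interior cubes -/
def cubes (K m : ℕ) : Finset (Fin m → ℕ) := Fintype.piFinset fun _ : Fin m => Icc 1 (K - 2)

/-- stick-breaking fragments of a real sequence -/
def frag (u : ℕ → ℝ) (j : ℕ) : ℝ := (∏ i ∈ range j, u i) * (1 - u j)

/-- the upper corner of a cube, continued by `1` -/
noncomputable def corner (K : ℕ) {m : ℕ} (a : Fin m → ℕ) (i : ℕ) : ℝ :=
  if h : i < m then ((a ⟨i, h⟩ : ℝ) + 1) / K else 1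

/-- the mass left after `m` steps is at most this -/
noncomputable def rest (K : ℕ) {m : ℕ} (a : Fin m → ℕ) : ℝ := ∏ j : Fin m, ((a j : ℝ) + 1) / K

/-- the primes of the statement -/
def PX (X : ℕ) : Finset ℕ := (Icc 3 X).filter Nat.Prime

/-- the weights form a sub-probability -/
def SubStmt : Prop :=
  ∀ (K m : ℕ) (a : Fin m → ℕ) (y : ℝ) (n : ℕ),
    0 ≤ cwt K m a y n ∧
    (1 ≤ n → Real.log n ≤ y → cwt K m a y n ≤ 1 ∧ ∑ a' ∈ cubes K m, cwt K m a' y n ≤ 1)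

/-- every interior cube gets its share -/
def CubeStmt : Prop :=
  ∀ (K m : ℕ) (a : Fin m → ℕ) (η : ℝ), a ∈ cubes K m → 0 < η → ∀ᶠ X : ℕ in atTop,
    ((1 / (K : ℝ)) ^ m - η) * (PX X).card ≤ ∑ p ∈ PX X, cwt K m a (Real.log X) (p - 1)

/-- elementary properties of the ranking -/
def RankStmt : Prop :=
  (∀ (b : ℕ → ℝ) (j : ℕ), (∀ i, 0 ≤ b i ∧ b i ≤ 1) → 0 ≤ nthLargest b j ∧ nthLargest b j ≤ 1) ∧
  (∀ (b b' : ℕ → ℝ) (δ : ℝ) (j : ℕ), (∀ i, 0 ≤ b i ∧ b i ≤ 1) → (∀ i, 0 ≤ b' i ∧ b' i ≤ 1) →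
    (∀ i, |b i - b' i| ≤ δ) → |nthLargest b j - nthLargest b' j| ≤ δ) ∧
  (∀ (n : ℕ) (l : List ℕ) (c : ℝ) (j : ℕ), l.Perm n.primeFactorsList → 0 ≤ c →
    nthLargest (fun i => c * Real.log (l.getD i 1 : ℕ)) j = c * Real.log (nthPrimeFactor n j))

/-- fragments of a sequence in a cube are close to those of the corner -/
def FragStmt : Prop :=
  (∀ (u : ℕ → ℝ) (j : ℕ), (∀ i, 0 ≤ u i ∧ u i ≤ 1) → 0 ≤ frag u j ∧ frag u j ≤ 1) ∧
  (∀ (K m : ℕ) (a : Fin m → ℕ) (u : ℕ → ℝ), a ∈ cubes K m → (∀ i, 0 ≤ u i ∧ u i ≤ 1) →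
    (∀ j : Fin m, (a j : ℝ) / K < u j ∧ u j ≤ ((a j : ℝ) + 1) / K) →
    (∀ i, 0 ≤ corner K a i ∧ corner K a i ≤ 1) ∧ ∏ i ∈ range m, u i ≤ rest K a ∧
    (∀ j, j < m → |frag u j - frag (corner K a) j| ≤ (m : ℝ) / K) ∧
    (∀ j, m ≤ j → frag (corner K a) j = 0 ∧ frag u j ≤ rest K a))

/-- a number with a sample in the cube `a` has ranked prime factors close to the corner -/
def CloseStmt : Prop :=
  ∀ (K m : ℕ) (a : Fin m → ℕ) (y δ : ℝ) (n j : ℕ), a ∈ cubes K m → 2 ≤ n → Real.log n ≤ y →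
    (1 - δ) * y ≤ Real.log n → 0 ≤ δ → δ ≤ 1 / 2 → cwt K m a y n ≠ 0 →
    |Real.log (nthPrimeFactor n j) / Real.log n - nthLargest (frag (corner K a)) j| ≤
      δ + (m : ℝ) / K + rest K a

open Classical in
/-- the stick-breaking expectation is dominated by a sum over small cubes -/
def StickStmt : Prop :=
  ∀ (k : ℕ) (F : (Fin k → ℝ) → ℝ) (M : ℝ), Continuous F → (∀ v, |F v| ≤ M) →
    Integrable (fun ω => F (fun j => rankedFragment ω j)) stickMeasure ∧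
    ((∀ v, 0 ≤ F v) → ∀ η δ : ℝ, 0 < η → 0 < δ → ∃ K m : ℕ, 3 ≤ K ∧ (m : ℝ) / K ≤ δ ∧
      ∫ ω, F (fun j => rankedFragment ω j) ∂stickMeasure ≤
        η + ∑ a ∈ (cubes K m).filter (fun a => rest K a ≤ δ),
          (1 / (K : ℝ)) ^ m * F (fun j => nthLargest (frag (corner K a)) j))

open Classical in
/-- a positive proportion of the shifted primes is smooth -/
def SmoothStmt : Prop :=
  ∀ ε : ℝ, 0 < ε → ∃ c : ℝ, 0 < c ∧ ∀ᶠ X : ℕ in atTop,
    c * X / Real.log X ≤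
      (((PX X).filter fun p => ∀ q : ℕ, q.Prime → q ∣ p - 1 → (q : ℝ) ≤ (X : ℝ) ^ ε).card : ℝ)

end Crest.Agent.R26
private theorem rz_a297db638d : type_of% @_root_.Crest.Agent.R26.cwt.eq_def := @_root_.Crest.Agent.R26.cwt.eq_def -- L33
private theorem rz_3d3e4e3785 : type_of% @_root_.Crest.Agent.R26.cwt.eq_1 := @_root_.Crest.Agent.R26.cwt.eq_1 -- L33
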