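import Crest.Agent.PVc.R26.Lin
import Crest.Agent.PVc.R26.Basic
import Crest.Agent.PVc.R26.Defs

-- ▼ part PVc/R26/MemFree
section

/-! Row 26: steps without memory event. -/

set_option autoImplicit false

namespace Crest.Agent.R26

open Finset Filter
open Crest.Agent.R5 (pr pd ee nit)

namespace MemFree

theorem loc_eq (p : ℕ) (b b' : Prop) [Decidable b] [Decidable b'] (c c' : ℕ) (o : Option ℕ)
    (h : b → o = none) (h' : b' → o = none) :
    loc p (decide b) (decide b') c c' o o =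
      (if b ∧ ¬ b' then 1 / √(p : ℝ) else 1) * if b' ∧ ¬ b then 1 / √(p : ℝ) else 1 := by
  by_cases hb : b <;> by_cases hb' : b' <;> simp [loc, hb, hb', h, h']

theorem prod_eq {S A B : Finset ℕ} (hA : A ⊆ S) :
    ∏ p : ↥S, (if p.1 ∈ A ∧ p.1 ∉ B then 1 / √(p.1 : ℝ) else 1) = 1 / √(pd (A \ B) : ℝ) := by
  rw [Finset.prod_coe_sort S fun p => if p ∈ A ∧ p ∉ B then 1 / √(p : ℝ) else 1, ← prod_filter,
    show S.filter (fun p => p ∈ A ∧ p ∉ B) = A \ B by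
      ext p
      simp only [Finset.mem_filter, Finset.mem_sdiff]
      exact ⟨fun h => h.2, fun h => ⟨hA h.1, h⟩⟩,
    pd, Nat.cast_prod, Real.sqrt_prod _ fun p _ => Nat.cast_nonneg p, prod_div_distrib, prod_const_one]

end MemFree

theorem memFree : MemFreeStmt := by
  intro σ _ S V bk cl K Jd κ lam hA hl h
  refine OpB.fibre hl Prod.snd (fun s _ s' _ hne => by_contra fun h0 => hne (if_neg h0))
    fun s₀ _ => ?_
  have hm : ∀ s ∈ (mst S V bk κ).filter fun s => s.2 = s₀.2,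
      s.1 ∈ V ∧ (∀ p : ↥S, p.1 ∈ bk s.1 → s₀.2 p = none) ∧ s.2 = s₀.2 := fun s hs => by
    obtain ⟨h1, h2⟩ := mem_filter.1 hs
    obtain ⟨h3, h4, -⟩ := mem_filter.1 h1
    exact ⟨(mem_product.1 h3).1, h2 ▸ h4, h2⟩
  refine (h.comap Prod.fst (fun s hs s' hs' e => Prod.ext e ?_) fun s hs => (hm s hs).1).congr
    fun s hs s' hs' => ?_
  · exact (hm s hs).2.2.trans (hm s' hs').2.2.symm
  · obtain ⟨h1, h2, h3⟩ := hm s hs
    obtain ⟨h1', h2', h3'⟩ := hm s' hs'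
    rw [if_pos (h3.trans h3'.symm), mop, h3, h3', khat,
      prod_congr rfl fun p _ => MemFree.loc_eq p.1 _ _ _ _ _ (h2 p) (h2' p), prod_mul_distrib,
      MemFree.prod_eq (hA.sub _ h1), MemFree.prod_eq (hA.sub _ h1'),
      Real.sqrt_mul (Nat.cast_nonneg _), div_mul_div_comm, one_mul, mul_one_div]

end Crest.Agent.R26
end

-- ▼ part PVc/R26/Rho0
section

/-! Row 26: crude row bounds. -/

set_option autoImplicit false

namespace Crest.Agent.R26

open Finset Filter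
open Crest.Agent.R5 (pr pd ee nit)

namespace Rho0

variable {G : Par}

theorem gen (h : G.WF) {V : Finset G.St} (hV : G.Adm V) {v : G.St} (hv : v ∈ V) {k : ℤ → ℝ}
    {s : ℝ} (hk : ∀ n : ℤ, (G.h : ℤ) < |n| → k n = 0)
    (hs : ∑ n ∈ Icc (-(G.h : ℤ)) G.h, |k n| ≤ s) (f : G.St → ℝ) (hf : ∀ v' ∈ V, 0 ≤ f v')
    (g : G.Tup → ℝ) (hg0 : ∀ w, 0 ≤ g w)
    (hg : ∀ u ∈ Fintype.piFinset v.2, ∀ w ∈ G.outs v.2, ∀ v' : G.St, v'.2 = G.swap v.2 u w →
      f v' ≤ g w) {c : ℝ} (hc : ∑ w ∈ G.tup, g w ≤ c) :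
    ∑ v' ∈ V, |G.K0 k v v'| * f v' ≤ (G.z : ℝ) ^ G.J * c * s := by
  have hs0 : 0 ≤ s := (sum_nonneg fun _ _ => abs_nonneg _).trans hs
  refine (h.row_le hV hv hk f hf).trans ?_
  refine (sum_le_card_nsmul _ _ (c * s) fun u hu => ?_).trans (le_of_eq ?_)
  · have h1 : ∀ w ∈ G.outs v.2, ∑ n ∈ Icc (-(G.h : ℤ)) G.h,
        |k n| * ∑ v' ∈ G.nbr V v u w n, f v' ≤ g w * s := by
      intro w hw
      have h2 : ∀ n, ∑ v' ∈ G.nbr V v u w n, f v' ≤ g w := fun n => by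
        refine (sum_le_card_nsmul _ _ (g w) fun v' hv' =>
          hg u hu w hw v' (mem_filter.1 hv').2.1).trans ?_
        rw [nsmul_eq_mul]
        refine mul_le_of_le_one_left (hg0 w) ?_
        exact_mod_cast h.card_nbr hV hv u w n
      calc ∑ n ∈ Icc (-(G.h : ℤ)) G.h, |k n| * ∑ v' ∈ G.nbr V v u w n, f v'
          ≤ ∑ n ∈ Icc (-(G.h : ℤ)) G.h, |k n| * g w :=
            sum_le_sum fun n _ => mul_le_mul_of_nonneg_left (h2 n) (abs_nonneg _)
        _ = g w * ∑ n ∈ Icc (-(G.h : ℤ)) G.h, |k n| := by rw [← sum_mul, mul_comm]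
        _ ≤ g w * s := mul_le_mul_of_nonneg_left hs (hg0 w)
    refine (sum_le_sum h1).trans ?_
    rw [← sum_mul]
    refine mul_le_mul_of_nonneg_right (le_trans ?_ hc) hs0
    exact sum_le_sum_of_subset_of_nonneg (filter_subset _ _) fun w _ _ => hg0 w
  · rw [h.card_choices (hV v hv).2.1, nsmul_eq_mul]
    push_cast
    ring

theorem sum_prod (φ : Fin G.J → ℕ → ℝ) :
    ∑ w ∈ G.tup, ∏ j, φ j (w j) = ∏ j, ∑ p ∈ G.S j, φ j p := by
  rw [Par.tup, prod_univ_sum]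

theorem sum_hit (h : G.WF) {m : Finset ℕ} (hm : m.card ≤ G.κ) (j : Fin G.J) :
    ∑ w ∈ G.tup, (if w j ∈ m then ∏ i, 1 / (w i : ℝ) else 0) ≤
      (G.κ : ℝ) / (G.Q : ℝ) ^ (30 * G.J) := by
  have e : ∀ w : G.Tup, (if w j ∈ m then ∏ i, 1 / (w i : ℝ) else 0) =
      ∏ i, (if i = j then (if w i ∈ m then 1 / (w i : ℝ) else 0) else 1 / (w i : ℝ)) := by
    intro w
    split_ifs with hw
    · refine prod_congr rfl fun i _ => ?_
      split_ifs with h1 h2
      · rfl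
      · exact absurd (h1 ▸ hw) h2
      · rfl
    · exact (prod_eq_zero (mem_univ j) (by rw [if_pos rfl, if_neg hw])).symm
  simp only [e]
  rw [sum_prod fun i p => if i = j then (if p ∈ m then 1 / (p : ℝ) else 0) else 1 / (p : ℝ),
    ← mul_prod_erase _ _ (mem_univ j)]
  have hQ : (0 : ℝ) < (G.Q : ℝ) ^ (30 * G.J) := by exact_mod_cast h.BA_Qpow_pos _
  have h1 : ∑ p ∈ G.S j, (if j = j then (if p ∈ m then 1 / (p : ℝ) else 0) else 1 / (p : ℝ)) ≤
      (G.κ : ℝ) / (G.Q : ℝ) ^ (30 * G.J) := by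
    simp only [if_true]
    rw [← sum_filter]
    refine (sum_le_card_nsmul _ _ (1 / (G.Q : ℝ) ^ (30 * G.J)) fun p hp => ?_).trans ?_
    · refine one_div_le_one_div_of_le hQ ?_
      exact_mod_cast (h.P_ge j).trans (h.prime j p (mem_filter.1 hp).1).2.1.le
    · rw [nsmul_eq_mul, mul_one_div]
      refine div_le_div_of_nonneg_right ?_ hQ.le
      exact_mod_cast (card_le_card fun p hp => (mem_filter.1 hp).2).trans hm
  refine le_trans (mul_le_of_le_one_right (sum_nonneg fun p _ => by positivity) ?_) h1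
  refine prod_le_one (fun i _ => sum_nonneg fun p _ => by positivity) fun i hi => ?_
  simp only [if_neg (ne_of_mem_erase hi)]
  exact h.sum_inv_le i

end Rho0

theorem rho0 : Rho0Stmt := by
  classical
  intro G h V hV k s hk hs v hv
  have hb := (hV v hv).2.1
  have hs0 : 0 ≤ s := (sum_nonneg fun _ _ => abs_nonneg _).trans hs
  refine ⟨?_, ?_, fun m hm => ?_⟩
  · have := Rho0.gen h hV hv hk hs (fun _ => 1) (fun _ _ => zero_le_one) (fun _ => 1)
      (fun _ => zero_le_one) (fun _ _ _ _ _ _ => le_rfl) (c := G.U) (by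
        rw [sum_const, nsmul_eq_mul, mul_one]
        exact_mod_cast h.card_tup_le)
    simpa only [mul_one] using this
  · have := Rho0.gen h hV hv hk hs (fun v' => ∏ p ∈ G.bk v' \ G.bk v, 1 / (p : ℝ))
      (fun _ _ => by positivity) (fun w => ∏ j, 1 / (w j : ℝ)) (fun _ => by positivity)
      (fun u hu w hw v' e => (h.prod_births hb hu hw e fun p => 1 / (p : ℝ)).2.2.1.le) (c := 1) (by
        rw [Rho0.sum_prod fun _ p => 1 / (p : ℝ)]
        exact prod_le_one (fun i _ => sum_nonneg fun p _ => by positivity) fun i _ =>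
          h.sum_inv_le i)
    simpa only [mul_one] using this
  · have := Rho0.gen h hV hv hk hs (fun v' =>
        if ∃ p ∈ G.bk v' \ G.bk v, p ∈ m then ∏ p ∈ G.bk v' \ G.bk v, 1 / (p : ℝ) else 0)
      (fun _ _ => by positivity) (fun w => ∑ j, if w j ∈ m then ∏ i, 1 / (w i : ℝ) else 0)
      (fun _ => by positivity)
      (fun u hu w hw v' e => by
        obtain ⟨e1, -, e2, -⟩ := h.prod_births hb hu hw e fun p => 1 / (p : ℝ)
        split_ifs with hp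
        · obtain ⟨p, hp, hpm⟩ := hp
          rw [e1] at hp
          obtain ⟨j, -, rfl⟩ := mem_image.1 hp
          refine le_trans ?_ (single_le_sum (f := fun j => if w j ∈ m then ∏ i, 1 / (w i : ℝ) else 0)
            (fun _ _ => by positivity) (mem_univ j))
          rw [e2, if_pos hpm]
        · positivity)
      (c := G.J * ((G.κ : ℝ) / (G.Q : ℝ) ^ (30 * G.J))) (by
        rw [sum_comm]
        refine (sum_le_card_nsmul _ _ _ fun j _ => Rho0.sum_hit h hm j).trans (le_of_eq ?_)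
        rw [card_univ, Fintype.card_fin, nsmul_eq_mul])
    refine this.trans ?_
    have hQ : (1 : ℝ) ≤ G.Q := by exact_mod_cast (by have := h.Q_ge; omega : 1 ≤ G.Q)
    have h1 : (G.z : ℝ) ≤ G.Q := by exact_mod_cast h.z_le
    have h2 : (G.J : ℝ) ≤ G.Q := by exact_mod_cast h.J_lt.le
    have h3 : (G.κ : ℝ) ≤ G.Q := by exact_mod_cast h.κ_lt.le
    have h4 : (G.z : ℝ) ^ G.J * G.J * G.κ ≤ (G.Q : ℝ) ^ (10 * G.J) := by
      calc (G.z : ℝ) ^ G.J * G.J * G.κ ≤ (G.Q : ℝ) ^ G.J * G.Q * G.Q := by gcongr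
        _ = (G.Q : ℝ) ^ (G.J + 2) := by ring
        _ ≤ _ := pow_le_pow_right₀ hQ (by have := h.J_ge; omega)
    rw [div_eq_mul_one_div s, mul_comm s]
    refine mul_le_mul_of_nonneg_right ?_ hs0
    rw [show 30 * G.J = 10 * G.J + 20 * G.J by ring, pow_add, ← mul_div_assoc, ← mul_div_assoc,
      ← mul_assoc, ← div_div]
    exact div_le_div_of_nonneg_right ((div_le_one (by positivity)).2 h4) (by positivity)

end Crest.Agent.R26
end

-- ▼ part PVc/R26/RhoM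
section

/-! Row 26: recalls, major-arc part. -/

set_option autoImplicit false

namespace Crest.Agent.R26

open Finset Filter
open Crest.Agent.R5 (pr pd ee nit)

namespace RhoM

theorem tele {ι : Type*} [DecidableEq ι] (s : Finset ι) (a b g : ι → ℝ) (ha : ∀ i, 0 ≤ a i)
    (hb : ∀ i, 0 ≤ b i) (hg : ∀ i, a i + b i ≤ g i) :
    ∏ i ∈ s, (a i + b i) - ∏ i ∈ s, a i ≤ ∑ j ∈ s, b j * ∏ i ∈ s.erase j, g i := by
  have hg0 : ∀ i, 0 ≤ g i := fun i => (add_nonneg (ha i) (hb i)).trans (hg i)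
  induction s using Finset.induction_on with
  | empty => simp
  | insert x s hx ih =>
    rw [prod_insert hx, prod_insert hx, sum_insert hx, erase_insert hx]
    have h1 : ∏ i ∈ s, (a i + b i) ≤ ∏ i ∈ s, g i :=
      prod_le_prod (fun i _ => add_nonneg (ha i) (hb i)) fun i _ => hg i
    have h2 : ∑ j ∈ s, b j * ∏ i ∈ (insert x s).erase j, g i =
        g x * ∑ j ∈ s, b j * ∏ i ∈ s.erase j, g i := by
      rw [mul_sum]
      refine sum_congr rfl fun j hj => ?_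
      rw [erase_insert_of_ne (by rintro rfl; exact hx hj),
        prod_insert (fun h => hx (mem_of_mem_erase h))]
      ring
    have h3 : 0 ≤ ∑ j ∈ s, b j * ∏ i ∈ s.erase j, g i :=
      sum_nonneg fun j _ => mul_nonneg (hb j) (prod_nonneg fun i _ => hg0 i)
    have h4 : a x ≤ g x := (le_add_of_nonneg_right (hb x)).trans (hg x)
    rw [h2]
    nlinarith [mul_le_mul_of_nonneg_left ih (ha x), mul_le_mul_of_nonneg_left h1 (hb x),
      mul_le_mul_of_nonneg_right h4 h3]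

theorem cnt {T : Finset ℤ} {h d : ℕ} (hd : 0 < d) (hT : T ⊆ Icc (-(h : ℤ)) h)
    (sep : ∀ a ∈ T, ∀ b ∈ T, |a - b| < d → a = b) : T.card ≤ 2 * h / d + 1 := by
  have hd' : (0 : ℤ) < d := by exact_mod_cast hd
  rw [← card_range (2 * h / d + 1)]
  refine card_le_card_of_injOn (fun n => (n + h).toNat / d) (fun n hn => ?_) fun a ha b hb e => ?_
  · have := mem_Icc.1 (hT hn)
    exact mem_coe.2 (mem_range.2 (Nat.lt_succ_of_le (Nat.div_le_div_right (by omega))))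
  · have h1 := mem_Icc.1 (hT ha)
    have h2 := mem_Icc.1 (hT hb)
    refine sep a ha b hb ?_
    have e' : (a + h).toNat / d = (b + h).toNat / d := e
    have h3 := Nat.div_add_mod (a + h).toNat d
    have h4 := Nat.div_add_mod (b + h).toNat d
    have h5 := Nat.mod_lt (a + h).toNat hd
    have h6 := Nat.mod_lt (b + h).toNat hd
    rw [e'] at h3
    rw [abs_lt]
    omega

variable {G : Par}

/-- Two recalls of the same item in the same class are far apart. -/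
theorem far (h : G.WF) {V : Finset G.St} (hV : G.Adm V) {v : G.St} (hv : v ∈ V) {u w : G.Tup}
    (hu : u ∈ Fintype.piFinset v.2) (hw : w ∈ G.outs v.2) (j : Fin G.J) {n₁ n₂ : ℤ}
    {v₁ v₂ : G.St} (h₁ : v₁ ∈ G.nbr V v u w n₁) (h₂ : v₂ ∈ G.nbr V v u w n₂)
    (hc : G.cl v₁ (w j) = G.cl v₂ (w j)) (hn : ¬ (w j : ℤ) ∣ n₁ + ((G.pu w : ℤ) - G.pu u))
    (hm : (w j : ℤ) ∣ n₁ - n₂) (hl : |n₁ - n₂| < (w j * G.Y j : ℕ)) : n₁ = n₂ := by
  obtain ⟨m₁, -, d₁⟩ := mem_filter.1 h₁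
  obtain ⟨m₂, -, d₂⟩ := mem_filter.1 h₂
  obtain ⟨-, hb, hg⟩ := hV v hv
  have hp : w j ∈ G.S j := (Par.BasicB.mem_outs.1 hw).1 j
  have hP := (h.prime j _ hp).1
  obtain ⟨s1, s2, s3, s4⟩ := h.erase_mem hb hu
  have g1 : 1 ≤ G.pb v.2 / G.pu u := s4 ▸ (h.pb_sh_le s1).1
  have g2 : G.pb v.2 / G.pu u ∣ G.pb v.2 := by
    have := (h.add_mem s1 s2).2.1
    rw [s3] at this
    rw [s4]
    exact Dvd.intro _ this.symm
  generalize hgg : G.pb v.2 / G.pu u = g at *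
  have hd := (h.cl_eq_iff (hV _ m₁).1 (hV _ m₂).1 (mem_biUnion.2 ⟨j, mem_univ _, hp⟩)).1 hc
  have hn' : ¬ (w j : ℤ) ∣ det v.1 v₁.1 := by
    rw [d₁]
    intro h'
    rcases (Nat.prime_iff_prime_int.1 hP).dvd_or_dvd h' with h' | h'
    · exact h.not_dvd_pb hb hw j ((Int.natCast_dvd_natCast.1 h').trans g2)
    · exact hn h'
  obtain ⟨t, ht⟩ := hm
  have hp0 : (0 : ℤ) < w j := by exact_mod_cast hP.pos
  have ht' : |t| < G.Y j := by
    rw [ht, abs_mul, abs_of_pos hp0, Nat.cast_mul] at hl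
    exact lt_of_mul_lt_mul_left hl hp0.le
  rw [abs_lt] at ht'
  have key := h.sep hg (hV _ m₁).1 (hV _ m₂).1 hp hd hn' hu hu (y₁ := t.toNat) (y₂ := (-t).toNat)
    (by omega) (by omega) (by
      have : ((t.toNat : ℤ)) - (-t).toNat = t := by omega
      rw [d₁, d₂, hgg]
      push_cast
      linear_combination (g : ℤ) * ht - (w j : ℤ) * g * this)
  rw [d₁, d₂] at key
  have := mul_left_cancel₀ (show (g : ℤ) ≠ 0 by omega) key
  omega

open Classical in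
theorem count (h : G.WF) {V : Finset G.St} (hV : G.Adm V) {v : G.St} (hv : v ∈ V) {u w : G.Tup}
    (hu : u ∈ Fintype.piFinset v.2) (hw : w ∈ G.outs v.2) (j : Fin G.J) (c : ℕ) :
    ((Icc (-(G.h : ℤ)) G.h).filter fun n => ∃ v' ∈ G.nbr V v u w n, G.cl v' (w j) = c).card *
      G.Q ^ (10 * G.J) ≤ 5 * G.h := by
  set T := (Icc (-(G.h : ℤ)) G.h).filter fun n => ∃ v' ∈ G.nbr V v u w n, G.cl v' (w j) = c
  obtain ⟨hP, p1, p2⟩ := h.prime j _ ((Par.BasicB.mem_outs.1 hw).1 j)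
  have hQ := h.Q_ge
  have hJ := h.J_ge
  have hY := h.Y_ge j
  have hM : 0 < G.Q ^ (10 * G.J) := by positivity
  have hp0 : (0 : ℤ) < w j := by exact_mod_cast hP.pos
  have hT : T ⊆ Icc (-(G.h : ℤ)) G.h := filter_subset _ _
  have c1 : (T.filter fun n => (w j : ℤ) ∣ n + ((G.pu w : ℤ) - G.pu u)).card ≤
      2 * G.h / w j + 1 := by
    refine cnt hP.pos ((filter_subset _ _).trans hT) fun a ha b hb e => ?_
    have := dvd_sub (mem_filter.1 ha).2 (mem_filter.1 hb).2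
    rw [add_sub_add_right_eq_sub] at this
    exact sub_eq_zero.1 (Int.eq_zero_of_abs_lt_dvd this e)
  have c2 : (T.filter fun n => ¬ (w j : ℤ) ∣ n + ((G.pu w : ℤ) - G.pu u)).card ≤
      (2 * G.h / (w j * G.Y j) + 1) * w j := by
    have := card_le_mul_card_image_of_maps_to (f := fun n : ℤ => n % w j)
      (s := T.filter fun n => ¬ (w j : ℤ) ∣ n + ((G.pu w : ℤ) - G.pu u)) (t := Ico 0 (w j : ℤ))
      (fun n _ => mem_Ico.2 ⟨Int.emod_nonneg _ hp0.ne', Int.emod_lt_of_pos _ hp0⟩)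
      (2 * G.h / (w j * G.Y j) + 1) fun r _ => by
        refine cnt (Nat.mul_pos hP.pos (hM.trans_le hY))
          ((filter_subset _ _).trans ((filter_subset _ _).trans hT)) fun a ha b hb e => ?_
        obtain ⟨ha, ra⟩ := mem_filter.1 ha
        obtain ⟨hb, rb⟩ := mem_filter.1 hb
        obtain ⟨ha, na⟩ := mem_filter.1 ha
        obtain ⟨v₁, a1, a2⟩ := (mem_filter.1 ha).2
        obtain ⟨v₂, b1, b2⟩ := (mem_filter.1 (mem_filter.1 hb).1).2
        exact far h hV hv hu hw j a1 b1 (a2.trans b2.symm) na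
          (Int.ModEq.dvd (rb.trans ra.symm)) e
    simpa using this
  have c3 := card_filter_add_card_filter_not (s := T)
    fun n => (w j : ℤ) ∣ n + ((G.pu w : ℤ) - G.pu u)
  have hPM : G.Q ^ (10 * G.J) ≤ w j :=
    (Nat.pow_le_pow_right (by omega) (by omega)).trans ((h.P_ge j).trans p1.le)
  have b1 : 2 * G.h / w j * G.Q ^ (10 * G.J) ≤ 2 * G.h :=
    (Nat.mul_le_mul_left _ hPM).trans (Nat.div_mul_le_self _ _)
  have b2 : 2 * G.h / (w j * G.Y j) * (w j * G.Q ^ (10 * G.J)) ≤ 2 * G.h :=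
    (Nat.mul_le_mul_left _ (Nat.mul_le_mul_left _ hY)).trans (Nat.div_mul_le_self _ _)
  have b3 : 3 * G.P j * G.Q ^ (10 * G.J) ≤ G.h := by
    have e1 := (h.U_ge j).trans h.h_bounds.2.2.1
    have e2 : 6 * G.Q ^ 3 ≤ G.Q ^ (20 * G.J) :=
      calc 6 * G.Q ^ 3 ≤ G.Q * G.Q ^ 3 := Nat.mul_le_mul_right _ (by omega)
        _ = G.Q ^ 4 := by ring
        _ ≤ _ := Nat.pow_le_pow_right (by omega) (by omega)
    refine Nat.le_of_mul_le_mul_left (c := 2 * G.Q ^ 3) (le_trans ?_ e1) (by positivity)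
    calc _ = G.P j * (G.Q ^ (10 * G.J) * (6 * G.Q ^ 3)) := by ring
      _ ≤ G.P j * (G.Q ^ (10 * G.J) * G.Q ^ (20 * G.J)) := by gcongr
      _ = _ := by ring
  have b4 : (w j + 1) * G.Q ^ (10 * G.J) ≤ 3 * G.P j * G.Q ^ (10 * G.J) :=
    Nat.mul_le_mul_right _ (by have := h.BA_P_pos j; omega)
  calc T.card * G.Q ^ (10 * G.J) ≤ (2 * G.h / w j + 1 + (2 * G.h / (w j * G.Y j) + 1) * w j) *
        G.Q ^ (10 * G.J) := Nat.mul_le_mul_right _ (by omega)
    _ = 2 * G.h / w j * G.Q ^ (10 * G.J) + 2 * G.h / (w j * G.Y j) * (w j * G.Q ^ (10 * G.J)) +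
        (w j + 1) * G.Q ^ (10 * G.J) := by ring
    _ ≤ _ := by omega

theorem hits (h : G.WF) {V : Finset G.St} (hV : G.Adm V) {v : G.St} (hv : v ∈ V) {u w : G.Tup}
    (hu : u ∈ Fintype.piFinset v.2) (hw : w ∈ G.outs v.2) (j : Fin G.J) (m : Finset (ℕ × ℕ)) :
    ∑ n ∈ Icc (-(G.h : ℤ)) G.h, ∑ v' ∈ G.nbr V v u w n,
        (if (w j, G.cl v' (w j)) ∈ m then (1 : ℝ) else 0) ≤
      (m.filter fun it => it.1 = w j).card * (5 * G.h / (G.Q : ℝ) ^ (10 * G.J)) := by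
  classical
  have hQ : (0 : ℝ) < G.Q := by have := h.Q_ge; exact_mod_cast (by omega : 0 < G.Q)
  calc _ ≤ ∑ n ∈ Icc (-(G.h : ℤ)) G.h, ∑ it ∈ m.filter fun it => it.1 = w j,
        (if ∃ v' ∈ G.nbr V v u w n, G.cl v' (w j) = it.2 then (1 : ℝ) else 0) := by
        refine sum_le_sum fun n _ => ?_
        have h0 : ∀ it : ℕ × ℕ,
            0 ≤ (if ∃ v' ∈ G.nbr V v u w n, G.cl v' (w j) = it.2 then (1 : ℝ) else 0) :=
          fun it => by positivity
        rcases (G.nbr V v u w n).eq_empty_or_nonempty with e | ⟨v', e⟩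
        · refine le_trans ?_ (sum_nonneg fun it _ => h0 it)
          rw [e, sum_empty]
        · rw [sum_eq_single_of_mem v' e fun b hb hne =>
            (hne (card_le_one.1 (h.card_nbr hV hv u w n) _ hb _ e)).elim]
          split_ifs with hm
          · refine le_trans ?_ (single_le_sum (a := (w j, G.cl v' (w j))) (fun it _ => h0 it)
              (mem_filter.2 ⟨hm, rfl⟩))
            rw [if_pos ⟨v', e, rfl⟩]
          · exact sum_nonneg fun it _ => h0 it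
    _ ≤ _ := by
        rw [sum_comm, ← nsmul_eq_mul]
        refine sum_le_card_nsmul _ _ _ fun it _ => ?_
        rw [sum_boole, le_div_iff₀ (by positivity)]
        exact_mod_cast count h hV hv hu hw j it.2

/-- The weight of a prime. -/
noncomputable def gw (m : Finset (ℕ × ℕ)) (p : ℕ) : ℝ :=
  1 / (p : ℝ) + (m.filter fun it => it.1 = p).card

theorem gw_nonneg (m : Finset (ℕ × ℕ)) (p : ℕ) : 0 ≤ gw m p := by unfold gw; positivity

theorem sum_gw (h : G.WF) (b : G.Bank) {m : Finset (ℕ × ℕ)} (hm : m.card ≤ G.κ) :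
    ∑ w ∈ G.outs b, ∏ i, gw m (w i) ≤ (G.Q : ℝ) ^ G.J := by
  calc _ ≤ ∑ w ∈ G.tup, ∏ i, gw m (w i) :=
        sum_le_sum_of_subset_of_nonneg (filter_subset _ _) fun w _ _ =>
          prod_nonneg fun i _ => gw_nonneg _ _
    _ = ∏ i, ∑ p ∈ G.S i, gw m p := (prod_univ_sum G.S fun _ p => gw m p).symm
    _ ≤ ∏ _i : Fin G.J, (G.Q : ℝ) := by
        refine prod_le_prod (fun i _ => sum_nonneg fun p _ => gw_nonneg _ _) fun i _ => ?_
        have a1 := h.sum_inv_le i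
        have a2 : ∑ p ∈ G.S i, (m.filter fun it => it.1 = p).card + 1 ≤ G.Q := by
          rw [sum_card_fiberwise_eq_card_filter]
          exact ((card_filter_le _ _).trans hm).trans_lt h.κ_lt
        have a3 : ∑ p ∈ G.S i, ((m.filter fun it => it.1 = p).card : ℝ) + 1 ≤ G.Q := by
          exact_mod_cast a2
        unfold gw
        rw [sum_add_distrib]
        linarith
    _ = _ := by simp

/-- The weight of a neighbour. -/
noncomputable def wt (G : Par) (m : Finset (ℕ × ℕ)) (v v' : G.St) : ℝ :=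
  ∏ p ∈ G.bk v' \ G.bk v, (1 / (p : ℝ) + if (p, G.cl v' p) ∈ m then 1 else 0) -
    ∏ p ∈ G.bk v' \ G.bk v, 1 / (p : ℝ)

theorem wt_nonneg (m : Finset (ℕ × ℕ)) (v v' : G.St) : 0 ≤ wt G m v v' :=
  sub_nonneg.2 (prod_le_prod (fun p _ => by positivity) fun p _ =>
    le_add_of_nonneg_right (by positivity))

theorem wt_le (h : G.WF) {V : Finset G.St} {v : G.St} (hb : v.2 ∈ G.banks) {u w : G.Tup}
    (hu : u ∈ Fintype.piFinset v.2) (hw : w ∈ G.outs v.2) (m : Finset (ℕ × ℕ)) {n : ℤ} {v' : G.St}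
    (hv' : v' ∈ G.nbr V v u w n) :
    wt G m v v' ≤ ∑ j, (if (w j, G.cl v' (w j)) ∈ m then (1 : ℝ) else 0) *
      ∏ i ∈ univ.erase j, gw m (w i) := by
  have e := (mem_filter.1 hv').2.1
  rw [wt, (h.prod_births hb hu hw e _).2.2.1, (h.prod_births hb hu hw e _).2.2.1]
  refine tele _ _ _ _ (fun i => by positivity) (fun i => by positivity) fun i => ?_
  refine add_le_add_right ?_ _
  split_ifs with hi
  · exact Nat.one_le_cast.2 (card_pos.2 ⟨(w i, G.cl v' (w i)), mem_filter.2 ⟨hi, rfl⟩⟩)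
  · positivity

theorem row (h : G.WF) {V : Finset G.St} (hV : G.Adm V) {v : G.St} (hv : v ∈ V) {u w : G.Tup}
    (hu : u ∈ Fintype.piFinset v.2) (hw : w ∈ G.outs v.2) (m : Finset (ℕ × ℕ)) {k : ℤ → ℝ}
    (hk : ∀ n, |k n| ≤ (G.Q : ℝ) ^ 2 / G.h) :
    ∑ n ∈ Icc (-(G.h : ℤ)) G.h, |k n| * ∑ v' ∈ G.nbr V v u w n, wt G m v v' ≤
      (G.J * (5 * (G.Q : ℝ) ^ 2 / (G.Q : ℝ) ^ (10 * G.J))) * ∏ i, gw m (w i) := by
  have hh : (0 : ℝ) < G.h := by exact_mod_cast h.h_bounds.1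
  calc _ ≤ ∑ n ∈ Icc (-(G.h : ℤ)) G.h, (G.Q : ℝ) ^ 2 / G.h * ∑ v' ∈ G.nbr V v u w n,
        ∑ j, (if (w j, G.cl v' (w j)) ∈ m then (1 : ℝ) else 0) *
          ∏ i ∈ univ.erase j, gw m (w i) :=
        sum_le_sum fun n _ => mul_le_mul (hk n)
          (sum_le_sum fun v' hv' => wt_le h (hV v hv).2.1 hu hw m hv')
          (sum_nonneg fun v' _ => wt_nonneg _ _ _) (by positivity)
    _ = ∑ j, (G.Q : ℝ) ^ 2 / G.h * ((∑ n ∈ Icc (-(G.h : ℤ)) G.h, ∑ v' ∈ G.nbr V v u w n,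
        (if (w j, G.cl v' (w j)) ∈ m then (1 : ℝ) else 0)) *
          ∏ i ∈ univ.erase j, gw m (w i)) := by
        rw [← mul_sum, ← mul_sum, sum_congr rfl fun n _ => sum_comm, sum_comm]
        simp only [sum_mul]
    _ ≤ ∑ _j : Fin G.J, 5 * (G.Q : ℝ) ^ 2 / (G.Q : ℝ) ^ (10 * G.J) * ∏ i, gw m (w i) := by
        refine sum_le_sum fun j _ => ?_
        have a1 : 0 ≤ ∏ i ∈ univ.erase j, gw m (w i) := prod_nonneg fun i _ => gw_nonneg _ _
        have a2 : ((m.filter fun it => it.1 = w j).card : ℝ) ≤ gw m (w j) :=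
          le_add_of_nonneg_left (by positivity)
        rw [← mul_prod_erase univ (fun i => gw m (w i)) (mem_univ j)]
        calc _ ≤ (G.Q : ℝ) ^ 2 / G.h * (gw m (w j) * (5 * G.h / (G.Q : ℝ) ^ (10 * G.J)) *
              ∏ i ∈ univ.erase j, gw m (w i)) :=
              mul_le_mul_of_nonneg_left (mul_le_mul_of_nonneg_right ((hits h hV hv hu hw j m).trans
                (mul_le_mul_of_nonneg_right a2 (by positivity))) a1) (by positivity)
          _ = _ := by field_simp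
    _ = _ := by rw [sum_const, card_univ, Fintype.card_fin, nsmul_eq_mul, mul_assoc]

end RhoM

theorem rhoM : KerStmt → RhoMStmt := by
  intro hK G h V hV v hv m hm
  have hQ := h.Q_ge
  have hJ := h.J_ge
  have hQ' : (21 : ℝ) ≤ G.Q := by exact_mod_cast hQ
  obtain ⟨-, k2, k3, -⟩ := hK G.Q G.h (by omega) h.h_bounds.1
  refine (h.row_le hV hv (fun n hn => k2 n hn.le) (RhoM.wt G m v)
    fun v' _ => RhoM.wt_nonneg _ _ _).trans ?_
  calc _ ≤ ∑ u ∈ Fintype.piFinset v.2, ∑ w ∈ G.outs v.2,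
        (G.J * (5 * (G.Q : ℝ) ^ 2 / (G.Q : ℝ) ^ (10 * G.J))) * ∏ i, RhoM.gw m (w i) :=
        sum_le_sum fun u hu => sum_le_sum fun w hw => RhoM.row h hV hv hu hw m k3
    _ ≤ (G.Q : ℝ) ^ G.J * (G.Q * (G.Q * (G.Q : ℝ) ^ 2 / (G.Q : ℝ) ^ (10 * G.J)) *
        (G.Q : ℝ) ^ G.J) := by
        rw [sum_const, h.card_choices (hV v hv).2.1, nsmul_eq_mul, ← mul_sum, Nat.cast_pow]
        have a1 : (G.z : ℝ) ≤ G.Q := by exact_mod_cast h.z_le
        have a2 : (G.J : ℝ) ≤ G.Q := by exact_mod_cast h.J_lt.le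
        have a3 : 0 ≤ ∑ w ∈ G.outs v.2, ∏ i, RhoM.gw m (w i) :=
          sum_nonneg fun w _ => prod_nonneg fun i _ => RhoM.gw_nonneg _ _
        have a4 := RhoM.sum_gw h v.2 hm
        gcongr
        linarith
    _ = (G.Q : ℝ) ^ (2 * G.J + 4) / (G.Q : ℝ) ^ (10 * G.J) := by ring
    _ ≤ (G.Q : ℝ) ^ (5 * G.J) / (G.Q : ℝ) ^ (10 * G.J) := by
        gcongr
        · linarith
        · omega
    _ = _ := by
        rw [show 10 * G.J = 5 * G.J + 5 * G.J by ring, pow_add]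
        field_simp

end Crest.Agent.R26
end

-- ▼ part PVc/R26/TrB
section

/-! Row 26: the concrete trace bound. -/

set_option autoImplicit false

namespace Crest.Agent.R26

open Finset Filter
open Crest.Agent.R5 (pr pd ee nit)

namespace TrBAux

theorem facts {G : Par} (h : G.WF) : (1 : ℝ) ≤ G.κ ∧ (G.κ : ℝ) * G.Q ≤ (G.z : ℝ) ^ G.J ∧
    (1 : ℝ) ≤ (G.z : ℝ) ^ G.J / √(G.Q : ℝ) := by
  have h1 : (1 : ℝ) ≤ G.κ := by
    have := h.J_ge
    have := h.k_ge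
    exact_mod_cast Nat.mul_pos (by omega) (by omega)
  have h2 : (G.κ : ℝ) * G.Q ≤ (G.z : ℝ) ^ G.J := by exact_mod_cast h.κQ
  have h3 : (21 : ℝ) ≤ G.Q := by exact_mod_cast h.Q_ge
  refine ⟨h1, h2, (one_le_div (Real.sqrt_pos.2 (by linarith))).2 ?_⟩
  exact (Real.sqrt_le_iff.2 ⟨by linarith, by nlinarith⟩ : _ ≤ (G.Q : ℝ)).trans (by nlinarith)

theorem t1 {T κ Q Z e : ℝ} (hT : 1 ≤ T) (hκ : 1 ≤ κ) (hQ : 1 ≤ Q) (hZ : κ * Q ≤ Z) (he : e ≤ 1) :
    √((T * κ + 1 + e) * (Z * 1 + (T * κ + 1))) ≤ 3 * T * (Z / √Q) := by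
  have h0 : κ ≤ Z := by nlinarith
  refine Real.sqrt_le_iff.2 ⟨by have : 0 ≤ Z := by linarith
                                positivity, ?_⟩
  rw [mul_pow, div_pow, Real.sq_sqrt (by linarith)]
  have h1 : κ ≤ Z / Q := (le_div_iff₀ (by linarith)).2 hZ
  have h2 : 1 ≤ T * κ := one_le_mul_of_one_le_of_one_le hT hκ
  calc _ ≤ (3 * T * (Z / Q)) * (3 * T * Z) := by
        refine mul_le_mul ?_ ?_ (by linarith) (by have : 0 ≤ Z := by linarith
                                                  positivity)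
        · nlinarith
        · nlinarith
    _ = _ := by ring

theorem t2 {Q Z : ℝ} {J : ℕ} (hQ : 1 ≤ Q) (hJ : 2 ≤ J) (hZ : Z ≤ Q ^ J) :
    √((1 / Q ^ (5 * J) + Q ^ 2 / Q ^ (20 * J)) * (Z * Q ^ 2 + 1 / Q ^ (5 * J))) ≤ 2 := by
  refine Real.sqrt_le_iff.2 ⟨by norm_num, ?_⟩
  have h0 : 0 < Q ^ (5 * J) := by positivity
  have h1 : Q ^ 2 / Q ^ (20 * J) ≤ 1 / Q ^ (5 * J) := by
    rw [div_le_div_iff₀ (by positivity) h0, one_mul, ← pow_add]
    exact pow_le_pow_right₀ hQ (by omega)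
  have h2 : Z * Q ^ 2 ≤ Q ^ (5 * J) :=
    (mul_le_mul_of_nonneg_right hZ (by positivity)).trans
      (by rw [← pow_add]; exact pow_le_pow_right₀ hQ (by omega))
  have h3 : 1 ≤ Q ^ (5 * J) := one_le_pow₀ hQ
  have h4 : 1 / Q ^ (5 * J) ≤ 1 := (div_le_one h0).2 h3
  calc _ ≤ (1 / Q ^ (5 * J) + Q ^ 2 / Q ^ (20 * J)) * (2 * Q ^ (5 * J)) :=
        mul_le_mul_of_nonneg_left (by linarith) (by positivity)
    _ ≤ (2 * (1 / Q ^ (5 * J))) * (2 * Q ^ (5 * J)) :=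
        mul_le_mul_of_nonneg_right (by linarith) (by positivity)
    _ = _ := by field_simp

end TrBAux

open TrBAux in
theorem trB : KerStmt → TraceStmt → FFStmt → Rho0Stmt → RhoDStmt → RhoMStmt → TrBStmt := by
  rintro hK hT ⟨C, hC, hF⟩ h0 hD hM
  refine ⟨C + 60, by linarith, fun G h V hV W => ?_⟩
  obtain ⟨f1, f2, f3⟩ := facts h
  have hQ : (1 : ℝ) ≤ G.Q := by have := h.Q_ge; exact_mod_cast (by omega : 1 ≤ G.Q)
  have hJ := h.J_ge
  obtain ⟨k1, k2, -, k4, -⟩ := hK G.Q G.h (by exact_mod_cast hQ) h.h_bounds.1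
  have d1 : ∀ n, del (-n) = del n := fun n => by simp [del]
  have d2 : ∀ n : ℤ, (G.h : ℤ) < |n| → del n = 0 := fun n hn =>
    if_neg (by rintro rfl; simp at hn; omega)
  have d3 : ∑ n ∈ Icc (-(G.h : ℤ)) G.h, |del n| ≤ 1 := by
    simp [del, apply_ite abs]
  have m2 : ∀ n : ℤ, (G.h : ℤ) < |n| → mu G.Q G.h n = 0 := fun n hn => k2 n hn.le
  have r1 := h0 G h V hV del 1 d2 d3
  have r2 := h0 G h V hV _ _ m2 k4
  have r3 := h0 G h V hV (ker G.Q G.h) (1 + (G.Q : ℝ) ^ 2)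
    (fun n hn => by unfold ker; rw [d2 n hn, m2 n hn, sub_zero])
    ((sum_le_sum fun n _ => abs_sub _ _).trans (by rw [sum_add_distrib]; linarith))
  refine (hT _ G.allS V G.bk G.cl (G.K0 (ker G.Q G.h)) (G.K0 del) (G.K0 (mu G.Q G.h)) G.J G.κ
    (2 * G.k) W _ _ _ _ _ _ _ _ (h.abs hV fun n => by unfold ker; rw [d1, k1]) (h.abs hV d1) (h.abs hV k1)
    (Par.K0_sub del (mu G.Q G.h)) (by have := h.k_ge; omega) le_rfl (by positivity)
    (by positivity) (by positivity) (by positivity) (by positivity) (by positivity)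
    (by positivity) (by positivity) (hF G h V hV)
    ⟨fun v hv => (r1 v hv).2.1, hD G h V hV, fun v hv => (r1 v hv).2.2⟩
    ⟨fun v hv => (r2 v hv).2.1, hM G h V hV, fun v hv => (r2 v hv).2.2⟩
    fun v hv => (r3 v hv).1).trans ?_
  gcongr
  have a1 := t1 (T := 2 ^ G.J) (e := 1 / (G.Q : ℝ) ^ (20 * G.J)) (one_le_pow₀ one_le_two) f1 hQ f2
    ((div_le_one (by positivity)).2 (one_le_pow₀ hQ))
  have a2 := t2 hQ (by omega : 2 ≤ G.J) (Z := (G.z : ℝ) ^ G.J)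
    (pow_le_pow_left₀ (by positivity) (by exact_mod_cast h.z_le) _)
  have a3 : C ^ G.J + 60 ^ G.J ≤ (C + 60) ^ G.J :=
    pow_add_pow_le (by linarith) (by norm_num) (by omega)
  have a4 : 10 * (3 ^ G.J * 2 ^ G.J) ≤ (60 : ℝ) ^ G.J := by
    rw [show (60 : ℝ) = 10 * (3 * 2) by norm_num, mul_pow, mul_pow]
    gcongr
    exact le_self_pow₀ (by norm_num) (by omega)
  have a5 : (1 : ℝ) ≤ 2 ^ G.J * ((G.z : ℝ) ^ G.J / √(G.Q : ℝ)) :=
    one_le_mul_of_one_le_of_one_le (one_le_pow₀ one_le_two) f3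
  rw [mul_div_assoc, mul_div_assoc]
  set x := (G.z : ℝ) ^ G.J / √(G.Q : ℝ)
  have a6 : (0 : ℝ) < 3 ^ G.J := by positivity
  calc _ ≤ C ^ G.J * x + 2 * 3 ^ G.J * (3 * 2 ^ G.J * x) + 2 * 3 ^ G.J * (2 * (2 ^ G.J * x)) := by
        gcongr
        linarith
    _ = (C ^ G.J + 10 * (3 ^ G.J * 2 ^ G.J)) * x := by ring
    _ ≤ _ := mul_le_mul_of_nonneg_right (by linarith) (by linarith)

end Crest.Agent.R26
end

-- ▼ part PVc/R26/Good
section

/-! Row 26: good edges. -/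

set_option autoImplicit false

namespace Crest.Agent.R26

open Finset Filter
open Crest.Agent.R5 (pr pd ee nit)

namespace Good

variable {G : Par}

/-- the state attached to `(a, b, bank)`, sheared by `j` -/
def st (G : Par) (j : ℕ) (t : (ℕ × ℕ) × G.Bank) : G.St :=
  (((t.1.1 : ℤ), (G.pb t.2 * t.1.2 : ℤ) - j * t.1.1), t.2)

open Classical in
/-- the good triples -/
noncomputable def TT (G : Par) : Finset ((ℕ × ℕ) × G.Bank) :=
  ((G.As ×ˢ Icc 1 G.B) ×ˢ G.banks).filter fun t =>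
    G.good ((t.1.1 : ℤ), (G.pb t.2 * t.1.2 : ℤ)) t.2

theorem mem_TT {t : (ℕ × ℕ) × G.Bank} : t ∈ TT G ↔ ((t.1.1 ∈ G.As ∧ 1 ≤ t.1.2 ∧ t.1.2 ≤ G.B) ∧
    t.2 ∈ G.banks) ∧ G.good ((t.1.1 : ℤ), (G.pb t.2 * t.1.2 : ℤ)) t.2 := by
  simp only [TT, mem_filter, mem_product, mem_Icc]

open Classical in
theorem sum_TT {b₀ : G.Bank} (hb : b₀ ∈ G.banks) (F : (ℕ × ℕ) × G.Bank → ℝ) :
    ∑ t ∈ TT G, (if t.2 = b₀ then F t else 0) = ∑ a ∈ G.As, ∑ b ∈ Icc 1 G.B,
      if G.good ((a : ℤ), (G.pb b₀ * b : ℤ)) b₀ then F ((a, b), b₀) else 0 := by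
  rw [TT, sum_filter, sum_product, sum_product]
  refine sum_congr rfl fun a _ => sum_congr rfl fun b _ => ?_
  rw [sum_eq_single_of_mem b₀ hb fun c _ hc => by simp [hc]]
  simp

theorem goodSum_eq (h : G.WF) (α β : ℕ → ℝ) : G.goodSum α β = ∑ t ∈ TT G, ∑ t' ∈ TT G,
    α t.1.1 * β t.1.2 * G.K0 (ker G.Q G.h) (st G 0 t) (st G 0 t') * (α t'.1.1 * β t'.1.2) := by
  classical
  simp only [Par.K0, mul_sum, sum_mul]
  rw [sum_congr rfl fun t _ => sum_comm, sum_comm]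
  refine sum_congr rfl fun e he => ?_
  obtain ⟨h1, h2⟩ := mem_filter.1 he
  obtain ⟨h3, h4⟩ := mem_product.1 h1
  obtain ⟨h5, h6⟩ := mem_product.1 (mem_filter.1 h4).1
  obtain ⟨u1, u2, -⟩ := h.add_mem h3 (mem_filter.2 ⟨h5, fun j => (h2 j).1⟩)
  obtain ⟨w1, w2, -⟩ := h.add_mem h3 (mem_filter.2 ⟨h6, fun j => (h2 j).2⟩)
  have g0 : (G.pb e.1 : ℤ) ≠ 0 := by have := (h.pb_sh_le h3).1; omega
  symm
  calc _ = ∑ t ∈ TT G, if t.2 = G.add e.1 e.2.1 then ∑ t' ∈ TT G, if t'.2 = G.add e.1 e.2.2 then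
        α t.1.1 * β t.1.2 * kk (ker G.Q G.h) (G.pb e.1) ((G.pu e.2.2 : ℤ) - G.pu e.2.1)
          (st G 0 t).1 (st G 0 t').1 * (α t'.1.1 * β t'.1.2) else 0 else 0 := by
        refine sum_congr rfl fun t _ => ?_
        split_ifs with ht
        · refine sum_congr rfl fun t' _ => ?_
          by_cases ht' : t'.2 = G.add e.1 e.2.2 <;> simp [st, ht, ht']
        · simp [st, ht]
    _ = _ := by
        rw [sum_TT u1]
        refine sum_congr rfl fun a _ => sum_congr rfl fun b' _ => ?_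
        rw [sum_TT w1]
        split_ifs with hg
        · refine sum_congr rfl fun a' _ => sum_congr rfl fun b _ => ?_
          simp only [hg, true_and]
          split_ifs
          · have e1 : det (st G 0 ((a, b'), G.add e.1 e.2.1)).1 (st G 0 ((a', b), G.add e.1 e.2.2)).1 =
                G.pb e.1 * ((a * G.pu e.2.2 * b : ℤ) - G.pu e.2.1 * b' * a') := by
              simp only [det, st, u2, w2]
              push_cast
              ring
            rw [kk, e1, if_pos (dvd_mul_right _ _), Int.mul_ediv_cancel_left _ g0]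
            ring
          · rfl
        · simp [hg]

theorem K0_st (k : ℤ → ℝ) (j : ℕ) (t t' : (ℕ × ℕ) × G.Bank) :
    G.K0 k (st G j t) (st G j t') = G.K0 k (st G 0 t) (st G 0 t') := by
  have e : det (st G j t).1 (st G j t').1 = det (st G 0 t).1 (st G 0 t').1 := by
    simp only [det, st]
    push_cast
    ring
  simp only [Par.K0, kk, e]
  rfl

theorem st_inj (h : G.WF) (j : ℕ) : Set.InjOn (st G j) (TT G) := by
  rintro ⟨⟨a, b⟩, c⟩ ht ⟨⟨a', b'⟩, c'⟩ - e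
  simp only [st, Prod.mk.injEq, Nat.cast_inj] at e
  obtain ⟨⟨rfl, e⟩, rfl⟩ := e
  have h1 := (h.pb_le (mem_TT.1 ht).1.2).1
  have h2 : (G.pb c : ℤ) * b = G.pb c * b' := by linarith
  have h3 := mul_left_cancel₀ (by simp only at h1; omega) h2
  rw [Nat.cast_injective h3]

theorem st_adm {t : (ℕ × ℕ) × G.Bank} (ht : t ∈ TT G) (j : ℕ) :
    (∃ a ∈ G.As, (st G j t).1.1 = (a : ℤ)) ∧ (st G j t).2 ∈ G.banks ∧
      G.good (st G j t).1 (st G j t).2 := by
  obtain ⟨⟨⟨h1, -⟩, h2⟩, h3⟩ := mem_TT.1 ht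
  refine ⟨⟨_, h1, rfl⟩, h2, ?_⟩
  have := (Par.good_shear _ _ (-(j : ℤ))).2 h3
  simpa only [st, neg_mul, sub_eq_add_neg] using this

theorem fit_st (h : G.WF) {t : (ℕ × ℕ) × G.Bank} (ht : t ∈ TT G) (j : ℕ) :
    fit G.bk G.cl j (st G j t) = 1 := by
  refine if_pos fun p hp => ?_
  obtain ⟨i, hi⟩ := Par.BasicB.mem_bk.1 hp
  have h1 := (Par.BasicB.mem_banks.1 (mem_TT.1 ht).1.2 i).1 hi
  refine ((h.cl_spec (st_adm ht j).1 (mem_biUnion.2 ⟨i, mem_univ _, h1⟩)).2 j).2 ?_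
  have h2 : p ∣ G.pb t.2 := (dvd_prod_of_mem id hi).trans
    (dvd_prod_of_mem (fun j => pd (t.2 j)) (mem_univ i))
  simp only [st, sub_add_cancel]
  exact (Int.natCast_dvd_natCast.2 h2).mul_right _

/-- number of blocks per unit slope -/
def RR (G : Par) : ℕ := G.A ^ 2 / (2 * G.D)
/-- number of shifts -/
def WW (G : Par) : ℕ := G.B * G.D / G.A + 1
/-- the block of a state -/
noncomputable def blk (G : Par) (v : G.St) : ℤ := ⌊(RR G : ℝ) * v.1.2 / v.1.1⌋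

theorem D_ge (h : G.WF) : 1024 ≤ G.D :=
  le_trans ((Nat.pow_le_pow_right two_pos h.J_ge).trans (Nat.le_mul_of_pos_right _ h.BA_U_pos))
    h.U_le_D

theorem RR_bounds (h : G.WF) : 1 ≤ G.A ∧ 1 ≤ RR G ∧ RR G * (2 * G.D) ≤ G.A ^ 2 ∧
    G.A ^ 2 ≤ RR G * (4 * G.D) := by
  have h1 := D_ge h
  have h2 := h.A_ge
  have h3 : 2 * G.D ≤ G.A := by nlinarith
  have h4 : 1 ≤ RR G := (Nat.le_div_iff_mul_le (by omega)).2 (by nlinarith)
  have h5 : G.A ^ 2 < 2 * G.D * (RR G + 1) := Nat.lt_mul_div_succ _ (by omega)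
  exact ⟨by omega, h4, Nat.div_mul_le_self _ _, by nlinarith⟩

theorem slope_sub {R : ℝ} {X X' : ℤ × ℤ} (h : (X.1 : ℝ) ≠ 0) (h' : (X'.1 : ℝ) ≠ 0) :
    (R * X'.2 / X'.1 - R * X.2 / X.1) * (X.1 * X'.1) = R * det X X' := by
  simp only [det]
  push_cast
  field_simp

theorem As_real (h : G.WF) {x : ℤ} (hx : ∃ a ∈ G.As, x = (a : ℤ)) :
    (0 : ℝ) < x ∧ (G.A : ℝ) ≤ x ∧ (x : ℝ) ≤ 2 * G.A := by
  obtain ⟨a, ha, rfl⟩ := hx
  obtain ⟨h1, h2⟩ := h.As_sub a ha
  exact ⟨by exact_mod_cast (Nat.zero_le _).trans_lt h1, by exact_mod_cast h1.le,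
    by exact_mod_cast h2⟩

theorem blk_near (h : G.WF) {v v' : G.St} (hv : ∃ a ∈ G.As, v.1.1 = (a : ℤ))
    (hv' : ∃ a ∈ G.As, v'.1.1 = (a : ℤ)) (hd : |det v.1 v'.1| ≤ 2 * (G.D : ℤ)) :
    |blk G v - blk G v'| ≤ 1 := by
  obtain ⟨a0, a1, -⟩ := As_real h hv
  obtain ⟨b0, b1, -⟩ := As_real h hv'
  have h1 := congrArg abs (slope_sub (R := RR G) a0.ne' b0.ne')
  rw [abs_mul, abs_mul (RR G : ℝ), abs_of_pos (mul_pos a0 b0), Nat.abs_cast] at h1
  have h2 : |(det v.1 v'.1 : ℝ)| ≤ 2 * G.D := by exact_mod_cast hd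
  have h3 : (RR G : ℝ) * (2 * G.D) ≤ G.A ^ 2 := by exact_mod_cast (RR_bounds h).2.2.1
  have h4 := mul_le_mul a1 b1 (Nat.cast_nonneg _) a0.le
  have h5 := mul_le_mul_of_nonneg_left h2 (Nat.cast_nonneg (RR G))
  obtain ⟨h6, h7⟩ := abs_le.1 (le_of_mul_le_mul_right (by linarith :
    |(RR G : ℝ) * v'.1.2 / v'.1.1 - RR G * v.1.2 / v.1.1| * (v.1.1 * v'.1.1) ≤
      1 * (v.1.1 * v'.1.1)) (mul_pos a0 b0))
  have h8 := Int.floor_le_floor (by linarith :
    (RR G : ℝ) * v'.1.2 / v'.1.1 ≤ RR G * v.1.2 / v.1.1 + 1)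
  have h9 := Int.floor_le_floor (by linarith :
    (RR G : ℝ) * v.1.2 / v.1.1 ≤ RR G * v'.1.2 / v'.1.1 + 1)
  rw [Int.floor_add_one] at h8 h9
  rw [abs_le, blk, blk]
  constructor <;> linarith

theorem det_le_of_blk (h : G.WF) {v v' : G.St} (hv : ∃ a ∈ G.As, v.1.1 = (a : ℤ))
    (hv' : ∃ a ∈ G.As, v'.1.1 = (a : ℤ)) {m : ℤ} (hm : |blk G v - m| ≤ 1)
    (hm' : |blk G v' - m| ≤ 1) : |det v.1 v'.1| ≤ 48 * (G.D : ℤ) := by
  obtain ⟨a0, -, a1⟩ := As_real h hv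
  obtain ⟨b0, -, b1⟩ := As_real h hv'
  have h1 := congrArg abs (slope_sub (R := RR G) a0.ne' b0.ne')
  rw [abs_mul, abs_mul (RR G : ℝ), abs_of_pos (mul_pos a0 b0), Nat.abs_cast] at h1
  have h2 : |(RR G : ℝ) * v'.1.2 / v'.1.1 - RR G * v.1.2 / v.1.1| ≤ 3 := by
    have k1 := abs_le.1 (show |(blk G v : ℝ) - m| ≤ 1 by exact_mod_cast hm)
    have k2 := abs_le.1 (show |(blk G v' : ℝ) - m| ≤ 1 by exact_mod_cast hm')
    rw [blk] at k1 k2
    rw [abs_le]
    constructor <;> linarith [Int.floor_le ((RR G : ℝ) * v'.1.2 / v'.1.1),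
      Int.lt_floor_add_one ((RR G : ℝ) * v'.1.2 / v'.1.1),
      Int.floor_le ((RR G : ℝ) * v.1.2 / v.1.1), Int.lt_floor_add_one ((RR G : ℝ) * v.1.2 / v.1.1)]
  have h3 : (G.A : ℝ) ^ 2 ≤ RR G * (4 * G.D) := by exact_mod_cast (RR_bounds h).2.2.2
  have h4 := mul_le_mul a1 b1 b0.le (by positivity)
  have h5 := mul_le_mul h2 h4 (mul_pos a0 b0).le (by norm_num)
  have h6 : (0 : ℝ) < RR G := by exact_mod_cast (RR_bounds h).2.1
  have h7 : |(det v.1 v'.1 : ℝ)| ≤ 48 * G.D := le_of_mul_le_mul_left (by linarith) h6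
  exact_mod_cast h7

theorem card_le (h : G.WF) {V : Finset G.St} (hV : G.Adm V) {m : ℤ}
    (hm : ∀ v ∈ V, |blk G v - m| ≤ 1) : V.card ≤ 100 * G.D ^ 2 := by
  rcases V.eq_empty_or_nonempty with rfl | ⟨v₀, h₀⟩
  · simp
  have h1 := card_le_card_of_injOn (s := V) (t := Icc (-(48 * G.D : ℤ)) (48 * G.D) ×ˢ G.banks)
    (fun v => (det v₀.1 v.1, v.2)) (fun v hv => mem_coe.2 (mem_product.2 ⟨mem_Icc.2 (abs_le.1
      (det_le_of_blk h (hV _ h₀).1 (hV _ hv).1 (hm _ h₀) (hm _ hv))), (hV v hv).2.1⟩))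
    fun v hv v' hv' e => Prod.ext (h.eq_of_det (hV _ h₀).1 (hV _ h₀).2.2.1 (hV _ hv).1
      (hV _ hv').1 (Prod.ext_iff.1 e).1) (Prod.ext_iff.1 e).2
  rw [card_product, Int.card_Icc] at h1
  have h2 : (48 * G.D + 1 - -(48 * G.D : ℤ)).toNat ≤ 100 * G.D := by have := D_ge h; omega
  exact h1.trans ((Nat.mul_le_mul h2 h.card_banks_le.2).trans_eq (by ring))

theorem blk_st (h : G.WF) {t : (ℕ × ℕ) × G.Bank} (ht : t ∈ TT G) (j : ℕ) :
    blk G (st G j t) = blk G (st G 0 t) - RR G * j := by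
  have h0 := (As_real h (st_adm ht 0).1).1
  rw [blk, blk, ← Int.floor_sub_intCast]
  congr 1
  simp only [st] at h0 ⊢
  push_cast at h0 ⊢
  field_simp
  ring

theorem blk_range (h : G.WF) {t : (ℕ × ℕ) × G.Bank} (ht : t ∈ TT G) :
    ∃ x ∈ range (RR G) ×ˢ range (WW G), blk G (st G 0 t) = x.1 + RR G * x.2 := by
  obtain ⟨⟨⟨h1, -, h2⟩, h3⟩, -⟩ := mem_TT.1 ht
  obtain ⟨hA, hR, -⟩ := RR_bounds h
  have e : blk G (st G 0 t) = (RR G * (G.pb t.2 * t.1.2) / t.1.1 : ℕ) := by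
    rw [blk, ← Nat.floor_div_eq_div (K := ℝ), Int.natCast_floor_eq_floor (by positivity)]
    simp [st]
  refine ⟨(RR G * (G.pb t.2 * t.1.2) / t.1.1 % RR G, RR G * (G.pb t.2 * t.1.2) / t.1.1 / RR G),
    mem_product.2 ⟨mem_range.2 (Nat.mod_lt _ hR), mem_range.2 (Nat.lt_succ_of_le ?_)⟩, ?_⟩
  · rw [Nat.div_div_eq_div_mul, mul_comm t.1.1, Nat.mul_div_mul_left _ _ hR, mul_comm G.B]
    exact Nat.div_le_div (Nat.mul_le_mul (h.pb_le h3).2 h2) (h.As_sub _ h1).1.le (by omega)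
  · rw [e]
    exact_mod_cast (Nat.mod_add_div _ _).symm

open Classical in
/-- all the windows `≡ m₀`, moved to the first period -/
noncomputable def V0 (G : Par) (m₀ : ℕ) : Finset G.St :=
  ((TT G ×ˢ range (WW G)).filter fun x => |blk G (st G x.2 x.1) - m₀| ≤ 1).image
    fun x => st G x.2 x.1

theorem V0_spec (h : G.WF) (m₀ : ℕ) : G.Adm (V0 G m₀) ∧ (V0 G m₀).card ≤ 100 * G.D ^ 2 := by
  have h1 : ∀ v ∈ V0 G m₀, ∃ t ∈ TT G, ∃ j, v = st G j t ∧ |blk G v - m₀| ≤ 1 := fun v hv => by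
    obtain ⟨x, hx, rfl⟩ := mem_image.1 hv
    exact ⟨x.1, (mem_product.1 (mem_filter.1 hx).1).1, x.2, rfl, (mem_filter.1 hx).2⟩
  have h2 : G.Adm (V0 G m₀) := fun v hv => by
    obtain ⟨t, ht, j, rfl, -⟩ := h1 v hv
    exact st_adm ht j
  refine ⟨h2, card_le h h2 (m := m₀) fun v hv => ?_⟩
  obtain ⟨t, -, j, -, h3⟩ := h1 v hv
  exact h3

theorem nrm_mul_le {σ : Type} {V V' : Finset σ} (hV : V ⊆ V') {φ : σ → ℝ} (hφ : ∀ v, |φ v| ≤ 1) :
    nrm V φ * nrm V' φ ≤ V'.card := by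
  have h1 : ∀ S ⊆ V', nrm S φ ≤ √(V'.card : ℝ) := fun S hS => by
    refine Real.sqrt_le_sqrt ((sum_le_card_nsmul _ _ 1 fun v _ => ?_).trans ?_)
    · exact (sq_le_one_iff_abs_le_one _).2 (hφ v)
    · rw [nsmul_eq_mul, mul_one]
      exact_mod_cast card_le_card hS
  exact (mul_le_mul (h1 V hV) (h1 V' Subset.rfl) (nrm_nonneg _ _) (Real.sqrt_nonneg _)).trans_eq
    (Real.mul_self_sqrt (Nat.cast_nonneg _))

theorem sum_window {σ : Type} (V : Finset σ) (b : σ → ℤ) (I : Finset ℤ) :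
    ∑ m ∈ I, (V.filter fun v => |b v - m| ≤ 1).card ≤ 3 * V.card := by
  simp only [card_filter]
  rw [sum_comm, mul_comm]
  refine sum_le_card_nsmul _ _ 3 fun v _ => ?_
  rw [← card_filter]
  refine (card_le_card (t := Icc (b v - 1) (b v + 1)) fun m hm => ?_).trans ?_
  · have := abs_le.1 (mem_filter.1 hm).2
    exact mem_Icc.2 ⟨by omega, by omega⟩
  · rw [Int.card_Icc]
    omega

theorem sizes (h : G.WF) : (G.z ^ G.J * G.U * (1 + G.Q ^ 2)) ^ (2 * G.k) ≤ WW G ∧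
    2 * (100 * G.D ^ 2) ^ 2 * (RR G * WW G) ≤ 4 ^ G.k * (G.A * G.B) := by
  obtain ⟨hA, hR, h1, -⟩ := RR_bounds h
  have hD := D_ge h
  refine ⟨Nat.le_succ_of_le ((Nat.le_div_iff_mul_le hA).2
    (h.horizon.trans (Nat.le_mul_of_pos_right _ (by omega)))), Nat.mul_le_mul ?_ ?_⟩
  · refine le_trans ?_ h.walk
    calc 2 * (100 * G.D ^ 2) ^ 2 = 20000 * G.D ^ 4 := by ring
      _ ≤ G.D ^ 2 * G.D ^ 4 := Nat.mul_le_mul_right _ (by nlinarith)
      _ = _ := by ring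
  · have h2 : G.B * G.D / G.A * G.A ≤ G.B * G.D := Nat.div_mul_le_self _ _
    have h3 : G.A ≤ G.B := (Nat.le_mul_of_pos_right _ (pow_pos h.BA_U_pos 2)).trans h.B_ge
    have h4 : G.A ≤ G.B * G.D := h3.trans (Nat.le_mul_of_pos_right _ (by omega))
    have h5 : WW G * G.A ≤ 2 * (G.B * G.D) := by rw [WW, add_mul]; omega
    refine Nat.le_of_mul_le_mul_right ?_ (by positivity : 0 < 2 * G.D * G.A)
    calc RR G * WW G * (2 * G.D * G.A) = RR G * (2 * G.D) * (WW G * G.A) := by ring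
      _ ≤ G.A ^ 2 * (2 * (G.B * G.D)) := Nat.mul_le_mul h1 h5
      _ = _ := by ring

end Good

open Good in
theorem goodOK : KerStmt → GoodStmt := by
  classical
  intro hK G h lam hl hT α β hα hβ
  obtain ⟨k1, k2, -⟩ := hK G.Q G.h (by have := h.Q_ge; omega) h.h_bounds.1
  have ev : ∀ n, ker G.Q G.h (-n) = ker G.Q G.h n := fun n => by simp [ker, del, k1]
  have su : ∀ n : ℤ, (G.h : ℤ) < |n| → ker G.Q G.h n = 0 := fun n hn => by
    have : n ≠ 0 := by rintro rfl; simp at hn; omega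
    simp [ker, del, this, k2 n hn.le]
  set tr : ℕ × ℕ → ℝ := fun x => ∑ v ∈ V0 G x.1,
    pw (V0 G x.1) (kj G.bk G.cl (G.K0 (ker G.Q G.h)) x.2) (2 * G.k) v v with htr
  have l0 : 0 < lam := by linarith
  set c := 2 * lam / (2 * (2 * lam) ^ (2 * G.k)) with hc
  have c0 : 0 < c := by positivity
  have op := fun x : ℕ × ℕ => opB_trace (V := V0 G x.1)
    (K := kj G.bk G.cl (G.K0 (ker G.Q G.h)) x.2) (fun v hv v' hv' => by
      rw [kj, kj, (h.abs (V0_spec h x.1).1 ev).symm v hv v' hv']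
      ring) h.k_ge (θ := 2 * lam) (by positivity)
  have hR := (RR_bounds h).2.1
  set ix : ℤ → ℕ × ℕ := fun m => (m.toNat % RR G, m.toNat / RR G) with hix
  have him : ∀ m ∈ (TT G).image fun t => blk G (st G 0 t),
      ix m ∈ range (RR G) ×ˢ range (WW G) ∧ m = (ix m).1 + RR G * (ix m).2 := fun m hm => by
    obtain ⟨t, ht, rfl⟩ := mem_image.1 hm
    obtain ⟨x, hx, e⟩ := blk_range h ht
    have h1 := mem_range.1 (mem_product.1 hx).1
    have h2 : ix (blk G (st G 0 t)) = x := by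
      rw [e, hix]
      norm_cast
      simp only [Int.toNat_natCast, Nat.add_mul_mod_self_left, Nat.add_mul_div_left _ _ hR,
        Nat.mod_eq_of_lt h1, Nat.div_eq_of_lt h1, zero_add]
    rw [h2]
    exact ⟨hx, e⟩
  have hin : ∀ m ∈ (TT G).image fun t => blk G (st G 0 t),
      ∀ t ∈ (TT G).filter fun t => |blk G (st G 0 t) - m| ≤ 1,
        st G (ix m).2 t ∈ V0 G (ix m).1 := fun m hm t ht => by
    obtain ⟨h1, h2⟩ := him m hm
    obtain ⟨h3, h4⟩ := mem_filter.1 ht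
    refine mem_image.2 ⟨(t, (ix m).2), mem_filter.2 ⟨mem_product.2 ⟨h3, (mem_product.1 h1).2⟩, ?_⟩,
      rfl⟩
    rwa [blk_st h h3, sub_sub, add_comm, ← h2]
  have hφ : ∀ t : (ℕ × ℕ) × G.Bank, |α t.1.1 * β t.1.2| ≤ 1 := fun t => by
    rw [abs_mul]
    exact mul_le_one₀ (hα _) (abs_nonneg _) (hβ _)
  rw [goodSum_eq h]
  refine (band_le (K := fun t t' => G.K0 (ker G.Q G.h) (st G 0 t) (st G 0 t'))
    (fun t => blk G (st G 0 t)) (fun m => 3 / 2 * (2 * lam) + c * tr (ix m))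
    (fun t ht t' ht' e => blk_near h (st_adm ht 0).1 (st_adm ht' 0).1 (h.det_le su e))
    (fun m hm => ((op (ix m)).2.comap (st G (ix m).2)
      ((st_inj h _).mono (coe_subset.2 (filter_subset _ _))) (hin m hm)).congr fun t ht t' ht' => by
        rw [kj, fit_st h (mem_filter.1 ht).1, fit_st h (mem_filter.1 ht').1, K0_st, one_mul,
          mul_one]) _ _).trans ?_
  have h1 : ∀ m ∈ (TT G).image fun t => blk G (st G 0 t), (3 / 2 * (2 * lam) + c * tr (ix m)) *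
      (nrm ((TT G).filter fun t => blk G (st G 0 t) = m) (fun t => α t.1.1 * β t.1.2) *
        nrm ((TT G).filter fun t => |blk G (st G 0 t) - m| ≤ 1) fun t => α t.1.1 * β t.1.2) ≤
      3 * lam * ((TT G).filter fun t => |blk G (st G 0 t) - m| ≤ 1).card +
        c * (100 * G.D ^ 2 : ℕ) * tr (ix m) := fun m hm => by
    have a1 : 0 ≤ tr (ix m) := (op (ix m)).1
    have a2 : (((TT G).filter fun t => |blk G (st G 0 t) - m| ≤ 1).card : ℝ) ≤
        (100 * G.D ^ 2 : ℕ) := Nat.cast_le.2 ((card_le_card_of_injOn _ (hin m hm)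
      ((st_inj h _).mono (coe_subset.2 (filter_subset _ _)))).trans (V0_spec h _).2)
    have a3 := mul_le_mul_of_nonneg_left a2 (mul_nonneg c0.le a1)
    refine (mul_le_mul_of_nonneg_left (nrm_mul_le (monotone_filter_right _ fun t _ e => ?_) hφ)
      (by positivity)).trans (by linarith)
    simp [e]
  refine (sum_le_sum h1).trans ?_
  rw [sum_add_distrib, ← mul_sum, ← mul_sum]
  have h2 : ∑ m ∈ (TT G).image fun t => blk G (st G 0 t),
      (((TT G).filter fun t => |blk G (st G 0 t) - m| ≤ 1).card : ℝ) ≤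
      3 * (G.A * G.B * G.banks.card) := by
    have a1 := sum_window (TT G) (fun t => blk G (st G 0 t))
      ((TT G).image fun t => blk G (st G 0 t))
    have a2 : G.As.card ≤ G.A := (card_le_card (t := Ioc G.A (2 * G.A)) fun a ha =>
      mem_Ioc.2 (h.As_sub a ha)).trans (by rw [Nat.card_Ioc]; omega)
    have a3 : (TT G).card ≤ G.A * G.B * G.banks.card := by
      refine (card_filter_le _ _).trans ?_
      rw [card_product, card_product, Nat.card_Icc, Nat.add_sub_cancel]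
      gcongr
    exact_mod_cast a1.trans (Nat.mul_le_mul_left 3 a3)
  have h3 : ∑ m ∈ (TT G).image fun t => blk G (st G 0 t), tr (ix m) ≤
      RR G * ((100 * G.D ^ 2 : ℕ) * (2 * WW G * lam ^ (2 * G.k))) := by
    rw [← sum_image (g := ix) fun m hm m' hm' e => by rw [(him m hm).2, (him m' hm').2, e]]
    refine (sum_le_sum_of_subset_of_nonneg (image_subset_iff.2 fun m hm => (him m hm).1)
      fun x _ _ => (op x).1).trans ?_
    rw [sum_product]
    refine (sum_le_card_nsmul _ _ _ fun m₀ _ => (hT _ (V0_spec h m₀).1 (WW G)).trans ?_).trans_eq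
      (by rw [card_range, nsmul_eq_mul])
    have a1 : ((G.z : ℝ) ^ G.J * G.U * (1 + (G.Q : ℝ) ^ 2)) ^ (2 * G.k) ≤ WW G := by
      exact_mod_cast (sizes h).1
    have a2 := le_mul_of_one_le_right (Nat.cast_nonneg (WW G)) (one_le_pow₀ (n := 2 * G.k) hl)
    exact mul_le_mul (Nat.cast_le.2 (V0_spec h m₀).2) (by linarith) (by positivity)
      (Nat.cast_nonneg _)
  have h4 : c * (100 * G.D ^ 2 : ℕ) * (RR G * ((100 * G.D ^ 2 : ℕ) *
      (2 * WW G * lam ^ (2 * G.k)))) ≤ lam * (G.A * G.B * G.banks.card) := by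
    have a1 : (2 * ((100 * G.D ^ 2 : ℕ) : ℝ) ^ 2 * (RR G * WW G)) ≤ 4 ^ G.k * (G.A * G.B) := by
      exact_mod_cast (sizes h).2
    have a2 : c * lam ^ (2 * G.k) * 4 ^ G.k = lam := by
      rw [hc, mul_pow, pow_mul 2]
      field_simp
      norm_num
    have a3 : (1 : ℝ) ≤ G.banks.card := by exact_mod_cast h.card_banks_le.1
    calc _ = c * lam ^ (2 * G.k) * (2 * ((100 * G.D ^ 2 : ℕ) : ℝ) ^ 2 * (RR G * WW G)) := by ring
      _ ≤ c * lam ^ (2 * G.k) * (4 ^ G.k * (G.A * G.B)) := by gcongr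
      _ = lam * (G.A * G.B * 1) := by rw [← mul_assoc, a2, mul_one]
      _ ≤ _ := by gcongr
  have h5 := mul_le_mul_of_nonneg_left h2 (by positivity : 0 ≤ 3 * lam)
  have h6 := mul_le_mul_of_nonneg_left h3 (by positivity : 0 ≤ c * (100 * G.D ^ 2 : ℕ))
  linarith

end Crest.Agent.R26
end

-- ▼ part PVc/R26/Bad
section

/-! Row 26: bad edges. -/

set_option autoImplicit false

namespace Crest.Agent.R26

open Finset Filter
open Crest.Agent.R5 (pr pd ee nit)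

namespace BadH

variable {G : Par}

theorem sizes (h : G.WF) : 2 ≤ G.U ∧ G.U ≤ G.D ∧ G.D ≤ G.A ∧ G.A * G.U ≤ G.B ∧ G.Q ^ 7 ≤ G.U ∧
    ∀ j, G.P j ≤ G.U := by
  have hJ := h.J_ge
  have hQ := h.Q_ge
  have h7 : G.Q ^ 7 ≤ G.U := by
    refine le_trans ?_ ((Nat.le_mul_of_pos_left _ (h.BA_P_pos ⟨0, by omega⟩)).trans (h.U_ge _))
    exact Nat.pow_le_pow_right (by omega) (by omega)
  have h2 : 2 ≤ G.U := le_trans (by omega) ((Nat.le_self_pow (by omega) _).trans h7)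
  have h3 : G.U ≤ G.D := (Nat.le_mul_of_pos_left _ (by positivity)).trans h.U_le_D
  have h4 := h.A_ge
  refine ⟨h2, h3, by nlinarith, le_trans (Nat.mul_le_mul_left _ (Nat.le_self_pow two_ne_zero _))
    h.B_ge, h7, fun j => (Nat.le_mul_of_pos_right _ (h.BA_Qpow_pos _)).trans (h.U_ge j)⟩

theorem card_As (h : G.WF) : G.As.card ≤ G.A := by
  have : G.As ⊆ Ioc G.A (2 * G.A) := fun a ha => mem_Ioc.2 (h.As_sub a ha)
  have := card_le_card this
  rw [Nat.card_Ioc] at this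
  omega

theorem cop_nat (h : G.WF) {a : ℕ} (ha : a ∈ G.As) {n : ℕ} (h0 : 1 ≤ n) (hn : n ≤ G.D) :
    IsCoprime (a : ℤ) (n : ℤ) := by
  refine h.coprime_small ha (by omega) ?_
  rw [Nat.abs_cast]
  exact_mod_cast hn.trans (Nat.le_self_pow two_ne_zero _)

theorem pu_le (h : G.WF) {u : G.Tup} (hu : u ∈ G.tup) :
    1 ≤ G.pu u ∧ G.U ≤ G.pu u ∧ G.pu u ≤ G.D :=
  ⟨h.BA_U_pos.trans_le (h.pu_bounds hu).1, (h.pu_bounds hu).1, (h.pu_bounds hu).2.trans h.U_le_D⟩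

theorem mem_cop {x : G.Tup × G.Tup} (hx : x ∈ G.cop) : x.1 ∈ G.tup ∧ x.2 ∈ G.tup :=
  mem_product.1 (mem_filter.1 hx).1

/-- pairs `(a, b)` -/
def T (G : Par) : Finset (ℕ × ℕ) := G.As ×ˢ Icc 1 G.B

/-- the determinant divided by the shared product -/
def y0 (x : G.Tup × G.Tup) (z : (ℕ × ℕ) × ℕ × ℕ) : ℤ :=
  (z.1.1 * G.pu x.2 * z.2.2 : ℤ) - G.pu x.1 * z.1.2 * z.2.1

theorem mem_TT {z : (ℕ × ℕ) × ℕ × ℕ} (hz : z ∈ T G ×ˢ T G) :
    (z.1.1 ∈ G.As ∧ 1 ≤ z.1.2 ∧ z.1.2 ≤ G.B) ∧ z.2.1 ∈ G.As ∧ 1 ≤ z.2.2 ∧ z.2.2 ≤ G.B := by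
  simpa only [T, mem_product, mem_Icc] using hz

/-- the degenerate terms -/
theorem card_zero (h : G.WF) {x : G.Tup × G.Tup} (hx : x ∈ G.cop) :
    ((T G ×ˢ T G).filter fun z => y0 x z = 0).card ≤ G.Q * (G.A * (G.B / G.U)) := by
  obtain ⟨s1, s2, s3, s4, -, -⟩ := sizes h
  obtain ⟨u1, u2, u3⟩ := pu_le h (mem_cop hx).1
  obtain ⟨w1, w2, w3⟩ := pu_le h (mem_cop hx).2
  have key : ∀ z ∈ (T G ×ˢ T G).filter fun z => y0 x z = 0, G.pu x.1 * (z.2.2 / G.pu x.1) = z.2.2 ∧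
      z.1.1 * G.pu x.2 * (z.2.2 / G.pu x.1) = z.1.2 * z.2.1 := by
    intro z hz
    obtain ⟨hz, e⟩ := mem_filter.1 hz
    have e' : z.1.1 * G.pu x.2 * z.2.2 = G.pu x.1 * (z.1.2 * z.2.1) := by
      rw [← mul_assoc]
      exact_mod_cast sub_eq_zero.1 e
    have hc : Nat.Coprime (G.pu x.1) (z.1.1 * G.pu x.2) := Nat.Coprime.mul_right
      (Nat.isCoprime_iff_coprime.1 (cop_nat h (mem_TT hz).1.1 u1 u3)).symm (h.pu_coprime hx)
    have h1 := Nat.mul_div_cancel' (hc.dvd_of_dvd_mul_left ⟨_, e'⟩)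
    refine ⟨h1, Nat.eq_of_mul_eq_mul_left u1 ?_⟩
    rw [← e', mul_left_comm, h1]
  refine (card_le_mul_card_image_of_maps_to (f := fun z => (z.1.1, z.2.2 / G.pu x.1))
    (t := G.As ×ˢ Icc 1 (G.B / G.U)) (fun z hz => ?_) G.Q fun t ht => ?_).trans ?_
  · obtain ⟨h1, -⟩ := key z hz
    obtain ⟨⟨a1, -⟩, -, b1, b2⟩ := mem_TT (mem_filter.1 hz).1
    refine mem_product.2 ⟨a1, mem_Icc.2 ⟨?_, Nat.div_le_div b2 u2 (by omega)⟩⟩
    refine Nat.pos_of_ne_zero fun h0 => ?_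
    dsimp only at h0
    rw [h0] at h1
    omega
  · obtain ⟨a1, c1⟩ := mem_product.1 ht
    obtain ⟨c1, c2⟩ := mem_Icc.1 c1
    obtain ⟨a2, a3⟩ := h.As_sub _ a1
    refine le_trans (card_le_card_of_injOn (fun z => z.2.1) (fun z hz => ?_) fun z hz z' hz' e => ?_)
      (h.div_le (t.1 * G.pu x.2 * t.2) (Nat.mul_pos (Nat.mul_pos (by omega) w1) c1) ?_)
    · obtain ⟨hz', rfl⟩ := mem_filter.1 (mem_coe.1 hz)
      exact mem_coe.2 (mem_filter.2 ⟨(mem_TT (mem_filter.1 hz').1).2.1,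
        Dvd.intro_left _ (key z hz').2.symm⟩)
    · obtain ⟨hz, e1⟩ := mem_filter.1 (mem_coe.1 hz)
      obtain ⟨hz', e2⟩ := mem_filter.1 (mem_coe.1 hz')
      obtain ⟨e3, e4⟩ := Prod.mk.inj (e1.trans e2.symm)
      obtain ⟨k1, k2⟩ := key z hz
      obtain ⟨k3, k4⟩ := key z' hz'
      have e' : z.2.1 = z'.2.1 := e
      have a0 := (h.As_sub _ (mem_TT (mem_filter.1 hz').1).2.1).1
      rw [e3, e4, k4, e'] at k2
      rw [e4, k3] at k1
      exact Prod.ext (Prod.ext e3 (Nat.eq_of_mul_eq_mul_right (by omega) k2).symm)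
        (Prod.ext e' k1.symm)
    · have h1 : G.pu x.2 * t.2 ≤ 2 ^ G.J * G.B := by
        refine (Nat.mul_le_mul (h.pu_bounds (mem_cop hx).2).2 c2).trans ?_
        rw [mul_assoc]
        exact Nat.mul_le_mul_left _ (Nat.mul_div_le _ _)
      have h2 : 2 ^ G.J * 2 ≤ G.A * G.B :=
        ((Nat.mul_le_mul_left _ s1).trans (h.U_le_D.trans s3)).trans
          (Nat.le_mul_of_pos_right _ (lt_of_lt_of_le (Nat.mul_pos (by omega) (by omega)) s4))
      calc t.1 * G.pu x.2 * t.2 ≤ 2 * G.A * (2 ^ G.J * G.B) := by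
            rw [mul_assoc]; exact Nat.mul_le_mul a3 h1
        _ = 2 ^ G.J * 2 * (G.A * G.B) := by ring
        _ ≤ (G.A * G.B) ^ 2 := by rw [sq]; exact Nat.mul_le_mul_right _ h2
  · rw [card_product, Nat.card_Icc, Nat.add_sub_cancel]
    exact Nat.mul_le_mul_left _ (Nat.mul_le_mul_right _ (card_As h))

/-- the witnesses of badness -/
noncomputable def wit (b : G.Bank) : Finset (Σ _ : Fin G.J, (G.Tup × G.Tup) × (ℕ × ℕ) × ℤ) :=
  univ.sigma fun j => (Fintype.piFinset b ×ˢ Fintype.piFinset b) ×ˢ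
    (range (G.Y j + 1) ×ˢ range (G.Y j + 1)) ×ˢ
      Icc (-((4 * G.A / G.P j : ℕ) : ℤ)) (4 * G.A / G.P j : ℕ)

theorem card_wit (h : G.WF) {b : G.Bank} (hb : b ∈ G.banks) : (wit b).card * G.Q ^ 5 ≤ G.A := by
  obtain ⟨s1, s2, s3, s4, -, s5⟩ := sizes h
  have hQ := h.Q_ge
  have hJ := h.J_ge
  have hJ' := h.J_lt
  have key : ∀ j, ((Fintype.piFinset b ×ˢ Fintype.piFinset b) ×ˢ
      (range (G.Y j + 1) ×ˢ range (G.Y j + 1)) ×ˢ
        Icc (-((4 * G.A / G.P j : ℕ) : ℤ)) (4 * G.A / G.P j : ℕ)).card * G.Q ^ (8 * G.J) ≤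
      9 * G.A := by
    intro j
    have e : (((4 * G.A / G.P j : ℕ) : ℤ) + 1 - -((4 * G.A / G.P j : ℕ) : ℤ)).toNat =
        2 * (4 * G.A / G.P j) + 1 := by omega
    simp only [card_product, h.card_choices hb, card_range, Int.card_Icc, e]
    have h1 : G.z ^ G.J ≤ G.Q ^ G.J := Nat.pow_le_pow_left h.z_le _
    have h2 : G.P j * (2 * (4 * G.A / G.P j) + 1) ≤ 9 * G.A := by
      have := Nat.mul_div_le (4 * G.A) (G.P j)
      have := s5 j
      nlinarith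
    calc _ ≤ G.Q ^ G.J * G.Q ^ G.J * ((G.Y j + 1) * (G.Y j + 1) * (2 * (4 * G.A / G.P j) + 1)) *
          G.Q ^ (8 * G.J) := by gcongr
      _ = G.Q ^ (10 * G.J) * (G.Y j + 1) ^ 2 * (2 * (4 * G.A / G.P j) + 1) := by ring
      _ ≤ _ := (Nat.mul_le_mul_right _ (h.sepP j)).trans h2
  have h1 : (wit b).card * G.Q ^ (8 * G.J) ≤ G.J * (9 * G.A) := by
    rw [wit, card_sigma, sum_mul]
    refine (sum_le_card_nsmul _ _ _ fun j _ => key j).trans_eq ?_
    rw [card_univ, Fintype.card_fin, smul_eq_mul]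
  refine Nat.le_of_mul_le_mul_right ?_ (h.BA_Qpow_pos 2)
  calc (wit b).card * G.Q ^ 5 * G.Q ^ 2 = (wit b).card * G.Q ^ 7 := by ring
    _ ≤ (wit b).card * G.Q ^ (8 * G.J) :=
      Nat.mul_le_mul_left _ (Nat.pow_le_pow_right (by omega) (by omega))
    _ ≤ G.Q * (G.Q * G.A) := h1.trans (by gcongr; omega)
    _ = _ := by ring

open Classical in
/-- for given `y` and `a` there are few possible `a'` -/
theorem card_bad (h : G.WF) {sh : G.Bank} (hs : sh ∈ G.shs) {u : G.Tup} (hu : u ∈ G.outs sh)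
    (W : ℕ) {y : ℤ} (hy0 : y ≠ 0) (hy : |y| ≤ (G.D : ℤ) ^ 2) {a : ℕ} (ha : a ∈ G.As) :
    (G.As.filter fun a' : ℕ => ∃ b' b : ℕ, (a * W * b : ℤ) - G.pu u * b' * a' = y ∧
      ¬ G.good ((a : ℤ), (G.pb (G.add sh u) * b' : ℤ)) (G.add sh u)).card ≤
      (wit (G.add sh u)).card := by
  obtain ⟨s1, s2, s3, s4, -, s5⟩ := sizes h
  obtain ⟨hb, hp, -⟩ := h.add_mem hs hu
  obtain ⟨p1, p2⟩ := h.pb_le hb
  set n : (Σ _ : Fin G.J, (G.Tup × G.Tup) × (ℕ × ℕ) × ℤ) → ℤ := fun i =>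
    ((G.pb (G.add sh u) / G.pu i.2.1.1 * i.2.2.1.1 : ℕ) : ℤ) -
      ((G.pb (G.add sh u) / G.pu i.2.1.2 * i.2.2.1.2 : ℕ) : ℤ) with hn
  refine (card_le_card (t := (wit (G.add sh u)).biUnion fun i => G.As.filter fun a' : ℕ =>
    n i ≠ 0 ∧ (a : ℤ) ∣ i.2.2.2 * G.pb sh * y + n i * a') fun a' ha' => ?_).trans
    ((card_biUnion_le_card_mul _ _ 1 fun i hi => ?_).trans_eq (mul_one _))
  · obtain ⟨ha', b', b, e, hg⟩ := mem_filter.1 ha'
    have c1 : IsCoprime (a : ℤ) (G.pu u * b' * a' : ℤ) := by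
      have := (h.coprime_small ha hy0 hy).neg_right
      rwa [← e, neg_sub, mul_assoc (a : ℤ), IsCoprime.sub_mul_left_right_iff] at this
    have c2 : IsCoprime (a : ℤ) (G.pb (G.add sh u) * b' : ℤ) :=
      (cop_nat h ha p1 p2).mul_right c1.of_mul_right_left.of_mul_right_right
    rw [Par.good, not_and] at hg
    have hg := hg c2
    push Not at hg
    obtain ⟨j, u₁, hu₁, u₂, hu₂, y₁, y₂, hy₁, hy₂, s, hs, hd, hne⟩ := hg
    have hs' : |s| ≤ ((4 * G.A / G.P j : ℕ) : ℤ) := by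
      push_cast
      exact Int.le_ediv_of_mul_le (by exact_mod_cast h.BA_P_pos j) hs
    refine mem_biUnion.2 ⟨⟨j, (u₁, u₂), (y₁, y₂), s⟩, mem_sigma.2 ⟨mem_univ _, mem_product.2
      ⟨mem_product.2 ⟨hu₁, hu₂⟩, mem_product.2 ⟨mem_product.2 ⟨mem_range.2 (Nat.lt_succ_of_le hy₁),
        mem_range.2 (Nat.lt_succ_of_le hy₂)⟩, mem_Icc.2 (abs_le.1 hs')⟩⟩⟩,
      mem_filter.2 ⟨ha', fun h0 => hne (by exact_mod_cast sub_eq_zero.1 h0), ?_⟩⟩
    have h1 := (dvd_mul_right (a : ℤ) (s * G.pb sh * W * b)).sub (hd.mul_right a')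
    refine h1.trans (dvd_of_eq ?_)
    simp only [hn]
    rw [← e]
    generalize ((G.pb (G.add sh u) / G.pu u₁ * y₁ : ℕ) : ℤ) = n₁
    generalize ((G.pb (G.add sh u) / G.pu u₂ * y₂ : ℕ) : ℤ) = n₂
    rw [hp]
    push_cast
    ring
  · refine card_le_one.2 fun a₁ h₁ a₂ h₂ => ?_
    obtain ⟨m₁, n0, d₁⟩ := mem_filter.1 h₁
    obtain ⟨m₂, -, d₂⟩ := mem_filter.1 h₂
    obtain ⟨y₁, y₂⟩ := mem_product.1 (mem_product.1 (mem_product.1 (mem_sigma.1 hi).2).2).1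
    have hY : G.Y i.1 + 1 ≤ G.D := (h.BA_Y_lt _).trans_le ((s5 _).trans s2)
    have b1 : ∀ (c y' : ℕ), y' ∈ range (G.Y i.1 + 1) → G.pb (G.add sh u) / c * y' ≤ G.D ^ 2 :=
      fun c y' hy' => by
        rw [sq]
        exact Nat.mul_le_mul ((Nat.div_le_self _ _).trans p2) ((mem_range.1 hy').le.trans hY)
    have c1 : IsCoprime (a : ℤ) (n i) := by
      refine h.coprime_small ha n0 ?_
      have k1 := b1 (G.pu i.2.1.1) _ y₁
      have k2 := b1 (G.pu i.2.1.2) _ y₂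
      simp only [hn]
      rw [← Nat.cast_pow, abs_le]
      omega
    have d : (a : ℤ) ∣ (a₁ : ℤ) - a₂ := c1.dvd_of_dvd_mul_left (by
      convert d₁.sub d₂ using 1
      ring)
    have k1 := h.As_sub _ m₁
    have k2 := h.As_sub _ m₂
    have k3 := h.As_sub _ ha
    have := Int.eq_zero_of_abs_lt_dvd d (by rw [abs_lt]; omega)
    omega

open Classical in
/-- the bad terms with a given non-zero determinant -/
theorem card_ne (h : G.WF) {sh : G.Bank} (hs : sh ∈ G.shs) {x : G.Tup × G.Tup} (hx : x ∈ G.cop)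
    (hu : x.1 ∈ G.outs sh) {y : ℤ} (hy0 : y ≠ 0) (hy : |y| ≤ (G.D : ℤ) ^ 2) :
    ((T G ×ˢ T G).filter fun z => y0 x z = y ∧
      ¬ G.good ((z.1.1 : ℤ), (G.pb (G.add sh x.1) * z.1.2 : ℤ)) (G.add sh x.1)).card ≤
      (G.B / (G.A * G.U) + 1) * (G.A * (wit (G.add sh x.1)).card) := by
  obtain ⟨s1, s2, s3, s4, -, -⟩ := sizes h
  obtain ⟨u1, u2, u3⟩ := pu_le h (mem_cop hx).1
  obtain ⟨w1, w2, w3⟩ := pu_le h (mem_cop hx).2
  refine (card_le_mul_card_image_of_maps_to (f := fun z => (⟨z.1.1, z.2.1⟩ : Σ _ : ℕ, ℕ))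
    (t := G.As.sigma fun a => G.As.filter fun a' : ℕ => ∃ b' b : ℕ,
      (a * G.pu x.2 * b : ℤ) - G.pu x.1 * b' * a' = y ∧
      ¬ G.good ((a : ℤ), (G.pb (G.add sh x.1) * b' : ℤ)) (G.add sh x.1))
    (fun z hz => ?_) (G.B / (G.A * G.U) + 1) fun t ht => ?_).trans ?_
  · obtain ⟨hz, e, hg⟩ := mem_filter.1 hz
    exact mem_sigma.2 ⟨(mem_TT hz).1.1, mem_filter.2 ⟨(mem_TT hz).2.1, z.1.2, z.2.2, e, hg⟩⟩
  · refine le_trans (card_le_card_of_injOn (fun z => z.1.2 / (G.A * G.U))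
      (t := range (G.B / (G.A * G.U) + 1)) (fun z hz => ?_) fun z hz z' hz' e => ?_)
      (card_range _).le
    · exact mem_coe.2 (mem_range.2 (Nat.lt_succ_of_le (Nat.div_le_div_right
        (mem_TT (mem_filter.1 (mem_filter.1 (mem_coe.1 hz)).1).1).1.2.2)))
    · obtain ⟨hz, e1⟩ := mem_filter.1 (mem_coe.1 hz)
      obtain ⟨hz', e2⟩ := mem_filter.1 (mem_coe.1 hz')
      obtain ⟨hz, k1, -⟩ := mem_filter.1 hz
      obtain ⟨hz', k2, -⟩ := mem_filter.1 hz'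
      obtain ⟨⟨a, b'⟩, a', b⟩ := z
      obtain ⟨⟨a₂, b₂'⟩, a₂', b₂⟩ := z'
      obtain ⟨rfl, e4⟩ := Sigma.mk.inj (e1.trans e2.symm)
      obtain rfl := eq_of_heq e4
      simp only [y0] at k1 k2 e
      have ha : a ∈ G.As := (mem_TT hz).1.1
      have ha' : a' ∈ G.As := (mem_TT hz).2.1
      have c1 : IsCoprime (a : ℤ) (G.pu x.1 * b' * a' : ℤ) := by
        have := (h.coprime_small ha hy0 hy).neg_right
        rwa [← k1, neg_sub, mul_assoc (a : ℤ), IsCoprime.sub_mul_left_right_iff] at this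
      have c2 : IsCoprime (a * G.pu x.2 : ℤ) (G.pu x.1 * a' : ℤ) :=
        (c1.of_mul_right_left.of_mul_right_left.mul_right c1.of_mul_right_right).mul_left
          ((Nat.isCoprime_iff_coprime.2 (h.pu_coprime hx)).symm.mul_right
            (cop_nat h ha' w1 w3).symm)
      have d : (a * G.pu x.2 : ℤ) ∣ (b' : ℤ) - b₂' :=
        c2.dvd_of_dvd_mul_left ⟨b - b₂, by linear_combination k2 - k1⟩
      have hM : 0 < G.A * G.U := Nat.mul_pos (by omega) (by omega)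
      have hM' : G.A * G.U ≤ a * G.pu x.2 := Nat.mul_le_mul (h.As_sub a ha).1.le w2
      have m1 := Nat.div_add_mod b' (G.A * G.U)
      have m2 := Nat.div_add_mod b₂' (G.A * G.U)
      have m3 := Nat.mod_lt b' hM
      have m4 := Nat.mod_lt b₂' hM
      rw [e] at m1
      have e5 := Int.eq_zero_of_abs_lt_dvd d (by rw [← Nat.cast_mul, abs_lt]; omega)
      obtain rfl : b' = b₂' := by omega
      have a0 : (a * G.pu x.2 : ℤ) ≠ 0 := by rw [← Nat.cast_mul]; omega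
      obtain rfl : b = b₂ := by
        have : (b : ℤ) = b₂ := mul_left_cancel₀ a0 (by linear_combination k1 - k2)
        exact_mod_cast this
      rfl
  · refine Nat.mul_le_mul_left _ ?_
    rw [card_sigma]
    exact (sum_le_card_nsmul _ _ _ fun a ha => card_bad h hs hu _ hy0 hy ha).trans
      (Nat.mul_le_mul_right _ (card_As h))

theorem ker_neg (hK : KerStmt) (h : G.WF) (n : ℤ) : ker G.Q G.h (-n) = ker G.Q G.h n := by
  have hQ := h.Q_ge
  simp only [ker, del, (hK G.Q G.h (by omega) h.h_bounds.1).1 n, neg_eq_zero]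

open Classical in
/-- one edge, one side -/
theorem edge_le (hK : KerStmt) (h : G.WF) {sh : G.Bank} (hs : sh ∈ G.shs) {x : G.Tup × G.Tup}
    (hx : x ∈ G.cop) (hu : x.1 ∈ G.outs sh) :
    ∑ z ∈ T G ×ˢ T G, (if G.good ((z.1.1 : ℤ), (G.pb (G.add sh x.1) * z.1.2 : ℤ)) (G.add sh x.1)
      then 0 else |ker G.Q G.h (y0 x z - ((G.pu x.2 : ℤ) - G.pu x.1))|) ≤
      4 * (G.A * G.B) / (G.U * G.Q) := by
  obtain ⟨s1, s2, s3, s4, s5, -⟩ := sizes h
  obtain ⟨u1, u2, u3⟩ := pu_le h (mem_cop hx).1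
  obtain ⟨w1, w2, w3⟩ := pu_le h (mem_cop hx).2
  obtain ⟨g1, g2, g3, -⟩ := h.h_bounds
  have hQ := h.Q_ge
  obtain ⟨-, k2, k3, k4, -⟩ := hK G.Q G.h (by omega) g1
  have hne : G.pu x.2 ≠ G.pu x.1 := fun e => by
    have := h.pu_coprime hx
    rw [e, Nat.coprime_self] at this
    omega
  set d : ℤ := (G.pu x.2 : ℤ) - G.pu x.1 with hd
  set N : ℕ := (G.B / (G.A * G.U) + 1) * (G.A * (wit (G.add sh x.1)).card) with hN
  have h1 : ∀ z, (if G.good ((z.1.1 : ℤ), (G.pb (G.add sh x.1) * z.1.2 : ℤ)) (G.add sh x.1)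
      then 0 else |ker G.Q G.h (y0 x z - d)|) ≤ (if y0 x z = 0 then (G.Q : ℝ) ^ 2 / G.h else 0) +
      ∑ n ∈ (Icc (-(G.h : ℤ)) G.h).filter (fun n => n + d ≠ 0), if y0 x z = n + d ∧
        ¬ G.good ((z.1.1 : ℤ), (G.pb (G.add sh x.1) * z.1.2 : ℤ)) (G.add sh x.1)
        then |ker G.Q G.h n| else 0 := by
    intro z
    have hs0 : ∀ n ∈ (Icc (-(G.h : ℤ)) G.h).filter (fun n => n + d ≠ 0), 0 ≤ if y0 x z = n + d ∧
        ¬ G.good ((z.1.1 : ℤ), (G.pb (G.add sh x.1) * z.1.2 : ℤ)) (G.add sh x.1)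
        then |ker G.Q G.h n| else 0 := fun n _ => by positivity
    have hs1 := sum_nonneg hs0
    split_ifs with hg h0 h0
    · positivity
    · positivity
    · refine le_trans ?_ (le_add_of_nonneg_right hs1)
      rw [ker, del, if_neg (by omega), zero_sub, abs_neg]
      exact k3 _
    · rw [zero_add]
      by_cases hm : y0 x z - d ∈ Icc (-(G.h : ℤ)) G.h
      · refine le_trans ?_ (single_le_sum hs0 (mem_filter.2 ⟨hm, by rwa [sub_add_cancel]⟩))
        rw [if_pos ⟨(sub_add_cancel _ _).symm, hg⟩]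
      · rw [mem_Icc] at hm
        rw [ker, del, if_neg (by omega), k2 _ (by rw [le_abs]; omega), sub_zero, abs_zero]
        exact hs1
  have h2 : ∀ n ∈ (Icc (-(G.h : ℤ)) G.h).filter (fun n => n + d ≠ 0), ∑ z ∈ T G ×ˢ T G,
      (if y0 x z = n + d ∧
        ¬ G.good ((z.1.1 : ℤ), (G.pb (G.add sh x.1) * z.1.2 : ℤ)) (G.add sh x.1)
        then |ker G.Q G.h n| else 0) ≤ N * |ker G.Q G.h n| := by
    intro n hn
    obtain ⟨hn, hn0⟩ := mem_filter.1 hn
    rw [mem_Icc] at hn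
    rw [← sum_filter, sum_const, nsmul_eq_mul]
    refine mul_le_mul_of_nonneg_right (Nat.cast_le.2 (card_ne h hs hx hu hn0 ?_)) (abs_nonneg _)
    have : 2 * G.D ≤ G.D ^ 2 := by rw [sq]; exact Nat.mul_le_mul_right _ (by omega)
    rw [← Nat.cast_pow, abs_le]
    omega
  have h3 : ∑ n ∈ Icc (-(G.h : ℤ)) G.h, |ker G.Q G.h n| ≤ 1 + (G.Q : ℝ) ^ 2 := by
    refine (sum_le_sum fun n _ => abs_sub (del n) (mu G.Q G.h n)).trans ?_
    rw [sum_add_distrib]
    refine add_le_add ?_ k4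
    simp only [del, apply_ite abs, abs_one, abs_zero, sum_ite_eq']
    split_ifs <;> norm_num
  have hU : (0 : ℝ) < G.U := by exact_mod_cast h.BA_U_pos
  have hQ' : (21 : ℝ) ≤ G.Q := by exact_mod_cast hQ
  have hh : (0 : ℝ) < G.h := by exact_mod_cast g1
  have h4 : (N : ℝ) * (1 + (G.Q : ℝ) ^ 2) ≤ 2 * (G.A * G.B) / (G.U * G.Q) := by
    rw [le_div_iff₀ (by positivity)]
    have e1 := card_wit h (h.add_mem hs hu).1
    have e2 : (G.B / (G.A * G.U) + 1) * (G.A * G.U) ≤ 2 * G.B := by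
      have := Nat.div_mul_le_self G.B (G.A * G.U)
      rw [add_mul]
      omega
    have e3 : (1 + G.Q ^ 2) * G.Q ≤ G.Q ^ 5 := by
      have : 1 + G.Q ^ 2 ≤ G.Q ^ 2 * G.Q ^ 2 := by nlinarith [Nat.pow_le_pow_left hQ 2]
      calc _ ≤ G.Q ^ 2 * G.Q ^ 2 * G.Q := Nat.mul_le_mul_right _ this
        _ = _ := by ring
    have e4 : N * (1 + G.Q ^ 2) * (G.U * G.Q) ≤ 2 * (G.A * G.B) :=
      calc _ = (G.B / (G.A * G.U) + 1) * (G.A * G.U) *
            ((wit (G.add sh x.1)).card * ((1 + G.Q ^ 2) * G.Q)) := by rw [hN]; ring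
        _ ≤ 2 * G.B * G.A := Nat.mul_le_mul e2 ((Nat.mul_le_mul_left _ e3).trans e1)
        _ = _ := by ring
    exact_mod_cast e4
  have h5 : ((G.Q * (G.A * (G.B / G.U)) : ℕ) : ℝ) * ((G.Q : ℝ) ^ 2 / G.h) ≤
      2 * (G.A * G.B) / (G.U * G.Q) := by
    rw [← mul_div_assoc, div_le_div_iff₀ hh (by positivity)]
    have e1 := Nat.div_mul_le_self G.B G.U
    have e2 : G.Q ^ 4 ≤ 2 * G.h := by
      refine Nat.le_of_mul_le_mul_right ?_ (h.BA_Qpow_pos 3)
      calc G.Q ^ 4 * G.Q ^ 3 = G.Q ^ 7 := by ring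
        _ ≤ 2 * G.Q ^ 3 * G.h := s5.trans g3
        _ = _ := by ring
    have e4 : G.Q * (G.A * (G.B / G.U)) * G.Q ^ 2 * (G.U * G.Q) ≤ 2 * (G.A * G.B) * G.h :=
      calc _ = G.A * (G.B / G.U * G.U) * G.Q ^ 4 := by ring
        _ ≤ G.A * G.B * (2 * G.h) := by gcongr
        _ = _ := by ring
    exact_mod_cast e4
  refine (sum_le_sum fun z _ => h1 z).trans ?_
  rw [sum_add_distrib, sum_comm, ← sum_filter, sum_const, nsmul_eq_mul]
  have h6 := (sum_le_sum h2).trans ((sum_le_sum_of_subset_of_nonneg (filter_subset _ _)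
    fun n _ _ => by positivity).trans ((mul_sum _ _ _).symm.trans_le
      (mul_le_mul_of_nonneg_left h3 (Nat.cast_nonneg N))))
  have h7 := mul_le_mul_of_nonneg_right (Nat.cast_le (α := ℝ).2 (card_zero h hx))
    (show 0 ≤ (G.Q : ℝ) ^ 2 / G.h by positivity)
  calc _ ≤ 2 * (G.A * G.B) / (G.U * G.Q) + 2 * (G.A * G.B) / ((G.U : ℝ) * G.Q) :=
        add_le_add (h7.trans h5) (h6.trans h4)
    _ = _ := by ring

theorem sum_edges (h : G.WF) (F : G.Tup × G.Tup → ℝ) :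
    ∑ e ∈ G.edges, F e.2 = G.Lf * ∑ x ∈ G.cop, F x := by
  rw [Par.edges, sum_filter, sum_product_right, mul_sum]
  refine sum_congr rfl fun x hx => ?_
  rw [← sum_filter, ← h.card_lifts hx]
  simp

end BadH

open BadH in
theorem badOK : KerStmt → BadStmt := by
  classical
  intro hK G h α β hα hβ
  have hU : (0 : ℝ) < G.U := by exact_mod_cast h.BA_U_pos
  have hQ : (0 : ℝ) < G.Q := by exact_mod_cast (by have := h.Q_ge; omega)
  rw [Par.corr, ← sum_edges h, Par.goodSum, ← sum_sub_distrib]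
  refine (abs_sum_le_sum_abs _ _).trans ((sum_le_sum (g := fun _ =>
    8 * (G.A * G.B : ℝ) / (G.U * G.Q)) fun e he => ?_).trans ?_)
  · obtain ⟨sh, u, w⟩ := e
    obtain ⟨he, ho⟩ := mem_filter.1 he
    obtain ⟨hs, hx⟩ := mem_product.1 he
    have hx' : (w, u) ∈ G.cop := mem_filter.2 ⟨mem_product.2 (mem_cop hx).symm,
      fun j => ((mem_filter.1 hx).2 j).symm⟩
    have h1 := edge_le hK h hs hx (mem_filter.2 ⟨(mem_cop hx).1, fun j => (ho j).1⟩)
    have h2 := edge_le hK h hs hx' (mem_filter.2 ⟨(mem_cop hx).2, fun j => (ho j).2⟩)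
    rw [sum_product] at h1
    rw [sum_product_right] at h2
    have h3 := add_le_add h1 h2
    simp only [← sum_add_distrib, T, sum_product] at h3
    simp only [← sum_sub_distrib]
    refine le_trans ?_ (h3.trans_eq (by ring))
    refine (abs_sum_le_sum_abs _ _).trans (sum_le_sum fun a _ => ?_)
    refine (abs_sum_le_sum_abs _ _).trans (sum_le_sum fun b' _ => ?_)
    refine (abs_sum_le_sum_abs _ _).trans (sum_le_sum fun a' _ => ?_)
    refine (abs_sum_le_sum_abs _ _).trans (sum_le_sum fun b _ => ?_)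
    have e1 : y0 (w, u) ((a', b), a, b') - ((G.pu u : ℤ) - G.pu w) =
        -(y0 (u, w) ((a, b'), a', b) - ((G.pu w : ℤ) - G.pu u)) := by
      simp only [y0]
      ring
    rw [e1, ker_neg hK h]
    change |_ * ker G.Q G.h (y0 (u, w) ((a, b'), a', b) - _) - if _ then _ *
      ker G.Q G.h (y0 (u, w) ((a, b'), a', b) - _) else 0| ≤ _
    generalize ker G.Q G.h (y0 (u, w) ((a, b'), a', b) - ((G.pu w : ℤ) - G.pu u)) = κ
    have e2 : |α a * β b' * (α a' * β b) * κ| ≤ |κ| := by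
      rw [abs_mul, abs_mul, abs_mul, abs_mul]
      exact mul_le_of_le_one_left (abs_nonneg _) (mul_le_one₀ (mul_le_one₀ (hα _) (abs_nonneg _)
        (hβ _)) (by positivity) (mul_le_one₀ (hα _) (abs_nonneg _) (hβ _)))
    have e3 := abs_nonneg κ
    by_cases g1 : G.good ((a : ℤ), (G.pb (G.add sh u) * b' : ℤ)) (G.add sh u) <;>
      by_cases g2 : G.good ((a' : ℤ), (G.pb (G.add sh w) * b : ℤ)) (G.add sh w) <;>
      simp only [g1, g2, and_self, and_true, and_false, if_true, if_false, sub_self, sub_zero,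
        abs_zero, add_zero, zero_add, le_refl] <;> linarith
  · rw [sum_edges h fun _ => 8 * (G.A * G.B : ℝ) / (G.U * G.Q), sum_const, nsmul_eq_mul]
    refine mul_le_mul_of_nonneg_left ?_ (Nat.cast_nonneg _)
    have h1 : G.cop.card ≤ G.U * G.U := (card_filter_le _ _).trans
      ((card_product _ _).trans_le (Nat.mul_le_mul h.card_tup_le h.card_tup_le))
    have h2 : (G.cop.card : ℝ) ≤ G.U * G.U := by exact_mod_cast h1
    refine (mul_le_mul_of_nonneg_right h2 (by positivity)).trans_eq ?_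
    field_simp

end Crest.Agent.R26
end

-- ▼ part PVc/R26/Minor
section

/-! Row 26: the minor arcs. -/

set_option autoImplicit false

namespace Crest.Agent.R26

open Finset Filter
open Crest.Agent.R5 (pr pd ee nit)

theorem minor : TrBStmt → GoodStmt → BadStmt → MinorStmt := by
  rintro ⟨C, hC, hT⟩ hG hB
  refine ⟨18 * (2 * C), by linarith, fun G h α β hα hβ => ?_⟩
  have hQ : (1 : ℝ) ≤ G.Q := by have := h.Q_ge; exact_mod_cast (by omega : 1 ≤ G.Q)
  have hJ := h.J_ge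
  have hs : 0 < √(G.Q : ℝ) := Real.sqrt_pos.2 (by linarith)
  have hs' : √(G.Q : ℝ) ≤ G.Q := Real.sqrt_le_iff.2 ⟨by linarith, by nlinarith⟩
  have h1 : (G.Q : ℝ) ≤ (G.z : ℝ) ^ G.J := by
    have := h.k_ge
    exact_mod_cast (Nat.le_mul_of_pos_left _ (Nat.mul_pos (by omega) (by omega))).trans h.κQ
  have h2 := hG G h _ (by
    rw [mul_div_assoc]
    exact one_le_mul_of_one_le_of_one_le (one_le_pow₀ hC) ((one_le_div hs).2 (hs'.trans h1)))
    (hT G h) α β hα hβ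
  have h3 := hB G h α β hα hβ
  have h4 : (1 : ℝ) ≤ G.Lf := by exact_mod_cast h.banks_le_Lf.1
  have h5 : (G.banks.card : ℝ) * (G.z : ℝ) ^ G.J ≤ 2 ^ G.J * G.U * G.Lf := by
    exact_mod_cast h.banks_le_Lf.2
  have h6 : (1 : ℝ) ≤ (2 * C) ^ G.J := one_le_pow₀ (by linarith)
  refine le_of_mul_le_mul_left ?_ (zero_lt_one.trans_le h4)
  calc _ = |G.Lf * G.corr (ker G.Q G.h) G.cop α β - G.goodSum α β + G.goodSum α β| := by
        rw [sub_add_cancel, abs_mul, Nat.abs_cast]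
    _ ≤ G.Lf * (8 * (G.A * G.B) * G.U / G.Q) +
        10 * C ^ G.J * (G.A * G.B) * (G.banks.card * (G.z : ℝ) ^ G.J) / √(G.Q : ℝ) :=
        (abs_add_le _ _).trans (add_le_add h3 (h2.trans_eq (by ring)))
    _ ≤ G.Lf * (8 * (2 * C) ^ G.J * (G.A * G.B) * G.U / √(G.Q : ℝ)) +
        10 * C ^ G.J * (G.A * G.B) * (2 ^ G.J * G.U * G.Lf) / √(G.Q : ℝ) := by
        gcongr
        linarith
    _ = G.Lf * (18 * (2 * C) ^ G.J * (G.A * G.B) * G.U / √(G.Q : ℝ)) := by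
        rw [mul_pow]
        ring
    _ ≤ _ := by
        rw [mul_pow 18]
        gcongr
        exact le_self_pow₀ (by norm_num) (by omega)

end Crest.Agent.R26
end

-- ▼ part PVc/R26/Major
section

/-! Row 26: the major arcs. -/

set_option autoImplicit false

namespace Crest.Agent.R26

open Finset Filter
open Crest.Agent.R5 (pr pd ee nit)

namespace Major

theorem tri_eq {h N m m' : ℕ} (h1 : h ≤ m) (h2 : m ≤ N) (h3 : h ≤ m') :
    tri h ((m : ℤ) - m') = (∑ y ∈ range N, (if m ∈ Ioc y (y + h) then (1 : ℝ) else 0) *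
      (if m' ∈ Ioc y (y + h) then (1 : ℝ) else 0)) / (h : ℝ) ^ 2 := by
  unfold tri
  congr 1
  have e : ∑ y ∈ range N, (if m ∈ Ioc y (y + h) then (1 : ℝ) else 0) *
      (if m' ∈ Ioc y (y + h) then (1 : ℝ) else 0) = ((Ico (max m m' - h) (min m m')).card : ℝ) := by
    simp only [ite_zero_mul_ite_zero, mul_one]
    rw [sum_boole]
    congr 2
    ext y
    simp only [mem_filter, mem_range, mem_Ioc, mem_Ico]
    omega
  rw [e, Nat.card_Ico]
  push_cast
  rcases le_total m m' with hm | hm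
  · have hm' : (m : ℝ) ≤ m' := by exact_mod_cast hm
    rw [max_eq_right hm, min_eq_left hm, abs_of_nonpos (by linarith)]
    rcases le_total (m' - h) m with h5 | h5
    · rw [Nat.cast_sub h5, Nat.cast_sub h3]
      have : ((m' - h : ℕ) : ℝ) ≤ m := by exact_mod_cast h5
      rw [Nat.cast_sub h3] at this
      rw [max_eq_right (by linarith)]; ring
    · have : (m : ℝ) ≤ ((m' - h : ℕ) : ℝ) := by exact_mod_cast h5
      rw [Nat.cast_sub h3] at this
      rw [Nat.sub_eq_zero_of_le h5, max_eq_left (by linarith)]; simp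
  · have hm' : (m' : ℝ) ≤ m := by exact_mod_cast hm
    rw [max_eq_left hm, min_eq_right hm, abs_of_nonneg (by linarith)]
    rcases le_total (m - h) m' with h5 | h5
    · rw [Nat.cast_sub h5, Nat.cast_sub h1]
      have : ((m - h : ℕ) : ℝ) ≤ m' := by exact_mod_cast h5
      rw [Nat.cast_sub h1] at this
      rw [max_eq_right (by linarith)]; ring
    · have : (m' : ℝ) ≤ ((m - h : ℕ) : ℝ) := by exact_mod_cast h5
      rw [Nat.cast_sub h1] at this
      rw [Nat.sub_eq_zero_of_le h5, max_eq_left (by linarith)]; simp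

/-- the triangle form is a sum of products of short sums -/
theorem tri_form {ι : Type} (I I' : Finset ι) (m : ι → ℕ) (f : ι → ℝ) {h N : ℕ} {B : ℝ}
    (hI : ∀ i ∈ I, f i ≠ 0 → h ≤ m i ∧ m i ≤ N)
    (hI' : ∀ i ∈ I', f i ≠ 0 → h ≤ m i ∧ m i ≤ N)
    (hB : ∑ y ∈ range N, (∑ i ∈ I, if m i ∈ Ioc y (y + h) then f i else 0) ^ 2 ≤ B)
    (hB' : ∑ y ∈ range N, (∑ i ∈ I', if m i ∈ Ioc y (y + h) then f i else 0) ^ 2 ≤ B) :
    |∑ i ∈ I, ∑ i' ∈ I', f i * f i' * tri h ((m i : ℤ) - m i')| ≤ B / (h : ℝ) ^ 2 := by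
  have e : ∑ i ∈ I, ∑ i' ∈ I', f i * f i' * tri h ((m i : ℤ) - m i') =
      (∑ y ∈ range N, (∑ i ∈ I, if m i ∈ Ioc y (y + h) then f i else 0) *
        ∑ i ∈ I', if m i ∈ Ioc y (y + h) then f i else 0) / (h : ℝ) ^ 2 := by
    simp only [sum_mul_sum]
    rw [sum_comm (s := range N), sum_div]
    refine sum_congr rfl fun i hi => ?_
    rw [sum_comm (s := range N), sum_div]
    refine sum_congr rfl fun i' hi' => ?_
    by_cases h0 : f i = 0
    · simp [h0]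
    by_cases h0' : f i' = 0
    · simp [h0']
    rw [tri_eq (hI i hi h0).1 (hI i hi h0).2 (hI' i' hi' h0').1, ← mul_div_assoc, mul_sum]
    congr 1
    refine sum_congr rfl fun y _ => ?_
    split_ifs <;> simp
  rw [e, abs_div, abs_of_nonneg (show (0 : ℝ) ≤ (h : ℝ) ^ 2 by positivity)]
  refine div_le_div_of_nonneg_right ((abs_sum_le_sum_abs _ _).trans ?_) (by positivity)
  have : ∀ a b : ℝ, |a * b| ≤ (a ^ 2 + b ^ 2) / 2 := fun a b => by
    rw [abs_le]; constructor <;> nlinarith [sq_nonneg (a + b), sq_nonneg (a - b)]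
  refine (sum_le_sum fun y _ => this _ _).trans ?_
  rw [← sum_div, sum_add_distrib]
  linarith

/-- splitting into residue classes -/
theorem core (R T : Finset ℕ) (g : ℕ → ℝ) (c : ℤ → ℝ) {q h N : ℕ} {B : ℝ} (hq : 1 ≤ q)
    (hc : ∀ n, |c n| ≤ 1) (hper : ∀ n n' : ℤ, (q : ℤ) ∣ n - n' → c n = c n')
    (hs : ∀ u ∈ R, ∀ s ∈ T, g s ≠ 0 → h ≤ u * s ∧ u * s ≤ N)
    (hB : ∀ b < q, ∀ ν < q, ∑ y ∈ range N, (∑ m ∈ Ioc y (y + h),
      ∑ u ∈ R.filter (fun u => u % q = b), ∑ s ∈ T,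
        if u * s = m then (if s % q = ν then g s else 0) else 0) ^ 2 ≤ B) :
    |∑ i ∈ R ×ˢ T, ∑ i' ∈ R ×ˢ T, g i.2 * g i'.2 *
      (tri h (((i.1 * i.2 : ℕ) : ℤ) - (i'.1 * i'.2 : ℕ)) *
        c (((i.1 * i.2 : ℕ) : ℤ) - (i'.1 * i'.2 : ℕ)))| ≤ (q : ℝ) ^ 4 * (B / (h : ℝ) ^ 2) := by
  set κ : ℕ × ℕ → ℕ × ℕ := fun i => (i.1 % q, i.2 % q) with hκ
  have hmap : ∀ i ∈ R ×ˢ T, κ i ∈ range q ×ˢ range q := fun i _ =>
    mem_product.2 ⟨mem_range.2 (Nat.mod_lt _ hq), mem_range.2 (Nat.mod_lt _ hq)⟩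
  have hB' : ∀ k ∈ range q ×ˢ range q, ∑ y ∈ range N, (∑ i ∈ (R ×ˢ T).filter (fun i => κ i = k),
      if i.1 * i.2 ∈ Ioc y (y + h) then g i.2 else 0) ^ 2 ≤ B := by
    intro k hk
    obtain ⟨h1, h2⟩ := mem_product.1 hk
    refine le_trans (le_of_eq (sum_congr rfl fun y _ => ?_))
      (hB k.1 (mem_range.1 h1) k.2 (mem_range.1 h2))
    congr 1
    rw [sum_comm, sum_filter, sum_filter, sum_product]
    refine sum_congr rfl fun u _ => ?_
    by_cases hu : u % q = k.1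
    · rw [if_pos hu, sum_comm]
      refine sum_congr rfl fun s _ => ?_
      rw [sum_ite_eq]
      by_cases hs : s % q = k.2
      · rw [if_pos (Prod.ext hu hs), if_pos hs]
      · rw [if_neg (fun h => hs (congrArg Prod.snd h)), if_neg hs]; simp
    · rw [if_neg hu]
      exact sum_eq_zero fun s _ => if_neg fun h => hu (congrArg Prod.fst h)
  rw [← sum_fiberwise_of_maps_to hmap]
  refine (abs_sum_le_sum_abs _ _).trans ((sum_le_card_nsmul _ _ ((q : ℝ) ^ 2 * (B / (h : ℝ) ^ 2))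
    fun k hk => ?_).trans (le_of_eq ?_))
  · rw [sum_comm, ← sum_fiberwise_of_maps_to hmap]
    refine (abs_sum_le_sum_abs _ _).trans ((sum_le_card_nsmul _ _ (B / (h : ℝ) ^ 2)
      fun k' hk' => ?_).trans (le_of_eq ?_))
    · rw [sum_comm]
      have key := tri_form ((R ×ˢ T).filter (fun i => κ i = k)) ((R ×ˢ T).filter (fun i => κ i = k'))
        (fun i => i.1 * i.2) (fun i => g i.2)
        (fun i hi => hs _ (mem_product.1 (mem_filter.1 hi).1).1 _ (mem_product.1 (mem_filter.1 hi).1).2)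
        (fun i hi => hs _ (mem_product.1 (mem_filter.1 hi).1).1 _ (mem_product.1 (mem_filter.1 hi).1).2)
        (hB' k hk) (hB' k' hk')
      have e : ∑ i ∈ (R ×ˢ T).filter (fun i => κ i = k), ∑ i' ∈ (R ×ˢ T).filter (fun i => κ i = k'),
          g i.2 * g i'.2 * (tri h (((i.1 * i.2 : ℕ) : ℤ) - (i'.1 * i'.2 : ℕ)) *
            c (((i.1 * i.2 : ℕ) : ℤ) - (i'.1 * i'.2 : ℕ))) =
          c (((k.1 * k.2 : ℕ) : ℤ) - (k'.1 * k'.2 : ℕ)) *
          ∑ i ∈ (R ×ˢ T).filter (fun i => κ i = k), ∑ i' ∈ (R ×ˢ T).filter (fun i => κ i = k'),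
            g i.2 * g i'.2 * tri h (((i.1 * i.2 : ℕ) : ℤ) - (i'.1 * i'.2 : ℕ)) := by
        rw [mul_sum]
        refine sum_congr rfl fun i hi => ?_
        rw [mul_sum]
        refine sum_congr rfl fun i' hi' => ?_
        rw [hper _ (((k.1 * k.2 : ℕ) : ℤ) - (k'.1 * k'.2 : ℕ))]
        · ring
        · rw [← (mem_filter.1 hi).2, ← (mem_filter.1 hi').2]
          have a1 : ∀ i : ℕ × ℕ, (q : ℤ) ∣ ((i.1 * i.2 : ℕ) : ℤ) - ((κ i).1 * (κ i).2 : ℕ) :=
            fun i => (Nat.modEq_iff_dvd.1 ((Nat.mod_modEq _ _).mul (Nat.mod_modEq _ _)))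
          have e : ∀ a b c d : ℤ, a - b - (c - d) = a - c - (b - d) := fun a b c d => by ring
          rw [e]
          exact dvd_sub (a1 i) (a1 i')
      rw [e, abs_mul]
      exact (mul_le_mul (hc _) key (abs_nonneg _) zero_le_one).trans_eq (one_mul _)
    · simp [sq]
  · simp; ring

theorem split_coord {ι : Type} [Fintype ι] [DecidableEq ι] (S : ι → Finset ℕ) (j : ι)
    (F : (ι → ℕ) → ℂ) :
    ∑ u ∈ Fintype.piFinset S, F u = ∑ r ∈ Fintype.piFinset (Function.update S j {1}),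
      ∑ p ∈ S j, F (Function.update r j p) := by
  rw [← sum_product']
  refine sum_nbij' (fun u => (Function.update u j 1, u j)) (fun x => Function.update x.1 j x.2)
    ?_ ?_ ?_ ?_ ?_
  · intro u hu
    have hu' := Fintype.mem_piFinset.1 hu
    refine mem_product.2 ⟨Fintype.mem_piFinset.2 fun i => ?_, hu' j⟩
    by_cases hi : i = j
    · subst hi; simp
    · simp [hi, hu' i]
  · intro x hx
    obtain ⟨h1, h2⟩ := mem_product.1 hx
    have h1' := Fintype.mem_piFinset.1 h1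
    refine Fintype.mem_piFinset.2 fun i => ?_
    by_cases hi : i = j
    · subst hi; simpa using h2
    · simpa [hi] using h1' i
  · intro u _; simp
  · intro x hx
    obtain ⟨h1, -⟩ := mem_product.1 hx
    have h1' := Fintype.mem_piFinset.1 h1 j
    simp only [Function.update_self, mem_singleton] at h1'
    ext <;> simp [← h1']
  · intro u _; simp

theorem nit_mul {m n : ℕ} (hm : m ≠ 0) (hn : n ≠ 0) (t : ℝ) :
    nit (m * n) t = nit m t * nit n t := by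
  unfold nit
  rw [← Complex.exp_add, Nat.cast_mul, Real.log_mul (by exact_mod_cast hm) (by exact_mod_cast hn)]
  congr 1
  push_cast; ring

variable {G : Par}

theorem labels (h : G.WF) (j : Fin G.J) {q : ℕ} (hq : 1 ≤ q) (hqQ : q ≤ G.Q) (b : ℕ) (t : ℝ) {e : ℝ}
    (he : 0 ≤ e) (hP : ∀ b', ‖∑ p ∈ (G.S j).filter (fun p => p ≡ b' [MOD q]), nit p t‖ ≤ G.P j * e) :
    ‖∑ u ∈ (G.tup.image G.pu).filter (fun u => u % q = b), nit u t‖ ≤ e * G.U := by
  rw [sum_filter, sum_image h.pu_inj, Par.tup, split_coord G.S j]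
  refine (norm_sum_le _ _).trans ((sum_le_card_nsmul _ _ (G.P j * e) fun r hr => ?_).trans ?_)
  · have hr' := Fintype.mem_piFinset.1 hr
    set ρ := ∏ i ∈ univ \ {j}, r i with hρ
    have hm : ∀ i ∈ univ \ {j}, r i ∈ G.S i := by
      intro i hi
      have : i ≠ j := by simpa using hi
      simpa [this] using hr' i
    have e1 : ∀ p, G.pu (Function.update r j p) = p * ρ := fun p =>
      prod_update_of_mem (mem_univ j) r p
    have ρ0 : ρ ≠ 0 := prod_ne_zero_iff.2 fun i hi => (h.prime i _ (hm i hi)).1.ne_zero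
    have cop : Nat.Coprime q ρ := by
      refine Nat.Coprime.prod_right fun i hi => ?_
      obtain ⟨a1, a2, -⟩ := h.prime i _ (hm i hi)
      have a3 := h.P_ge i
      have a4 : G.Q ≤ G.Q ^ (30 * G.J) := Nat.le_self_pow (by have := h.J_ge; omega) _
      exact (Nat.coprime_of_lt_prime (by omega) (by omega) a1).symm
    simp only [e1]
    rw [← sum_filter]
    rcases ((G.S j).filter fun p => p * ρ % q = b).eq_empty_or_nonempty with h0 | ⟨p₀, h0⟩
    · rw [h0]; simp; positivity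
    · have e2 : (G.S j).filter (fun p => p * ρ % q = b) =
          (G.S j).filter (fun p => p ≡ p₀ [MOD q]) := by
        refine filter_congr fun p _ => ?_
        rw [← (mem_filter.1 h0).2]
        exact ⟨fun h1 => Nat.ModEq.cancel_right_of_coprime cop h1, fun h1 => h1.mul_right ρ⟩
      rw [e2, sum_congr rfl fun p hp => nit_mul (h.prime j p (mem_filter.1 hp).1).1.ne_zero ρ0 t,
        ← sum_mul, norm_mul, nit, Complex.norm_exp_ofReal_mul_I, mul_one]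
      exact hP p₀
  · have : (Fintype.piFinset (Function.update G.S j {1})).card * G.P j ≤ G.U := by
      rw [Fintype.card_piFinset, Par.U, ← mul_prod_erase _ _ (mem_univ j),
        ← mul_prod_erase _ G.P (mem_univ j), Function.update_self, card_singleton, one_mul, mul_comm]
      refine Nat.mul_le_mul_left _ (prod_le_prod' fun i hi => ?_)
      rw [Function.update_of_ne (ne_of_mem_erase hi)]
      exact h.card_S_le i
    have h2 : ((Fintype.piFinset (Function.update G.S j {1})).card : ℝ) * G.P j ≤ G.U := by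
      exact_mod_cast this
    rw [nsmul_eq_mul, ← mul_assoc, mul_comm]
    exact mul_le_mul_of_nonneg_left h2 he

theorem card_dvd (h : G.WF) {m : ℕ} (hm : 1 ≤ m) (hm' : m ≤ 2 ^ G.Q) :
    ((G.tup.image G.pu).filter fun u => u ∣ m).card ≤ G.Q ^ G.J := by
  rw [filter_image]
  refine card_image_le.trans ?_
  have : (G.tup.filter fun u => G.pu u ∣ m) ⊆
      Fintype.piFinset fun j => (G.S j).filter fun p => p ∣ m := by
    intro u hu
    obtain ⟨h1, h2⟩ := mem_filter.1 hu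
    exact Fintype.mem_piFinset.2 fun j => mem_filter.2 ⟨Fintype.mem_piFinset.1 h1 j,
      (dvd_prod_of_mem u (mem_univ j)).trans h2⟩
  refine (card_le_card this).trans ?_
  rw [Fintype.card_piFinset]
  refine (prod_le_pow_card _ _ G.Q fun j _ => ?_).trans (by simp)
  have h1 : ∏ p ∈ (G.S j).filter (fun p => p ∣ m), p ∣ m :=
    Finset.prod_primes_dvd m (fun p hp => (h.prime j p (mem_filter.1 hp).1).1.prime)
      fun p hp => (mem_filter.1 hp).2
  have h2 : 2 ^ ((G.S j).filter (fun p => p ∣ m)).card ≤ ∏ p ∈ (G.S j).filter (fun p => p ∣ m), p :=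
    pow_card_le_prod _ _ _ fun p hp => (h.prime j p (mem_filter.1 hp).1).1.two_le
  exact (Nat.pow_le_pow_iff_right (by norm_num)).1 (h2.trans ((Nat.le_of_dvd hm h1).trans hm'))

theorem sizes (h : G.WF) : 1 ≤ G.A ∧ 2 * (2 ^ G.J * G.U) ≤ G.A * G.B ∧
    G.Q ^ (60 * G.J) ≤ G.A * G.B ∧ G.Q ^ (2 * G.J) ≤ G.h := by
  have hU := h.BA_U_pos
  have hD := h.U_le_D
  have hJ := h.J_ge
  have hQ := h.Q_ge
  have h2 : 2 ^ 10 ≤ 2 ^ G.J := Nat.pow_le_pow_right (by norm_num) hJ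
  have hD2 : 1024 ≤ G.D := le_trans (by nlinarith) hD
  have hA := h.A_ge
  have hB := h.B_ge
  have hA1 : G.D ≤ G.A := by nlinarith
  have hU2 : G.Q ^ (30 * G.J) ≤ G.U :=
    (Nat.le_mul_of_pos_left _ (h.BA_P_pos ⟨0, by omega⟩)).trans (h.U_ge _)
  have hB1 : G.A ≤ G.B := (Nat.le_mul_of_pos_right _ (by positivity)).trans hB
  refine ⟨by omega, by nlinarith, ?_, ?_⟩
  · calc G.Q ^ (60 * G.J) = (G.Q ^ (30 * G.J)) ^ 2 := by rw [← pow_mul]; ring_nf
      _ ≤ G.U ^ 2 := Nat.pow_le_pow_left hU2 2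
      _ ≤ G.B := (Nat.le_mul_of_pos_left _ (by omega)).trans hB
      _ ≤ G.A * G.B := Nat.le_mul_of_pos_left _ (by omega)
  · unfold Par.h
    rw [Nat.le_div_iff_mul_le (by positivity), ← pow_add]
    exact (Nat.pow_le_pow_right (by omega) (by omega)).trans hU2

theorem shift (h : G.WF) (α β : ℕ → ℝ) (φ : ℤ → ℝ) :
    ∑ s ∈ Icc 1 (2 * (G.A * G.B)), G.gg α β (s + 1) * φ s =
      ∑ a ∈ G.As, ∑ b ∈ Icc 1 G.B, α a * β b * φ ((a : ℤ) * b - 1) := by
  have hA := (sizes h).1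
  have := Par.sum_gg (G := G) α β (fun N => φ ((N : ℤ) - 1))
    (T := Icc (1 + 1) (2 * (G.A * G.B) + 1)) (by
      intro a ha b hb
      obtain ⟨h1, h2⟩ := h.As_sub a ha
      obtain ⟨h3, h4⟩ := mem_Icc.1 hb
      refine mem_Icc.2 ⟨by nlinarith, ?_⟩
      have := Nat.mul_le_mul h2 h4
      nlinarith)
  rw [← map_add_right_Icc, sum_map] at this
  simpa using this

theorem corr_eq (h : G.WF) (k : ℤ → ℝ) (α β : ℕ → ℝ) :
    G.corr k (G.tup ×ˢ G.tup) α β =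
      ∑ i ∈ G.tup.image G.pu ×ˢ Icc 1 (2 * (G.A * G.B)),
        ∑ i' ∈ G.tup.image G.pu ×ˢ Icc 1 (2 * (G.A * G.B)),
          G.gg α β (i.2 + 1) * G.gg α β (i'.2 + 1) *
            k (((i.1 * i.2 : ℕ) : ℤ) - (i'.1 * i'.2 : ℕ)) := by
  unfold Par.corr
  rw [sum_product, sum_comm, sum_product, sum_image h.pu_inj]
  refine sum_congr rfl fun w _ => ?_
  simp only [sum_product]
  rw [sum_comm (s := Icc 1 (2 * (G.A * G.B))), sum_image h.pu_inj]
  refine sum_congr rfl fun u _ => ?_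
  have e1 := shift h α β fun s => ∑ s' ∈ Icc 1 (2 * (G.A * G.B)),
    G.gg α β (s' + 1) * k (G.pu w * s - G.pu u * s')
  have e2 : ∀ s : ℤ, ∑ s' ∈ Icc 1 (2 * (G.A * G.B)),
      G.gg α β (s' + 1) * k (G.pu w * s - G.pu u * s') = _ :=
    fun s => shift h α β fun s' => k (G.pu w * s - G.pu u * s')
  simp only [mul_assoc, ← mul_sum]
  push_cast
  rw [e1]
  simp only [e2, mul_sum]
  refine sum_congr rfl fun a _ => ?_
  rw [sum_comm, sum_comm (s := Icc 1 G.B) (t := G.As)]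
  refine sum_congr rfl fun a' _ => ?_
  rw [sum_comm]
  refine sum_congr rfl fun b _ => sum_congr rfl fun b' _ => ?_
  rw [show (a : ℤ) * ((G.pu w : ℤ) * b) - G.pu u * (b' * a') - ((G.pu w : ℤ) - G.pu u) =
    G.pu w * (a * b - 1) - G.pu u * (a' * b' - 1) by ring]
  ring

theorem supp (h : G.WF) {α β : ℕ → ℝ} (hc : G.Coef α β) {s : ℕ} (hs : G.gg α β (s + 1) ≠ 0) :
    G.A * G.B ≤ 8 * s ∧ s ≤ 2 * (G.A * G.B) := by
  obtain ⟨h1, h2⟩ := (h.gg_le hc.α_le hc.β_le (s + 1)).2 hs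
  refine ⟨?_, by rw [← mul_assoc]; omega⟩
  unfold Par.gg at hs
  obtain ⟨a, ha, hs⟩ := exists_ne_zero_of_sum_ne_zero hs
  obtain ⟨b, -, hs⟩ := exists_ne_zero_of_sum_ne_zero hs
  have e : a * b = s + 1 := by by_contra h'; exact hs (if_neg h')
  rw [if_pos e] at hs
  have h3 := hc.supp b (right_ne_zero_of_mul hs)
  have h4 := (h.As_sub a ha).1
  have h5 : G.A * G.B ≤ a * (4 * b) := Nat.mul_le_mul h4.le h3.le
  have h6 : a * (4 * b) = 4 * (s + 1) := by rw [← e]; ring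
  omega

theorem numer {Q X U h : ℝ} {J : ℕ} (hQ : 1 ≤ Q) (hJ : 10 ≤ J) (hh : 0 < h) (hU0 : 0 ≤ U)
    (hU : U ≤ 2 * Q ^ 3 * h) (hX : Q ^ (60 * J) ≤ X) :
    (Q ^ J * Q) ^ 2 / (Q ^ (2 * J)) ^ 2 + Q ^ 2 * (1 / Q ^ (2 * J)) ^ 2 * Q ^ (2 * J) * U / h +
      (Q ^ (3 * J)) ^ 3 * (1 / Q ^ (10 * J)) ^ 2 +
      Q ^ 2 * (Q ^ (2 * J)) ^ 2 * (U / h) ^ 2 * X ^ 2 / X ^ 3 ≤ 8 / Q ^ 7 := by
  have Q0 : 0 < Q := by linarith
  have X0 : 0 < X := lt_of_lt_of_le (by positivity) hX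
  have hU' : U / h ≤ 2 * Q ^ 3 := by rwa [div_le_iff₀ hh]
  have k : ∀ a b : ℕ, a + 7 ≤ b → Q ^ a / Q ^ b ≤ 1 / Q ^ 7 := by
    intro a b hab
    rw [div_le_div_iff₀ (by positivity) (by positivity), one_mul, ← pow_add]
    exact pow_le_pow_right₀ hQ hab
  have t1 : (Q ^ J * Q) ^ 2 / (Q ^ (2 * J)) ^ 2 ≤ 1 / Q ^ 7 := by
    rw [← pow_succ, ← pow_mul, ← pow_mul]
    exact k _ _ (by omega)
  have t2 : Q ^ 2 * (1 / Q ^ (2 * J)) ^ 2 * Q ^ (2 * J) * U / h ≤ 2 * (1 / Q ^ 7) := by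
    calc _ = Q ^ 2 / Q ^ (2 * J) * (U / h) := by field_simp
      _ ≤ Q ^ 2 / Q ^ (2 * J) * (2 * Q ^ 3) := by gcongr
      _ = 2 * (Q ^ 5 / Q ^ (2 * J)) := by ring
      _ ≤ _ := by have := k 5 (2 * J) (by omega); linarith
  have t3 : (Q ^ (3 * J)) ^ 3 * (1 / Q ^ (10 * J)) ^ 2 ≤ 1 / Q ^ 7 := by
    rw [div_pow, one_pow, mul_one_div, ← pow_mul, ← pow_mul]
    exact k _ _ (by omega)
  have t4 : Q ^ 2 * (Q ^ (2 * J)) ^ 2 * (U / h) ^ 2 * X ^ 2 / X ^ 3 ≤ 4 * (1 / Q ^ 7) := by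
    calc _ = Q ^ 2 * (Q ^ (2 * J)) ^ 2 * (U / h) ^ 2 / X := by field_simp
      _ ≤ Q ^ 2 * (Q ^ (2 * J)) ^ 2 * (2 * Q ^ 3) ^ 2 / Q ^ (60 * J) := by gcongr
      _ = 4 * (Q ^ (4 * J + 8) / Q ^ (60 * J)) := by ring
      _ ≤ _ := by have := k (4 * J + 8) (60 * J) (by omega); linarith
  have e : 8 / Q ^ 7 = 8 * (1 / Q ^ 7) := by ring
  linarith

end Major

open Major in
theorem major : MajCoreStmt → MajorStmt := by
  rintro ⟨C, hC, hM⟩
  refine ⟨64 * max C 1, by have := le_max_right C 1; linarith, fun G h α β hc => ?_⟩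
  obtain ⟨hA, hUX, hQX, hE⟩ := sizes h
  obtain ⟨hh1, hhU, hU2, -⟩ := h.h_bounds
  have hQ := h.Q_ge
  have hJ := h.J_ge
  have hU := h.BA_U_pos
  set X := G.A * G.B with hX
  set R := G.tup.image G.pu with hR
  set g : ℕ → ℝ := fun s => G.gg α β (s + 1) with hg
  have Q1 : (1 : ℝ) ≤ G.Q := by exact_mod_cast (by omega : 1 ≤ G.Q)
  have h0 : (0 : ℝ) < G.h := by exact_mod_cast hh1
  have hX16 : 16 ≤ X := le_trans (by omega) ((Nat.le_self_pow (by omega) _).trans hQX)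
  have X0 : (0 : ℝ) < X := by exact_mod_cast (by omega : 0 < X)
  have hRb : ∀ u ∈ R, G.U ≤ u ∧ u ≤ 2 ^ G.J * G.U := by
    intro u hu
    obtain ⟨w, hw, rfl⟩ := mem_image.1 hu
    exact h.pu_bounds hw
  set B := C * 8 ^ G.J * (G.h : ℝ) ^ 2 * (G.U * X) * (8 / (G.Q : ℝ) ^ 7) with hB
  have hcore : ∀ q ∈ Icc 1 G.Q, ∀ b < q, ∀ ν < q, ∑ y ∈ range (2 ^ (G.J + 1) * G.U * X),
      (∑ m ∈ Ioc y (y + G.h), ∑ u ∈ R.filter (fun u => u % q = b), ∑ s ∈ Icc 1 (2 * X),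
        if u * s = m then (if s % q = ν then g s else 0) else 0) ^ 2 ≤ B := by
    intro q hq b _ ν hν
    obtain ⟨hq1, hqQ⟩ := mem_Icc.1 hq
    have hgl : ∀ s, |(if s % q = ν then g s else 0)| ≤ G.Q := by
      intro s
      split_ifs
      · exact (h.gg_le hc.α_le hc.β_le _).1
      · simp
    refine (hM (R.filter (fun u => u % q = b)) (fun s => if s % q = ν then g s else 0) G.U X G.J G.h
      ((G.Q : ℝ) ^ G.J * G.Q) G.Q ((G.Q : ℝ) ^ (2 * G.J)) (1 / (G.Q : ℝ) ^ (2 * G.J))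
      (1 / (G.Q : ℝ) ^ (10 * G.J)) ((G.Q : ℝ) ^ (3 * G.J)) ((X : ℝ) ^ 3) hh1 hhU hX16
      (one_le_pow₀ Q1) (by exact_mod_cast hE) (one_le_pow₀ Q1) (by positivity) (by positivity)
      (by positivity) (by positivity) (by positivity) (fun u hu => hRb u (mem_filter.1 hu).1)
      ((card_filter_le _ _).trans (card_image_le.trans h.card_tup_le)) (fun s hs => ?_) hgl
      (fun m => ?_) (fun t h1 h2 => ?_) (fun y => ?_)).trans ?_
    · exact supp h hc (ite_ne_right_iff.1 hs).2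
    · refine (abs_sum_le_sum_abs _ _).trans ?_
      by_cases hm : 1 ≤ m ∧ m ≤ 2 ^ G.Q
      · calc _ ≤ ∑ u ∈ R, if u ∣ m then (G.Q : ℝ) else 0 := by
              refine le_trans (sum_le_sum fun u hu => ?_) (sum_le_sum_of_subset_of_nonneg
                (filter_subset _ _) fun u _ _ => by positivity)
              have u0 : 0 < u := hU.trans_le (hRb u (mem_filter.1 hu).1).1
              split_ifs with hd
              · obtain ⟨s₀, rfl⟩ := hd
                simp only [Nat.mul_right_inj u0.ne']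
                rw [sum_ite_eq']
                split_ifs with h1 h2
                · exact (h.gg_le hc.α_le hc.β_le _).1
                · simp
                · simp
              · rw [sum_eq_zero fun s _ => if_neg fun e => hd ⟨s, e.symm⟩]; simp
          _ = ((R.filter fun u => u ∣ m).card : ℝ) * G.Q := by
              rw [← sum_filter, sum_const, nsmul_eq_mul]
          _ ≤ _ := by
              gcongr
              exact_mod_cast card_dvd h hm.1 hm.2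
      · rw [sum_eq_zero]
        · positivity
        intro u hu
        rw [sum_eq_zero, abs_zero]
        intro s hs
        refine if_neg fun e => hm ?_
        obtain ⟨a1, a2⟩ := hRb u (mem_filter.1 hu).1
        obtain ⟨a3, a4⟩ := mem_Icc.1 hs
        rw [← e]
        refine ⟨Nat.mul_pos (hU.trans_le a1) a3, (Nat.mul_le_mul a2 a4).trans
          (le_trans ?_ h.AB_le)⟩
        nlinarith
    · refine labels h ⟨0, by omega⟩ hq1 hqQ b t (by positivity) fun b' => ?_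
      rw [mul_one_div]
      exact hc.primes ⟨0, by omega⟩ rfl q b' t hq1 hqQ h1 (by rw [hX] at h2; exact_mod_cast h2)
    · have := hc.sw q (ν + 1) (y + 1) hq1 hqQ
      rw [sum_filter, ← insert_Icc_add_one_left_eq_Icc (by omega), sum_insert (by simp),
        ← map_add_right_Icc, sum_map] at this
      have g1 : G.gg α β 1 = 0 := by
        by_contra h'
        have := ((h.gg_le hc.α_le hc.β_le 1).2 h').1
        omega
      rw [g1, ite_self, zero_add] at this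
      rw [one_div_mul_eq_div, hX]
      push_cast
      refine le_trans (le_of_eq ?_) this
      congr 1
      refine sum_congr rfl fun s _ => if_congr ?_ rfl rfl
      simp only [addRightEmbedding_apply]
      rw [Nat.ModEq.add_iff_right (Nat.ModEq.refl 1), Nat.ModEq, Nat.mod_eq_of_lt hν]
    · refine mul_le_mul_of_nonneg_left (numer Q1 hJ h0 (by positivity) ?_ ?_) (by positivity)
      · exact_mod_cast hU2
      · exact_mod_cast hQX
  have B0 : 0 ≤ B / (G.h : ℝ) ^ 2 := by positivity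
  rw [corr_eq h]
  have e : ∑ i ∈ R ×ˢ Icc 1 (2 * X), ∑ i' ∈ R ×ˢ Icc 1 (2 * X), g i.2 * g i'.2 *
      mu G.Q G.h (((i.1 * i.2 : ℕ) : ℤ) - (i'.1 * i'.2 : ℕ)) =
      ∑ q ∈ Icc 1 G.Q, ∑ a ∈ (range q).filter (fun a => Nat.Coprime a q),
        ∑ i ∈ R ×ˢ Icc 1 (2 * X), ∑ i' ∈ R ×ˢ Icc 1 (2 * X), g i.2 * g i'.2 *
          (tri G.h (((i.1 * i.2 : ℕ) : ℤ) - (i'.1 * i'.2 : ℕ)) *
            (fun n : ℤ => Real.cos (2 * Real.pi * a * n / q))
              (((i.1 * i.2 : ℕ) : ℤ) - (i'.1 * i'.2 : ℕ))) := by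
    simp only [mu, ram, mul_sum]
    rw [sum_congr rfl fun i _ => sum_comm, sum_comm]
    refine sum_congr rfl fun q _ => ?_
    rw [sum_congr rfl fun i _ => sum_comm, sum_comm]
  change |∑ i ∈ R ×ˢ Icc 1 (2 * X), ∑ i' ∈ R ×ˢ Icc 1 (2 * X), g i.2 * g i'.2 *
      mu G.Q G.h (((i.1 * i.2 : ℕ) : ℤ) - (i'.1 * i'.2 : ℕ))| ≤ _
  rw [e]
  refine (abs_sum_le_sum_abs _ _).trans
    ((sum_le_card_nsmul _ _ (G.Q * ((G.Q : ℝ) ^ 4 * (B / (G.h : ℝ) ^ 2))) fun q hq => ?_).trans ?_)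
  · obtain ⟨hq1, hqQ⟩ := mem_Icc.1 hq
    have hqQ' : (q : ℝ) ≤ G.Q := by exact_mod_cast hqQ
    refine (abs_sum_le_sum_abs _ _).trans ((sum_le_card_nsmul _ _
      ((q : ℝ) ^ 4 * (B / (G.h : ℝ) ^ 2)) fun a _ => ?_).trans ?_)
    · refine core R (Icc 1 (2 * X)) g (fun n : ℤ => Real.cos (2 * Real.pi * a * n / q)) hq1
        (fun n => Real.abs_cos_le_one _) ?_ (fun u hu s hs _ => ?_) (hcore q hq)
      · rintro n n' ⟨k, hk⟩
        have q0 : (q : ℝ) ≠ 0 := by positivity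
        have e1 : (n : ℝ) = n' + q * k := by
          have : n = n' + q * k := by linarith
          exact_mod_cast this
        rw [e1, ← Real.cos_add_int_mul_two_pi (2 * Real.pi * a * n' / q) (a * k)]
        congr 1
        push_cast
        field_simp
      · obtain ⟨a1, a2⟩ := hRb u hu
        obtain ⟨a3, a4⟩ := mem_Icc.1 hs
        refine ⟨hhU.trans (a1.trans (Nat.le_mul_of_pos_right _ a3)),
          (Nat.mul_le_mul a2 a4).trans (le_of_eq (by ring))⟩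
    · rw [nsmul_eq_mul]
      have : (((range q).filter (fun a => Nat.Coprime a q)).card : ℝ) ≤ G.Q := by
        have := (card_filter_le (range q) (fun a => Nat.Coprime a q)).trans
          ((card_range q).le.trans hqQ)
        exact_mod_cast this
      gcongr
  · rw [nsmul_eq_mul, Nat.card_Icc, Nat.add_sub_cancel]
    have m1 := le_max_left C 1
    have m2 := le_max_right C 1
    have e1 : (G.Q : ℝ) * (G.Q * ((G.Q : ℝ) ^ 4 * (B / (G.h : ℝ) ^ 2))) =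
        8 * C * 8 ^ G.J * (X * G.U / G.Q) := by
      rw [hB]; field_simp
    have e2 : 8 * C * 8 ^ G.J ≤ (64 * max C 1) ^ G.J := by
      rw [show 64 * max C 1 = 8 * max C 1 * 8 by ring, mul_pow]
      refine mul_le_mul_of_nonneg_right (le_trans ?_ (le_self_pow₀ (by linarith) (by omega)))
        (by positivity)
      linarith
    rw [e1]
    refine (mul_le_mul_of_nonneg_right e2 (by positivity)).trans (le_of_eq ?_)
    rw [hX]; push_cast; ring

end Crest.Agent.R26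
end

-- ▼ part PVc/R26/Cell
section

/-! Row 26: Cauchy-Schwarz. -/

set_option autoImplicit false

namespace Crest.Agent.R26

open Finset Filter
open Crest.Agent.R5 (pr pd ee nit)

namespace CellAux

open Par

variable {G : Par}

theorem corr_eq (h : G.WF) (k : ℤ → ℝ) (T : Finset (G.Tup × G.Tup)) (α β : ℕ → ℝ) :
    G.corr k T α β = ∑ x ∈ T, ∑ N ∈ Icc 1 (2 * G.A * G.B), ∑ N' ∈ Icc 1 (2 * G.A * G.B),
      G.gg α β N * G.gg α β N' *
        k ((G.pu x.2 : ℤ) * N - G.pu x.1 * N' - ((G.pu x.2 : ℤ) - G.pu x.1)) := by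
  have hT : ∀ a ∈ G.As, ∀ b ∈ Icc 1 G.B, a * b ∈ Icc 1 (2 * G.A * G.B) := by
    intro a ha b hb
    obtain ⟨h1, h2⟩ := h.As_sub a ha
    obtain ⟨h3, h4⟩ := mem_Icc.1 hb
    exact mem_Icc.2 ⟨Nat.mul_pos (by omega) h3, Nat.mul_le_mul h2 h4⟩
  unfold corr
  refine sum_congr rfl fun x _ => ?_
  simp only [mul_assoc (G.gg α β _), ← mul_sum]
  rw [sum_gg α β _ hT]
  refine sum_congr rfl fun a _ => ?_
  have e : ∀ b ∈ Icc 1 G.B, α a * β b * ∑ N' ∈ Icc 1 (2 * G.A * G.B), G.gg α β N' *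
      k ((G.pu x.2 : ℤ) * ((a * b : ℕ) : ℤ) - G.pu x.1 * N' - ((G.pu x.2 : ℤ) - G.pu x.1)) =
      ∑ b' ∈ Icc 1 G.B, ∑ a' ∈ G.As, α a * β b' * (α a' * β b) *
        k ((a * G.pu x.2 * b : ℤ) - G.pu x.1 * b' * a' - ((G.pu x.2 : ℤ) - G.pu x.1)) := by
    intro b _
    rw [sum_gg α β _ hT, sum_comm, mul_sum]
    refine sum_congr rfl fun b' _ => ?_
    rw [mul_sum]
    refine sum_congr rfl fun a' _ => ?_
    rw [show (G.pu x.2 : ℤ) * ((a * b : ℕ) : ℤ) - G.pu x.1 * ((a' * b' : ℕ) : ℤ) =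
      (a * G.pu x.2 * b : ℤ) - G.pu x.1 * b' * a' by push_cast; ring]
    ring
  rw [sum_congr rfl e]
  conv_rhs => rw [sum_comm]
  refine sum_congr rfl fun b' _ => ?_
  rw [sum_comm]

/-- the diagonal sum of a coprime pair is a delta correlation -/
theorem diag_eq (g : ℕ → ℝ) (M : ℕ) (hg : ∀ N, g N ≠ 0 → 2 ≤ N ∧ N ≤ M) {u w : ℕ}
    (hu : 1 ≤ u) (huw : Nat.Coprime u w) :
    ∑ t ∈ Icc 1 M, g (u * t + 1) * g (w * t + 1) = ∑ N ∈ Icc 1 M, ∑ N' ∈ Icc 1 M,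
      g N * g N' * del ((w : ℤ) * N - u * N' - ((w : ℤ) - u)) := by
  rw [← sum_product']
  refine sum_bij_ne_zero (fun t _ _ => (u * t + 1, w * t + 1)) ?_ ?_ ?_ ?_
  · intro t _ h2
    obtain ⟨h3, h4⟩ := mul_ne_zero_iff.1 h2
    have := hg _ h3
    have := hg _ h4
    simp only [mem_product, mem_Icc]
    omega
  · intro t _ _ t' _ _ e
    have e1 : u * t + 1 = u * t' + 1 := congrArg Prod.fst e
    exact Nat.eq_of_mul_eq_mul_left hu (by omega)
  · rintro ⟨N, N'⟩ _ h2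
    obtain ⟨h3, h4⟩ := mul_ne_zero_iff.1 h2
    obtain ⟨h5, h6⟩ := mul_ne_zero_iff.1 h3
    obtain ⟨a1, a2⟩ := hg _ h5
    obtain ⟨b1, b2⟩ := hg _ h6
    have h7 : (w : ℤ) * N - u * N' - ((w : ℤ) - u) = 0 := by
      by_contra hc
      exact h4 (if_neg hc)
    obtain ⟨n, rfl⟩ : ∃ n, N = n + 1 := ⟨N - 1, by omega⟩
    obtain ⟨n', rfl⟩ : ∃ n, N' = n + 1 := ⟨N' - 1, by omega⟩
    have h8 : w * n = u * n' := by
      have : (w : ℤ) * n = u * n' := by
        push_cast at h7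
        linarith
      exact_mod_cast this
    obtain ⟨t, rfl⟩ : u ∣ n := huw.dvd_of_dvd_mul_left (h8 ▸ dvd_mul_right u n')
    have h9 : n' = w * t := by
      refine Nat.eq_of_mul_eq_mul_left hu ?_
      rw [← h8]
      ring
    subst h9
    have ht : 1 ≤ t := Nat.pos_of_ne_zero fun h0 => by
      rw [h0] at a1
      omega
    have ht' : t ≤ u * t := Nat.le_mul_of_pos_left _ hu
    exact ⟨t, mem_Icc.2 ⟨ht, by omega⟩, mul_ne_zero h5 h6, rfl⟩
  · intro t _ _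
    have : (w : ℤ) * ((u * t + 1 : ℕ) : ℤ) - u * ((w * t + 1 : ℕ) : ℤ) - ((w : ℤ) - u) = 0 := by
      push_cast
      ring
    simp only [this, del, if_true, mul_one]

/-- only `t ≤ M / U` matter -/
theorem trunc (g φ : ℕ → ℝ) (M U : ℕ) (hg : ∀ N, g N ≠ 0 → 2 ≤ N ∧ N ≤ M) {u : ℕ} (hU : 1 ≤ U)
    (hu : U ≤ u) : ∑ t ∈ Icc 1 M, φ t * g (u * t + 1) = ∑ t ∈ Icc 1 (M / U), φ t * g (u * t + 1) := by
  refine (sum_subset (Icc_subset_Icc_right (Nat.div_le_self _ _)) fun t ht ht' => ?_).symm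
  by_contra hc
  have h1 := (hg _ (mul_ne_zero_iff.1 hc).2).2
  refine ht' (mem_Icc.2 ⟨(mem_Icc.1 ht).1, (Nat.le_div_iff_mul_le hU).2 ?_⟩)
  have := Nat.mul_le_mul_right t hu
  rw [mul_comm]
  omega

/-- pairs with a common prime -/
def ncop (G : Par) : Finset (G.Tup × G.Tup) :=
  (G.tup ×ˢ G.tup).filter fun x => ¬ ∀ j, x.1 j ≠ x.2 j

theorem card_ncop (h : G.WF) : (ncop G).card * G.Q ^ (30 * G.J) ≤ G.J * G.U ^ 2 := by
  have h1 : ncop G ⊆ univ.biUnion fun j : Fin G.J =>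
      G.tup.biUnion fun u => ({u} : Finset G.Tup) ×ˢ (G.tup.filter fun w => w j = u j) := by
    intro x hx
    obtain ⟨h1, h2⟩ := mem_filter.1 hx
    obtain ⟨h3, h4⟩ := mem_product.1 h1
    obtain ⟨j, hj⟩ := not_forall.1 h2
    exact mem_biUnion.2 ⟨j, mem_univ _, mem_biUnion.2 ⟨x.1, h3, mem_product.2
      ⟨mem_singleton_self _, mem_filter.2 ⟨h4, (not_not.1 hj).symm⟩⟩⟩⟩
  refine (Nat.mul_le_mul_right _ ((card_le_card h1).trans card_biUnion_le)).trans ?_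
  rw [sum_mul]
  refine (sum_le_card_nsmul _ _ (G.U ^ 2) fun j _ => ?_).trans ?_
  · refine (Nat.mul_le_mul_right _ card_biUnion_le).trans ?_
    rw [sum_mul]
    refine (sum_le_card_nsmul _ _ G.U fun u hu => ?_).trans ?_
    · rw [card_product, card_singleton, one_mul, tup,
        Fintype.card_filter_piFinset_eq_of_mem _ _ (Fintype.mem_piFinset.1 hu j), U,
        ← prod_erase_mul _ _ (mem_univ j)]
      exact Nat.mul_le_mul (prod_le_prod' fun i _ => h.card_S_le i) (h.P_ge j)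
    · rw [smul_eq_mul, sq]
      exact Nat.mul_le_mul_right _ h.card_tup_le
  · rw [card_univ, Fintype.card_fin, smul_eq_mul]

/-- a kernel supported in `(-h, h)` sees at most two terms of a progression of step `≥ h` -/
theorem sum_prog (k : ℤ → ℝ) {h u : ℕ} {m : ℝ} (hm : 0 ≤ m) (h1 : 1 ≤ h) (hu : h ≤ u)
    (hk : ∀ n : ℤ, (h : ℤ) ≤ |n| → k n = 0) (hk' : ∀ n, |k n| ≤ m) (T : Finset ℕ) (c d : ℤ) :
    ∑ N ∈ T, |k (c - u * N - d)| ≤ 2 * m := by
  classical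
  have hu0 : (0 : ℤ) < u := by exact_mod_cast (h1.trans hu)
  have hu1 : (h : ℤ) ≤ u := by exact_mod_cast hu
  rw [← sum_filter_ne_zero]
  refine (sum_le_card_nsmul _ _ m fun N _ => hk' _).trans ?_
  rw [nsmul_eq_mul]
  refine mul_le_mul_of_nonneg_right ?_ hm
  have h2 : (T.filter fun N : ℕ => |k (c - u * N - d)| ≠ 0).card ≤
      (Icc ((c - d) / u) ((c - d) / u + 1)).card := by
    refine card_le_card_of_injOn (fun N : ℕ => (N : ℤ)) (fun N hN => ?_)
      fun _ _ _ _ e => Int.ofNat.inj e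
    have h3 : |c - u * N - d| < h :=
      not_le.1 fun hc => (mem_filter.1 hN).2 (by rw [hk _ hc, abs_zero])
    obtain ⟨h4, h5⟩ := abs_lt.1 h3
    have h6 := Int.mul_ediv_add_emod (c - d) u
    have h7 := Int.emod_nonneg (c - d) hu0.ne'
    have h8 := Int.emod_lt_of_pos (c - d) hu0
    refine mem_coe.2 (mem_Icc.2 ⟨?_, ?_⟩)
    · refine Int.le_of_lt_add_one (lt_of_mul_lt_mul_left (a := (u : ℤ)) ?_ hu0.le)
      linarith
    · refine Int.le_of_lt_add_one (lt_of_mul_lt_mul_left (a := (u : ℤ)) ?_ hu0.le)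
      linarith
  rw [Int.card_Icc, show (c - d) / u + 1 + 1 - (c - d) / u = 2 by ring] at h2
  exact_mod_cast h2

theorem small (h : G.WF) {c : ℝ} (hc : c ≤ 8 * (G.Q : ℝ) ^ 7) :
    (ncop G).card * c ≤ (G.U : ℝ) ^ 2 / G.Q := by
  have hQ : (21 : ℝ) ≤ G.Q := by exact_mod_cast h.Q_ge
  have hJ : (G.J : ℝ) ≤ G.Q := by exact_mod_cast h.J_lt.le
  have h1 : ((ncop G).card : ℝ) * (G.Q : ℝ) ^ (30 * G.J) ≤ G.J * (G.U : ℝ) ^ 2 := by
    exact_mod_cast card_ncop h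
  have h2 : (G.Q : ℝ) ^ 10 ≤ (G.Q : ℝ) ^ (30 * G.J) :=
    pow_le_pow_right₀ (by linarith) (by have := h.J_ge; omega)
  have h3 : ((ncop G).card : ℝ) * (G.Q : ℝ) ^ 10 ≤ G.Q * (G.U : ℝ) ^ 2 :=
    (mul_le_mul_of_nonneg_left h2 (Nat.cast_nonneg _)).trans
      (h1.trans (mul_le_mul_of_nonneg_right hJ (by positivity)))
  rw [le_div_iff₀ (by linarith)]
  refine le_of_mul_le_mul_left (le_trans ?_ h3) (by linarith : (0 : ℝ) < G.Q)
  have h4 : G.Q * (c * G.Q) ≤ (G.Q : ℝ) ^ 10 := by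
    calc G.Q * (c * G.Q) ≤ G.Q * ((G.Q * (G.Q : ℝ) ^ 7) * G.Q) := by
          gcongr
          exact hc.trans (mul_le_mul_of_nonneg_right (by linarith) (by positivity))
      _ = _ := by ring
  calc G.Q * ((ncop G).card * c * G.Q) = (ncop G).card * (G.Q * (c * G.Q)) := by ring
    _ ≤ _ := mul_le_mul_of_nonneg_left h4 (Nat.cast_nonneg _)

theorem corr_ncop (hK : KerStmt) (h : G.WF) {α β : ℕ → ℝ} (hα : ∀ a, |α a| ≤ 1)
    (hβ : ∀ b, |β b| ≤ 1) :
    |G.corr (mu G.Q G.h) (ncop G) α β| ≤ (G.A * G.B) * G.U / G.Q := by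
  obtain ⟨b1, b2, b3, -⟩ := h.h_bounds
  obtain ⟨-, k1, k2, -⟩ := hK G.Q G.h (by have := h.Q_ge; omega) b1
  have hh : (0 : ℝ) < G.h := by exact_mod_cast b1
  have hU : (0 : ℝ) < G.U := by exact_mod_cast h.BA_U_pos
  have b4 : (G.U : ℝ) ≤ 2 * (G.Q : ℝ) ^ 3 * G.h := by exact_mod_cast b3
  rw [corr_eq h]
  refine (abs_sum_le_sum_abs _ _).trans ((sum_le_card_nsmul _ _
    (8 * (G.Q : ℝ) ^ 7 * (G.A * G.B / G.U)) fun x hx => ?_).trans ?_)
  · have hx1 : G.h ≤ G.pu x.1 := b2.trans (h.pu_bounds (mem_product.1 (mem_filter.1 hx).1).1).1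
    refine (abs_sum_le_sum_abs _ _).trans ((sum_le_card_nsmul _ _
      ((G.Q : ℝ) ^ 2 * (2 * ((G.Q : ℝ) ^ 2 / G.h))) fun N _ => ?_).trans ?_)
    · refine (abs_sum_le_sum_abs _ _).trans (le_trans ?_ (mul_le_mul_of_nonneg_left
        (sum_prog (mu G.Q G.h) (by positivity) b1 hx1 k1 k2 (Icc 1 (2 * G.A * G.B))
          ((G.pu x.2 : ℤ) * N) ((G.pu x.2 : ℤ) - G.pu x.1)) (by positivity)))
      rw [mul_sum]
      refine sum_le_sum fun N' _ => ?_
      rw [abs_mul, abs_mul, sq]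
      exact mul_le_mul_of_nonneg_right (mul_le_mul (h.gg_le hα hβ _).1 (h.gg_le hα hβ _).1
        (abs_nonneg _) (Nat.cast_nonneg _)) (abs_nonneg _)
    · rw [Nat.card_Icc, Nat.add_sub_cancel, nsmul_eq_mul]
      push_cast
      have e1 : 2 * (G.A : ℝ) * G.B * ((G.Q : ℝ) ^ 2 * (2 * ((G.Q : ℝ) ^ 2 / G.h))) =
          4 * (G.A * G.B) * (G.Q : ℝ) ^ 4 * (1 / G.h) := by ring
      have e2 : 8 * (G.Q : ℝ) ^ 7 * (G.A * G.B / G.U) =
          4 * (G.A * G.B) * (G.Q : ℝ) ^ 4 * (2 * (G.Q : ℝ) ^ 3 / G.U) := by ring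
      rw [e1, e2]
      refine mul_le_mul_of_nonneg_left ?_ (by positivity)
      rw [div_le_div_iff₀ hh hU, one_mul]
      exact b4
  · rw [nsmul_eq_mul, ← mul_assoc]
    refine (mul_le_mul_of_nonneg_right (small h le_rfl) (by positivity)).trans (le_of_eq ?_)
    field_simp

theorem diag_ncop (h : G.WF) {α β : ℕ → ℝ} (hα : ∀ a, |α a| ≤ 1) (hβ : ∀ b, |β b| ≤ 1) :
    ∑ x ∈ ncop G, ∑ t ∈ Icc 1 (2 * G.A * G.B),
      G.gg α β (G.pu x.1 * t + 1) * G.gg α β (G.pu x.2 * t + 1) ≤ (G.A * G.B) * G.U / G.Q := by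
  have hU : (0 : ℝ) < G.U := by exact_mod_cast h.BA_U_pos
  have hQ : (21 : ℝ) ≤ G.Q := by exact_mod_cast h.Q_ge
  refine (sum_le_card_nsmul _ _ (2 * (G.Q : ℝ) ^ 2 * (G.A * G.B / G.U)) fun x hx => ?_).trans ?_
  · rw [trunc _ _ _ G.U (fun N => (h.gg_le hα hβ N).2) h.BA_U_pos
      (h.pu_bounds (mem_product.1 (mem_filter.1 hx).1).2).1]
    refine (sum_le_card_nsmul _ _ ((G.Q : ℝ) ^ 2) fun t _ => ?_).trans ?_
    · refine (le_abs_self _).trans ?_
      rw [abs_mul, sq]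
      exact mul_le_mul (h.gg_le hα hβ _).1 (h.gg_le hα hβ _).1 (abs_nonneg _) (Nat.cast_nonneg _)
    · rw [Nat.card_Icc, Nat.add_sub_cancel, nsmul_eq_mul]
      refine (mul_le_mul_of_nonneg_right Nat.cast_div_le (by positivity)).trans (le_of_eq ?_)
      push_cast
      ring
  · rw [nsmul_eq_mul, ← mul_assoc]
    refine (mul_le_mul_of_nonneg_right (small h ?_) (by positivity)).trans (le_of_eq ?_)
    · have : (G.Q : ℝ) ^ 2 ≤ (G.Q : ℝ) ^ 7 := pow_le_pow_right₀ (by linarith) (by norm_num)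
      have h0 : 0 ≤ (G.Q : ℝ) ^ 7 := by positivity
      linarith
    · field_simp

theorem FF_eq (h : G.WF) {α β : ℕ → ℝ} (hα : ∀ a, |α a| ≤ 1) (hβ : ∀ b, |β b| ≤ 1) :
    ∑ t ∈ Icc 1 (2 * G.A * G.B), (∑ u ∈ G.tup, G.gg α β (G.pu u * t + 1)) ^ 2 =
      G.corr (ker G.Q G.h) G.cop α β + (G.corr (mu G.Q G.h) (G.tup ×ˢ G.tup) α β -
        G.corr (mu G.Q G.h) (ncop G) α β) + ∑ x ∈ ncop G, ∑ t ∈ Icc 1 (2 * G.A * G.B),
          G.gg α β (G.pu x.1 * t + 1) * G.gg α β (G.pu x.2 * t + 1) := by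
  have e1 : G.corr (mu G.Q G.h) (G.tup ×ˢ G.tup) α β - G.corr (mu G.Q G.h) (ncop G) α β =
      G.corr (mu G.Q G.h) G.cop α β := by
    rw [sub_eq_iff_eq_add]
    exact (sum_filter_add_sum_filter_not _ _ _).symm
  have e2 : G.corr (ker G.Q G.h) G.cop α β + G.corr (mu G.Q G.h) G.cop α β =
      ∑ x ∈ G.cop, ∑ t ∈ Icc 1 (2 * G.A * G.B),
        G.gg α β (G.pu x.1 * t + 1) * G.gg α β (G.pu x.2 * t + 1) := by
    rw [corr_eq h, corr_eq h, ← sum_add_distrib]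
    refine sum_congr rfl fun x hx => ?_
    rw [diag_eq _ _ (fun N => (h.gg_le hα hβ N).2) (h.BA_U_pos.trans_le
      (h.pu_bounds (mem_product.1 (mem_filter.1 hx).1).1).1) (h.pu_coprime hx), ← sum_add_distrib]
    refine sum_congr rfl fun N _ => ?_
    rw [← sum_add_distrib]
    refine sum_congr rfl fun N' _ => ?_
    rw [ker]
    ring
  rw [e1, e2, cop, ncop, sum_filter_add_sum_filter_not, sum_comm]
  refine sum_congr rfl fun t _ => ?_
  rw [sq, sum_mul_sum, sum_product]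

end CellAux

open CellAux in
theorem cell : KerStmt → MinorStmt → MajorStmt → CellStmt := by
  rintro hK ⟨C₁, hC₁, h₁⟩ ⟨C₂, hC₂, h₂⟩
  have hC : 1 ≤ C₁ * C₂ := one_le_mul_of_one_le_of_one_le hC₁ hC₂
  refine ⟨2 * (C₁ * C₂), by linarith, fun G h α β F hc hF => ?_⟩
  have hα := hc.α_le
  have hβ := hc.β_le
  have hU : (0 : ℝ) < G.U := by exact_mod_cast h.BA_U_pos
  have hQ : (21 : ℝ) ≤ G.Q := by exact_mod_cast h.Q_ge
  have hs : 0 < √(G.Q : ℝ) := Real.sqrt_pos.2 (by linarith)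
  have hsQ : √(G.Q : ℝ) ≤ G.Q := by
    rw [Real.sqrt_le_left (by linarith)]
    nlinarith
  set X : ℝ := (G.A * G.B) * G.U / √(G.Q : ℝ) with hX
  have hX0 : 0 ≤ X := by positivity
  have hX1 : (G.A * G.B) * G.U / (G.Q : ℝ) ≤ X := div_le_div_of_nonneg_left (by positivity) hs hsQ
  have a1 : 1 ≤ C₁ ^ G.J := one_le_pow₀ hC₁
  have a2 : 1 ≤ C₂ ^ G.J := one_le_pow₀ hC₂
  set D : ℝ := C₁ ^ G.J * C₂ ^ G.J with hD
  have d1 : C₁ ^ G.J ≤ D := le_mul_of_one_le_right (by linarith) a2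
  have d2 : C₂ ^ G.J ≤ D := le_mul_of_one_le_left (by linarith) a1
  have hFF : ∑ t ∈ Icc 1 (2 * G.A * G.B), (∑ u ∈ G.tup, G.gg α β (G.pu u * t + 1)) ^ 2 ≤
      4 * D * X := by
    rw [FF_eq h hα hβ]
    have b1 := (le_abs_self _).trans (h₁ G h α β hα hβ)
    have b2 := (le_abs_self _).trans (h₂ G h α β hc)
    have b3 := (neg_le_abs _).trans ((corr_ncop hK h hα hβ).trans hX1)
    have b4 := (diag_ncop h hα hβ).trans hX1
    rw [mul_assoc, mul_div_assoc] at b1 b2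
    have b5 := b1.trans (mul_le_mul_of_nonneg_right d1 hX0)
    have b6 := b2.trans (mul_le_mul d2 hX1 (by positivity) (by linarith))
    have b7 : X ≤ D * X := le_mul_of_one_le_left hX0 (a1.trans d1)
    linarith
  have e : ∑ u ∈ G.tup, ∑ t ∈ Icc 1 (2 * G.A * G.B), F t * G.gg α β (G.pu u * t + 1) =
      ∑ t ∈ Icc 1 (2 * G.A * G.B / G.U), F t * ∑ u ∈ G.tup, G.gg α β (G.pu u * t + 1) := by
    rw [sum_congr rfl fun u hu => trunc _ F _ G.U (fun N => (h.gg_le hα hβ N).2) h.BA_U_pos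
      (h.pu_bounds hu).1, sum_comm]
    simp only [mul_sum]
  rw [e]
  refine abs_le_of_sq_le_sq' ?_ (by positivity) |> abs_le.2
  refine (sum_mul_sq_le_sq_mul_sq _ _ _).trans ?_
  have c1 : ∑ t ∈ Icc 1 (2 * G.A * G.B / G.U), F t ^ 2 ≤ 2 * (G.A * G.B) / G.U := by
    refine (sum_le_card_nsmul _ _ 1 fun t _ => ?_).trans ?_
    · rw [← sq_abs]
      exact pow_le_one₀ (abs_nonneg _) (hF t)
    · rw [Nat.card_Icc, Nat.add_sub_cancel, nsmul_eq_mul, mul_one]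
      refine Nat.cast_div_le.trans (le_of_eq ?_)
      push_cast
      ring
  have c2 := (sum_le_sum_of_subset_of_nonneg (Icc_subset_Icc_right
    (Nat.div_le_self (2 * G.A * G.B) G.U)) fun t _ _ => sq_nonneg _).trans hFF
  refine (mul_le_mul c1 c2 (sum_nonneg fun t _ => sq_nonneg _) (by positivity)).trans ?_
  have c3 : 8 * D ≤ ((2 * (C₁ * C₂)) ^ G.J) ^ 2 := by
    have e1 : (2 * (C₁ * C₂)) ^ G.J = 2 ^ G.J * D := by rw [mul_pow, mul_pow]
    have e2 : (2 : ℝ) ^ 3 ≤ 2 ^ G.J := pow_le_pow_right₀ (by norm_num) (by have := h.J_ge; omega)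
    have e3 : 8 * D ≤ 2 ^ G.J * D := mul_le_mul_of_nonneg_right (by linarith) (by linarith)
    rw [e1]
    exact e3.trans (le_self_pow₀ (by linarith) two_ne_zero)
  rw [div_pow, Real.sq_sqrt hs.le, mul_pow]
  calc 2 * ((G.A : ℝ) * G.B) / G.U * (4 * D * X) = 8 * D * ((G.A : ℝ) * G.B) ^ 2 / √(G.Q : ℝ) := by
        rw [hX]
        field_simp
        ring
    _ ≤ _ := by gcongr

end Crest.Agent.R26
end

-- ▼ part PVc/R26/Grp
section

/-! Row 26: the groups. -/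

set_option autoImplicit false

namespace Crest.Agent.R26

open Finset Filter
open Crest.Agent.R5 (pr pd ee nit)

namespace GrpA

theorem dyadic {P : ℕ → Prop} [DecidablePred P] {c : ℝ} (hc : 0 < c) {a : ℕ} (ha : 1 ≤ a)
    (h : ∀ n, a ≤ n → c * (2 ^ n : ℕ) / Real.log (2 ^ n : ℕ) ≤
      ((Ioc (2 ^ n) (2 * 2 ^ n)).filter P).card) {b : ℕ} (hb : a ≤ b) :
    c / 2 * (Real.log b - Real.log a) ≤ ∑ p ∈ (Ioc (2 ^ a) (2 ^ b)).filter P, 1 / (p : ℝ) := by
  induction b, hb using Nat.le_induction with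
  | base => simp
  | succ b hb ih =>
    have h1 : 2 ^ a ≤ 2 ^ b := Nat.pow_le_pow_right two_pos hb
    have hb0 : (0 : ℝ) < b := by exact_mod_cast (by omega : 0 < b)
    rw [pow_succ', ← Ioc_union_Ioc_eq_Ioc h1 (by omega), filter_union,
      sum_union (disjoint_filter_filter (Ioc_disjoint_Ioc_of_le le_rfl))]
    have h2 : (((Ioc (2 ^ b) (2 * 2 ^ b)).filter P).card : ℝ) * (1 / (2 * 2 ^ b)) ≤
        ∑ p ∈ (Ioc (2 ^ b) (2 * 2 ^ b)).filter P, 1 / (p : ℝ) := by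
      rw [← nsmul_eq_mul]
      refine card_nsmul_le_sum _ _ _ fun p hp => ?_
      obtain ⟨h3, h4⟩ := mem_Ioc.1 (mem_filter.1 hp).1
      exact one_div_le_one_div_of_le (by exact_mod_cast (by omega : 0 < p)) (by exact_mod_cast h4)
    have h3 := h b hb
    rw [Nat.cast_pow, Real.log_pow, Nat.cast_ofNat] at h3
    have hl : 0 < Real.log 2 := Real.log_pos one_lt_two
    have hl1 : Real.log 2 ≤ 1 := by
      have := Real.log_le_sub_one_of_pos (two_pos (α := ℝ)); linarith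
    have h4 : Real.log (b + 1 : ℕ) - Real.log b ≤ 1 / b := by
      rw [← Real.log_div (by positivity) hb0.ne']
      refine (Real.log_le_sub_one_of_pos (by positivity)).trans (le_of_eq ?_)
      push_cast; field_simp; ring
    have h5 : c / 2 * (1 / b) ≤ c * 2 ^ b / (b * Real.log 2) * (1 / (2 * 2 ^ b)) := by
      rw [show c * 2 ^ b / (b * Real.log 2) * (1 / (2 * 2 ^ b)) = c / 2 * (1 / (b * Real.log 2)) by
        field_simp]
      gcongr
      exact mul_le_of_le_one_right hb0.le hl1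
    have h6 := mul_le_mul_of_nonneg_right h3 (show (0 : ℝ) ≤ 1 / (2 * 2 ^ b) by positivity)
    have h7 := mul_le_mul_of_nonneg_left h4 (show 0 ≤ c / 2 by positivity)
    linarith

theorem ev_pow : ∀ᶠ y : ℝ in atTop, y ^ 25600 ≤ Real.exp (y / 2) := by
  have h := (Real.isLittleO_pow_exp_atTop (n := 25600)).bound
    (show (0 : ℝ) < 1 / 2 ^ 25600 by positivity)
  filter_upwards [(tendsto_id.atTop_div_const two_pos).eventually h, eventually_ge_atTop 0]
    with y hy h0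
  rw [id, Real.norm_of_nonneg (by positivity), Real.norm_of_nonneg (Real.exp_pos _).le, div_pow,
    one_div_mul_eq_div] at hy
  exact (div_le_div_iff_of_pos_right (by positivity)).1 hy

theorem lo_eq {x : ℕ} (h : 0 ≤ Real.log x) (j : Fin 400) :
    lo x j = ⌈(Real.log x ^ (1 / 12800 : ℝ)) ^ (2 * (j : ℕ) + 1)⌉₊ := by
  rw [lo, ← Real.rpow_mul_natCast h]
  congr 2; push_cast; ring

theorem hi_eq {x : ℕ} (h : 0 ≤ Real.log x) (j : Fin 400) :
    hi x j = ⌊(Real.log x ^ (1 / 12800 : ℝ)) ^ (2 * (j : ℕ) + 2)⌋₊ := by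
  rw [hi, ← Real.rpow_mul_natCast h]
  congr 2; push_cast; ring

end GrpA

theorem grpOK : PrimeLowStmt → GrpStmt := by
  intro H m K hm
  obtain ⟨c, hc, hP⟩ := H m hm
  obtain ⟨y₀, hy₀⟩ := eventually_atTop.1 hP
  have ht : Tendsto (fun x : ℕ => Real.log x ^ (1 / 12800 : ℝ)) atTop atTop :=
    (tendsto_rpow_atTop (by norm_num)).comp (Real.tendsto_log_atTop.comp tendsto_natCast_atTop_atTop)
  filter_upwards [ht.eventually GrpA.ev_pow, ht.eventually_ge_atTop 4,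
    ht.eventually_ge_atTop y₀, ht.eventually_ge_atTop (4 * Real.exp (2 * K / c))]
    with x h1 h2 h3 h4
  have h0 : 0 ≤ Real.log x := Real.log_natCast_nonneg x
  have hlo := GrpA.lo_eq h0
  have hhi := GrpA.hi_eq h0
  have hL : Real.log x = (Real.log x ^ (1 / 12800 : ℝ)) ^ 12800 := by
    rw [← Real.rpow_mul_natCast h0]; norm_num
  set y := Real.log x ^ (1 / 12800 : ℝ)
  have hy1 : 1 ≤ y := by linarith
  have l1 : ∀ j : Fin 400, y ^ (2 * (j : ℕ) + 1) ≤ lo x j := fun j => by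
    rw [hlo]; exact Nat.le_ceil _
  have l2 : ∀ j : Fin 400, y ≤ lo x j := fun j =>
    (le_self_pow₀ hy1 (by omega)).trans (l1 j)
  have l3 : ∀ j : Fin 400, (hi x j : ℝ) ≤ y ^ (2 * (j : ℕ) + 2) := fun j => by
    rw [hhi]; exact Nat.floor_le (by positivity)
  refine ⟨fun j p hp => ?_, fun i j hij => ?_, fun j => ?_⟩
  · obtain ⟨hp1, hp2, hp3⟩ := mem_filter.1 hp
    obtain ⟨hp4, hp5⟩ := mem_Ioc.1 hp1
    refine ⟨hp2, hp3, ?_, ?_⟩
    · calc Real.log x ^ 2 = y ^ 25600 := by rw [hL, ← pow_mul]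
        _ ≤ Real.exp (y / 2) := h1
        _ ≤ Real.exp (lo x j * Real.log 2) := by
            have := Real.log_two_gt_d9
            have := l2 j
            exact Real.exp_le_exp.2 (by nlinarith)
        _ = (2 ^ lo x j : ℕ) := by
            rw [Real.exp_nat_mul, Real.exp_log two_pos]; push_cast; rfl
        _ ≤ p := by exact_mod_cast hp4.le
    · calc (p : ℝ) ≤ 2 ^ hi x j := by exact_mod_cast hp5
        _ ≤ Real.exp 1 ^ hi x j := by
            have := Real.exp_one_gt_d9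
            gcongr; linarith
        _ = Real.exp (hi x j) := Real.exp_one_pow _
        _ ≤ _ := by
            refine Real.exp_le_exp.2 ((l3 j).trans (Real.le_sqrt_of_sq_le ?_))
            rw [hL, ← pow_mul]
            exact pow_le_pow_right₀ hy1 (by omega)
  · have key : ∀ i j : Fin 400, i < j → Disjoint (grp m x i) (grp m x j) := fun i j h => by
      have h5 : (hi x i : ℝ) ≤ lo x j :=
        (l3 i).trans ((pow_le_pow_right₀ hy1 (by have := Fin.lt_def.1 h; omega)).trans (l1 j))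
      exact disjoint_filter_filter (Ioc_disjoint_Ioc_of_le
        (Nat.pow_le_pow_right two_pos (by exact_mod_cast h5)))
    rcases lt_or_gt_of_ne hij with h | h
    · exact key i j h
    · exact (key j i h).symm
  · have hw : 1 ≤ y ^ (2 * (j : ℕ) + 1) := one_le_pow₀ hy1
    have l4 : (lo x j : ℝ) ≤ 2 * y ^ (2 * (j : ℕ) + 1) := by
      rw [hlo]
      have := Nat.ceil_lt_add_one (show 0 ≤ y ^ (2 * (j : ℕ) + 1) by positivity)
      linarith
    have l5 : y * y ^ (2 * (j : ℕ) + 1) ≤ 2 * hi x j := by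
      rw [hhi, pow_succ' y (2 * (j : ℕ) + 1)]
      have := Nat.lt_floor_add_one (y * y ^ (2 * (j : ℕ) + 1))
      nlinarith
    have l6 : y / 4 * lo x j ≤ hi x j := by nlinarith
    have hl0 : (0 : ℝ) < lo x j := by linarith [l2 j]
    have l7 : (lo x j : ℝ) ≤ hi x j := by nlinarith
    refine le_trans ?_ (GrpA.dyadic hc (by exact_mod_cast hy1.trans (l2 j)) (fun n hn => hy₀ _ ?_)
      (by exact_mod_cast l7))
    · rw [← Real.log_div (by linarith) hl0.ne']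
      have : 2 * K / c ≤ Real.log (hi x j / lo x j) := by
        rw [Real.le_log_iff_exp_le (by apply div_pos <;> linarith), le_div_iff₀ hl0]
        nlinarith
      rw [div_le_iff₀ hc] at this
      linarith
    · have : y₀ ≤ lo x j := by exact_mod_cast h3.trans (l2 j)
      exact (this.trans hn).trans Nat.lt_two_pow_self.le

end Crest.Agent.R26
end

-- ▼ part PVc/R26/Param

/-! Row 26: the choice of the parameters. -/

set_option autoImplicit false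

namespace Crest.Agent.R26

open Finset Filter
open Crest.Agent.R5 (pr pd ee nit)

namespace ParamA

open Classical in
theorem rough_div (w m : ℕ) : ∀ N : ℕ, 1 ≤ N → N < (w + 1) ^ (m + 1) →
    (N.divisors.filter (rough w)).card ≤ 2 ^ m := by
  have base : ∀ N : ℕ, (¬ ∃ p : ℕ, p.Prime ∧ p ∣ N ∧ w < p) →
      (N.divisors.filter (rough w)).card ≤ 1 := by
    intro N hN
    refine (card_le_card (t := {1}) fun a ha => ?_).trans (by simp)
    obtain ⟨h1, h2⟩ := mem_filter.1 ha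
    rw [mem_singleton]
    by_contra h
    obtain ⟨p, hp, hpa⟩ := Nat.exists_prime_and_dvd h
    exact hN ⟨p, hp, hpa.trans (Nat.dvd_of_mem_divisors h1), h2 p hp hpa⟩
  induction m with
  | zero =>
    intro N h1 h2
    refine base N ?_
    rintro ⟨p, -, hp, hw⟩
    have := Nat.le_of_dvd h1 hp
    simp at h2; omega
  | succ m ih =>
    intro N h1 h2
    by_cases h : ∃ p : ℕ, p.Prime ∧ p ∣ N ∧ w < p
    · obtain ⟨p, hp, ⟨N', rfl⟩, hw⟩ := h
      have N0 : 1 ≤ N' := Nat.pos_of_mul_pos_left h1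
      have hN' : N' < (w + 1) ^ (m + 1) := by
        rw [pow_succ'] at h2
        exact lt_of_mul_lt_mul_left ((Nat.mul_le_mul_right N' hw).trans_lt h2) (Nat.zero_le _)
      have := ih N' N0 hN'
      have hs : (p * N').divisors.filter (rough w) ⊆ N'.divisors.filter (rough w) ∪
          (N'.divisors.filter (rough w)).image (fun a => p * a) := by
        intro a ha
        obtain ⟨a1, a2⟩ := mem_filter.1 ha
        have a3 := Nat.dvd_of_mem_divisors a1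
        by_cases hpa : p ∣ a
        · obtain ⟨a', rfl⟩ := hpa
          refine mem_union_right _ (mem_image.2 ⟨a', mem_filter.2 ⟨Nat.mem_divisors.2
            ⟨Nat.dvd_of_mul_dvd_mul_left hp.pos a3, by omega⟩, fun q hq hd =>
              a2 q hq (hd.mul_left p)⟩, rfl⟩)
        · exact mem_union_left _ (mem_filter.2 ⟨Nat.mem_divisors.2
            ⟨((Nat.Prime.coprime_iff_not_dvd hp).2 hpa).symm.dvd_of_dvd_mul_left a3, by omega⟩, a2⟩)
      have h3 := (card_le_card hs).trans (card_union_le _ _)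
      have h4 := card_image_le (s := N'.divisors.filter (rough w)) (f := fun a => p * a)
      rw [pow_succ]; omega
    · exact (base N h).trans Nat.one_le_two_pow

theorem ev_exp (N : ℕ) {c : ℝ} (hc : 0 < c) : ∀ᶠ y : ℝ in atTop, y ^ N ≤ Real.exp (c * y) := by
  have h := (isLittleO_pow_exp_pos_mul_atTop N hc).bound one_pos
  filter_upwards [h, eventually_ge_atTop 0] with y hy h0
  rwa [Real.norm_of_nonneg (by positivity), Real.norm_of_nonneg (Real.exp_pos _).le, one_mul] at hy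

theorem two_pow_le (n : ℕ) : (2 : ℝ) ^ n ≤ Real.exp n := by
  rw [← Real.exp_one_pow]
  exact pow_le_pow_left₀ (by norm_num) (by linarith [Real.exp_one_gt_d9]) n

theorem exp_le_two_pow {a : ℝ} {n : ℕ} (h : 2 * a ≤ n) : Real.exp a ≤ (2 : ℝ) ^ n := by
  rw [← Real.exp_log (show (0 : ℝ) < 2 by norm_num), ← Real.exp_nat_mul]
  refine Real.exp_le_exp.2 ?_
  have := Real.log_two_gt_d9
  have h0 : (0 : ℝ) ≤ n := by positivity
  nlinarith

theorem ceil_le {a : ℝ} (h : 1 ≤ a) : (⌈a⌉₊ : ℝ) ≤ 2 * a := by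
  have := Nat.ceil_lt_add_one (show 0 ≤ a by linarith)
  linarith

theorem prod_two (s : Finset (Fin 400)) (i : Fin 400 → ℕ) :
    ∏ j ∈ s, 2 * 2 ^ i j = 2 ^ ∑ j ∈ s, (i j + 1) := by
  rw [← prod_pow_eq_pow_sum]
  exact prod_congr rfl fun j _ => by rw [pow_succ']

theorem sum_classes {C δ : ℝ} (hT : ∀ (r b P : ℕ) (t : ℝ), 1 ≤ r → r ≤ P → t ≠ 0 →
    ‖∑ p ∈ (Ioc P (2 * P)).filter (fun p => p.Prime ∧ p ≡ b [MOD r]), nit p t‖ ≤
      C * (P / |t| + (P : ℝ) ^ (1 - δ) * Real.log (r * (|t| + 2)))) (hC : 0 ≤ C)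
    {m q b P : ℕ} {t : ℝ} (hm : 1 ≤ m) (hq : 1 ≤ q) (hP : m * q ≤ P) (ht : t ≠ 0) :
    ‖∑ p ∈ ((Ioc P (2 * P)).filter fun p => p.Prime ∧ p ≡ 1 [MOD m]).filter
      (fun p => p ≡ b [MOD q]), nit p t‖ ≤
      C * (P / |t| + (P : ℝ) ^ (1 - δ) * Real.log ((m * q : ℕ) * (|t| + 2))) := by
  have l1 : 1 ≤ Nat.lcm m q := Nat.lcm_pos hm hq
  have l2 : Nat.lcm m q ≤ m * q := Nat.lcm_le_mul hm hq
  have l1' : (1 : ℝ) ≤ Nat.lcm m q := by exact_mod_cast l1
  have l2' : (Nat.lcm m q : ℝ) ≤ (m * q : ℕ) := by exact_mod_cast l2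
  have t0 := abs_nonneg t
  rcases (((Ioc P (2 * P)).filter fun p => p.Prime ∧ p ≡ 1 [MOD m]).filter
      (fun p => p ≡ b [MOD q])).eq_empty_or_nonempty with h | ⟨p₀, h⟩
  · rw [h, sum_empty, norm_zero]
    have : 0 ≤ Real.log ((m * q : ℕ) * (|t| + 2)) := Real.log_nonneg (by nlinarith)
    positivity
  · obtain ⟨h1, h2⟩ := mem_filter.1 h
    obtain ⟨-, -, h3⟩ := mem_filter.1 h1
    have e : ((Ioc P (2 * P)).filter fun p => p.Prime ∧ p ≡ 1 [MOD m]).filter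
        (fun p => p ≡ b [MOD q]) =
        (Ioc P (2 * P)).filter (fun p => p.Prime ∧ p ≡ p₀ [MOD Nat.lcm m q]) := by
      rw [filter_filter]
      refine filter_congr fun p _ => ?_
      constructor
      · rintro ⟨⟨a, b⟩, c⟩
        refine ⟨a, ?_⟩
        have b' := Nat.modEq_iff_dvd.1 (b.trans h3.symm)
        have c' := Nat.modEq_iff_dvd.1 (c.trans h2.symm)
        refine Nat.modEq_iff_dvd.2 ?_
        rw [Int.natCast_dvd] at b' c' ⊢
        exact Nat.lcm_dvd b' c'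
      · rintro ⟨a, b⟩
        exact ⟨⟨a, (b.of_dvd (Nat.dvd_lcm_left m q)).trans h3⟩,
          (b.of_dvd (Nat.dvd_lcm_right m q)).trans h2⟩
    rw [e]
    refine (hT _ p₀ P t l1 (l2.trans hP) ht).trans ?_
    gcongr

theorem mono {y : ℝ} (hy : 1 ≤ y) {a b : ℕ} (h : a ≤ b) : y ^ a ≤ y ^ b := pow_le_pow_right₀ hy h

theorem cmul {y c : ℝ} (hy : 1 ≤ y) (hc : c ≤ y) {a b : ℕ} (h : a + 1 ≤ b) : c * y ^ a ≤ y ^ b := by
  refine le_trans ?_ (mono hy h)
  rw [pow_succ']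
  exact mul_le_mul_of_nonneg_right hc (by positivity)

theorem sepP {y : ℝ} {Q t : ℕ} (i : Fin 400 → ℕ) (hy : 10 ^ 7 ≤ y) (hQ : 1 ≤ Q) (hQt : Q ≤ 2 ^ t)
    (ht : (t : ℝ) ≤ y / 10 ^ 6) (hlo : ∀ j : Fin 400, y ^ (2 * (j : ℕ) + 1) ≤ i j)
    (hhi : ∀ j : Fin 400, (i j : ℝ) + 1 ≤ y ^ (2 * (j : ℕ) + 2)) (j : Fin 400) :
    Q ^ 4000 * (Q ^ 4000 * ∏ j' ∈ univ.filter (fun j' => j' < j), 2 * 2 ^ i j' + 1) ^ 2 ≤ 2 ^ i j := by
  have y1 : 1 ≤ y := by linarith
  rw [prod_two]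
  set s := ∑ j' ∈ univ.filter (fun j' => j' < j), (i j' + 1) with hs
  have h1 : (s : ℝ) ≤ 400 * y ^ (2 * (j : ℕ)) := by
    rw [hs]
    push_cast
    refine (sum_le_card_nsmul _ _ (y ^ (2 * (j : ℕ))) fun j' hj' => ?_).trans ?_
    · have : (j' : ℕ) < j := (mem_filter.1 hj').2
      exact (hhi j').trans (mono y1 (by omega))
    · rw [nsmul_eq_mul]
      have : ((univ.filter (fun j' => j' < j)).card : ℝ) ≤ 400 := by
        have := card_filter_le univ (fun j' => j' < j)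
        rw [card_univ, Fintype.card_fin] at this
        exact_mod_cast this
      gcongr
  have h2 : Q ^ 4000 ≤ 2 ^ (t * 4000) := by rw [pow_mul]; exact Nat.pow_le_pow_left hQt _
  have h3 : Q ^ 4000 * 2 ^ s + 1 ≤ 2 ^ (t * 4000 + s + 1) := by
    have : 0 < Q ^ 4000 * 2 ^ s := by positivity
    have h4 : Q ^ 4000 * 2 ^ s ≤ 2 ^ (t * 4000 + s) := by
      rw [pow_add]; exact Nat.mul_le_mul_right _ h2
    rw [pow_succ 2]; omega
  refine (Nat.mul_le_mul h2 (Nat.pow_le_pow_left h3 2)).trans ?_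
  rw [← pow_mul, ← pow_add]
  refine Nat.pow_le_pow_right (by norm_num) ?_
  have h5 := hlo j
  have h6 : 1 ≤ y ^ (2 * (j : ℕ)) := one_le_pow₀ y1
  rw [pow_succ] at h5
  have : ((t * 4000 + (t * 4000 + s + 1) * 2 : ℕ) : ℝ) ≤ i j := by
    push_cast
    nlinarith
  exact_mod_cast this

end ParamA

open ParamA in
theorem param : PrimeTStmt → PrimeLowStmt → ParamStmt := by
  classical
  rintro ⟨δ', C, hδ', hC, hT⟩ H m η δ hm hη hη1 hδ
  obtain ⟨c, hc, hP⟩ := H m hm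
  obtain ⟨y₀, hy₀⟩ := eventually_atTop.1 hP
  have hten : Tendsto (fun x : ℕ => Real.log x ^ (1 / 12800 : ℝ)) atTop atTop :=
    (tendsto_rpow_atTop (by norm_num)).comp (Real.tendsto_log_atTop.comp tendsto_natCast_atTop_atTop)
  filter_upwards [hten.eventually (ev_exp 2508801 (show (0 : ℝ) < 1 / (4 * 10 ^ 6) by norm_num)),
    hten.eventually (ev_exp 2508801 (show (0 : ℝ) < δ' / 1604 by positivity)),
    hten.eventually_ge_atTop (10 ^ 7), hten.eventually_ge_atTop (4 / c),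
    hten.eventually_ge_atTop y₀, hten.eventually_ge_atTop m, hten.eventually_ge_atTop (2 * C),
    hten.eventually_ge_atTop (1604 / δ), hten.eventually_ge_atTop (1600 / η),
    hten.eventually_ge_atTop (2 ^ ⌈3 / η⌉₊), eventually_ge_atTop 4]
    with x e1 e2 hy hyc hyy hym hyC hyδ hyη hy2 hx4 i A As hi hzA hAx hAs
  have x0 : (0 : ℝ) < x := by exact_mod_cast (by omega : 0 < x)
  have x4 : (4 : ℝ) ≤ x := by exact_mod_cast hx4
  have L0 : 0 ≤ Real.log x := Real.log_natCast_nonneg x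
  have elo := fun j => GrpA.lo_eq L0 j
  have ehi := fun j => GrpA.hi_eq L0 j
  have eL : Real.log x = (Real.log x ^ (1 / 12800 : ℝ)) ^ 12800 := by
    rw [← Real.rpow_mul_natCast L0]; norm_num
  have ek : Real.log x ^ (5 / 8 : ℝ) = (Real.log x ^ (1 / 12800 : ℝ)) ^ 8000 := by
    rw [← Real.rpow_mul_natCast L0]; norm_num
  generalize Real.log x ^ (1 / 12800 : ℝ) = y at *
  have y1 : 1 ≤ y := by linarith
  have y0 : 0 < y := by linarith
  have eQ : Real.log x ^ 196 = y ^ 2508800 := by rw [eL, ← pow_mul]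
  have ez : √(Real.log x) = y ^ 6400 := by
    rw [eL, show 12800 = 6400 * 2 from rfl, pow_mul, Real.sqrt_sq (by positivity)]
  have ex : (x : ℝ) = Real.exp (y ^ 12800) := by rw [← eL, Real.exp_log x0]
  obtain ⟨Q, hQ⟩ : ∃ Q, Q = ⌈Real.log x ^ 196⌉₊ := ⟨_, rfl⟩
  obtain ⟨z, hz⟩ : ∃ z, z = ⌈√(Real.log x)⌉₊ := ⟨_, rfl⟩
  obtain ⟨k, hk⟩ : ∃ k, k = ⌈Real.log x ^ (5 / 8 : ℝ)⌉₊ := ⟨_, rfl⟩
  have Q1 : y ^ 2508800 ≤ Q := by rw [hQ, eQ]; exact Nat.le_ceil _
  have Q2 : (Q : ℝ) ≤ 2 * y ^ 2508800 := by rw [hQ, eQ]; exact ceil_le (one_le_pow₀ y1)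
  have Q3 : (Q : ℝ) ≤ y ^ 2508801 := Q2.trans (cmul y1 (by linarith) le_rfl)
  have z1 : y ^ 6400 ≤ z := by rw [hz, ez]; exact Nat.le_ceil _
  have z2 : (z : ℝ) ≤ 2 * y ^ 6400 := by rw [hz, ez]; exact ceil_le (one_le_pow₀ y1)
  have k1 : y ^ 8000 ≤ k := by rw [hk, ek]; exact Nat.le_ceil _
  have k2 : (k : ℝ) ≤ 2 * y ^ 8000 := by rw [hk, ek]; exact ceil_le (one_le_pow₀ y1)
  have yQ : y ≤ Q := (le_self_pow₀ y1 (by norm_num)).trans Q1
  have Qr : (1 : ℝ) ≤ Q := y1.trans yQ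
  have Qn : 1 ≤ Q := by exact_mod_cast Qr
  have zQ : z ≤ Q := by
    have : (z : ℝ) ≤ Q := z2.trans ((cmul y1 (by linarith) (by norm_num)).trans Q1)
    exact_mod_cast this
  obtain ⟨t, ht1, ht2⟩ : ∃ t : ℕ, (t : ℝ) ≤ y / 10 ^ 6 ∧ y / (2 * 10 ^ 6) ≤ t :=
    ⟨⌊y / 10 ^ 6⌋₊, Nat.floor_le (by positivity), by
      have := Nat.lt_floor_add_one (y / 10 ^ 6); linarith⟩
  have hQt : Q ≤ 2 ^ t := by
    have : (Q : ℝ) ≤ 2 ^ t := Q3.trans (e1.trans (exp_le_two_pow (by linarith)))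
    exact_mod_cast this
  have t1 : 1 ≤ t := by
    have : (1 : ℝ) ≤ t := by linarith
    exact_mod_cast this
  have hlo : ∀ j : Fin 400, y ^ (2 * (j : ℕ) + 1) ≤ i j := fun j => by
    have := (hi j).1
    rw [elo] at this
    exact Nat.ceil_le.1 this
  have hhi : ∀ j : Fin 400, (i j : ℝ) + 1 ≤ y ^ (2 * (j : ℕ) + 2) := fun j => by
    have := (hi j).2
    rw [ehi] at this
    have h2 := (Nat.le_floor_iff (by positivity)).1 (Nat.succ_le_of_lt this)
    push_cast at h2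
    exact h2
  have hiy : ∀ j, y ≤ i j := fun j => (le_self_pow₀ y1 (by omega)).trans (hlo j)
  have hi8 : ∀ j, (i j : ℝ) + 1 ≤ y ^ 800 := fun j =>
    (hhi j).trans (mono y1 (by have := j.2; omega))
  have hPe : ∀ j, Real.exp (y / 2) ≤ ((2 ^ i j : ℕ) : ℝ) := fun j => by
    push_cast; exact exp_le_two_pow (by linarith [hiy j])
  obtain ⟨σ, hσ⟩ : ∃ σ, σ = ∑ j, (i j + 1) := ⟨_, rfl⟩
  have σ1 : (σ : ℝ) ≤ 400 * y ^ 800 := by
    rw [hσ]; push_cast
    refine (sum_le_card_nsmul _ _ _ fun j _ => hi8 j).trans ?_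
    simp
  have hU : 2 * ∏ j, 2 ^ i j ≤ 2 ^ σ := by
    rw [hσ, ← prod_two, prod_mul_distrib, prod_const, card_univ, Fintype.card_fin]
    exact Nat.mul_le_mul_right _ (Nat.le_self_pow (by norm_num) 2)
  have hD : ∏ j, (2 * 2 ^ i j) ^ z = 2 ^ (σ * z) := by rw [prod_pow, prod_two, ← hσ, ← pow_mul]
  have σz : (σ : ℝ) * z ≤ 800 * y ^ 7200 := by
    calc (σ : ℝ) * z ≤ 400 * y ^ 800 * (2 * y ^ 6400) :=
          mul_le_mul σ1 z2 (Nat.cast_nonneg _) ((Nat.cast_nonneg _).trans σ1)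
      _ = _ := by ring
  have hDz : (2 ^ (σ * z)) ^ 2 ≤ zz η x := by
    refine Nat.le_floor ?_
    rw [← pow_mul]
    push_cast
    refine (two_pow_le _).trans ?_
    rw [ex, ← Real.exp_mul]
    refine Real.exp_le_exp.2 ?_
    push_cast
    have := cmul y1 hyη (show 7200 + 1 ≤ 12800 by norm_num)
    rw [div_mul_eq_mul_div, div_le_iff₀ hη] at this
    linarith
  have A0 : 0 < A := by
    have : 0 < (2 ^ (σ * z)) ^ 2 := by positivity
    omega
  have hAB : A * (2 * x / A) ≤ 2 * x := Nat.mul_div_le _ _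
  have e1' : (par m x i A As).Q = Q := hQ.symm
  refine ⟨⟨by show 10 ≤ 400; norm_num, fun j p hp => ?_, fun j => ?_, ?_, ?_, ?_, ?_,
    fun j => le_rfl, fun j => ?_, ?_, ?_, ?_, ?_, fun a ha => ⟨(hAs a ha).1, (hAs a ha).2.1⟩,
    fun a ha p hp hpa => ?_, ?_, ?_, fun N hN1 hN2 => ?_⟩, fun j q b τ hq1 hqQ hτ1 hτ2 => ?_⟩
  · obtain ⟨h1, h2, -⟩ := mem_filter.1 hp
    obtain ⟨h3, h4⟩ := mem_Ioc.1 h1
    exact ⟨h2, h3, by rw [pow_succ'] at h4; exact h4⟩
  · show 2 * ⌈√(Real.log x)⌉₊ ≤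
      ((Ioc (2 ^ i j) (2 ^ (i j + 1))).filter fun p => p.Prime ∧ p ≡ 1 [MOD m]).card
    rw [← hz, pow_succ']
    have h1 : y₀ ≤ 2 ^ i j := by
      have : (y₀ : ℝ) ≤ i j := hyy.trans (hiy j)
      exact le_trans (by exact_mod_cast this) Nat.lt_two_pow_self.le
    have h2 := hy₀ _ h1
    have h3 : Real.log (2 ^ i j : ℕ) ≤ y ^ 800 := by
      rw [Real.log_le_iff_le_exp (by positivity)]
      push_cast
      exact (two_pow_le _).trans (Real.exp_le_exp.2 (by linarith [hi8 j]))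
    have h4 : 0 < Real.log (2 ^ i j : ℕ) := by
      refine Real.log_pos (lt_of_lt_of_le ?_ (hPe j))
      exact Real.one_lt_exp_iff.2 (by linarith)
    have h5 : 4 / c * y ^ 7200 ≤ (2 ^ i j : ℕ) :=
      (cmul y1 hyc (show 7200 + 1 ≤ 2508801 by norm_num)).trans
        (e1.trans ((Real.exp_le_exp.2 (by linarith)).trans (hPe j)))
    have h6 : ((2 * z : ℕ) : ℝ) ≤ c * (2 ^ i j : ℕ) / Real.log (2 ^ i j : ℕ) := by
      rw [le_div_iff₀ h4]
      rw [div_mul_eq_mul_div, div_le_iff₀ hc] at h5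
      calc ((2 * z : ℕ) : ℝ) * Real.log (2 ^ i j : ℕ) ≤ 2 * (2 * y ^ 6400) * y ^ 800 := by
            rw [Nat.cast_mul, Nat.cast_ofNat]
            exact mul_le_mul (by linarith) h3 h4.le (by linarith [Nat.cast_nonneg (α := ℝ) z])
        _ = 4 * y ^ 7200 := by ring
        _ ≤ _ := by linarith
    exact_mod_cast h6.trans h2
  · show 1 ≤ ⌈√(Real.log x)⌉₊
    rw [← hz]
    have : (1 : ℝ) ≤ z := (one_le_pow₀ y1).trans z1
    exact_mod_cast this
  · show 1 ≤ ⌈Real.log x ^ (5 / 8 : ℝ)⌉₊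
    rw [← hk]
    have : (1 : ℝ) ≤ k := (one_le_pow₀ y1).trans k1
    exact_mod_cast this
  · show ⌈√(Real.log x)⌉₊ ≤ ⌈Real.log x ^ 196⌉₊
    rw [← hz, ← hQ]; exact zQ
  · show 2 * ⌈Real.log x ^ (5 / 8 : ℝ)⌉₊ * 400 < ⌈Real.log x ^ 196⌉₊
    rw [← hk, ← hQ]
    have h1 := cmul y1 (show 1601 ≤ y by linarith) (show 8000 + 1 ≤ 2508800 by norm_num)
    have h2 : 1 ≤ y ^ 8000 := one_le_pow₀ y1
    have : ((2 * k * 400 : ℕ) : ℝ) < Q := by push_cast; linarith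
    exact_mod_cast this
  · have := sepP i hy Qn hQt ht1 hlo hhi j
    rw [hQ] at this
    exact this
  · show Real.log (2 * ((∏ j, 2 ^ i j : ℕ) : ℝ)) ≤ (⌈Real.log x ^ 196⌉₊ : ℕ)
    rw [← hQ, Real.log_le_iff_le_exp (by positivity)]
    have h1 : (2 * ((∏ j, 2 ^ i j : ℕ) : ℝ)) ≤ 2 ^ σ := by exact_mod_cast hU
    refine h1.trans ((two_pow_le _).trans (Real.exp_le_exp.2 ?_))
    exact σ1.trans ((cmul y1 (by linarith) (by norm_num)).trans Q1)
  · show 2 * ⌈Real.log x ^ (5 / 8 : ℝ)⌉₊ * 400 * ⌈Real.log x ^ 196⌉₊ ≤ ⌈√(Real.log x)⌉₊ ^ 400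
    rw [← hk, ← hQ, ← hz]
    have : ((2 * k * 400 * Q : ℕ) : ℝ) ≤ (z : ℝ) ^ 400 := by
      push_cast
      calc (2 * k * 400 * Q : ℝ) ≤ 2 * (2 * y ^ 8000) * 400 * (2 * y ^ 2508800) :=
            mul_le_mul (by linarith) Q2 (Nat.cast_nonneg _)
              (by linarith [Nat.cast_nonneg (α := ℝ) k])
        _ = 3200 * y ^ (8000 + 2508800) := by rw [pow_add]; ring
        _ ≤ y ^ (6400 * 400) := cmul y1 (by linarith) (by norm_num)
        _ ≤ _ := by rw [pow_mul]; exact pow_le_pow_left₀ (pow_pos y0 _).le z1 _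
    exact_mod_cast this
  · show (∏ j, (2 * 2 ^ i j) ^ ⌈√(Real.log x)⌉₊) ^ 6 ≤ 4 ^ ⌈Real.log x ^ (5 / 8 : ℝ)⌉₊
    rw [← hk, ← hz, hD, ← pow_mul, show 4 = 2 ^ 2 from rfl, ← pow_mul]
    refine Nat.pow_le_pow_right (by norm_num) ?_
    have h1 := cmul y1 (show 2400 ≤ y by linarith) (show 7200 + 1 ≤ 8000 by norm_num)
    have : ((σ * z * 6 : ℕ) : ℝ) ≤ (2 * k : ℕ) := by push_cast; linarith
    exact_mod_cast this
  · show (⌈√(Real.log x)⌉₊ ^ 400 * (∏ j, 2 ^ i j) * (1 + ⌈Real.log x ^ 196⌉₊ ^ 2)) ^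
      (2 * ⌈Real.log x ^ (5 / 8 : ℝ)⌉₊) * A ≤ 2 * x / A
    rw [← hk, ← hz, ← hQ, Nat.le_div_iff_mul_le A0]
    have h1 : z ^ 400 ≤ 2 ^ (t * 400) := by
      rw [pow_mul]; exact Nat.pow_le_pow_left (zQ.trans hQt) _
    have h2 : 1 + Q ^ 2 ≤ 2 ^ (t * 3) := by
      have a1 : Q ^ 2 ≤ (2 ^ t) ^ 2 := Nat.pow_le_pow_left hQt 2
      have a2 : 2 ≤ 2 ^ t := Nat.le_self_pow (by omega) 2
      rw [pow_mul]
      clear * - a1 a2
      generalize 2 ^ t = w at *
      nlinarith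
    have h3 : z ^ 400 * (∏ j, 2 ^ i j) * (1 + Q ^ 2) ≤ 2 ^ (t * 400 + σ + t * 3) := by
      rw [pow_add, pow_add]
      exact Nat.mul_le_mul (Nat.mul_le_mul h1 (by omega)) h2
    have h4 := Nat.pow_le_pow_left h3 (2 * k)
    rw [← pow_mul] at h4
    refine (Nat.mul_le_mul_right _ (Nat.mul_le_mul_right _ h4)).trans ?_
    have h5 : (2 : ℝ) ^ ((t * 400 + σ + t * 3) * (2 * k)) ≤ (x : ℝ) ^ δ := by
      refine (two_pow_le _).trans ?_
      rw [ex, ← Real.exp_mul]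
      refine Real.exp_le_exp.2 ?_
      have a1 := cmul y1 hyδ (show 8800 + 1 ≤ 12800 by norm_num)
      rw [div_mul_eq_mul_div, div_le_iff₀ hδ] at a1
      have a2 : y ≤ y ^ 800 := le_self_pow₀ y1 (by norm_num)
      push_cast
      calc ((t : ℝ) * 400 + σ + t * 3) * (2 * k) ≤ (401 * y ^ 800) * (2 * (2 * y ^ 8000)) := by
            exact mul_le_mul (by linarith) (by linarith) (by linarith [Nat.cast_nonneg (α := ℝ) k])
              (by linarith)
        _ = 1604 * y ^ 8800 := by ring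
        _ ≤ _ := a1
    have h6 : (x : ℝ) ^ δ * (x : ℝ) ^ (1 / 2 - δ) * (x : ℝ) ^ (1 / 2 - δ) ≤ x := by
      rw [← Real.rpow_add x0, ← Real.rpow_add x0]
      conv_rhs => rw [← Real.rpow_one x]
      exact Real.rpow_le_rpow_of_exponent_le (by linarith) (by linarith)
    have : ((2 ^ ((t * 400 + σ + t * 3) * (2 * k)) * A * A : ℕ) : ℝ) ≤ (2 * x : ℕ) := by
      push_cast
      calc _ ≤ (x : ℝ) ^ δ * (x : ℝ) ^ (1 / 2 - δ) * (x : ℝ) ^ (1 / 2 - δ) := by
            clear * - h5 hAx x0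
            gcongr
        _ ≤ _ := by linarith
    exact_mod_cast this
  · show (∏ j, (2 * 2 ^ i j) ^ ⌈√(Real.log x)⌉₊) ^ 2 < p
    rw [← hz, hD]
    exact hDz.trans_lt ((hAs a ha).2.2 p hp hpa)
  · show (∏ j, (2 * 2 ^ i j) ^ ⌈√(Real.log x)⌉₊) ^ 2 ≤ 2 * A
    rw [← hz, hD]
    exact hDz.trans hzA
  · show (A * (2 * x / A)) ^ 2 ≤ 2 ^ ⌈Real.log x ^ 196⌉₊
    rw [← hQ]
    refine (Nat.pow_le_pow_left hAB 2).trans ?_
    have : ((2 * x : ℕ) : ℝ) ^ 2 ≤ 2 ^ Q := by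
      refine le_trans ?_ (exp_le_two_pow (a := 3 * y ^ 12800) ?_)
      · rw [show (3 : ℝ) = (3 : ℕ) by norm_num, Real.exp_nat_mul, ← ex]
        push_cast
        clear * - x4
        nlinarith [sq_nonneg (x : ℝ)]
      · have := cmul y1 (show 6 ≤ y by linarith) (show 12800 + 1 ≤ 2508800 by norm_num)
        linarith
    exact_mod_cast this
  · show (As.filter fun a => a ∣ N).card ≤ ⌈Real.log x ^ 196⌉₊
    rw [← hQ]
    have hN3 : N ≤ (2 * x) ^ 2 := hN2.trans (Nat.pow_le_pow_left hAB 2)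
    have h1 : N < (zz η x + 1) ^ (⌈3 / η⌉₊ + 1) := by
      have a1 : (x : ℝ) ^ η < (zz η x + 1 : ℕ) := by push_cast; exact Nat.lt_floor_add_one _
      have a2 : (N : ℝ) ≤ (x : ℝ) ^ (3 : ℝ) := by
        have : (N : ℝ) ≤ (2 * x) ^ 2 := by exact_mod_cast hN3
        rw [show (3 : ℝ) = (3 : ℕ) by norm_num, Real.rpow_natCast]
        clear * - x4 this
        nlinarith [sq_nonneg (x : ℝ)]
      have a3 : (x : ℝ) ^ (3 : ℝ) ≤ ((x : ℝ) ^ η) ^ (⌈3 / η⌉₊ + 1) := by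
        rw [← Real.rpow_mul_natCast x0.le]
        refine Real.rpow_le_rpow_of_exponent_le (by linarith) ?_
        have := Nat.le_ceil (3 / η)
        rw [div_le_iff₀ hη] at this
        push_cast
        clear * - this hη
        nlinarith
      have a4 : ((x : ℝ) ^ η) ^ (⌈3 / η⌉₊ + 1) < ((zz η x + 1 : ℕ) : ℝ) ^ (⌈3 / η⌉₊ + 1) :=
        pow_lt_pow_left₀ a1 (by positivity) (by omega)
      exact_mod_cast (a2.trans a3).trans_lt a4
    have h2 : 2 ^ ⌈3 / η⌉₊ ≤ Q := by exact_mod_cast hy2.trans yQ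
    refine le_trans (card_le_card fun a ha => ?_) ((rough_div _ _ N hN1 h1).trans h2)
    obtain ⟨a1, a2⟩ := mem_filter.1 ha
    exact mem_filter.2 ⟨Nat.mem_divisors.2 ⟨a2, by omega⟩, (hAs a a1).2.2⟩
  · rw [e1'] at hqQ hτ1 ⊢
    show ‖∑ p ∈ ((Ioc (2 ^ i j) (2 ^ (i j + 1))).filter fun p => p.Prime ∧ p ≡ 1 [MOD m]).filter
      (fun p => p ≡ b [MOD q]), nit p τ‖ ≤ ((2 ^ i j : ℕ) : ℝ) / (Q : ℝ) ^ 800
    have mQ : m ≤ Q := by exact_mod_cast hym.trans yQ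
    have h1 : m * q ≤ 2 ^ (t + t) := by
      rw [pow_add]; exact Nat.mul_le_mul (mQ.trans hQt) (hqQ.trans hQt)
    have h2 : t + t ≤ i j := by
      have : ((t + t : ℕ) : ℝ) ≤ i j := by push_cast; linarith [hiy j]
      exact_mod_cast this
    have Q0 : (0 : ℝ) < Q := by linarith
    have τ0 : 0 < |τ| := lt_of_lt_of_le (pow_pos Q0 _) hτ1
    rw [pow_succ']
    refine (sum_classes hT hC.le hm hq1 (h1.trans (Nat.pow_le_pow_right (by norm_num) h2))
      (abs_pos.1 τ0)).trans ?_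
    have hP0 := hPe j
    generalize ((2 ^ i j : ℕ) : ℝ) = P at *
    have P0 : 0 < P := (Real.exp_pos _).trans_le hP0
    have hl : Real.log ((m * q : ℕ) * (|τ| + 2)) ≤ Q := by
      have mq : 0 < m * q := Nat.mul_pos hm hq1
      rw [Real.log_le_iff_le_exp (mul_pos (by exact_mod_cast mq) (by linarith))]
      have a1 : ((m * q : ℕ) : ℝ) ≤ Real.exp (y ^ 12800) := by
        have : ((m * q : ℕ) : ℝ) ≤ 2 ^ (t + t) := by exact_mod_cast h1
        refine this.trans ((two_pow_le _).trans (Real.exp_le_exp.2 ?_))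
        have : y ≤ y ^ 12800 := le_self_pow₀ y1 (by norm_num)
        push_cast; linarith
      rw [← ex] at a1
      have a2 : |τ| + 2 ≤ (x : ℝ) ^ 5 := by
        have b1 : 1 ≤ (x : ℝ) ^ 3 := one_le_pow₀ (by linarith)
        clear * - b1 x4 hτ2
        have b2 : 16 ≤ (x : ℝ) ^ 2 := by nlinarith
        nlinarith
      calc _ ≤ (x : ℝ) * (x : ℝ) ^ 5 := mul_le_mul a1 a2 (by linarith) x0.le
        _ = Real.exp ((6 : ℕ) * y ^ 12800) := by rw [Real.exp_nat_mul, ← ex]; ring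
        _ ≤ _ := Real.exp_le_exp.2 ((cmul y1 (by push_cast; linarith) (by norm_num)).trans Q1)
    have hδP : (Q : ℝ) ^ 802 ≤ P ^ δ' := by
      calc (Q : ℝ) ^ 802 ≤ Real.exp (δ' / 1604 * y) ^ 802 :=
            pow_le_pow_left₀ Q0.le (Q3.trans e2) _
        _ = Real.exp (y / 2) ^ δ' := by
            rw [← Real.exp_nat_mul, ← Real.exp_mul]
            exact congrArg Real.exp (by push_cast; ring)
        _ ≤ _ := Real.rpow_le_rpow (Real.exp_pos _).le hP0 hδ'.le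
    have hl0 : 0 ≤ Real.log ((m * q : ℕ) * (|τ| + 2)) := by
      have mq : (1 : ℝ) ≤ (m * q : ℕ) := by exact_mod_cast Nat.mul_pos hm hq1
      exact Real.log_nonneg (one_le_mul_of_one_le_of_one_le mq (by linarith))
    have CQ : 2 * C ≤ Q := hyC.trans yQ
    clear * - hl0 hl hδP P0 Q0 Qr hτ1 CQ hC
    have b1 : P / |τ| ≤ P / (Q : ℝ) ^ 801 :=
      div_le_div_of_nonneg_left P0.le (by positivity)
        ((pow_le_pow_right₀ Qr (by norm_num)).trans hτ1)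
    have b2 : P ^ (1 - δ') * Real.log ((m * q : ℕ) * (|τ| + 2)) ≤ P / (Q : ℝ) ^ 801 := by
      rw [Real.rpow_sub P0, Real.rpow_one]
      calc _ ≤ P / (Q : ℝ) ^ 802 * Q := by gcongr
        _ = _ := by rw [show 802 = 801 + 1 from rfl, pow_succ]; field_simp
    calc _ ≤ C * (2 * (P / (Q : ℝ) ^ 801)) := by gcongr; linarith
      _ = 2 * C * (P / (Q : ℝ) ^ 801) := by ring
      _ ≤ Q * (P / (Q : ℝ) ^ 801) := by gcongr
      _ = _ := by rw [show 801 = 800 + 1 from rfl, pow_succ]; field_simp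

end Crest.Agent.R26
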