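import Crest.Agent.PVc.R26.Lin
import Crest.Agent.PVc.R5.CRT
import Crest.Agent.PVc.R5.Defs
import Crest.Agent.PVc.R26.Defs
import Crest.Agent.PVc.R8.VDefs

-- ▼ part PVc/R26/MemId
section

/-! Row 26: the memory identity. -/

set_option autoImplicit false

namespace Crest.Agent.R26

open Finset Filter
open Crest.Agent.R5 (pr pd ee nit)

namespace MemId

/-- conjugated density of the residue given the local state -/
noncomputable def lm (p : ℕ) (b : Bool) (c : ℕ) (o : Option ℕ) (x : ℕ) : ℝ :=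
  match b, o with
  | true, none => if x = c then √(p : ℝ) else 0
  | true, some _ => 0
  | false, none => 1
  | false, some s => ((if x = s then (p : ℝ) else 0) - 1) / √(p : ℝ)

theorem loc_id {p : ℕ} (hp : 0 < p) (b b' : Bool) {c c' : ℕ} (hc : c < p) {o : Option ℕ}
    (ho : o ∈ insertNone (range p)) (hb : b = true → o = none) (hcc : b = true → b' = true → c = c')
    (x : ℕ) :
    lm p b c o x * (if b' = true then (if x = c' then 1 else 0) else 1) =
      ∑ o' ∈ insertNone (range p), loc p b b' c c' o o' * lm p b' c' o' x := by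
  have hs : 0 < √(p : ℝ) := Real.sqrt_pos.2 (by exact_mod_cast hp)
  have hq : √(p : ℝ) * √(p : ℝ) = p := Real.mul_self_sqrt (by positivity)
  have hp' : (p : ℝ) ≠ 0 := by positivity
  rw [sum_insertNone]
  cases b <;> cases b'
  · cases o with
    | none => simp [loc, lm]
    | some s =>
      have hs' : s ∈ range p := by simpa using ho
      rw [sum_eq_single s]
      · simp [loc, lm]
      · intro i _ hi; simp [loc, hi]
      · intro h; exact absurd hs' h
  · cases o with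
    | none =>
      by_cases h : x = c'
      · simp [loc, lm, h, hs.ne']
      · simp [loc, lm, h]
    | some s =>
      by_cases h : x = c'
      · subst h
        by_cases h2 : x = s
        · subst h2
          simp only [loc, lm, if_true, reduceCtorEq, if_false, zero_mul, sum_const_zero, add_zero,
            mul_one]
          field_simp
          rw [Real.sq_sqrt (by positivity)]; ring
        · have h3 : ¬ s = x := fun h => h2 h.symm
          simp only [loc, lm, if_true, reduceCtorEq, if_false, zero_mul, sum_const_zero, add_zero,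
            mul_one, h2, Option.some.injEq, h3]
          field_simp
          rw [Real.sq_sqrt (by positivity)]; ring
      · simp [loc, lm, h]
  · rw [hb rfl, sum_eq_single c]
    · by_cases h : x = c
      · simp only [loc, lm, h, if_true, reduceCtorEq, if_false, mul_one, one_mul]
        field_simp
        rw [Real.sq_sqrt (by positivity)]; ring
      · simp only [loc, lm, h, if_true, reduceCtorEq, if_false, mul_one, one_mul]
        ring
    · intro i _ hi; simp [loc, hi]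
    · intro h; exact absurd (mem_range.2 hc) h
  · rw [hb rfl, ← hcc rfl rfl]
    by_cases h : x = c <;> simp [loc, lm, h]

theorem lm_mean {p : ℕ} (hp : 0 < p) (b : Bool) {c : ℕ} (hc : c < p) {o : Option ℕ}
    (ho : o ∈ insertNone (range p)) :
    (∑ x ∈ range p, lm p b c o x) / p =
      if o = none then (if b = true then 1 / √(p : ℝ) else 1) else 0 := by
  have hs : 0 < √(p : ℝ) := Real.sqrt_pos.2 (by exact_mod_cast hp)
  have hp' : (p : ℝ) ≠ 0 := by positivity
  cases b <;> cases o with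
  | none =>
    simp only [lm, if_true, reduceCtorEq, if_false]
    first
      | (simp [hp']; done)
      | (rw [sum_ite_eq', if_pos (mem_range.2 hc)]
         field_simp
         rw [Real.sq_sqrt (by positivity)])
  | some s =>
    have hs' : s ∈ range p := by simpa using ho
    simp only [lm, reduceCtorEq, if_false]
    first
      | (simp; done)
      | (rw [← sum_div, sum_sub_distrib, sum_ite_eq', if_pos hs']; simp)

theorem loc_supp {p : ℕ} {b b' : Bool} {c c' : ℕ} {o o' : Option ℕ}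
    (h : loc p b b' c c' o o' ≠ 0) :
    (b' = true → o' = none) ∧ (o' ≠ none → o ≠ none ∨ (b = true ∧ b' = false)) := by
  cases b <;> cases b' <;> simp only [loc] at h
  · have : o' = o := by by_contra h'; exact h (if_neg h')
    simp [this]
  · have : o' = none := by by_contra h'; exact h (if_neg h')
    simp [this]
  · simp
  · have : o' = none := by by_contra h'; exact h (if_neg h')
    simp [this]

variable {σ : Type} (S : Finset ℕ) (bk : σ → Finset ℕ) (cl : σ → ℕ → ℕ)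

/-- the density of a state -/
noncomputable def La (s : σ × Mem S) (j : ℕ) : ℝ :=
  ∏ p : ↥S, lm p.1 (decide (p.1 ∈ bk s.1)) (cl s.1 p.1) (s.2 p) (j % p.1)

variable {S bk cl}

theorem fit_eq {v : σ} (hv : bk v ⊆ S) (j : ℕ) :
    fit bk cl j v = ∏ p : ↥S, (if decide (p.1 ∈ bk v) = true then
      (if j % p.1 = cl v p.1 then (1 : ℝ) else 0) else 1) := by
  unfold fit
  split_ifs with h
  · refine (prod_eq_one fun p _ => ?_).symm
    by_cases hp : p.1 ∈ bk v
    · simp [hp, h _ hp]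
    · simp [hp]
  · push Not at h
    obtain ⟨p, hp, h⟩ := h
    exact (prod_eq_zero (mem_univ ⟨p, hv hp⟩) (by simp [hp, h])).symm

theorem fit_sq (j : ℕ) (v : σ) : fit bk cl j v * fit bk cl j v = fit bk cl j v := by
  unfold fit; split_ifs <;> simp

theorem lm_zero {p : ℕ} {c : ℕ} (o : Option ℕ) {x : ℕ} (h : x ≠ c) : lm p true c o x = 0 := by
  cases o <;> simp [lm, h]

theorem La_fit (s : σ × Mem S) (hs : bk s.1 ⊆ S) (j : ℕ) :
    La S bk cl s j * fit bk cl j s.1 = La S bk cl s j := by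
  unfold fit
  split_ifs with h
  · simp
  · push Not at h
    obtain ⟨p, hp, h⟩ := h
    rw [mul_zero]
    refine (prod_eq_zero (mem_univ (⟨p, hs hp⟩ : ↥S)) ?_).symm
    simp only [hp, decide_true]
    exact lm_zero _ h

theorem none_mem : (fun _ => none : Mem S) ∈ mems S :=
  Fintype.mem_piFinset.2 fun _ => none_mem_insertNone

theorem La_mean (hS : ∀ p ∈ S, p.Prime) (s : σ × Mem S) (hs : bk s.1 ⊆ S)
    (hc : ∀ p ∈ S, cl s.1 p < p) (hm : s.2 ∈ mems S) :
    (∑ j ∈ range (pd S), La S bk cl s j) / pd S =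
      if s.2 = fun _ => none then ∏ p ∈ bk s.1, 1 / √(p : ℝ) else 0 := by
  classical
  let F : ℕ → ℤ → ℝ := fun q y => if h : q ∈ S then
    lm q (decide (q ∈ bk s.1)) (cl s.1 q) (s.2 ⟨q, h⟩) (y % q).toNat else 1
  have hF := R5.CRT.many S F hS (by
    intro q _ y
    simp only [F, Int.add_emod_right])
  have tn : ∀ q j : ℕ, ((j : ℤ) % q).toNat = j % q := by
    intro q j; rw [← Int.natCast_mod, Int.toNat_natCast]
  have e1 : (∑ j ∈ range (pd S), La S bk cl s j) / pd S =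
      R5.av (pd S) (fun y => ∏ q ∈ S, F q y) := by
    unfold R5.av
    congr 1
    refine sum_congr rfl fun j _ => ?_
    dsimp only
    rw [← prod_coe_sort S]
    refine prod_congr rfl fun p _ => ?_
    simp only [F, dif_pos p.2, tn]
  have e2 : ∏ q ∈ S, R5.av q (F q) = ∏ p : ↥S, (if s.2 p = none then
      (if decide (p.1 ∈ bk s.1) = true then 1 / √((p : ℕ) : ℝ) else 1) else 0) := by
    rw [← prod_coe_sort S]
    refine prod_congr rfl fun p _ => ?_
    rw [← lm_mean (hS _ p.2).pos _ (hc _ p.2) (Fintype.mem_piFinset.1 hm p)]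
    unfold R5.av
    congr 1
    refine sum_congr rfl fun x hx => ?_
    simp only [F, dif_pos p.2, tn, Nat.mod_eq_of_lt (mem_range.1 hx)]
  rw [e1, hF, e2]
  split_ifs with h
  · simp only [h, if_true, decide_eq_true_eq]
    rw [prod_coe_sort S (fun p => if p ∈ bk s.1 then 1 / √(p : ℝ) else 1), ← prod_filter,
      filter_mem_eq_inter, inter_eq_right.2 hs]
  · obtain ⟨p, hp⟩ := Function.ne_iff.1 h
    exact prod_eq_zero (mem_univ p) (if_neg hp)

theorem La_none (v : σ) (hv : bk v ⊆ S) (j : ℕ) (hS : ∀ p ∈ S, p.Prime) :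
    (∏ p ∈ bk v, 1 / √(p : ℝ)) * La S bk cl (v, fun _ => none) j = fit bk cl j v := by
  have e : ∏ p ∈ bk v, 1 / √(p : ℝ) =
      ∏ p : ↥S, if p.1 ∈ bk v then 1 / √((p : ℕ) : ℝ) else 1 := by
    rw [prod_coe_sort S (fun p => if p ∈ bk v then 1 / √(p : ℝ) else 1), ← prod_filter,
      filter_mem_eq_inter, inter_eq_right.2 hv]
  rw [fit_eq hv, e]
  unfold La
  rw [← prod_mul_distrib]
  refine prod_congr rfl fun p _ => ?_
  have hs : 0 < √((p : ℕ) : ℝ) := Real.sqrt_pos.2 (by exact_mod_cast (hS _ p.2).pos)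
  by_cases hp : p.1 ∈ bk v
  · by_cases h : j % p.1 = cl v p.1 <;> simp [hp, lm, h, hs.ne']
  · simp [hp, lm]

variable {V : Finset σ} {K : σ → σ → ℝ} {Jd κ : ℕ}

theorem mem_mst {s : σ × Mem S} : s ∈ mst S V bk κ ↔ s.1 ∈ V ∧ s.2 ∈ mems S ∧
    (∀ p : ↥S, p.1 ∈ bk s.1 → s.2 p = none) ∧ mcard s.2 ≤ κ := by
  unfold mst; rw [mem_filter, mem_product, and_assoc]

theorem mop_supp (hA : Abs S V bk cl K Jd) {s s' : σ × Mem S} (hs : s.1 ∈ V) (hs' : s'.1 ∈ V)
    (h : mop S bk cl K s s' ≠ 0) :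
    (∀ p : ↥S, p.1 ∈ bk s'.1 → s'.2 p = none) ∧ mcard s'.2 ≤ mcard s.2 + Jd := by
  classical
  unfold mop at h
  have hK := left_ne_zero_of_mul h
  have hl := fun p : ↥S => loc_supp (prod_ne_zero_iff.1 (right_ne_zero_of_mul h) p (mem_univ _))
  refine ⟨fun p hp => (hl p).1 (by simpa using hp), ?_⟩
  have hc := hA.card _ hs _ hs' hK
  unfold mcard
  calc (univ.filter fun p => s'.2 p ≠ none).card
      ≤ ((univ.filter fun p => s.2 p ≠ none) ∪
          univ.filter fun p : ↥S => p.1 ∈ bk s.1 \ bk s'.1).card := by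
        refine card_le_card fun p hp => ?_
        rcases (hl p).2 (mem_filter.1 hp).2 with h | h
        · exact mem_union_left _ (mem_filter.2 ⟨mem_univ _, h⟩)
        · exact mem_union_right _ (mem_filter.2 ⟨mem_univ _, by simpa using h⟩)
    _ ≤ _ := (card_union_le _ _).trans (Nat.add_le_add_left (le_trans ?_ hc) _)
  exact card_le_card_of_injOn (fun p => p.1) (fun p hp => (mem_filter.1 hp).2)
    fun a _ b _ h => Subtype.ext h

variable [DecidableEq σ]

theorem sum_fib (v : σ) (hv : v ∈ V) (f : σ × Mem S → ℝ) :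
    ∑ s ∈ mst S V bk κ, (if s.1 = v then f s else 0) = ∑ μ ∈ mems S,
      if (∀ p : ↥S, p.1 ∈ bk v → μ p = none) ∧ mcard μ ≤ κ then f (v, μ) else 0 := by
  unfold mst
  rw [sum_filter, sum_product, sum_eq_single v]
  · simp
  · intro b _ hb; simp [hb]
  · intro h; exact absurd hv h

theorem step (hA : Abs S V bk cl K Jd) {s : σ × Mem S} (hs : s ∈ mst S V bk κ)
    (hm : mcard s.2 + Jd ≤ κ) {v : σ} (hv : v ∈ V) (j : ℕ) :
    K s.1 v * (La S bk cl s j * fit bk cl j v) =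
      ∑ s' ∈ mst S V bk κ, if s'.1 = v then mop S bk cl K s s' * La S bk cl s' j else 0 := by
  obtain ⟨h1, h2, h3, -⟩ := mem_mst.1 hs
  rw [sum_fib v hv]
  have e : ∀ μ ∈ mems S, (if (∀ p : ↥S, p.1 ∈ bk v → μ p = none) ∧ mcard μ ≤ κ then
      mop S bk cl K s (v, μ) * La S bk cl (v, μ) j else 0) =
      mop S bk cl K s (v, μ) * La S bk cl (v, μ) j := by
    intro μ _
    split_ifs with h
    · rfl
    · by_cases h0 : mop S bk cl K s (v, μ) = 0
      · rw [h0, zero_mul]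
      · obtain ⟨a, b⟩ := mop_supp hA h1 hv h0
        exact absurd ⟨a, b.trans hm⟩ h
  rw [sum_congr rfl e]
  by_cases hK : K s.1 v = 0
  · simp [mop, hK]
  unfold mop La mems
  simp only [mul_assoc, ← prod_mul_distrib]
  rw [← mul_sum, ← prod_univ_sum (fun p : ↥S => insertNone (range p.1)) (fun p o' =>
    loc p.1 (decide (p.1 ∈ bk s.1)) (decide (p.1 ∈ bk v)) (cl s.1 p.1) (cl v p.1) (s.2 p) o' *
      lm p.1 (decide (p.1 ∈ bk v)) (cl v p.1) o' (j % p.1)), fit_eq (hA.sub v hv),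
    ← prod_mul_distrib]
  congr 1
  refine prod_congr rfl fun p _ => ?_
  exact loc_id (hA.prime _ p.2).pos _ _ (hA.lt _ h1 _ p.2) (Fintype.mem_piFinset.1 h2 p)
    (fun h => h3 p (by simpa using h))
    (fun h h' => hA.agree _ h1 _ hv hK _ (by simpa using h) (by simpa using h')) _

theorem inv (hA : Abs S V bk cl K Jd) {v₀ : σ} (hv₀ : v₀ ∈ V) (n : ℕ) (hn : n * Jd ≤ κ) :
    (∀ s ∈ mst S V bk κ, pw (mst S V bk κ) (mop S bk cl K) n (v₀, fun _ => none) s ≠ 0 →
      mcard s.2 ≤ n * Jd) ∧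
    ∀ j, ∀ v ∈ V, fit bk cl j v₀ * pw V (kj bk cl K j) n v₀ v =
      (∏ p ∈ bk v₀, 1 / √(p : ℝ)) * ∑ s ∈ mst S V bk κ, if s.1 = v then
        pw (mst S V bk κ) (mop S bk cl K) n (v₀, fun _ => none) s * La S bk cl s j else 0 := by
  have h0 : ((v₀, fun _ => none) : σ × Mem S) ∈ mst S V bk κ :=
    mem_mst.2 ⟨hv₀, none_mem, fun _ _ => rfl, by simp [mcard]⟩
  induction n with
  | zero =>
    refine ⟨fun s _ h => ?_, fun j v _ => ?_⟩
    · simp only [pw] at h
      have : (v₀, fun _ => none) = s := by by_contra h'; exact h (if_neg h')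
      rw [← this]; simp [mcard]
    · simp only [pw]
      rw [sum_eq_single (v₀, fun _ => none)]
      · by_cases h : v₀ = v
        · simp only [h, if_true, mul_one, one_mul]
          rw [← h, La_none v₀ (hA.sub _ hv₀) j hA.prime]
        · simp [h]
      · intro b _ hb; simp [Ne.symm hb]
      · intro h; exact absurd h0 h
  | succ n ih =>
    have hn' : n * Jd + Jd ≤ κ := by rwa [Nat.succ_mul] at hn
    obtain ⟨ih1, ih2⟩ := ih (by omega)
    refine ⟨fun s hs h => ?_, fun j v hv => ?_⟩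
    · simp only [pw] at h
      obtain ⟨t, ht, h⟩ := exists_ne_zero_of_sum_ne_zero h
      have a := ih1 t ht (left_ne_zero_of_mul h)
      have b := (mop_supp hA (mem_mst.1 ht).1 (mem_mst.1 hs).1 (right_ne_zero_of_mul h)).2
      rw [Nat.succ_mul]; omega
    · simp only [pw]
      set M := mst S V bk κ
      set P := pw M (mop S bk cl K) n (v₀, fun _ => none)
      set c := ∏ p ∈ bk v₀, 1 / √(p : ℝ)
      calc fit bk cl j v₀ * ∑ v'' ∈ V, pw V (kj bk cl K j) n v₀ v'' * kj bk cl K j v'' v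
          = ∑ v'' ∈ V, c * ∑ s ∈ M, if s.1 = v'' then
              P s * (K s.1 v * (La S bk cl s j * fit bk cl j v)) else 0 := by
            rw [mul_sum]
            refine sum_congr rfl fun w hw => ?_
            rw [← mul_assoc, ih2 j w hw, mul_assoc, sum_mul]
            congr 1
            refine sum_congr rfl fun s hs => ?_
            split_ifs with h
            · subst h
              unfold kj
              conv_rhs => rw [← La_fit s (hA.sub _ hw) j]
              ring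
            · simp
        _ = c * ∑ s ∈ M, P s * (K s.1 v * (La S bk cl s j * fit bk cl j v)) := by
            rw [← mul_sum, sum_comm]
            congr 1
            refine sum_congr rfl fun s hs => ?_
            rw [sum_ite_eq, if_pos (mem_mst.1 hs).1]
        _ = c * ∑ s ∈ M, ∑ s' ∈ M, if s'.1 = v then
              P s * mop S bk cl K s s' * La S bk cl s' j else 0 := by
            congr 1
            refine sum_congr rfl fun s hs => ?_
            by_cases h : P s = 0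
            · simp [h]
            · rw [step hA hs (by have := ih1 s hs h; omega) hv j, mul_sum]
              refine sum_congr rfl fun s' _ => ?_
              split_ifs <;> ring
        _ = _ := by
            rw [sum_comm]
            congr 1
            refine sum_congr rfl fun s' _ => ?_
            split_ifs
            · rw [sum_mul]
            · simp

end MemId

open MemId in
theorem memId : MemIdStmt := by
  intro σ _ S V bk cl K Jd κ n hA hn hκ v hv
  have h0 : ((v, fun _ => none) : σ × Mem S) ∈ mst S V bk κ :=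
    mem_mst.2 ⟨hv, none_mem, fun _ _ => rfl, by simp [mcard]⟩
  have e1 : ∀ j, pw V (kj bk cl K j) n v v = fit bk cl j v * pw V (kj bk cl K j) n v v := by
    intro j
    obtain ⟨m, rfl⟩ : ∃ m, n = m + 1 := ⟨n - 1, by omega⟩
    simp only [pw, kj, mul_sum]
    refine sum_congr rfl fun w _ => ?_
    conv_lhs => rw [← fit_sq j v]
    ring
  set M := mst S V bk κ
  set P := pw M (mop S bk cl K) n (v, fun _ => none)
  set c := ∏ p ∈ bk v, 1 / √(p : ℝ) with hc
  calc (∑ j ∈ range (pd S), pw V (kj bk cl K j) n v v) / pd S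
      = c * ∑ s ∈ M, if s.1 = v then
          P s * ((∑ j ∈ range (pd S), La S bk cl s j) / pd S) else 0 := by
        rw [sum_congr rfl fun j _ => (e1 j).trans ((inv hA hv n hκ).2 j v hv), ← mul_sum,
          sum_comm, mul_div_assoc, sum_div]
        congr 1
        refine sum_congr rfl fun s _ => ?_
        split_ifs
        · rw [← mul_sum, mul_div_assoc]
        · simp
    _ = c * (P (v, fun _ => none) * c) := by
        congr 1
        rw [sum_eq_single (v, fun _ => none)]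
        · rw [if_pos rfl, La_mean hA.prime _ (hA.sub _ hv) (hA.lt _ hv) none_mem, if_pos rfl]
        · intro s hs hne
          split_ifs with h
          · have h1 := (mem_mst.1 hs).1
            rw [La_mean hA.prime _ (hA.sub _ h1) (hA.lt _ h1) (mem_mst.1 hs).2.1, if_neg, mul_zero]
            intro h'
            exact hne (Prod.ext h h')
          · rfl
        · intro h; exact absurd h0 h
    _ = _ := by
        have : c * c = ∏ p ∈ bk v, 1 / (p : ℝ) := by
          rw [hc, ← prod_mul_distrib]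
          refine prod_congr rfl fun p _ => ?_
          rw [div_mul_div_comm, one_mul, Real.mul_self_sqrt (by positivity)]
        rw [← this]; ring

end Crest.Agent.R26
private theorem rz_5b9b7d7d5c : type_of% @_root_.Crest.Agent.R26.MemId.lm.eq_1 := @_root_.Crest.Agent.R26.MemId.lm.eq_1 -- L16
end

-- ▼ part PVc/R26/MemRest
section

/-! Row 26: steps with a memory event. -/

set_option autoImplicit false

namespace Crest.Agent.R26

open Finset Filter
open Crest.Agent.R5 (pr pd ee nit)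

namespace MemRestAux

/-- indicator of a remembered class -/
noncomputable def hit (o : Option ℕ) (c : ℕ) : ℝ := if o = some c then 1 else 0

/-- squared death coefficient -/
noncomputable def dw (p c : ℕ) (o' : Option ℕ) : ℝ := if o' = none then 1 / (p : ℝ) else hit o' c

/-- local row weight -/
noncomputable def rr (p : ℕ) (b b' : Bool) (c c' : ℕ) (o o' : Option ℕ) : ℝ :=
  match b, b' with
  | true, true => if o' = none then 1 else 0
  | true, false => if o' = none then 1 else hit o' c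
  | false, true => if o' = none then 1 / (p : ℝ) + hit o c' else 0
  | false, false => if o' = o then 1 else 0

/-- local column weight -/
noncomputable def cc (p : ℕ) (b b' : Bool) (c c' : ℕ) (o o' : Option ℕ) : ℝ :=
  match b, b' with
  | true, true => if o = none then 1 else 0
  | true, false => if o = none then dw p c o' else 0
  | false, true => if o = none then 1 else 1 / (p : ℝ) + hit o c'
  | false, false => if o = o' then 1 else 0

theorem hit_nonneg (o : Option ℕ) (c : ℕ) : 0 ≤ hit o c := by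
  unfold hit; split_ifs <;> norm_num


theorem dw_nonneg (p c : ℕ) (o : Option ℕ) : 0 ≤ dw p c o := by
  unfold dw; split_ifs
  · positivity
  · exact hit_nonneg _ _

theorem dw_le (p c : ℕ) (o : Option ℕ) : dw p c o ≤ 1 / (p : ℝ) + hit o c := by
  have := hit_nonneg o c
  have h : (0 : ℝ) ≤ 1 / (p : ℝ) := by positivity
  unfold dw; split_ifs <;> linarith

theorem rr_nonneg (p : ℕ) (b b' : Bool) (c c' : ℕ) (o o' : Option ℕ) : 0 ≤ rr p b b' c c' o o' := by
  have := hit_nonneg o' c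
  have := hit_nonneg o c'
  cases b <;> cases b' <;> simp only [rr] <;> split_ifs <;> positivity

theorem cc_nonneg (p : ℕ) (b b' : Bool) (c c' : ℕ) (o o' : Option ℕ) : 0 ≤ cc p b b' c c' o o' := by
  have := dw_nonneg p c o'
  have := hit_nonneg o c'
  cases b <;> cases b' <;> simp only [cc] <;> split_ifs <;> positivity

theorem loc_sq (p : ℕ) (b b' : Bool) (c c' : ℕ) (o o' : Option ℕ) (h : b = true → o = none) :
    loc p b b' c c' o o' ^ 2 ≤ rr p b b' c c' o o' * cc p b b' c c' o o' := by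
  have hs : (1 / √(p : ℝ)) ^ 2 = 1 / (p : ℝ) := by
    rw [div_pow, Real.sq_sqrt (Nat.cast_nonneg _), one_pow]
  have hp : (0 : ℝ) ≤ 1 / (p : ℝ) := by positivity
  cases b <;> cases b'
  · simp only [loc, rr, cc, @eq_comm _ o o']
    split_ifs <;> norm_num
  · simp only [loc, rr, cc]
    by_cases h1 : o' = none
    · rw [if_pos h1, if_pos h1]
      by_cases h2 : o = none
      · rw [if_pos h2, if_pos h2, hs, mul_one]
        linarith [hit_nonneg o c']
      · rw [if_neg h2, if_neg h2]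
        have := mul_nonneg hp (hit_nonneg o c')
        show (hit o c' - 1 / (p : ℝ)) ^ 2 ≤ _
        nlinarith
    · rw [if_neg h1, if_neg h1]
      norm_num
  · simp only [loc, rr, cc, h rfl, dw, if_true]
    by_cases h1 : o' = none
    · simp only [if_pos h1, hs, one_mul, le_refl]
    · simp only [if_neg h1]
      show hit o' c ^ 2 ≤ _
      rw [sq]
  · simp only [loc, rr, cc, h rfl, if_true]
    split_ifs <;> norm_num

theorem sum_hit (p c : ℕ) : ∑ x ∈ range p, hit (some x) c ≤ 1 := by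
  simp only [hit, Option.some.injEq, Finset.sum_ite_eq']
  split_ifs <;> norm_num

theorem sum_rr (p : ℕ) (b b' : Bool) (c c' : ℕ) (o : Option ℕ) :
    ∑ o' ∈ insertNone (range p), rr p b b' c c' o o' ≤
      (if b = true ∧ b' = false then 2 else 1) *
        (if b' = true ∧ b = false then 1 / (p : ℝ) + hit o c' else 1) := by
  cases b <;> cases b'
  · simp only [rr, Finset.sum_ite_eq']
    split_ifs <;> simp_all
  · simp [rr]
  · have := sum_hit p c
    simp only [rr, Finset.sum_insertNone, if_true, reduceCtorEq, if_false, and_self, and_false,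
      mul_one]
    linarith
  · simp [rr]

theorem sum_cc (p : ℕ) (b b' : Bool) (c c' : ℕ) (o' : Option ℕ) :
    ∑ o ∈ insertNone (range p), cc p b b' c c' o o' ≤
      (if b' = true ∧ b = false then 3 else 1) *
        (if b = true ∧ b' = false then dw p c o' else 1) := by
  cases b <;> cases b'
  · simp only [cc, Finset.sum_ite_eq']
    split_ifs <;> simp_all
  · have h1 := sum_hit p c'
    have h2 : (p : ℝ) * (1 / (p : ℝ)) ≤ 1 := by
      rcases Nat.eq_zero_or_pos p with rfl | hp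
      · simp
      · rw [mul_one_div_cancel (by positivity)]
    simp only [cc, Finset.sum_insertNone, if_true, reduceCtorEq, if_false, and_self, and_false,
      mul_one, Finset.sum_add_distrib, Finset.sum_const, Finset.card_range, nsmul_eq_mul]
    linarith
  · simp [cc]
  · simp [cc]

/-- a memory read on all naturals -/
def ext {S : Finset ℕ} (μ : Mem S) (p : ℕ) : Option ℕ := if h : p ∈ S then μ ⟨p, h⟩ else none

theorem ext_coe {S : Finset ℕ} (μ : Mem S) (p : ↥S) : ext μ p.1 = μ p := dif_pos p.2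

theorem prod_split {S A B : Finset ℕ} (hA : A ⊆ S) (hB : B ⊆ S) (a : ℝ) (f : ℕ → ℝ) :
    ∏ p : ↥S, ((if decide (p.1 ∈ A) = true ∧ decide (p.1 ∈ B) = false then a else 1) *
      (if decide (p.1 ∈ B) = true ∧ decide (p.1 ∈ A) = false then f p.1 else 1)) =
      a ^ (A \ B).card * ∏ p ∈ B \ A, f p := by
  simp only [decide_eq_true_eq, decide_eq_false_iff_not, ← Finset.mem_sdiff]
  rw [Finset.prod_coe_sort S fun p => (if p ∈ A \ B then a else 1) * (if p ∈ B \ A then f p else 1),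
    Finset.prod_mul_distrib, Finset.prod_ite_mem, Finset.prod_ite_mem,
    Finset.inter_eq_right.2 (Finset.sdiff_subset.trans hA),
    Finset.inter_eq_right.2 (Finset.sdiff_subset.trans hB), Finset.prod_const]

variable {σ : Type} (S : Finset ℕ) (bk : σ → Finset ℕ) (cl : σ → ℕ → ℕ)

/-- global row weight -/
noncomputable def RR (s s' : σ × Mem S) : ℝ :=
  ∏ p : ↥S, rr p.1 (decide (p.1 ∈ bk s.1)) (decide (p.1 ∈ bk s'.1))
    (cl s.1 p.1) (cl s'.1 p.1) (s.2 p) (s'.2 p)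

/-- global column weight -/
noncomputable def CC (s s' : σ × Mem S) : ℝ :=
  ∏ p : ↥S, cc p.1 (decide (p.1 ∈ bk s.1)) (decide (p.1 ∈ bk s'.1))
    (cl s.1 p.1) (cl s'.1 p.1) (s.2 p) (s'.2 p)

theorem RR_nonneg (s s' : σ × Mem S) : 0 ≤ RR S bk cl s s' :=
  Finset.prod_nonneg fun _ _ => rr_nonneg ..

theorem CC_nonneg (s s' : σ × Mem S) : 0 ≤ CC S bk cl s s' :=
  Finset.prod_nonneg fun _ _ => cc_nonneg ..

variable {S bk cl}

theorem mop_sq (K : σ → σ → ℝ) {s : σ × Mem S} (s' : σ × Mem S)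
    (h : ∀ p : ↥S, p.1 ∈ bk s.1 → s.2 p = none) :
    mop S bk cl K s s' ^ 2 ≤ (|K s.1 s'.1| * RR S bk cl s s') * (|K s.1 s'.1| * CC S bk cl s s') := by
  rw [mul_mul_mul_comm, abs_mul_abs_self, mop, mul_pow, sq (K _ _), RR, CC,
    ← Finset.prod_mul_distrib, ← Finset.prod_pow]
  exact mul_le_mul_of_nonneg_left (Finset.prod_le_prod (fun _ _ => sq_nonneg _)
    fun p _ => loc_sq _ _ _ _ _ _ _ fun hb => h p (of_decide_eq_true hb)) (mul_self_nonneg _)

theorem sum_RR {v v' : σ} (hv : bk v ⊆ S) (hv' : bk v' ⊆ S) (μ : Mem S) :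
    ∑ μ' ∈ mems S, RR S bk cl (v, μ) (v', μ') ≤
      2 ^ (bk v \ bk v').card * ∏ p ∈ bk v' \ bk v, (1 / (p : ℝ) + hit (ext μ p) (cl v' p)) := by
  rw [← prod_split hv hv']
  simp only [RR, mems, ext_coe]
  rw [← Finset.prod_univ_sum (fun p : ↥S => insertNone (range p.1)) fun p o' =>
    rr p.1 (decide (p.1 ∈ bk v)) (decide (p.1 ∈ bk v')) (cl v p.1) (cl v' p.1) (μ p) o']
  exact Finset.prod_le_prod (fun _ _ => Finset.sum_nonneg fun _ _ => rr_nonneg ..)
    fun p _ => sum_rr ..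

theorem sum_CC {v v' : σ} (hv : bk v ⊆ S) (hv' : bk v' ⊆ S) (μ' : Mem S) :
    ∑ μ ∈ mems S, CC S bk cl (v, μ) (v', μ') ≤
      3 ^ (bk v' \ bk v).card * ∏ p ∈ bk v \ bk v', dw p (cl v p) (ext μ' p) := by
  rw [← prod_split hv' hv]
  simp only [CC, mems, ext_coe]
  rw [← Finset.prod_univ_sum (fun p : ↥S => insertNone (range p.1)) fun p o =>
    cc p.1 (decide (p.1 ∈ bk v)) (decide (p.1 ∈ bk v')) (cl v p.1) (cl v' p.1) o (μ' p)]
  exact Finset.prod_le_prod (fun _ _ => Finset.sum_nonneg fun _ _ => cc_nonneg ..)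
    fun p _ => sum_cc ..

/-- the remembered pairs -/
def prs (μ : Mem S) : Finset (ℕ × ℕ) :=
  (univ.filter fun p => μ p ≠ none).image fun p => (p.1, (μ p).getD 0)

/-- the remembered primes -/
def prm (μ : Mem S) : Finset ℕ := (univ.filter fun p => μ p ≠ none).image fun p => p.1

theorem mem_prs (μ : Mem S) (p c : ℕ) : (p, c) ∈ prs μ ↔ ext μ p = some c := by
  simp only [prs, Finset.mem_image, Finset.mem_filter, Finset.mem_univ, true_and, Prod.mk.injEq]
  constructor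
  · rintro ⟨q, h1, rfl, rfl⟩
    rw [ext_coe]
    obtain ⟨x, hx⟩ := Option.ne_none_iff_exists'.1 h1
    rw [hx]; rfl
  · intro h
    by_cases hp : p ∈ S
    · rw [ext, dif_pos hp] at h
      exact ⟨⟨p, hp⟩, by simp [h], rfl, by simp [h]⟩
    · rw [ext, dif_neg hp] at h
      exact absurd h (by simp)

theorem mem_prm (μ : Mem S) (p : ℕ) : p ∈ prm μ ↔ ext μ p ≠ none := by
  simp only [prm, Finset.mem_image, Finset.mem_filter, Finset.mem_univ, true_and]
  constructor
  · rintro ⟨q, h1, rfl⟩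
    rwa [ext_coe]
  · intro h
    by_cases hp : p ∈ S
    · rw [ext, dif_pos hp] at h
      exact ⟨⟨p, hp⟩, h, rfl⟩
    · rw [ext, dif_neg hp] at h
      exact absurd rfl h

theorem rho_hit {V : Finset σ} {K : σ → σ → ℝ} {κ : ℕ} {ρ₀ ρ₁ ρ₂ : ℝ}
    (h : Rho V bk cl K κ ρ₀ ρ₁ ρ₂) {v : σ} (hv : v ∈ V) {μ : Mem S} (hμ : mcard μ ≤ κ) :
    ∑ v' ∈ V, |K v v'| * (∏ p ∈ bk v' \ bk v, (1 / (p : ℝ) + hit (ext μ p) (cl v' p)) -
      ∏ p ∈ bk v' \ bk v, 1 / (p : ℝ)) ≤ ρ₁ := by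
  have := h.hit v hv (prs μ) (Finset.card_image_le.trans hμ)
  simpa only [mem_prs, hit] using this

theorem rho_ghost {V : Finset σ} {K : σ → σ → ℝ} {κ : ℕ} {ρ₀ ρ₁ ρ₂ : ℝ}
    (h : Rho V bk cl K κ ρ₀ ρ₁ ρ₂) {v : σ} (hv : v ∈ V) {μ : Mem S} (hμ : mcard μ ≤ κ) :
    ∑ v' ∈ V, |K v v'| * (if ∃ p ∈ bk v' \ bk v, ext μ p ≠ none then
      ∏ p ∈ bk v' \ bk v, 1 / (p : ℝ) else 0) ≤ ρ₂ := by
  have := h.ghost v hv (prm μ) (Finset.card_image_le.trans hμ)
  simpa only [mem_prm] using this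

theorem prod_inv_le (A : Finset ℕ) (o : ℕ → Option ℕ) (c : ℕ → ℕ) :
    ∏ p ∈ A, 1 / (p : ℝ) ≤ ∏ p ∈ A, (1 / (p : ℝ) + hit (o p) (c p)) :=
  Finset.prod_le_prod (fun _ _ => by positivity) fun p _ => by linarith [hit_nonneg (o p) (c p)]

theorem prod_dw_le (A : Finset ℕ) (o : ℕ → Option ℕ) (c : ℕ → ℕ) :
    ∏ p ∈ A, dw p (c p) (o p) ≤ ∏ p ∈ A, (1 / (p : ℝ) + hit (o p) (c p)) :=
  Finset.prod_le_prod (fun _ _ => dw_nonneg ..) fun _ _ => dw_le ..

theorem prod_dw_le' {A : Finset ℕ} {o : ℕ → Option ℕ} {c : ℕ → ℕ} (h : ∃ p ∈ A, o p = some (c p)) :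
    ∏ p ∈ A, dw p (c p) (o p) ≤
      ∏ p ∈ A, (1 / (p : ℝ) + hit (o p) (c p)) - ∏ p ∈ A, 1 / (p : ℝ) := by
  obtain ⟨q, hq, e⟩ := h
  have h1 := prod_dw_le (A.erase q) o c
  have h2 := mul_le_mul_of_nonneg_left (prod_inv_le (A.erase q) o c)
    (show (0 : ℝ) ≤ 1 / (q : ℝ) by positivity)
  have e1 : hit (o q) (c q) = 1 := if_pos e
  have e2 : dw q (c q) (o q) = 1 := by rw [dw, if_neg (by simp [e]), e1]
  rw [← Finset.mul_prod_erase A _ hq, ← Finset.mul_prod_erase A _ hq,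
    ← Finset.mul_prod_erase A (fun p => 1 / (p : ℝ)) hq, e1, e2]
  linarith

/-- without a recall, a change of the memory comes from a remembered death -/
theorem exists_death {K : σ → σ → ℝ} {s s' : σ × Mem S}
    (h : ∀ p : ↥S, p.1 ∈ bk s.1 → s.2 p = none)
    (hI : ¬ ∃ p ∈ bk s'.1 \ bk s.1, ext s.2 p ≠ none) (hne : s.2 ≠ s'.2)
    (hm : mop S bk cl K s s' ≠ 0) : ∃ p ∈ bk s.1 \ bk s'.1, ext s'.2 p = some (cl s.1 p) := by
  obtain ⟨p, hp⟩ := Function.ne_iff.1 hne
  have h1 := Finset.prod_ne_zero_iff.1 (right_ne_zero_of_mul hm) p (Finset.mem_univ _)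
  by_cases hb : p.1 ∈ bk s.1 <;> by_cases hb' : p.1 ∈ bk s'.1 <;>
    simp only [hb, hb', decide_true, decide_false, loc] at h1
  · exact absurd ((h p hb).trans (by by_contra hc; exact h1 (if_neg (Ne.symm hc)))) hp
  · refine ⟨p.1, Finset.mem_sdiff.2 ⟨hb, hb'⟩, ?_⟩
    rw [ext_coe]
    rw [h p hb] at hp
    by_contra hc
    exact h1 (by rw [if_neg (Ne.symm hp), if_neg hc])
  · have h2 : s.2 p = none := by
      by_contra hc
      exact hI ⟨p.1, Finset.mem_sdiff.2 ⟨hb', hb⟩, by rwa [ext_coe]⟩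
    exact absurd (h2.trans (by by_contra hc; exact h1 (if_neg (Ne.symm hc)))) hp
  · exact absurd (if_neg (Ne.symm hp)) h1

/-- a sum over the states is bounded by a sum over the base -/
theorem sum_mst_le {V : Finset σ} {κ : ℕ} {F : σ × Mem S → ℝ} (hF : ∀ s, 0 ≤ F s) {g : σ → ℝ}
    (h : ∀ v ∈ V, ∑ μ ∈ mems S, F (v, μ) ≤ g v) : ∑ s ∈ mst S V bk κ, F s ≤ ∑ v ∈ V, g v := by
  refine (Finset.sum_le_sum_of_subset_of_nonneg (Finset.filter_subset _ _)
    fun s _ _ => hF s).trans ?_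
  rw [Finset.sum_product]
  exact Finset.sum_le_sum h

theorem mem_mst {V : Finset σ} {κ : ℕ} {s : σ × Mem S} (h : s ∈ mst S V bk κ) :
    s.1 ∈ V ∧ (∀ p : ↥S, p.1 ∈ bk s.1 → s.2 p = none) ∧ mcard s.2 ≤ κ :=
  ⟨(Finset.mem_product.1 (Finset.mem_filter.1 h).1).1, (Finset.mem_filter.1 h).2⟩

theorem key_le {k x y a : ℝ} {n J : ℕ} (ha : 1 ≤ a) (hn : k ≠ 0 → n ≤ J) (hy : 0 ≤ y)
    (h : x ≤ a ^ n * y) : |k| * x ≤ a ^ J * (|k| * y) := by
  by_cases hk : k = 0
  · simp [hk]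
  · have h1 := mul_le_mul_of_nonneg_right (pow_le_pow_right₀ ha (hn hk)) hy
    rw [mul_left_comm]
    exact mul_le_mul_of_nonneg_left (h.trans h1) (abs_nonneg _)

theorem row_le {V : Finset σ} {K : σ → σ → ℝ} {Jd κ : ℕ} (hA : Abs S V bk cl K Jd)
    {s : σ × Mem S} (hs : s.1 ∈ V) (I : σ → Prop) [DecidablePred I] :
    ∑ s' ∈ mst S V bk κ, (if I s'.1 then |K s.1 s'.1| * RR S bk cl s s' else 0) ≤
      2 ^ Jd * ∑ v' ∈ V, |K s.1 v'| * if I v' then
        ∏ p ∈ bk v' \ bk s.1, (1 / (p : ℝ) + hit (ext s.2 p) (cl v' p)) else 0 := by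
  rw [Finset.mul_sum]
  refine sum_mst_le (fun s' => ?_) fun v' hv' => ?_
  · have := RR_nonneg S bk cl s s'
    split_ifs <;> positivity
  · by_cases hI : I v'
    · simp only [hI, if_true, ← Finset.mul_sum]
      exact key_le one_le_two (hA.card _ hs _ hv') (Finset.prod_nonneg fun p _ =>
        add_nonneg (by positivity) (hit_nonneg _ _)) (sum_RR (hA.sub _ hs) (hA.sub _ hv') s.2)
    · simp [hI]

theorem col_le {V : Finset σ} {K : σ → σ → ℝ} {Jd κ : ℕ} (hA : Abs S V bk cl K Jd)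
    {s' : σ × Mem S} (hs : s'.1 ∈ V) (I : σ → Prop) [DecidablePred I] :
    ∑ s ∈ mst S V bk κ, (if I s.1 then |K s.1 s'.1| * CC S bk cl s s' else 0) ≤
      3 ^ Jd * ∑ v ∈ V, |K s'.1 v| * if I v then
        ∏ p ∈ bk v \ bk s'.1, dw p (cl v p) (ext s'.2 p) else 0 := by
  rw [Finset.mul_sum]
  refine sum_mst_le (fun s => ?_) fun v hv => ?_
  · have := CC_nonneg S bk cl s s'
    split_ifs <;> positivity
  · by_cases hI : I v
    · simp only [hI, if_true, ← Finset.mul_sum, hA.symm _ hv _ hs]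
      exact key_le (by norm_num) (hA.card _ hs _ hv) (Finset.prod_nonneg fun p _ =>
        dw_nonneg ..) (sum_CC (hA.sub _ hv) (hA.sub _ hs) s'.2)
    · simp [hI]

theorem sqrt_le (J : ℕ) {x y : ℝ} (hxy : x ≤ y) (hy : 0 ≤ y) :
    √(2 ^ J * 3 ^ J * x) ≤ 3 ^ J * √y := by
  rw [Real.sqrt_le_left (by positivity), mul_pow, Real.sq_sqrt hy, sq]
  have h1 : (2 : ℝ) ^ J * 3 ^ J ≤ 3 ^ J * 3 ^ J :=
    mul_le_mul_of_nonneg_right (pow_le_pow_left₀ (by norm_num) (by norm_num) J) (by positivity)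
  exact (mul_le_mul_of_nonneg_left hxy (by positivity)).trans (mul_le_mul_of_nonneg_right h1 hy)

end MemRestAux

open MemRestAux

theorem memRest : MemRestStmt := by
  intro σ _ S V bk cl K Jd κ ρ₀ ρ₁ ρ₂ hA h0 h1 h2 hR
  classical
  set I : σ × Mem S → σ → Prop := fun s v' => ∃ p ∈ bk v' \ bk s.1, ext s.2 p ≠ none with hI
  set D : σ × Mem S → σ → Prop :=
    fun s' v => ∃ p ∈ bk v \ bk s'.1, ext s'.2 p = some (cl v p) with hD
  have nR : ∀ (P : Prop) [Decidable P] (s s' : σ × Mem S),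
      0 ≤ if P then |K s.1 s'.1| * RR S bk cl s s' else 0 := fun P _ s s' => by
    have := RR_nonneg S bk cl s s'
    split_ifs <;> positivity
  have nC : ∀ (P : Prop) [Decidable P] (s s' : σ × Mem S),
      0 ≤ if P then |K s.1 s'.1| * CC S bk cl s s' else 0 := fun P _ s s' => by
    have := CC_nonneg S bk cl s s'
    split_ifs <;> positivity
  have A := schur (V := mst S V bk κ)
    (K := fun s s' => if I s s'.1 then (if s.2 = s'.2 then 0 else mop S bk cl K s s') else 0)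
    (R := fun s s' => if I s s'.1 then |K s.1 s'.1| * RR S bk cl s s' else 0)
    (C := fun s s' => if True then |K s.1 s'.1| * CC S bk cl s s' else 0)
    (a := 2 ^ Jd * (ρ₁ + ρ₂)) (b := 3 ^ Jd * (ρ₀ + ρ₁)) (by positivity) (by positivity)
    (fun s _ s' _ => nR _ s s') (fun s _ s' _ => nC _ s s') (fun s hs s' _ => ?_)
    (fun s hs => ?_) fun s' hs' => ?_
  have B := schur (V := mst S V bk κ)
    (K := fun s s' => if I s s'.1 then 0 else (if s.2 = s'.2 then 0 else mop S bk cl K s s'))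
    (R := fun s s' => if ¬ I s s'.1 then |K s.1 s'.1| * RR S bk cl s s' else 0)
    (C := fun s s' => if D s' s.1 then |K s.1 s'.1| * CC S bk cl s s' else 0)
    (a := 2 ^ Jd * ρ₀) (b := 3 ^ Jd * ρ₁) (by positivity) (by positivity)
    (fun s _ s' _ => nR _ s s') (fun s _ s' _ => nC _ s s') (fun s hs s' _ => ?_)
    (fun s hs => ?_) fun s' hs' => ?_
  · refine ((A.add B).congr fun s _ s' _ => ?_).mono ?_
    · split_ifs <;> simp
    · rw [mul_mul_mul_comm, mul_mul_mul_comm (2 ^ Jd : ℝ) ρ₀]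
      have e1 := sqrt_le Jd (le_refl ((ρ₁ + ρ₂) * (ρ₀ + ρ₁))) (by positivity)
      have e2 := sqrt_le Jd (x := ρ₀ * ρ₁) (y := (ρ₁ + ρ₂) * (ρ₀ + ρ₁))
        (by nlinarith [mul_nonneg h1 h1, mul_nonneg h2 h0, mul_nonneg h2 h1]) (by positivity)
      linarith
  · by_cases h3 : I s s'.1
    · simp [h3]
    · by_cases h4 : s.2 = s'.2
      · simpa [h3, h4] using mul_nonneg (nR True s s') (nC (D s' s.1) s s')
      · by_cases h5 : mop S bk cl K s s' = 0
        · simpa [h3, h4, h5] using mul_nonneg (nR True s s') (nC (D s' s.1) s s')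
        · have h6 : D s' s.1 := exists_death (mem_mst hs).2.1 h3 h4 h5
          simpa only [h3, h4, h6, if_true, if_false, not_false_eq_true] using
            mop_sq K s' (mem_mst hs).2.1
  · refine (row_le hA (mem_mst hs).1 fun v' => ¬ I s v').trans
      (mul_le_mul_of_nonneg_left ((Finset.sum_le_sum fun v' _ => ?_).trans
        (hR.free _ (mem_mst hs).1)) (by positivity))
    refine mul_le_mul_of_nonneg_left ?_ (abs_nonneg _)
    split_ifs with h3
    · exact Finset.prod_nonneg fun _ _ => by positivity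
    · refine le_of_eq (Finset.prod_congr rfl fun p hp => ?_)
      have h4 : ext s.2 p = none := by
        by_contra hc
        exact h3 ⟨p, hp, hc⟩
      simp [hit, h4]
  · refine (col_le hA (mem_mst hs').1 (D s')).trans
      (mul_le_mul_of_nonneg_left ((Finset.sum_le_sum fun v _ => ?_).trans
        (rho_hit hR (mem_mst hs').1 (mem_mst hs').2.2)) (by positivity))
    refine mul_le_mul_of_nonneg_left ?_ (abs_nonneg _)
    split_ifs with h3
    · exact prod_dw_le' h3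
    · exact sub_nonneg.2 (prod_inv_le ..)
  · by_cases h3 : I s s'.1
    · by_cases h4 : s.2 = s'.2
      · simpa [h3, h4] using mul_nonneg (nR True s s') (nC True s s')
      · simpa only [h3, h4, if_true, if_false] using mop_sq K s' (mem_mst hs).2.1
    · simp [h3]
  · refine (row_le hA (mem_mst hs).1 (I s)).trans
      (mul_le_mul_of_nonneg_left (le_trans ?_ (add_le_add
        (rho_hit hR (mem_mst hs).1 (mem_mst hs).2.2)
        (rho_ghost hR (mem_mst hs).1 (mem_mst hs).2.2))) (by positivity))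
    rw [← Finset.sum_add_distrib]
    refine Finset.sum_le_sum fun v' _ => ?_
    rw [← mul_add]
    refine mul_le_mul_of_nonneg_left ?_ (abs_nonneg _)
    by_cases h3 : I s v'
    · rw [if_pos h3, if_pos h3, sub_add_cancel]
    · rw [if_neg h3, if_neg h3, add_zero]
      exact sub_nonneg.2 (prod_inv_le ..)
  · refine (col_le hA (mem_mst hs').1 fun _ => True).trans
      (mul_le_mul_of_nonneg_left (le_trans ?_ (add_le_add (hR.free _ (mem_mst hs').1)
        (rho_hit hR (mem_mst hs').1 (mem_mst hs').2.2))) (by positivity))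
    rw [← Finset.sum_add_distrib]
    refine Finset.sum_le_sum fun v _ => ?_
    rw [← mul_add, if_pos trivial, add_sub_cancel]
    exact mul_le_mul_of_nonneg_left (prod_dw_le ..) (abs_nonneg _)

end Crest.Agent.R26
private theorem rz_db70f7ef18 : type_of% @_root_.Crest.Agent.R26.MemRestAux.cc.eq_1 := @_root_.Crest.Agent.R26.MemRestAux.cc.eq_1 -- L29
private theorem rz_5027d37ae2 : type_of% @_root_.Crest.Agent.R26.MemRestAux.rr.eq_1 := @_root_.Crest.Agent.R26.MemRestAux.rr.eq_1 -- L21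
end

-- ▼ part PVc/R5/Minor
section

/-! Row 5: the minor-arc bound (a `TT*` argument). -/

set_option autoImplicit false

namespace Crest.Agent.R5

open Finset
open scoped ComplexConjugate

namespace Minor

theorem ttstar {ι κ : Type*} (T : Finset ι) (M : Finset κ) (K : ι → κ → ℂ) (w : κ → ℂ) {B : ℝ}
    (hB0 : 0 ≤ B) (hB : ∀ t ∈ T, ∑ t' ∈ T, ‖∑ m ∈ M, K t m * conj (K t' m)‖ ≤ B) :
    ∑ t ∈ T, ‖∑ m ∈ M, w m * K t m‖ ^ 2 ≤ B * ∑ m ∈ M, ‖w m‖ ^ 2 := by
  set θ : ι → ℂ := fun t => conj (∑ m ∈ M, w m * K t m) with hθ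
  set E : ℝ := ∑ t ∈ T, ‖∑ m ∈ M, w m * K t m‖ ^ 2 with hE
  have hEθ : E = ∑ t ∈ T, ‖θ t‖ ^ 2 := sum_congr rfl fun t _ => by rw [hθ, Complex.norm_conj]
  have hE0 : 0 ≤ E := sum_nonneg fun _ _ => sq_nonneg _
  have hW0 : 0 ≤ ∑ m ∈ M, ‖w m‖ ^ 2 := sum_nonneg fun _ _ => sq_nonneg _
  have h1 : (E : ℂ) = ∑ m ∈ M, w m * ∑ t ∈ T, θ t * K t m := by
    rw [hE]
    push_cast
    simp only [mul_sum]
    rw [sum_comm]
    refine sum_congr rfl fun t _ => ?_
    rw [← Complex.conj_mul', mul_sum]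
    exact sum_congr rfl fun m _ => by simp only [hθ]; ring
  have h2 : E ≤ ∑ m ∈ M, ‖w m‖ * ‖∑ t ∈ T, θ t * K t m‖ := by
    have := congrArg norm h1
    rw [Complex.norm_real, Real.norm_of_nonneg hE0] at this
    rw [this]
    exact (norm_sum_le _ _).trans (sum_le_sum fun m _ => (norm_mul _ _).le)
  have h3 : ((∑ m ∈ M, ‖∑ t ∈ T, θ t * K t m‖ ^ 2 : ℝ) : ℂ) =
      ∑ t ∈ T, ∑ t' ∈ T, θ t * conj (θ t') * ∑ m ∈ M, K t m * conj (K t' m) := by
    push_cast
    simp only [← Complex.mul_conj', map_sum, map_mul, sum_mul, mul_sum]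
    rw [sum_comm]
    conv_rhs => rw [sum_comm]
    refine sum_congr rfl fun t' _ => ?_
    rw [sum_comm]
    exact sum_congr rfl fun t _ => sum_congr rfl fun m _ => by ring
  have hsym : ∀ t t', ‖∑ m ∈ M, K t m * conj (K t' m)‖ = ‖∑ m ∈ M, K t' m * conj (K t m)‖ := by
    intro t t'
    rw [← Complex.norm_conj, map_sum]
    congr 1
    exact sum_congr rfl fun m _ => by rw [map_mul, Complex.conj_conj, mul_comm]
  have h4 : ∑ m ∈ M, ‖∑ t ∈ T, θ t * K t m‖ ^ 2 ≤ B * E := by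
    have := congrArg norm h3
    rw [Complex.norm_real, Real.norm_of_nonneg (sum_nonneg fun _ _ => sq_nonneg _)] at this
    rw [this]
    have hA : ∑ t ∈ T, ∑ t' ∈ T, ‖θ t‖ ^ 2 * ‖∑ m ∈ M, K t m * conj (K t' m)‖ ≤ B * E := by
      rw [hEθ, mul_sum]
      refine sum_le_sum fun t ht => ?_
      rw [← mul_sum, mul_comm]
      exact mul_le_mul_of_nonneg_right (hB t ht) (sq_nonneg _)
    have hA' : ∑ t ∈ T, ∑ t' ∈ T, ‖θ t'‖ ^ 2 * ‖∑ m ∈ M, K t m * conj (K t' m)‖ ≤ B * E := by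
      rw [sum_comm]
      simpa only [hsym] using hA
    calc _ ≤ ∑ t ∈ T, ∑ t' ∈ T, ((‖θ t‖ ^ 2 * ‖∑ m ∈ M, K t m * conj (K t' m)‖) / 2 +
            (‖θ t'‖ ^ 2 * ‖∑ m ∈ M, K t m * conj (K t' m)‖) / 2) := by
          refine (norm_sum_le _ _).trans (sum_le_sum fun t _ => ?_)
          refine (norm_sum_le _ _).trans (sum_le_sum fun t' _ => ?_)
          rw [norm_mul, norm_mul, Complex.norm_conj (θ t')]
          nlinarith [mul_nonneg (sq_nonneg (‖θ t‖ - ‖θ t'‖))
            (norm_nonneg (∑ m ∈ M, K t m * conj (K t' m)))]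
      _ ≤ B * E := by
          simp only [sum_add_distrib, ← sum_div]
          linarith
  have h5 := sum_mul_sq_le_sq_mul_sq M (fun m => ‖w m‖) fun m => ‖∑ t ∈ T, θ t * K t m‖
  have h6 : E ^ 2 ≤ (∑ m ∈ M, ‖w m‖ ^ 2) * (B * E) :=
    ((pow_le_pow_left₀ hE0 h2 2).trans h5).trans (mul_le_mul_of_nonneg_left h4 hW0)
  rcases hE0.eq_or_lt with h0 | h0
  · rw [← h0]
    positivity
  · nlinarith

theorem norm_ee (x : ℝ) : ‖ee x‖ = 1 := Complex.norm_exp_ofReal_mul_I _

theorem ee_add (x y : ℝ) : ee (x + y) = ee x * ee y := by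
  unfold ee
  rw [← Complex.exp_add]
  congr 1
  push_cast
  ring

theorem ee_int (z : ℤ) : ee z = 1 := by
  unfold ee
  rw [← Complex.exp_int_mul_two_pi_mul_I z]
  congr 1
  push_cast
  ring

theorem ee_nat_mul (x : ℝ) (m : ℕ) : ee (x * m) = ee x ^ m := by
  unfold ee
  rw [← Complex.exp_nat_mul]
  congr 1
  push_cast
  ring

theorem conj_ee (x : ℝ) : conj (ee x) = ee (-x) := by
  unfold ee
  rw [← Complex.exp_conj, map_mul, Complex.conj_ofReal, Complex.conj_I]
  congr 1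
  push_cast
  ring

theorem le_norm_ee_sub_one {x Δ : ℝ} (h : ∀ z : ℤ, Δ ≤ |x - z|) : 4 * Δ ≤ ‖ee x - 1‖ := by
  have h1 := abs_sub_round x
  have h2 := h (round x)
  set y := x - round x with hy
  have h3 : ee x = Complex.exp (Complex.I * ((2 * Real.pi * y : ℝ) : ℂ)) := by
    rw [show x = y + round x by rw [hy]; ring, ee_add, ee_int, mul_one, ee, mul_comm]
  have hpi := Real.pi_pos
  have h4 : |Real.pi * y| = Real.pi * |y| := by rw [abs_mul, abs_of_pos hpi]
  have h5 := Real.mul_abs_le_abs_sin (x := Real.pi * y) (by rw [h4]; nlinarith)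
  rw [h3, Complex.norm_exp_I_mul_ofReal_sub_one, show 2 * Real.pi * y / 2 = Real.pi * y by ring,
    Real.norm_eq_abs, abs_mul, abs_two]
  rw [h4, show 2 / Real.pi * (Real.pi * |y|) = 2 * |y| by field_simp] at h5
  linarith

theorem exists_Ico (F : Finset ℕ) (h : ∀ a ∈ F, ∀ c ∈ F, ∀ b, a ≤ b → b ≤ c → b ∈ F) :
    ∃ a b, a ≤ b ∧ F = Ico a b := by
  rcases F.eq_empty_or_nonempty with rfl | hne
  · exact ⟨0, 0, le_rfl, by simp⟩
  · refine ⟨F.min' hne, F.max' hne + 1, (F.min'_le_max' hne).trans (Nat.le_succ _), ?_⟩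
    ext b
    rw [mem_Ico, Nat.lt_succ_iff]
    exact ⟨fun hb => ⟨F.min'_le b hb, F.le_max' b hb⟩,
      fun hb => h _ (F.min'_mem hne) _ (F.max'_mem hne) b hb.1 hb.2⟩

theorem geom_le (F : Finset ℕ) (hF : ∀ a ∈ F, ∀ c ∈ F, ∀ b, a ≤ b → b ≤ c → b ∈ F) {x Δ : ℝ}
    (hΔ : 0 < Δ) (h : ∀ z : ℤ, Δ ≤ |x - z|) : ‖∑ m ∈ F, ee (x * m)‖ ≤ 1 / (2 * Δ) := by
  obtain ⟨a, b, hab, rfl⟩ := exists_Ico F hF
  have h1 := le_norm_ee_sub_one h
  have h2 : ee x ≠ 1 := fun h0 => by
    rw [h0, sub_self, norm_zero] at h1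
    linarith
  simp only [ee_nat_mul]
  rw [geom_sum_Ico h2 hab, norm_div, div_le_div_iff₀ (by linarith) (by linarith)]
  have h3 : ‖ee x ^ b - ee x ^ a‖ ≤ 2 := by
    refine (norm_sub_le _ _).trans ?_
    rw [norm_pow, norm_pow, norm_ee, one_pow, one_pow]
    norm_num
  nlinarith

/-- the kernel -/
noncomputable def ker (S : Finset ℕ) (P : ℕ) (γ : ℕ → ℂ) (α : ℝ) (t m : ℕ) : ℂ :=
  ∑ q ∈ S, if t < q * m ∧ q * m ≤ t + P then γ q * ee (α * (q * m : ℕ)) else 0

/-- the common range of the variable `m` -/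
def rng (M P t t' q q' : ℕ) : Finset ℕ :=
  (Icc 1 M).filter fun m => (t < q * m ∧ q * m ≤ t + P) ∧ (t' < q' * m ∧ q' * m ≤ t' + P)

theorem ker_mul (S : Finset ℕ) (M P : ℕ) (γ : ℕ → ℂ) (α : ℝ) (t t' : ℕ) :
    ∑ m ∈ Icc 1 M, ker S P γ α t m * conj (ker S P γ α t' m) =
      ∑ q ∈ S, ∑ q' ∈ S, γ q * conj (γ q') *
        ∑ m ∈ rng M P t t' q q', ee (α * ((q : ℝ) - q') * m) := by
  unfold ker rng
  simp only [map_sum, sum_mul_sum]
  rw [sum_comm]
  refine sum_congr rfl fun q _ => ?_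
  rw [sum_comm]
  refine sum_congr rfl fun q' _ => ?_
  rw [sum_filter, mul_sum]
  refine sum_congr rfl fun m _ => ?_
  by_cases h1 : t < q * m ∧ q * m ≤ t + P
  · by_cases h2 : t' < q' * m ∧ q' * m ≤ t' + P
    · rw [if_pos h1, if_pos h2, if_pos ⟨h1, h2⟩, map_mul, conj_ee,
        show α * ((q : ℝ) - q') * m = α * (q * m : ℕ) + -(α * (q' * m : ℕ)) by push_cast; ring,
        ee_add]
      ring
    · simp only [h2, if_false, and_false, map_zero, mul_zero]
  · simp only [h1, if_false, false_and, zero_mul, mul_zero]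

theorem rng_convex (M P t t' q q' : ℕ) : ∀ a ∈ rng M P t t' q q', ∀ c ∈ rng M P t t' q q', ∀ b,
    a ≤ b → b ≤ c → b ∈ rng M P t t' q q' := by
  intro a ha c hc b hab hbc
  simp only [rng, mem_filter, mem_Icc] at ha hc ⊢
  have h1 := Nat.mul_le_mul_left q hab
  have h2 := Nat.mul_le_mul_left q hbc
  have h3 := Nat.mul_le_mul_left q' hab
  have h4 := Nat.mul_le_mul_left q' hbc
  omega

theorem card_rng (M P t t' q q' Q : ℕ) (hQ : 1 ≤ Q) (hq : Q ≤ q) (hP : Q ≤ P) :
    ((rng M P t t' q q').card : ℝ) ≤ 2 * (P / Q) := by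
  have hq0 : 0 < q := by omega
  have h1 : rng M P t t' q q' ⊆ Ioc (t / q) ((t + P) / q) := by
    intro m hm
    simp only [rng, mem_filter] at hm
    rw [mem_Ioc, Nat.div_lt_iff_lt_mul hq0, Nat.le_div_iff_mul_le hq0, mul_comm]
    exact hm.2.1
  have h2 : (t + P) / q ≤ t / q + P / q + 1 := by
    rw [Nat.add_div hq0]
    split_ifs <;> omega
  have h3 : (rng M P t t' q q').card ≤ P / q + 1 := by
    have := card_le_card h1
    rw [Nat.card_Ioc] at this
    generalize P / q = a at *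
    generalize t / q = b at *
    omega
  have hQ' : (0 : ℝ) < Q := by exact_mod_cast hQ
  have h4 : ((P / q : ℕ) : ℝ) ≤ P / Q :=
    Nat.cast_div_le.trans (div_le_div_of_nonneg_left (Nat.cast_nonneg _) hQ' (by exact_mod_cast hq))
  have h5 : (1 : ℝ) ≤ P / Q := (one_le_div hQ').2 (by exact_mod_cast hP)
  have h6 : ((rng M P t t' q q').card : ℝ) ≤ (P / q : ℕ) + 1 := by exact_mod_cast h3
  linarith

theorem mem_of_rng {M P t t' q q' : ℕ} (hq : q' < 2 * q) (h : (rng M P t t' q q').Nonempty) :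
    t' ∈ Ico (t * q' / q - P) (t * q' / q + 2 * P) := by
  obtain ⟨m, hm⟩ := h
  simp only [rng, mem_filter] at hm
  obtain ⟨-, ⟨h1, h2⟩, h3, h4⟩ := hm
  have hq0 : 0 < q := by omega
  have h5 : t * q' / q ≤ q' * m := by
    refine Nat.div_le_of_le_mul ?_
    calc t * q' ≤ q * m * q' := Nat.mul_le_mul_right _ h1.le
      _ = q * (q' * m) := by ring
  have h6 : q' * m ≤ t * q' / q + 2 * P := by
    rw [← Nat.add_mul_div_right _ _ hq0, Nat.le_div_iff_mul_le hq0]
    calc q' * m * q = q * m * q' := by ring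
      _ ≤ (t + P) * q' := Nat.mul_le_mul_right _ h2
      _ = t * q' + P * q' := by ring
      _ ≤ t * q' + P * (2 * q) := by gcongr
      _ = t * q' + 2 * P * q := by ring
  rw [mem_Ico]
  omega

theorem sum_rng_le (T : Finset ℕ) {M P t q q' : ℕ} (hq : q' < 2 * q) (f : ℕ → ℂ) {c : ℝ}
    (hc0 : 0 ≤ c) (hc : ∀ t', ‖∑ m ∈ rng M P t t' q q', f m‖ ≤ c) :
    ∑ t' ∈ T, ‖∑ m ∈ rng M P t t' q q', f m‖ ≤ 3 * P * c := by
  classical
  rw [← sum_filter_of_ne (p := fun t' => t' ∈ Ico (t * q' / q - P) (t * q' / q + 2 * P))]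
  · refine (sum_le_card_nsmul _ _ c fun t' _ => hc t').trans ?_
    rw [nsmul_eq_mul]
    refine mul_le_mul_of_nonneg_right ?_ hc0
    have h1 : (T.filter fun t' => t' ∈ Ico (t * q' / q - P) (t * q' / q + 2 * P)).card ≤ 3 * P := by
      refine (card_le_card fun t' ht' => (mem_filter.1 ht').2).trans ?_
      rw [Nat.card_Ico]
      omega
    exact_mod_cast h1
  · intro t' _ h
    refine mem_of_rng (M := M) hq (nonempty_iff_ne_empty.2 fun h0 => h ?_)
    rw [h0, sum_empty, norm_zero]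

theorem row_le (S T : Finset ℕ) (Q M P : ℕ) (γ : ℕ → ℂ) (α Δ : ℝ)
    (hS : ∀ q ∈ S, Q ≤ q ∧ q < 2 * Q) (hQ : 1 ≤ Q) (hP : Q ≤ P) (hγ : ∀ q, ‖γ q‖ ≤ 1) (hΔ : 0 < Δ)
    (hα : ∀ k : ℕ, 1 ≤ k → k < Q → ∀ z : ℤ, Δ ≤ |α * k - z|) (t : ℕ) :
    ∑ t' ∈ T, ‖∑ m ∈ Icc 1 M, ker S P γ α t m * conj (ker S P γ α t' m)‖ ≤
      Q * (3 * P * (2 * (P / Q) + Q * (1 / (2 * Δ)))) := by
  classical
  have hcard : (S.card : ℝ) ≤ Q := by
    have h1 : S ⊆ Ico Q (2 * Q) := fun q hq => mem_Ico.2 (hS q hq)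
    have h2 := card_le_card h1
    rw [Nat.card_Ico] at h2
    exact_mod_cast (show S.card ≤ Q by omega)
  have hd : ∀ q ∈ S, ∀ q' ∈ S, ∀ t',
      ‖∑ m ∈ rng M P t t' q q', ee (α * ((q : ℝ) - q') * m)‖ ≤
        (if q' = q then 2 * ((P : ℝ) / Q) else 0) + 1 / (2 * Δ) := by
    intro q hq q' hq' t'
    have hq1 := hS q hq
    have hq2 := hS q' hq'
    split_ifs with h
    · refine (norm_sum_le _ _).trans ?_
      simp only [norm_ee, sum_const, nsmul_eq_mul, mul_one]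
      refine (card_rng M P t t' q q' Q hQ hq1.1 hP).trans (le_add_of_nonneg_right ?_)
      positivity
    · rw [zero_add]
      refine geom_le _ (rng_convex M P t t' q q') hΔ fun z => ?_
      rcases lt_or_gt_of_ne h with h | h
      · have := hα (q - q') (by omega) (by omega) z
        rwa [Nat.cast_sub h.le] at this
      · have := hα (q' - q) (by omega) (by omega) (-z)
        rw [Nat.cast_sub h.le, ← abs_neg] at this
        convert this using 2
        push_cast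
        ring
  calc _ ≤ ∑ t' ∈ T, ∑ q ∈ S, ∑ q' ∈ S,
          ‖∑ m ∈ rng M P t t' q q', ee (α * ((q : ℝ) - q') * m)‖ := by
        refine sum_le_sum fun t' _ => ?_
        rw [ker_mul]
        refine (norm_sum_le _ _).trans (sum_le_sum fun q _ => ?_)
        refine (norm_sum_le _ _).trans (sum_le_sum fun q' _ => ?_)
        rw [norm_mul, norm_mul, Complex.norm_conj]
        exact mul_le_of_le_one_left (norm_nonneg _)
          (mul_le_one₀ (hγ q) (norm_nonneg _) (hγ q'))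
    _ = ∑ q ∈ S, ∑ q' ∈ S, ∑ t' ∈ T,
          ‖∑ m ∈ rng M P t t' q q', ee (α * ((q : ℝ) - q') * m)‖ := by
        rw [sum_comm]
        exact sum_congr rfl fun q _ => sum_comm
    _ ≤ ∑ q ∈ S, ∑ q' ∈ S,
          3 * P * ((if q' = q then 2 * ((P : ℝ) / Q) else 0) + 1 / (2 * Δ)) := by
        refine sum_le_sum fun q hq => sum_le_sum fun q' hq' => ?_
        have hq1 := hS q hq
        have hq2 := hS q' hq'
        refine sum_rng_le T (by omega) _ ?_ (hd q hq q' hq')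
        split_ifs <;> positivity
    _ ≤ ∑ q ∈ S, 3 * P * (2 * ((P : ℝ) / Q) + Q * (1 / (2 * Δ))) := by
        refine sum_le_sum fun q hq => ?_
        rw [← mul_sum, sum_add_distrib, sum_ite_eq', if_pos hq, sum_const, nsmul_eq_mul]
        gcongr
    _ ≤ _ := by
        rw [sum_const, nsmul_eq_mul]
        gcongr

theorem sum_eq_ker (S : Finset ℕ) (Q N P : ℕ) (γ w : ℕ → ℂ) (α : ℝ) (hS : ∀ q ∈ S, Q ≤ q)
    (hQ : 1 ≤ Q) {t : ℕ} (ht : t + P ≤ 3 * N) :
    ∑ q ∈ S, γ q * ∑ n ∈ (Ioc t (t + P)).filter (fun n => q ∣ n), w (n / q) * ee (α * n) =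
      ∑ m ∈ Icc 1 (3 * N / Q), w m * ker S P γ α t m := by
  unfold ker
  simp only [mul_sum]
  rw [sum_comm]
  refine sum_congr rfl fun q hq => ?_
  have hq1 := hS q hq
  have hq0 : 0 < q := by omega
  simp only [mul_ite, mul_zero]
  rw [← sum_filter]
  refine sum_nbij' (fun n => n / q) (fun m => q * m) ?_ ?_ ?_ ?_ ?_
  · intro n hn
    simp only [mem_filter, mem_Ioc, mem_Icc] at hn ⊢
    obtain ⟨⟨h1, h2⟩, m, rfl⟩ := hn
    rw [Nat.mul_div_cancel_left _ hq0]
    refine ⟨⟨Nat.pos_of_ne_zero ?_, ?_⟩, h1, h2⟩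
    · rintro rfl
      omega
    · rw [Nat.le_div_iff_mul_le hQ]
      calc m * Q ≤ m * q := Nat.mul_le_mul_left _ hq1
        _ = q * m := mul_comm _ _
        _ ≤ 3 * N := h2.trans ht
  · intro m hm
    simp only [mem_filter, mem_Ioc, mem_Icc] at hm ⊢
    exact ⟨hm.2, dvd_mul_right _ _⟩
  · intro n hn
    exact Nat.mul_div_cancel' (mem_filter.1 hn).2
  · intro m _
    exact Nat.mul_div_cancel_left _ hq0
  · intro n hn
    rw [Nat.mul_div_cancel' (mem_filter.1 hn).2]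
    ring

end Minor

theorem minor : MinorStmt := by
  intro S Q N P γ w G α Δ hS hQ hP hN hγ hw hG hΔ hα
  have hQ' : (0 : ℝ) < Q := by exact_mod_cast hQ
  rw [sum_congr rfl fun t ht => by
    rw [Minor.sum_eq_ker S Q N P γ w α (fun q hq => (hS q hq).1) hQ
      (t := t) (by have := (mem_Ico.1 ht).2; omega)]]
  refine (Minor.ttstar _ _ _ w (by positivity) fun t _ =>
    Minor.row_le S _ Q _ P γ α Δ hS hQ hP hγ hΔ hα t).trans ?_
  have h1 : ∑ m ∈ Icc 1 (3 * N / Q), ‖w m‖ ^ 2 ≤ 3 * N / Q * G ^ 2 := by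
    refine (sum_le_card_nsmul _ _ (G ^ 2) fun m hm => ?_).trans ?_
    · rw [mem_Icc] at hm
      exact pow_le_pow_left₀ (norm_nonneg _) (hw m hm.1 (hm.2.trans (Nat.div_le_self _ _))) 2
    · rw [nsmul_eq_mul, Nat.card_Icc, Nat.add_sub_cancel]
      refine mul_le_mul_of_nonneg_right (Nat.cast_div_le.trans ?_) (sq_nonneg _)
      push_cast
      rfl
  refine (mul_le_mul_of_nonneg_left h1 (by positivity)).trans ?_
  have h2 : (Q : ℝ) * (3 * P * (2 * (P / Q) + Q * (1 / (2 * Δ)))) * (3 * N / Q * G ^ 2) =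
      G ^ 2 * N * P * (18 * (P / Q) + 9 / 2 * (Q / Δ)) := by
    field_simp
    ring
  have h3 : (0 : ℝ) ≤ P / Q := by positivity
  have h4 : (0 : ℝ) ≤ Q / Δ := by positivity
  rw [h2]
  calc _ ≤ G ^ 2 * N * P * (24 * (P / Q + Q / Δ)) :=
        mul_le_mul_of_nonneg_left (by linarith) (by positivity)
    _ = _ := by ring

end Crest.Agent.R5
end

-- ▼ part PVc/R26/Ker
section

/-! Row 26: the kernel. -/

set_option autoImplicit false

namespace Crest.Agent.R26

open Finset Filter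
open Crest.Agent.R5 (pr pd ee nit)

namespace Ker

theorem sum_succ {M : Type} [AddCommMonoid M] (f : ℤ → M) (h : ℕ) :
    ∑ n ∈ Icc (-((h + 1 : ℕ) : ℤ)) ((h + 1 : ℕ) : ℤ), f n =
      ∑ n ∈ Icc (-(h : ℤ)) h, f n + f (h + 1) + f (-(h + 1)) := by
  have e : Icc (-((h + 1 : ℕ) : ℤ)) ((h + 1 : ℕ) : ℤ) =
      insert (-((h : ℤ) + 1)) (insert ((h : ℤ) + 1) (Icc (-(h : ℤ)) h)) := by
    ext n
    simp only [mem_Icc, mem_insert]
    omega
  rw [e, sum_insert, sum_insert]
  · abel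
  · simp only [mem_Icc]; omega
  · simp only [mem_Icc, mem_insert]; omega

theorem dirichlet (θ : ℝ) (h : ℕ) :
    (1 - Real.cos θ) * ∑ n ∈ Icc (-(h : ℤ)) h, Real.cos (n * θ) =
      Real.cos (h * θ) - Real.cos ((h + 1) * θ) := by
  induction h with
  | zero => simp
  | succ h ih =>
    rw [sum_succ, mul_add, mul_add, ih]
    push_cast
    rw [neg_mul, Real.cos_neg]
    have e1 : Real.cos ((h + 1 + 1) * θ) = Real.cos ((h + 1) * θ + θ) := by ring_nf
    have e2 : Real.cos (h * θ) = Real.cos ((h + 1) * θ - θ) := by ring_nf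
    rw [e1, e2, Real.cos_add, Real.cos_sub]
    ring

theorem fejer (θ : ℝ) (h : ℕ) :
    (1 - Real.cos θ) * ∑ n ∈ Icc (-(h : ℤ)) h, ((h : ℝ) - |(n : ℝ)|) * Real.cos (n * θ) =
      1 - Real.cos (h * θ) := by
  induction h with
  | zero => simp
  | succ h ih =>
    rw [sum_succ]
    have h0 : (0 : ℝ) ≤ (h : ℝ) + 1 := by positivity
    push_cast
    rw [abs_neg, abs_of_nonneg h0, sub_self, zero_mul, zero_mul, add_zero, add_zero]
    have e : ∑ n ∈ Icc (-(h : ℤ)) h, ((h : ℝ) + 1 - |(n : ℝ)|) * Real.cos (n * θ) =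
        ∑ n ∈ Icc (-(h : ℤ)) h, ((h : ℝ) - |(n : ℝ)|) * Real.cos (n * θ) +
          ∑ n ∈ Icc (-(h : ℤ)) h, Real.cos (n * θ) := by
      rw [← sum_add_distrib]
      exact sum_congr rfl fun n _ => by ring
    rw [e, mul_add, ih, dirichlet]
    ring

theorem sum_lin (h : ℕ) : ∑ n ∈ Icc (-(h : ℤ)) h, ((h : ℝ) - |(n : ℝ)|) = (h : ℝ) ^ 2 := by
  induction h with
  | zero => simp
  | succ h ih =>
    rw [sum_succ]
    have h0 : (0 : ℝ) ≤ (h : ℝ) + 1 := by positivity
    push_cast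
    rw [abs_neg, abs_of_nonneg h0, sub_self, add_zero, add_zero]
    have e : ∑ n ∈ Icc (-(h : ℤ)) h, ((h : ℝ) + 1 - |(n : ℝ)|) =
        ∑ n ∈ Icc (-(h : ℤ)) h, ((h : ℝ) - |(n : ℝ)|) + ∑ n ∈ Icc (-(h : ℤ)) h, (1 : ℝ) := by
      rw [← sum_add_distrib]
      exact sum_congr rfl fun n _ => by ring
    rw [e, ih, sum_const, Int.card_Icc]
    have : ((h : ℤ) + 1 - -(h : ℤ)).toNat = 2 * h + 1 := by omega
    rw [this]
    simp only [nsmul_eq_mul]
    push_cast
    ring

theorem abs_le_of_mem {h : ℕ} {n : ℤ} (hn : n ∈ Icc (-(h : ℤ)) h) : |(n : ℝ)| ≤ h := by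
  rw [mem_Icc] at hn
  have : |n| ≤ (h : ℤ) := abs_le.2 hn
  exact_mod_cast this

theorem tri_nonneg (h : ℕ) (n : ℤ) : 0 ≤ tri h n :=
  div_nonneg (le_max_left _ _) (by positivity)

theorem tri_eq {h : ℕ} {n : ℤ} (hn : n ∈ Icc (-(h : ℤ)) h) :
    tri h n = ((h : ℝ) - |(n : ℝ)|) / (h : ℝ) ^ 2 := by
  rw [tri, max_eq_right (sub_nonneg.2 (abs_le_of_mem hn))]

theorem tri_le {h : ℕ} (hh : 1 ≤ h) (n : ℤ) : tri h n ≤ 1 / h := by
  have h0 : (0 : ℝ) < h := by exact_mod_cast hh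
  rw [tri, div_le_div_iff₀ (by positivity) h0]
  have : max 0 ((h : ℝ) - |(n : ℝ)|) ≤ h := max_le h0.le (by linarith [abs_nonneg (n : ℝ)])
  nlinarith

theorem sum_tri {h : ℕ} (hh : 1 ≤ h) : ∑ n ∈ Icc (-(h : ℤ)) h, tri h n = 1 := by
  have h0 : (0 : ℝ) < h := by exact_mod_cast hh
  rw [sum_congr rfl fun n hn => tri_eq hn, ← sum_div, sum_lin, div_self (by positivity)]

/-- The Fejér kernel. -/
noncomputable def Fe (h : ℕ) (b : ℝ) : ℝ :=
  ∑ n ∈ Icc (-(h : ℤ)) h, tri h n * Real.cos (n * (2 * Real.pi * b))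

theorem Fe_eq {h : ℕ} (_hh : 1 ≤ h) (b : ℝ) :
    (1 - Real.cos (2 * Real.pi * b)) * Fe h b =
      (1 - Real.cos (h * (2 * Real.pi * b))) / (h : ℝ) ^ 2 := by
  rw [← fejer, Fe, mul_div_assoc, sum_div]
  congr 1
  exact sum_congr rfl fun n hn => by rw [tri_eq hn]; ring

theorem Fe_sub_int (h : ℕ) (b : ℝ) (m : ℤ) : Fe h (b - m) = Fe h b := by
  refine sum_congr rfl fun n _ => ?_
  rw [show (n : ℝ) * (2 * Real.pi * (b - m)) =
    n * (2 * Real.pi * b) - ((n * m : ℤ) : ℝ) * (2 * Real.pi) by push_cast; ring,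
    Real.cos_sub_int_mul_two_pi]

theorem Fe_le_one {h : ℕ} (hh : 1 ≤ h) (b : ℝ) : Fe h b ≤ 1 := by
  rw [← sum_tri hh]
  exact sum_le_sum fun n _ => mul_le_of_le_one_right (tri_nonneg _ _) (Real.cos_le_one _)

theorem one_sub_Fe {h : ℕ} (hh : 1 ≤ h) (b : ℝ) : 1 - 20 * (h * b) ^ 2 ≤ Fe h b := by
  have : 1 - 20 * (h * b) ^ 2 = ∑ n ∈ Icc (-(h : ℤ)) h, tri h n * (1 - 20 * (h * b) ^ 2) := by
    rw [← sum_mul, sum_tri hh, one_mul]
  rw [this]
  refine sum_le_sum fun n hn => mul_le_mul_of_nonneg_left ?_ (tri_nonneg _ _)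
  refine le_trans ?_ Real.one_sub_sq_div_two_le_cos
  have h1 : (n : ℝ) ^ 2 ≤ (h : ℝ) ^ 2 := sq_le_sq' (abs_le.1 (abs_le_of_mem hn)).1
    (abs_le.1 (abs_le_of_mem hn)).2
  have h2 : Real.pi ^ 2 ≤ 10 := by
    have := Real.pi_lt_d2
    have := Real.pi_pos
    nlinarith
  have h3 : (n : ℝ) ^ 2 * Real.pi ^ 2 ≤ (h : ℝ) ^ 2 * 10 :=
    mul_le_mul h1 h2 (by positivity) (by positivity)
  have h4 := mul_le_mul_of_nonneg_right h3 (sq_nonneg b)
  nlinarith

theorem one_sub_cos {b : ℝ} (hb : |b| ≤ 1 / 2) : 8 * b ^ 2 ≤ 1 - Real.cos (2 * Real.pi * b) := by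
  have hp := Real.pi_pos
  have h1 : |2 * Real.pi * b| ≤ Real.pi := by
    rw [abs_mul, abs_of_pos (by positivity : 0 < 2 * Real.pi)]
    nlinarith
  have h2 := Real.cos_le_one_sub_mul_cos_sq h1
  have h3 : 2 / Real.pi ^ 2 * (2 * Real.pi * b) ^ 2 = 8 * b ^ 2 := by
    field_simp
    ring
  linarith

theorem Fe_nonneg {h : ℕ} (hh : 1 ≤ h) (b : ℝ) : 0 ≤ Fe h b := by
  rw [← Fe_sub_int h b (round b)]
  have h1 := abs_sub_round b
  generalize b - round b = c at h1
  by_cases hc : c = 0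
  · subst hc
    have := one_sub_Fe hh 0
    simp only [mul_zero] at this
    linarith
  · have h2 := one_sub_cos h1
    have h3 : 0 < c ^ 2 := by positivity
    have h4 := Fe_eq hh c
    have h5 : 0 ≤ (1 - Real.cos (h * (2 * Real.pi * c))) / (h : ℝ) ^ 2 :=
      div_nonneg (sub_nonneg.2 (Real.cos_le_one _)) (by positivity)
    rw [← h4] at h5
    exact nonneg_of_mul_nonneg_right h5 (by linarith)

theorem Fe_far {h : ℕ} (hh : 1 ≤ h) {b δ : ℝ} (hδ : 0 < δ) (hb : ∀ m : ℤ, δ ≤ |b - m|) :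
    Fe h b ≤ 1 / (4 * δ ^ 2 * (h : ℝ) ^ 2) := by
  have h0 : (0 : ℝ) < h := by exact_mod_cast hh
  rw [← Fe_sub_int h b (round b)]
  have h1 := abs_sub_round b
  have h2 := hb (round b)
  generalize b - round b = c at h1 h2
  have h3 := one_sub_cos h1
  have h4 : δ ^ 2 ≤ c ^ 2 := by
    rw [← sq_abs c]
    exact pow_le_pow_left₀ hδ.le h2 2
  have h5 := Fe_eq hh c
  have h6 : (1 - Real.cos (h * (2 * Real.pi * c))) / (h : ℝ) ^ 2 ≤ 2 / (h : ℝ) ^ 2 :=
    div_le_div_of_nonneg_right (by linarith [Real.neg_one_le_cos (h * (2 * Real.pi * c))])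
      (by positivity)
  have h7 : 8 * δ ^ 2 * Fe h c ≤ 2 / (h : ℝ) ^ 2 := by
    rw [← h5] at h6
    exact le_trans (mul_le_mul_of_nonneg_right (by linarith) (Fe_nonneg hh c)) h6
  rw [le_div_iff₀ (by positivity)] at h7 ⊢
  nlinarith

/-- A well spaced family of points. -/
theorem family {ι : Type} {h : ℕ} (hh : 1 ≤ h) (I : Finset ι) (x : ι → ℝ) {Q : ℝ} (hQ : 0 < Q)
    (hI : (I.card : ℝ) ≤ Q ^ 2)
    (hx : ∀ i ∈ I, ∀ j ∈ I, i ≠ j → ∀ m : ℤ, 1 / Q ^ 2 ≤ |x i - x j - m|) :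
    ∑ i ∈ I, Fe h (x i) ≤ 1 + Q ^ 6 / (h : ℝ) ^ 2 := by
  classical
  have h0 : (0 : ℝ) < h := by exact_mod_cast hh
  have e1 : ((I.filter fun i => ∃ m : ℤ, |x i - m| < 1 / (2 * Q ^ 2)).card : ℝ) ≤ 1 := by
    have : (I.filter fun i => ∃ m : ℤ, |x i - m| < 1 / (2 * Q ^ 2)).card ≤ 1 := by
      rw [card_le_one]
      intro i hi j hj
      rw [mem_filter] at hi hj
      obtain ⟨hi, m, hm⟩ := hi
      obtain ⟨hj, m', hm'⟩ := hj
      by_contra hne
      have h1 := hx i hi j hj hne (m - m')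
      have h2 : x i - x j - ((m - m' : ℤ) : ℝ) = (x i - m) - (x j - m') := by push_cast; ring
      rw [h2] at h1
      have h3 := abs_sub (x i - m) (x j - m')
      have h4 : 1 / Q ^ 2 = 1 / (2 * Q ^ 2) + 1 / (2 * Q ^ 2) := by field_simp; norm_num
      linarith
    exact_mod_cast this
  calc _ ≤ ∑ i ∈ I, ((if ∃ m : ℤ, |x i - m| < 1 / (2 * Q ^ 2) then (1 : ℝ) else 0) +
          Q ^ 4 / (h : ℝ) ^ 2) := by
        refine sum_le_sum fun i _ => ?_
        split_ifs with hc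
        · have : 0 ≤ Q ^ 4 / (h : ℝ) ^ 2 := by positivity
          linarith [Fe_le_one hh (x i)]
        · push Not at hc
          refine (Fe_far hh (by positivity) hc).trans (le_of_eq ?_)
          field_simp
          norm_num
    _ ≤ _ := by
        rw [sum_add_distrib, sum_boole, sum_const, nsmul_eq_mul]
        have : (I.card : ℝ) * (Q ^ 4 / (h : ℝ) ^ 2) ≤ Q ^ 2 * (Q ^ 4 / (h : ℝ) ^ 2) :=
          mul_le_mul_of_nonneg_right hI (by positivity)
        have e : Q ^ 2 * (Q ^ 4 / (h : ℝ) ^ 2) = Q ^ 6 / (h : ℝ) ^ 2 := by ring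
        linarith

/-- The Farey fractions. -/
def far (Q : ℕ) : Finset (Σ _ : ℕ, ℕ) :=
  (Icc 1 Q).sigma fun q => (range q).filter (fun a => Nat.Coprime a q)

theorem mem_far {Q : ℕ} {i : Σ _ : ℕ, ℕ} :
    i ∈ far Q ↔ (1 ≤ i.1 ∧ i.1 ≤ Q) ∧ i.2 < i.1 ∧ Nat.Coprime i.2 i.1 := by
  simp only [far, mem_sigma, mem_Icc, mem_filter, mem_range]

theorem card_far (Q : ℕ) : ((far Q).card : ℝ) ≤ (Q : ℝ) ^ 2 := by
  have : (far Q).card ≤ Q ^ 2 := by
    rw [far, card_sigma]
    calc _ ≤ ∑ q ∈ Icc 1 Q, Q := sum_le_sum fun q hq =>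
          (card_filter_le _ _).trans (by rw [card_range]; exact (mem_Icc.1 hq).2)
      _ = Q ^ 2 := by simp [sq]
  exact_mod_cast this

theorem far_sep {Q : ℕ} {i j : Σ _ : ℕ, ℕ} (hi : i ∈ far Q) (hj : j ∈ far Q) (hne : i ≠ j)
    (m : ℤ) : 1 / (Q : ℝ) ^ 2 ≤ |(i.2 : ℝ) / i.1 - (j.2 : ℝ) / j.1 - m| := by
  obtain ⟨q, a⟩ := i
  obtain ⟨q', a'⟩ := j
  rw [mem_far] at hi hj
  obtain ⟨⟨h1, h2⟩, h3, h4⟩ := hi
  obtain ⟨⟨k1, k2⟩, k3, k4⟩ := hj
  dsimp only at *
  have hq : (0 : ℝ) < q := by exact_mod_cast h1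
  have hq' : (0 : ℝ) < q' := by exact_mod_cast k1
  have hN : (a : ℤ) * q' - a' * q - m * q * q' ≠ 0 := by
    intro h0
    have z1 : (0 : ℤ) < q := by exact_mod_cast h1
    have z2 : (0 : ℤ) < q' := by exact_mod_cast k1
    have z3 : (a : ℤ) < q := by exact_mod_cast h3
    have z4 : (a' : ℤ) < q' := by exact_mod_cast k3
    have z5 : (0 : ℤ) ≤ a := by positivity
    have z6 : (0 : ℤ) ≤ a' := by positivity
    have hm : m = 0 := by
      have z7 : (0 : ℤ) < q * q' := by positivity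
      have u1 : m * (q * q') < 1 * (q * q') := by nlinarith
      have u2 : -1 * (q * q') < m * (q * q') := by nlinarith
      have := lt_of_mul_lt_mul_right u1 z7.le
      have := lt_of_mul_lt_mul_right u2 z7.le
      omega
    subst hm
    have e : a * q' = a' * q := by
      have : (a : ℤ) * q' = a' * q := by linarith
      exact_mod_cast this
    have d1 : q ∣ q' := h4.symm.dvd_of_dvd_mul_left ⟨a', by rw [e, mul_comm]⟩
    have d2 : q' ∣ q := k4.symm.dvd_of_dvd_mul_left ⟨a, by rw [← e, mul_comm]⟩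
    obtain rfl := Nat.dvd_antisymm d1 d2
    obtain rfl := Nat.eq_of_mul_eq_mul_right h1 e
    exact hne rfl
  have h5 : (1 : ℝ) ≤ |(((a : ℤ) * q' - a' * q - m * q * q' : ℤ) : ℝ)| := by
    exact_mod_cast Int.one_le_abs hN
  have e : (a : ℝ) / q - (a' : ℝ) / q' - m =
      (((a : ℤ) * q' - a' * q - m * q * q' : ℤ) : ℝ) / (q * q') := by
    push_cast
    field_simp
  rw [e, abs_div, abs_of_pos (mul_pos hq hq')]
  refine div_le_div₀ (abs_nonneg _) h5 (mul_pos hq hq') ?_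
  rw [sq]
  exact mul_le_mul (by exact_mod_cast h2) (by exact_mod_cast k2) hq'.le (by positivity)

theorem far_ex {Q q : ℕ} {a : ℤ} (h1 : 1 ≤ q) (h2 : q ≤ Q) (h : IsCoprime a (q : ℤ)) :
    ∃ i ∈ far Q, ∃ m : ℤ, (i.2 : ℝ) / i.1 = a / q - m := by
  have z : (0 : ℤ) < q := by exact_mod_cast h1
  have e : (((a % q).toNat : ℕ) : ℤ) = a % q := Int.toNat_of_nonneg (Int.emod_nonneg _ z.ne')
  refine ⟨⟨q, (a % q).toNat⟩, mem_far.2 ⟨⟨h1, h2⟩, ?_, ?_⟩, a / q, ?_⟩
  · have := Int.emod_lt_of_pos a z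
    dsimp only
    omega
  · rw [← Nat.isCoprime_iff_coprime, e, Int.emod_def, sub_eq_add_neg, ← mul_neg]
    exact h.add_mul_left_left _
  · have hq : (q : ℝ) ≠ 0 := by positivity
    have e2 : (((a % q).toNat : ℕ) : ℝ) = (a : ℝ) - q * ((a / q : ℤ) : ℝ) := by
      rw [← Int.cast_natCast, e, Int.emod_def]
      push_cast
      rfl
    dsimp only
    rw [e2]
    field_simp

theorem ram_eq (Q : ℕ) (n : ℤ) :
    ram Q n = ∑ i ∈ far Q, Real.cos (n * (2 * Real.pi * ((i.2 : ℝ) / i.1))) := by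
  rw [ram, far, sum_sigma]
  exact sum_congr rfl fun q _ => sum_congr rfl fun a _ => by congr 1; ring

theorem abs_ram (Q : ℕ) (n : ℤ) : |ram Q n| ≤ (Q : ℝ) ^ 2 := by
  rw [ram_eq]
  refine (abs_sum_le_sum_abs _ _).trans (le_trans ?_ (card_far Q))
  rw [card_eq_sum_ones, Nat.cast_sum]
  exact sum_le_sum fun i _ => by simpa using Real.abs_cos_le_one _

theorem mu_neg (Q h : ℕ) (n : ℤ) : mu Q h (-n) = mu Q h n := by
  simp only [mu, tri, ram_eq, Int.cast_neg, abs_neg, neg_mul, Real.cos_neg]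

theorem hat_even {k : ℤ → ℝ} (hk : ∀ n, k (-n) = k n) (h : ℕ) (ξ : ℝ) :
    hat k h ξ = ((∑ n ∈ Icc (-(h : ℤ)) h, k n * Real.cos (n * (2 * Real.pi * ξ)) : ℝ) : ℂ) := by
  induction h with
  | zero => simp [hat, ee]
  | succ h ih =>
    unfold hat at ih ⊢
    rw [sum_succ, sum_succ, ih, hk]
    simp only [ee, Complex.exp_mul_I]
    push_cast
    rw [show (2 * (Real.pi : ℂ) * (-((h : ℂ) + 1) * ξ)) = -(((h : ℂ) + 1) * (2 * Real.pi * ξ)) by ring,
      show (2 * (Real.pi : ℂ) * (((h : ℂ) + 1) * ξ)) = ((h : ℂ) + 1) * (2 * Real.pi * ξ) by ring,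
      neg_mul, Complex.cos_neg, Complex.sin_neg]
    ring

theorem hat_ker (Q h : ℕ) (ξ : ℝ) :
    ‖hat (ker Q h) h ξ‖ = |1 - (∑ i ∈ far Q, Fe h (ξ + (i.2 : ℝ) / i.1) +
      ∑ i ∈ far Q, Fe h (ξ - (i.2 : ℝ) / i.1)) / 2| := by
  rw [hat_even (fun n => by simp only [ker, del, mu_neg, neg_eq_zero]), Complex.norm_real,
    Real.norm_eq_abs]
  congr 1
  simp only [ker, sub_mul, sum_sub_distrib]
  congr 1
  · rw [sum_eq_single 0]
    · simp [del]
    · intro n _ hn
      simp [del, hn]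
    · intro h0
      simp at h0
  · simp only [mu, ram_eq, Fe]
    rw [sum_comm, sum_comm (s := far Q), ← sum_add_distrib, sum_div]
    refine sum_congr rfl fun n _ => ?_
    rw [← sum_add_distrib, sum_div, mul_sum, sum_mul]
    refine sum_congr rfl fun i _ => ?_
    rw [mul_add, mul_add, mul_sub, mul_sub, Real.cos_add, Real.cos_sub]
    ring

end Ker

open Ker in
theorem kerOK : KerStmt := by
  intro Q h hQ hh
  have h0 : (0 : ℝ) < h := by exact_mod_cast hh
  have hQ0 : (0 : ℝ) < Q := by exact_mod_cast hQ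
  have hmu : ∀ n, |mu Q h n| ≤ tri h n * (Q : ℝ) ^ 2 := fun n => by
    rw [mu, abs_mul, abs_of_nonneg (tri_nonneg _ _)]
    exact mul_le_mul_of_nonneg_left (abs_ram Q n) (tri_nonneg _ _)
  have up1 : ∀ ξ : ℝ, ∑ i ∈ far Q, Fe h (ξ + (i.2 : ℝ) / i.1) ≤ 1 + (Q : ℝ) ^ 6 / (h : ℝ) ^ 2 :=
    fun ξ => family hh _ _ hQ0 (card_far Q) fun i hi j hj hne m => by
      rw [add_sub_add_left_eq_sub]
      exact far_sep hi hj hne m
  have up2 : ∀ ξ : ℝ, ∑ i ∈ far Q, Fe h (ξ - (i.2 : ℝ) / i.1) ≤ 1 + (Q : ℝ) ^ 6 / (h : ℝ) ^ 2 :=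
    fun ξ => family hh _ _ hQ0 (card_far Q) fun i hi j hj hne m => by
      rw [sub_sub_sub_cancel_left]
      exact far_sep hj hi hne.symm m
  refine ⟨mu_neg Q h, fun n hn => ?_, fun n => (hmu n).trans ?_, ?_, fun hQh => ⟨fun ξ => ?_, ?_⟩⟩
  · have : (h : ℝ) ≤ |(n : ℝ)| := by exact_mod_cast hn
    rw [mu, tri, max_eq_left (by linarith), zero_div, zero_mul]
  · calc _ ≤ 1 / h * (Q : ℝ) ^ 2 := mul_le_mul_of_nonneg_right (tri_le hh n) (by positivity)
      _ = _ := by ring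
  · calc _ ≤ ∑ n ∈ Icc (-(h : ℤ)) h, tri h n * (Q : ℝ) ^ 2 := sum_le_sum fun n _ => hmu n
      _ = _ := by rw [← sum_mul, sum_tri hh, one_mul]
  · have h1 : (Q : ℝ) ^ 6 / (h : ℝ) ^ 2 ≤ 1 := by
      rw [div_le_one (by positivity)]
      exact_mod_cast hQh
    have l1 : 0 ≤ ∑ i ∈ far Q, Fe h (ξ + (i.2 : ℝ) / i.1) := sum_nonneg fun i _ => Fe_nonneg hh _
    have l2 : 0 ≤ ∑ i ∈ far Q, Fe h (ξ - (i.2 : ℝ) / i.1) := sum_nonneg fun i _ => Fe_nonneg hh _
    rw [hat_ker, abs_le]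
    constructor <;> linarith [up1 ξ, up2 ξ]
  · intro ξ β a q q1 q2 hc hβ _
    have key : 1 - 20 * (h * β) ^ 2 ≤ Fe h (ξ - a / q) := by
      refine le_trans ?_ (one_sub_Fe hh _)
      have : (ξ - a / q) ^ 2 ≤ β ^ 2 := sq_le_sq' (abs_le.1 hβ).1 (abs_le.1 hβ).2
      have := mul_le_mul_of_nonneg_left this (sq_nonneg (h : ℝ))
      nlinarith
    have l1 : Fe h (ξ - a / q) ≤ ∑ i ∈ far Q, Fe h (ξ + (i.2 : ℝ) / i.1) := by
      obtain ⟨i, hi, m, hm⟩ := far_ex q1 q2 hc.neg_left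
      refine le_trans (le_of_eq ?_)
        (single_le_sum (f := fun i : (Σ _ : ℕ, ℕ) => Fe h (ξ + (i.2 : ℝ) / i.1))
          (fun i _ => Fe_nonneg hh _) hi)
      rw [hm, ← Fe_sub_int h _ m]
      congr 1
      push_cast
      ring
    have l2 : Fe h (ξ - a / q) ≤ ∑ i ∈ far Q, Fe h (ξ - (i.2 : ℝ) / i.1) := by
      obtain ⟨i, hi, m, hm⟩ := far_ex q1 q2 hc
      refine le_trans (le_of_eq ?_)
        (single_le_sum (f := fun i : (Σ _ : ℕ, ℕ) => Fe h (ξ - (i.2 : ℝ) / i.1))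
          (fun i _ => Fe_nonneg hh _) hi)
      rw [hm, ← Fe_sub_int h _ (-m)]
      congr 1
      push_cast
      ring
    have p1 : 0 ≤ 20 * (h * β) ^ 2 := by positivity
    have p2 : 0 ≤ (Q : ℝ) ^ 6 / (h : ℝ) ^ 2 := by positivity
    rw [hat_ker, abs_le]
    constructor <;> linarith [up1 ξ, up2 ξ]

end Crest.Agent.R26
end

-- ▼ part PVc/R8/VMinSum
section

/-! Row 8, part V: sums of `min (Y, 1 / (2 ‖α m‖))` and the minor-arc bound in terms of them. -/

set_option autoImplicit false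

namespace Crest.Agent.R8

open Finset
open Crest.Agent.R5
open scoped ComplexConjugate

namespace VMinSum

theorem mn_nonneg {Y : ℝ} (hY : 0 ≤ Y) (x : ℝ) : 0 ≤ mn Y x :=
  div_nonneg hY (le_trans zero_le_one (le_max_left _ _))

theorem mn_le {Y : ℝ} (hY : 0 ≤ Y) (x : ℝ) : mn Y x ≤ Y :=
  div_le_self hY (le_max_left _ _)

theorem mn_le' {Y : ℝ} (hY : 0 < Y) {x Δ : ℝ} (hΔ : 0 < Δ) (h : Δ ≤ |x - round x|) :
    mn Y x ≤ 1 / (2 * Δ) := by
  unfold mn
  rw [div_le_div_iff₀ (lt_of_lt_of_le one_pos (le_max_left _ _)) (by positivity), one_mul]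
  refine le_trans ?_ (le_max_right _ _)
  nlinarith

theorem le_mn {Y x u : ℝ} (hY : 0 < Y) (h1 : u ≤ Y)
    (h2 : 0 < |x - round x| → u ≤ 1 / (2 * |x - round x|)) : u ≤ mn Y x := by
  unfold mn
  rcases le_total 1 (2 * Y * |x - round x|) with h | h
  · have h0 : 0 < |x - round x| := by
      rcases (abs_nonneg (x - round x)).eq_or_lt with e | e
      · rw [← e] at h; linarith
      · exact e
    rw [max_eq_right h]
    refine (h2 h0).trans_eq ?_
    field_simp
  · rwa [max_eq_left h, div_one]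

theorem sum_inj {ι : Type*} (S : Finset ι) (φ : ι → ℕ) (hφ : Set.InjOn φ S) (n : ℕ)
    (hn : ∀ i ∈ S, φ i ≤ n) (g : ℕ → ℝ) (hg : ∀ j, 0 ≤ g j) :
    ∑ i ∈ S, g (φ i) ≤ ∑ j ∈ range (n + 1), g j := by
  rw [← sum_image hφ]
  refine sum_le_sum_of_subset_of_nonneg (fun j hj => ?_) fun j _ _ => hg j
  obtain ⟨i, hi, rfl⟩ := mem_image.1 hj
  exact mem_range.2 (Nat.lt_succ_of_le (hn i hi))

theorem sum_g {Y : ℝ} (hY : 0 ≤ Y) (k : ℝ) (hk : 0 ≤ k) (n : ℕ) :
    ∑ j ∈ range (n + 1), ((if j < 3 then Y else 0) + k / j) ≤ 3 * Y + k * (1 + Real.log n) := by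
  rw [sum_add_distrib]
  refine add_le_add ?_ ?_
  · rw [← sum_filter, sum_const, nsmul_eq_mul]
    refine mul_le_mul_of_nonneg_right ?_ hY
    have : ((range (n + 1)).filter (· < 3)).card ≤ (range 3).card :=
      card_le_card fun j hj => mem_range.2 (mem_filter.1 hj).2
    rw [card_range] at this
    exact_mod_cast this
  · have h := harmonic_le_one_add_log n
    rw [harmonic] at h
    push_cast at h
    rw [sum_range_succ', Nat.cast_zero, div_zero, add_zero]
    refine le_trans (le_of_eq ?_) (mul_le_mul_of_nonneg_left h hk)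
    rw [mul_sum]
    refine sum_congr rfl fun j _ => ?_
    push_cast
    rw [div_eq_mul_inv]

theorem block {α Y : ℝ} {a : ℤ} {k : ℕ} (hk : 1 ≤ k) (ha : IsCoprime a (k : ℤ))
    (hα : |α - a / k| ≤ 1 / (k : ℝ) ^ 2) (hY : 1 ≤ Y) (m : ℤ) :
    ∑ i ∈ range k, mn Y (α * ((m + i : ℤ) : ℝ)) ≤ 6 * (Y + k * Real.log (2 * k)) := by
  have k1 : (1 : ℝ) ≤ k := by exact_mod_cast hk
  have k0 : (0 : ℝ) < k := by linarith
  set x : ℕ → ℝ := fun i => α * ((m + i : ℤ) : ℝ) with hx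
  set r : ℕ → ℤ := fun i => round (k * (α * m)) + a * i - k * round (x i) with hr
  have he : ∀ i ∈ range k, |k * (x i - round (x i)) - r i| ≤ 3 / 2 := by
    intro i hi
    have i1 : (i : ℝ) ≤ k := by exact_mod_cast (mem_range.1 hi).le
    have e : k * (x i - round (x i)) - r i =
        (k * (α * m) - round (k * (α * m))) + k * i * (α - a / k) := by
      simp only [hx, hr]
      push_cast
      field_simp
      ring
    rw [e]
    refine (abs_add_le _ _).trans ?_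
    have h1 := abs_sub_round (k * (α * m))
    have h2 : |k * i * (α - a / k)| ≤ 1 := by
      rw [abs_mul, abs_of_nonneg (by positivity)]
      calc (k : ℝ) * i * |α - a / k| ≤ k * k * (1 / (k : ℝ) ^ 2) := by gcongr
        _ = 1 := by field_simp
    linarith
  have hinj : Set.InjOn r (range k : Finset ℕ) := by
    intro i hi i' hi' e
    have h1 : (k : ℤ) ∣ a * (i - i') := ⟨round (x i) - round (x i'), by
      simp only [hr] at e; linear_combination e⟩
    have h2 := ha.symm.dvd_of_dvd_mul_left h1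
    have h3 := mem_range.1 (mem_coe.1 hi)
    have h4 := mem_range.1 (mem_coe.1 hi')
    have h5 := Int.eq_zero_of_abs_lt_dvd h2 (by rw [abs_lt]; constructor <;> omega)
    omega
  have habs : ∀ i, (((r i).natAbs : ℕ) : ℝ) = |(r i : ℝ)| := fun i => by
    rw [← Int.cast_natCast, Int.natCast_natAbs, Int.cast_abs]
  have hb : ∀ i ∈ range k, (r i).natAbs ≤ 2 * k := by
    intro i hi
    have h1 := he i hi
    have h2 : |k * (x i - round (x i))| ≤ k * (1 / 2) := by
      rw [abs_mul, abs_of_pos k0]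
      exact mul_le_mul_of_nonneg_left (abs_sub_round _) k0.le
    have h3 := abs_sub_abs_le_abs_sub (r i : ℝ) (k * (x i - round (x i)))
    rw [abs_sub_comm] at h3
    have : (((r i).natAbs : ℕ) : ℝ) ≤ 2 * k := by rw [habs]; linarith
    exact_mod_cast this
  set g : ℕ → ℝ := fun j => (if j < 3 then Y else 0) + k / j with hg
  have g0 : ∀ j, 0 ≤ g j := fun j => by
    simp only [hg]; split_ifs <;> positivity
  have hm : ∀ i ∈ range k, mn Y (x i) ≤ g (r i).natAbs := by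
    intro i hi
    simp only [hg]
    split_ifs with h
    · exact (mn_le (by linarith) _).trans (le_add_of_nonneg_right (by positivity))
    · have h3 : (3 : ℝ) ≤ ((r i).natAbs : ℕ) := by exact_mod_cast not_lt.1 h
      have h1 := he i hi
      have h2 := abs_sub_abs_le_abs_sub (r i : ℝ) (k * (x i - round (x i)))
      rw [abs_sub_comm, abs_mul, abs_of_pos k0, ← habs] at h2
      refine (mn_le' (by linarith) (Δ := ((r i).natAbs : ℕ) / (2 * k)) (by positivity) ?_).trans_eq ?_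
      · rw [div_le_iff₀ (by positivity)]; linarith
      · field_simp
        ring
  have hs := sum_g (show 0 ≤ Y by linarith) k k0.le (2 * k)
  have s1 := sum_inj ((range k).filter fun i => 0 ≤ r i) (fun i => (r i).natAbs)
    (fun i hi i' hi' e => by
      obtain ⟨a1, a2⟩ := mem_filter.1 hi
      obtain ⟨b1, b2⟩ := mem_filter.1 hi'
      refine hinj a1 b1 ?_
      simp only at e
      omega) (2 * k) (fun i hi => hb i (mem_filter.1 hi).1) g g0
  have s2 := sum_inj ((range k).filter fun i => ¬ 0 ≤ r i) (fun i => (r i).natAbs)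
    (fun i hi i' hi' e => by
      obtain ⟨a1, a2⟩ := mem_filter.1 hi
      obtain ⟨b1, b2⟩ := mem_filter.1 hi'
      refine hinj a1 b1 ?_
      simp only at e
      omega) (2 * k) (fun i hi => hb i (mem_filter.1 hi).1) g g0
  have s3 := sum_filter_add_sum_filter_not (range k) (fun i => 0 ≤ r i) fun i => g (r i).natAbs
  have s4 := sum_le_sum hm
  have l2 : Real.log 2 ≤ Real.log (2 * k) := Real.log_le_log two_pos (by linarith)
  have l3 := Real.log_two_gt_d9
  push_cast at hs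
  have l4 : (k : ℝ) * (1 + Real.log (2 * k)) ≤ k * (3 * Real.log (2 * k)) :=
    mul_le_mul_of_nonneg_left (by linarith) k0.le
  linarith

theorem sum_blocks (f : ℤ → ℝ) (hf : ∀ m, 0 ≤ f m) {k : ℕ} (hk : 1 ≤ k) (m₀ : ℤ) (M : ℕ) :
    ∑ m ∈ Ico m₀ (m₀ + M), f m ≤
      ∑ j ∈ range (M / k + 1), ∑ i ∈ range k, f (m₀ + (j * k : ℕ) + i) := by
  have h1 : ∀ J : ℕ, ∑ j ∈ range J, ∑ i ∈ range k, f (m₀ + (j * k : ℕ) + i) =
      ∑ n ∈ range (J * k), f (m₀ + n) := by
    intro J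
    induction J with
    | zero => simp
    | succ J ih =>
      rw [sum_range_succ, ih, Nat.succ_mul, sum_range_add]
      congr 1
      refine sum_congr rfl fun i _ => ?_
      push_cast
      rw [add_assoc]
  have h2 : ∑ m ∈ Ico m₀ (m₀ + M), f m = ∑ n ∈ range M, f (m₀ + n) := by
    rw [Int.Ico_eq_finset_map, sum_map]
    simp
  rw [h1, h2]
  refine sum_le_sum_of_subset_of_nonneg (range_mono ?_) fun _ _ _ => hf _
  rw [mul_comm]
  exact (Nat.lt_mul_div_succ M hk).le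


end VMinSum

theorem minSum : MinSumStmt := by
  refine ⟨6, by norm_num, fun α Y a m₀ k M hk ha hα hY => ?_⟩
  have k1 : (1 : ℝ) ≤ k := by exact_mod_cast hk
  have l0 : 0 ≤ Real.log (2 * k) := Real.log_nonneg (by linarith)
  refine (VMinSum.sum_blocks (fun m => mn Y (α * m))
    (fun m => VMinSum.mn_nonneg (by linarith) _) hk m₀ M).trans ?_
  refine (sum_le_sum fun j _ => VMinSum.block hk ha hα hY _).trans ?_
  rw [sum_const, card_range, nsmul_eq_mul]
  have h : ((M / k + 1 : ℕ) : ℝ) ≤ M / k + 1 := by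
    rw [Nat.cast_add, Nat.cast_one]
    exact add_le_add Nat.cast_div_le le_rfl
  refine (mul_le_mul_of_nonneg_right h (by positivity)).trans_eq ?_
  ring


end Crest.Agent.R8
end

-- ▼ part PVc/R26/Lat
section

/-! Row 26: the symplectic Fourier kernel. -/

set_option autoImplicit false

namespace Crest.Agent.R26

open Finset Filter
open Crest.Agent.R5 (pr pd ee nit)

namespace LatH

open Crest.Agent.R5.Minor Crest.Agent.R8
open scoped ComplexConjugate

variable {σ : Type}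

theorem fib {κ : Type} [DecidableEq κ] (F : Finset σ) (M : Finset κ) (g : σ → κ)
    (hg : ∀ z ∈ F, g z ∈ M) {R : ℝ} (hR : ∀ m, ((F.filter fun z => g z = m).card : ℝ) ≤ R)
    (a : σ → ℂ) :
    ∑ m ∈ M, ‖∑ z ∈ F.filter fun z => g z = m, a z‖ ^ 2 ≤ R * ∑ z ∈ F, ‖a z‖ ^ 2 := by
  rw [← sum_fiberwise_of_maps_to hg, mul_sum]
  refine sum_le_sum fun m _ => ?_
  refine (pow_le_pow_left₀ (norm_nonneg _) (norm_sum_le _ _) 2).trans
    (sq_sum_le_card_mul_sum_sq.trans ?_)
  exact mul_le_mul_of_nonneg_right (hR m) (sum_nonneg fun _ _ => sq_nonneg _)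

theorem sieve (F : Finset σ) (i : σ → ℤ) (hi : Set.InjOn i F) (i₀ m₀ : ℤ) (L M : ℕ)
    (h : ∀ z ∈ F, i₀ ≤ i z ∧ i z ≤ i₀ + L) {ξ D : ℝ}
    (hD : ∀ m₁ : ℤ, ∑ m ∈ Ico m₁ (m₁ + M), mn (L + 1) (ξ * m) ≤ D) (ψ : σ → ℂ) :
    ∑ t ∈ Ico m₀ (m₀ + M), ‖∑ z ∈ F, ψ z * ee (-(ξ * i z * t))‖ ^ 2 ≤ D * ∑ z ∈ F, ‖ψ z‖ ^ 2 := by
  have hL : (0 : ℝ) < L + 1 := by positivity
  have D0 : 0 ≤ D := (sum_nonneg fun _ _ => VMinSum.mn_nonneg hL.le _).trans (hD 0)
  have hg : ∀ z ∈ F, (i z - i₀).toNat ∈ range (L + 1) := fun z hz => by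
    have := h z hz
    rw [mem_range]
    omega
  have h1 := ttstar (Ico m₀ (m₀ + M)) (range (L + 1))
    (fun (t : ℤ) (j : ℕ) => ee (-(ξ * (i₀ + j) * t)))
    (fun j => ∑ z ∈ F.filter fun z => (i z - i₀).toNat = j, ψ z) D0 fun t _ => by
      refine le_trans ?_ (hD (m₀ + -t))
      rw [add_right_comm, ← sum_Ico_add']
      refine sum_le_sum fun t' _ => ?_
      have e : ∀ j : ℕ, ee (-(ξ * (i₀ + j) * t)) * conj (ee (-(ξ * (i₀ + j) * t'))) =
          ee (ξ * (t' + -t : ℤ) * i₀) * ee (ξ * (t' + -t : ℤ) * j) := fun j => by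
        rw [conj_ee, ← ee_add, ← ee_add]
        congr 1
        push_cast
        ring
      simp only [e]
      rw [← mul_sum, norm_mul, norm_ee, one_mul]
      refine VMinSum.le_mn hL ((norm_sum_le _ _).trans ?_) fun h0 => geom_le _
        (fun a _ c hc b _ hb => mem_range.2 (hb.trans_lt (mem_range.1 hc))) h0
        fun z => round_le _ z
      simp [norm_ee]
  have h2 := fib F (range (L + 1)) (fun z => (i z - i₀).toNat) hg (R := 1) (fun m => by
    refine Nat.cast_le_one.2 (card_le_one.2 fun a ha b hb => ?_)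
    obtain ⟨a1, a2⟩ := mem_filter.1 ha
    obtain ⟨b1, b2⟩ := mem_filter.1 hb
    have := h a a1
    have := h b b1
    exact hi a1 b1 (by omega)) ψ
  rw [one_mul] at h2
  refine le_trans (le_of_eq (sum_congr rfl fun t _ => ?_))
    (h1.trans (mul_le_mul_of_nonneg_left h2 D0))
  rw [← sum_fiberwise_of_maps_to hg]
  congr 2
  refine sum_congr rfl fun j _ => ?_
  rw [sum_mul]
  refine sum_congr rfl fun z hz => ?_
  obtain ⟨a1, a2⟩ := mem_filter.1 hz
  have := h z a1
  rw [show i z = i₀ + j by omega]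
  push_cast
  rfl

theorem core (Z : Finset σ) (n i : σ → ℤ)
    (hi : ∀ z ∈ Z, ∀ z' ∈ Z, n z = n z' → i z = i z' → z = z') (m₀ : ℤ) (L M : ℕ)
    (hn : ∀ z ∈ Z, n z ∈ Ico m₀ (m₀ + M))
    (hL : ∀ z ∈ Z, ∀ z' ∈ Z, n z = n z' → i z ≤ i z' + L) {ξ D : ℝ}
    (hD : ∀ m₁ : ℤ, ∑ m ∈ Ico m₁ (m₁ + M), mn (L + 1) (ξ * m) ≤ D) :
    OpC Z (fun z z' => ee (ξ * (i z * n z' - i z' * n z : ℤ))) (√(M * (L + 1) * D)) := by
  intro φ ψ
  set T := Ico m₀ (m₀ + M) with hT
  have hinj : ∀ t, Set.InjOn i (Z.filter fun z => n z = t : Finset σ) := fun t a ha b hb e => by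
    obtain ⟨a1, a2⟩ := mem_filter.1 ha
    obtain ⟨b1, b2⟩ := mem_filter.1 hb
    exact hi a a1 b b1 (a2.trans b2.symm) e
  have hex : ∀ t, ∃ i₀, ∀ z ∈ Z.filter fun z => n z = t, i₀ ≤ i z ∧ i z ≤ i₀ + L := fun t => by
    rcases (Z.filter fun z => n z = t).eq_empty_or_nonempty with h | h
    · exact ⟨0, by simp [h]⟩
    · obtain ⟨b, hb, h1⟩ := exists_min_image _ i h
      obtain ⟨b1, b2⟩ := mem_filter.1 hb
      exact ⟨i b, fun a ha => ⟨h1 a ha,
        hL a (mem_filter.1 ha).1 b b1 ((mem_filter.1 ha).2.trans b2.symm)⟩⟩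
  have hcard : ∀ t, ((Z.filter fun z => n z = t).card : ℝ) ≤ L + 1 := fun t => by
    obtain ⟨i₀, h⟩ := hex t
    have := card_le_card_of_injOn (t := Icc i₀ (i₀ + L)) i (fun z hz => by
      simpa using h z hz) (hinj t)
    rw [Int.card_Icc] at this
    exact_mod_cast (show _ ≤ L + 1 by omega)
  set c : ℤ × ℤ → ℂ := fun p => ∑ z ∈ Z.filter fun z => n z = p.2, φ z * ee (ξ * i z * p.1)
  set d : ℤ × ℤ → ℂ := fun p => ∑ z ∈ Z.filter fun z => n z = p.1, ψ z * ee (-(ξ * i z * p.2))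
  have e : ∑ z ∈ Z, ∑ z' ∈ Z, φ z * ee (ξ * (i z * n z' - i z' * n z : ℤ)) * ψ z' =
      ∑ p ∈ T ×ˢ T, c p * d p := by
    rw [sum_product_right, ← sum_fiberwise_of_maps_to hn]
    refine sum_congr rfl fun t _ => ?_
    simp only [c, d, sum_mul_sum]
    rw [sum_comm (s := T)]
    refine sum_congr rfl fun z hz => ?_
    rw [← sum_fiberwise_of_maps_to hn]
    refine sum_congr rfl fun t' _ => sum_congr rfl fun z' hz' => ?_
    rw [(mem_filter.1 hz).2, (mem_filter.1 hz').2, mul_mul_mul_comm, ← ee_add, mul_right_comm]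
    congr 2
    push_cast
    ring
  have hc : ∑ p ∈ T ×ˢ T, ‖c p‖ ^ 2 ≤ M * (L + 1) * ∑ z ∈ Z, ‖φ z‖ ^ 2 := by
    rw [sum_product]
    refine (sum_le_card_nsmul _ _ ((L + 1) * ∑ z ∈ Z, ‖φ z‖ ^ 2) fun t _ => ?_).trans_eq ?_
    · simpa only [norm_mul, norm_ee, mul_one] using
        fib Z T n hn hcard fun z => φ z * ee (ξ * i z * t)
    · rw [hT, Int.card_Ico, add_sub_cancel_left, Int.toNat_natCast, nsmul_eq_mul, mul_assoc]
  have hd : ∑ p ∈ T ×ˢ T, ‖d p‖ ^ 2 ≤ D * ∑ z ∈ Z, ‖ψ z‖ ^ 2 := by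
    rw [sum_product, ← sum_fiberwise_of_maps_to hn, mul_sum]
    refine sum_le_sum fun t _ => ?_
    obtain ⟨i₀, h⟩ := hex t
    exact sieve _ i (hinj t) i₀ m₀ L M h hD ψ
  have D0 : 0 ≤ D := (sum_nonneg fun _ _ => VMinSum.mn_nonneg (by positivity) _).trans (hD 0)
  rw [e, ← Real.sqrt_mul (sum_nonneg fun _ _ => sq_nonneg _), ← Real.sqrt_mul (by positivity)]
  refine Real.le_sqrt_of_sq_le ?_
  refine (pow_le_pow_left₀ (norm_nonneg _) (norm_sum_le _ _) 2).trans ?_
  simp only [norm_mul]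
  refine (sum_mul_sq_le_sq_mul_sq _ _ _).trans
    ((mul_le_mul hc hd (sum_nonneg fun _ _ => sq_nonneg _)
      (mul_nonneg (by positivity) (sum_nonneg fun _ _ => sq_nonneg _))).trans_eq ?_)
  ring

theorem card_le {θ N : ℝ} (Z : Finset (ℤ × ℤ)) (hN : 1 ≤ N)
    (hZ : ∀ z ∈ Z, |(z.1 : ℝ)| ≤ N ∧ |z.1 * θ + z.2| ≤ 2) : (Z.card : ℝ) ≤ 15 * N := by
  have h := card_le_card_of_injOn (s := Z) (t := Icc (-(⌊N⌋₊ : ℤ)) ⌊N⌋₊ ×ˢ Icc (0 : ℤ) 4)
    (fun z => (z.1, z.2 - ⌈-(z.1 * θ) - 2⌉)) (fun z hz => by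
      obtain ⟨h1, h2⟩ := hZ z hz
      have h3 : |z.1| ≤ ⌊N⌋₊ := by
        rw [Int.natCast_floor_eq_floor (by linarith), Int.le_floor, Int.cast_abs]
        exact h1
      have h4 : ⌈-(z.1 * θ) - 2⌉ ≤ z.2 := Int.ceil_le.2 (by linarith [(abs_le.1 h2).1])
      have h5 : (z.2 : ℝ) ≤ (⌈-(z.1 * θ) - 2⌉ + 4 : ℤ) := by
        push_cast
        linarith [(abs_le.1 h2).2, Int.le_ceil (-(z.1 * θ) - 2)]
      have h6 := Int.cast_le.1 h5
      simp only [coe_product, coe_Icc, Set.mem_prod, Set.mem_Icc]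
      exact ⟨abs_le.1 h3, by omega, by omega⟩) fun a _ b _ e => by
      obtain ⟨e1, e2⟩ := Prod.mk.inj e
      rw [e1] at e2
      exact Prod.ext e1 (by omega)
  rw [card_product, Int.card_Icc, show (Icc (0 : ℤ) 4).card = 5 from rfl] at h
  have h1 : Z.card ≤ 10 * ⌊N⌋₊ + 5 := by omega
  have h2 : (Z.card : ℝ) ≤ 10 * ⌊N⌋₊ + 5 := by exact_mod_cast h1
  linarith [Nat.floor_le (show 0 ≤ N by linarith)]

theorem prim (θ : ℝ) {s : ℝ} (hs : 1 ≤ s) : ∃ m t u v : ℤ, u * m + v * t = 1 ∧ 1 ≤ m ∧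
    (m : ℝ) ≤ 2 * s ∧ |m * θ + t| ≤ 1 / s := by
  obtain ⟨j, k, h0, h1, h2⟩ := Real.exists_int_int_abs_mul_sub_le θ
    (Nat.ceil_pos.2 (show 0 < s by linarith))
  have hg : 0 < Int.gcd k (-j) := Int.gcd_pos_of_ne_zero_left _ h0.ne'
  obtain ⟨m, t, h3, h4, h5⟩ := Int.exists_gcd_one hg
  obtain ⟨u, v, h6⟩ := Int.isCoprime_iff_gcd_eq_one.2 h3
  generalize Int.gcd k (-j) = g at hg h4 h5
  have hg' : (1 : ℤ) ≤ g := by exact_mod_cast hg
  have hm : 0 < m := by nlinarith
  have h7 : m ≤ ⌈s⌉₊ := by nlinarith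
  refine ⟨m, t, u, v, h6, hm, ?_, ?_⟩
  · have : (m : ℝ) ≤ ⌈s⌉₊ := by exact_mod_cast h7
    linarith [Nat.ceil_lt_add_one (show 0 ≤ s by linarith)]
  · have h8 : (k : ℝ) * θ - j = (m * θ + t) * g := by
      rw [sub_eq_add_neg, ← Int.cast_neg, h4, h5]
      push_cast
      ring
    have h9 : (1 : ℝ) ≤ g := by exact_mod_cast hg
    rw [h8, abs_mul, abs_of_nonneg (show (0 : ℝ) ≤ g by positivity)] at h2
    refine ((le_mul_of_one_le_right (abs_nonneg _) h9).trans h2).trans ?_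
    gcongr
    linarith [Nat.le_ceil s]

end LatH

theorem lat : LatStmt := by
  obtain ⟨C, hC, H⟩ := R8.minSum
  refine ⟨2304 * C, by positivity, fun θ N Y τ Z hN hY hτ hZ hθ =>
    ⟨LatH.card_le Z hN hZ, fun ξ a q hq ha hξ φ ψ => ?_⟩⟩
  have hs : 1 ≤ √N := Real.one_le_sqrt.2 hN
  have hs2 : √N * √N = N := Real.mul_self_sqrt (by linarith)
  obtain ⟨m, t, u, v, h1, h2, h3, h4⟩ := LatH.prim θ hs
  have h2' : (1 : ℝ) ≤ m := by exact_mod_cast h2
  have h1' : (u : ℝ) * m + v * t = 1 := by exact_mod_cast h1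
  set ε := |m * θ + t| with hε
  have hε0 : 0 ≤ ε := abs_nonneg _
  set B := 2 * m + N * ε with hB
  have hB2 : 2 ≤ B := by nlinarith
  have hB5 : B ≤ 5 * √N := by
    have : N * ε ≤ √N := by
      refine (mul_le_mul_of_nonneg_left h4 (by linarith)).trans_eq ?_
      field_simp
      nlinarith
    linarith
  set L := ⌊8 * N / B⌋₊ with hL
  set M := 2 * ⌊B⌋₊ + 1 with hM
  have hM' : (M : ℝ) ≤ 3 * B := by
    rw [hM]
    push_cast
    linarith [Nat.floor_le (show 0 ≤ B by linarith)]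
  have hL' : (L + 1 : ℝ) * B ≤ 16 * N := by
    have h5 : (L : ℝ) * B ≤ 8 * N :=
      (le_div_iff₀ (by linarith)).1 (Nat.floor_le (by positivity))
    nlinarith
  have hL2 : (L + 1 : ℝ) ≤ 16 * (N / Y + 1 / τ) := by
    have a1 : 0 ≤ N / Y := by positivity
    have a2 : 0 ≤ 1 / τ := by positivity
    rcases le_total (m : ℝ) Y with h | h
    · have h5 := hθ m t (by omega) (by rwa [abs_of_nonneg (by linarith)])
      have h6 : (L + 1 : ℝ) ≤ 16 * (1 / τ) := by
        rw [mul_one_div, le_div_iff₀ hτ]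
        refine le_of_mul_le_mul_right (le_trans ?_ hL') (show 0 < N by linarith)
        rw [mul_assoc]
        gcongr
        nlinarith
      linarith
    · have h6 : (L + 1 : ℝ) ≤ 16 * (N / Y) := by
        rw [← mul_div_assoc, le_div_iff₀ (by linarith)]
        refine le_trans ?_ hL'
        gcongr
        nlinarith
      linarith
  have key := LatH.core Z (fun z => m * z.2 - t * z.1) (fun z => z.1 * u + z.2 * v)
    (fun z _ z' _ e1 e2 => Prod.ext (by linear_combination m * e2 - v * e1 + (z'.1 - z.1) * h1)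
      (by linear_combination t * e2 + u * e1 + (z'.2 - z.2) * h1)) (-(⌊B⌋₊ : ℤ)) L M
    (fun z hz => by
      obtain ⟨b1, b2⟩ := hZ z hz
      have h5 : |m * z.2 - t * z.1| ≤ ⌊B⌋₊ := by
        rw [Int.natCast_floor_eq_floor (by linarith), Int.le_floor, Int.cast_abs]
        have e : ((m * z.2 - t * z.1 : ℤ) : ℝ) = m * (z.1 * θ + z.2) - z.1 * (m * θ + t) := by
          push_cast
          ring
        rw [e]
        refine (abs_sub _ _).trans ?_
        rw [abs_mul, abs_mul, abs_of_nonneg (show (0 : ℝ) ≤ m by linarith), hB, mul_comm 2]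
        gcongr
      have := abs_le.1 h5
      rw [mem_Ico]
      omega)
    (fun z hz z' hz' e => by
      obtain ⟨b1, b2⟩ := hZ z hz
      obtain ⟨b3, b4⟩ := hZ z' hz'
      obtain ⟨d, hd⟩ : ∃ d, d = z.1 * u + z.2 * v - (z'.1 * u + z'.2 * v) := ⟨_, rfl⟩
      have e1 : d * m = z.1 - z'.1 := by linear_combination m * hd + v * e + (z.1 - z'.1) * h1
      have e2 : d * t = z.2 - z'.2 := by linear_combination t * hd - u * e + (z.2 - z'.2) * h1
      have e1' : (d : ℝ) * m = z.1 - z'.1 := by exact_mod_cast e1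
      have e2' : (d : ℝ) * t = z.2 - z'.2 := by exact_mod_cast e2
      have c1 : (d : ℝ) * m ≤ 2 * N := by linarith [(abs_le.1 b1).2, (abs_le.1 b3).1]
      have c2 : (d : ℝ) * ε ≤ 4 := by
        refine (mul_le_mul_of_nonneg_right (le_abs_self _) hε0).trans ?_
        rw [hε, ← abs_mul, show (d : ℝ) * (m * θ + t) = z.1 * θ + z.2 - (z'.1 * θ + z'.2) by
          linear_combination θ * e1' + e2']
        linarith [abs_sub (z.1 * θ + z.2) (z'.1 * θ + z'.2)]
      have c3 : d ≤ L := by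
        rw [hL, Int.natCast_floor_eq_floor (by positivity), Int.le_floor,
          le_div_iff₀ (by linarith), hB]
        nlinarith
      omega)
    (fun m₁ => H ξ (L + 1) a m₁ q M hq ha hξ (by linarith [Nat.cast_nonneg (α := ℝ) L])) φ ψ
  have e : ∀ z z' : ℤ × ℤ, det z z' = (z.1 * u + z.2 * v) * (m * z'.2 - t * z'.1) -
      (z'.1 * u + z'.2 * v) * (m * z.2 - t * z.1) := fun z z' => by
    rw [det]
    linear_combination (z.2 * z'.1 - z.1 * z'.2) * h1
  simp only [e]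
  refine key.trans (mul_le_mul_of_nonneg_right (Real.sqrt_le_sqrt ?_) (by positivity))
  have hq' : (1 : ℝ) ≤ q := by exact_mod_cast hq
  have hl : 0 ≤ Real.log (2 * q) := Real.log_nonneg (by linarith)
  have h5 : (M : ℝ) * (L + 1) ≤ 48 * N := by
    have := mul_le_mul_of_nonneg_right hM' (show (0 : ℝ) ≤ L + 1 by positivity)
    linarith
  have h6 : ((M : ℝ) / q + 1) * (L + 1 + q * Real.log (2 * q)) ≤
      48 * (N / q + √N * Real.log (2 * q) + N / Y + 1 / τ + q * Real.log (2 * q)) := by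
    have a1 : (M : ℝ) * (L + 1) / q ≤ 48 * N / q := by gcongr
    have a2 : (M : ℝ) * Real.log (2 * q) ≤ 48 * √N * Real.log (2 * q) := by gcongr; linarith
    have a3 : 0 ≤ q * Real.log (2 * q) := by positivity
    have a4 : 0 ≤ N / Y + 1 / τ := by positivity
    have a5 : ((M : ℝ) / q + 1) * (L + 1 + q * Real.log (2 * q)) =
        M * (L + 1) / q + M * Real.log (2 * q) + (L + 1) + q * Real.log (2 * q) := by
      field_simp
      ring
    rw [a5]
    rw [mul_div_assoc 48] at a1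
    linarith
  calc _ = C * (M * (L + 1) * ((M / q + 1) * (L + 1 + q * Real.log (2 * q)))) := by ring
    _ ≤ C * (48 * N * (48 * (N / q + √N * Real.log (2 * q) + N / Y + 1 / τ +
        q * Real.log (2 * q)))) := by gcongr
    _ = _ := by ring

end Crest.Agent.R26
end

-- ▼ part PVc/R26/Plan

/-! Row 26: Plancherel in the labels. -/

set_option autoImplicit false

namespace Crest.Agent.R26

open Finset Filter
open Crest.Agent.R5 (pr pd ee nit)

namespace PlanAux

open scoped ComplexConjugate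

theorem ee_add (x y : ℝ) : ee (x + y) = ee x * ee y := by
  rw [ee, ee, ee, ← Complex.exp_add]; congr 1; push_cast; ring

theorem ee_pow (x : ℝ) (a : ℕ) : ee (a * x) = ee x ^ a := by
  rw [ee, ee, ← Complex.exp_nat_mul]; congr 1; push_cast; ring

theorem ee_int (m : ℤ) : ee m = 1 := by
  rw [ee, ← Complex.exp_int_mul_two_pi_mul_I m]; congr 1; push_cast; ring

theorem conj_ee (x : ℝ) : conj (ee x) = ee (-x) := by
  rw [ee, ee, ← Complex.exp_conj]; congr 1
  simp only [map_mul, Complex.conj_ofReal, Complex.conj_I]; push_cast; ring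

theorem ee_eq_one (x : ℝ) (h : ee x = 1) : ∃ z : ℤ, x = z := by
  rw [ee, Complex.exp_eq_one_iff] at h
  obtain ⟨z, h⟩ := h
  have h1 : ((2 * Real.pi * x : ℝ) : ℂ) = ((2 * Real.pi * z : ℝ) : ℂ) :=
    mul_right_cancel₀ Complex.I_ne_zero (by rw [h]; push_cast; ring)
  exact ⟨z, mul_left_cancel₀ (by positivity) (Complex.ofReal_injective h1)⟩

theorem orth {M : ℕ} {n : ℤ} (hn : |n| < M) :
    ∑ j ∈ range M, ee (j / M * n) = if n = 0 then (M : ℂ) else 0 := by
  have hM : (0 : ℤ) < M := (abs_nonneg n).trans_lt hn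
  have hM' : (M : ℝ) ≠ 0 := by exact_mod_cast hM.ne'
  split_ifs with h
  · subst h
    simp [ee]
  · have e : ∀ j : ℕ, ee (j / M * n) = ee (n / M) ^ j := fun j => by
      rw [← ee_pow]; congr 1; ring
    have h1 : ee (n / M) ≠ 1 := fun h1 => by
      obtain ⟨z, hz⟩ := ee_eq_one _ h1
      rw [div_eq_iff hM'] at hz
      have h2 : n = z * M := by exact_mod_cast hz
      exact h (Int.eq_zero_of_abs_lt_dvd ⟨z, by rw [h2, mul_comm]⟩ hn)
    have h2 : ee (n / M) ^ M = 1 := by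
      rw [← ee_pow, mul_div_cancel₀ _ hM', ee_int]
    simp only [e]
    rw [geom_sum_eq h1, h2, sub_self, zero_div]

theorem norm_hat_neg (k : ℤ → ℝ) (h : ℕ) (ξ : ℝ) : ‖hat k h (-ξ)‖ = ‖hat k h ξ‖ := by
  rw [← Complex.norm_conj (hat k h ξ), hat, hat, map_sum]
  congr 1
  refine sum_congr rfl fun n _ => ?_
  rw [map_mul, Complex.conj_ofReal, conj_ee, mul_neg]

theorem inversion {k : ℤ → ℝ} {h M : ℕ} (hk : ∀ n : ℤ, (h : ℤ) < |n| → k n = 0) {n : ℤ}
    (hn : |n| + h < M) :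
    ∑ j ∈ range M, hat k h (-(j / M)) * ee (j / M * n) = M * k n := by
  simp only [hat, sum_mul]
  rw [sum_comm]
  have e : ∀ m ∈ Icc (-(h : ℤ)) h, ∑ j ∈ range M, (k m : ℂ) * ee (m * -((j : ℝ) / M)) *
      ee (j / M * n) = if n = m then (M : ℂ) * k m else 0 := by
    intro m hm
    have h1 : |n - m| < M := by
      have h2 := abs_le.2 (mem_Icc.1 hm)
      linarith [abs_sub n m]
    have h2 := orth h1
    simp only [sub_eq_zero] at h2
    have h3 : ∀ j : ℕ, (k m : ℂ) * ee (m * -((j : ℝ) / M)) * ee (j / M * n) =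
        k m * ee (j / M * (n - m : ℤ)) := fun j => by
      rw [mul_assoc, ← ee_add]; congr 2; push_cast; ring
    simp only [h3]
    rw [← mul_sum, h2]
    split_ifs
    · ring
    · ring
  rw [sum_congr rfl e, sum_ite_eq]
  split_ifs with h1
  · rfl
  · rw [hk n (lt_of_not_ge fun h2 => h1 (mem_Icc.2 (abs_le.1 h2)))]
    simp

theorem parseval {τ : Type} {U : Finset τ} {l : τ → ℤ} (hl : Set.InjOn l U) {M : ℕ}
    (hM : ∀ u ∈ U, ∀ w ∈ U, |l u - l w| < M) (a : τ → ℝ) :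
    ∑ j ∈ range M, ‖∑ u ∈ U, (a u : ℂ) * ee (j / M * l u)‖ ^ 2 = M * ∑ u ∈ U, a u ^ 2 := by
  classical
  apply Complex.ofReal_injective
  have e : ∀ j : ℕ, ((‖∑ u ∈ U, (a u : ℂ) * ee (j / M * l u)‖ ^ 2 : ℝ) : ℂ) =
      ∑ u ∈ U, ∑ w ∈ U, (a u : ℂ) * a w * ee (j / M * (l u - l w : ℤ)) := fun j => by
    rw [Complex.ofReal_pow, ← Complex.mul_conj', map_sum, sum_mul_sum]
    refine sum_congr rfl fun u _ => sum_congr rfl fun w _ => ?_
    rw [map_mul, Complex.conj_ofReal, conj_ee, mul_mul_mul_comm, ← ee_add]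
    congr 2
    push_cast
    ring
  rw [Complex.ofReal_sum, sum_congr rfl fun j _ => e j, sum_comm]
  push_cast
  rw [mul_sum]
  refine sum_congr rfl fun u hu => ?_
  rw [sum_comm, sum_eq_single u]
  · rw [← mul_sum]
    have := orth (hM u hu u hu)
    push_cast at this
    rw [this, if_pos (sub_self _)]
    ring
  · intro w hw hwu
    rw [← mul_sum]
    have := orth (hM u hu w hw)
    push_cast at this
    rw [this, if_neg fun h => hwu (hl hu hw (sub_eq_zero.1 h)).symm, mul_zero]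
  · exact fun h => absurd hu h

theorem exists_bound {α : Type} (s : Finset α) (f : α → ℤ) : ∃ M : ℕ, ∀ x ∈ s, |f x| ≤ M :=
  ⟨s.sup fun x => (f x).natAbs, fun x hx => by
    rw [Int.abs_eq_natAbs]
    exact_mod_cast le_sup (f := fun x => (f x).natAbs) hx⟩

end PlanAux

open PlanAux in
theorem plan : PlanStmt := by
  intro σ τ Z U D l k h lam hl hk hlam H φ ψ
  obtain ⟨M₁, hM₁⟩ := exists_bound (Z ×ˢ Z) fun x => D x.1 x.2
  obtain ⟨M₂, hM₂⟩ := exists_bound U l
  obtain ⟨M, hM⟩ : ∃ M : ℕ, M = M₁ + 2 * M₂ + h + 1 := ⟨_, rfl⟩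
  have hM' : (M : ℤ) = M₁ + 2 * M₂ + h + 1 := by exact_mod_cast hM
  have hM0 : (0 : ℝ) < M := by rw [hM]; positivity
  have hl1 : ∀ u ∈ U, ∀ w ∈ U, |l u - l w| ≤ 2 * M₂ := fun u hu w hw => by
    linarith [abs_sub (l u) (l w), hM₂ u hu, hM₂ w hw]
  have hl2 : ∀ u ∈ U, ∀ w ∈ U, |l u - l w| < M := fun u hu w hw => by
    have := hl1 u hu w hw
    omega
  set Φ : ℕ → σ → ℂ := fun j z => ∑ u ∈ U, (φ (z, u) : ℂ) * ee (j / M * l u) with hΦ
  set Ψ : ℕ → σ → ℂ := fun j z => ∑ u ∈ U, (ψ (z, u) : ℂ) * ee (j / M * (-l u : ℤ)) with hΨ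
  have key : ((M * ∑ s ∈ Z ×ˢ U, ∑ s' ∈ Z ×ˢ U,
      φ s * k (D s.1 s'.1 - (l s'.2 - l s.2)) * ψ s' : ℝ) : ℂ) =
      ∑ j ∈ range M, hat k h (-(j / M)) *
        ∑ z ∈ Z, ∑ z' ∈ Z, Φ j z * ee (j / M * D z z') * Ψ j z' := by
    have e1 : ∀ j : ℕ, ∑ z ∈ Z, ∑ z' ∈ Z, Φ j z * ee (j / M * D z z') * Ψ j z' =
        ∑ s ∈ Z ×ˢ U, ∑ s' ∈ Z ×ˢ U,
          (φ s : ℂ) * ee (j / M * (D s.1 s'.1 - (l s'.2 - l s.2) : ℤ)) * ψ s' := fun j => by
      simp only [sum_product, hΦ, hΨ]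
      refine sum_congr rfl fun z _ => ?_
      rw [sum_comm]
      refine sum_congr rfl fun z' _ => ?_
      rw [sum_mul, sum_mul_sum]
      refine sum_congr rfl fun u _ => sum_congr rfl fun w _ => ?_
      rw [show (j : ℝ) / M * (D z z' - (l w - l u) : ℤ) =
        j / M * l u + j / M * D z z' + j / M * (-l w : ℤ) by push_cast; ring, ee_add, ee_add]
      ring
    simp only [e1, mul_sum]
    push_cast
    refine Eq.trans (sum_congr rfl fun s hs => ?_) sum_comm
    refine Eq.trans (sum_congr rfl fun s' hs' => ?_) sum_comm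
    have h1 : |D s.1 s'.1 - (l s'.2 - l s.2)| + h < M := by
      have h2 := hM₁ (s.1, s'.1) (mem_product.2 ⟨(mem_product.1 hs).1, (mem_product.1 hs').1⟩)
      have h3 := hl1 _ (mem_product.1 hs').2 _ (mem_product.1 hs).2
      linarith [abs_sub (D s.1 s'.1) (l s'.2 - l s.2)]
    have h2 := inversion hk h1
    push_cast at h2
    calc _ = (φ s : ℂ) * (M * k (D s.1 s'.1 - (l s'.2 - l s.2))) * ψ s' := by ring
      _ = _ := by
        rw [← h2, mul_sum, sum_mul]
        exact sum_congr rfl fun j _ => by ring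
  have hA : ∑ j ∈ range M, ∑ z ∈ Z, ‖Φ j z‖ ^ 2 = M * ∑ s ∈ Z ×ˢ U, φ s ^ 2 := by
    rw [sum_comm, sum_product, mul_sum]
    exact sum_congr rfl fun z _ => parseval hl hl2 fun u => φ (z, u)
  have hB : ∑ j ∈ range M, ∑ z ∈ Z, ‖Ψ j z‖ ^ 2 = M * ∑ s ∈ Z ×ˢ U, ψ s ^ 2 := by
    rw [sum_comm, sum_product, mul_sum]
    refine sum_congr rfl fun z _ => parseval (l := fun u => -l u)
      (fun u hu w hw e => hl hu hw (neg_injective e)) (fun u hu w hw => ?_) fun u => ψ (z, u)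
    rw [neg_sub_neg]
    exact hl2 w hw u hu
  have h3 := congrArg norm key
  rw [Complex.norm_real, Real.norm_eq_abs, abs_mul, abs_of_pos hM0] at h3
  refine le_of_mul_le_mul_left ?_ hM0
  rw [h3]
  calc _ ≤ ∑ j ∈ range M, lam * (√(∑ z ∈ Z, ‖Φ j z‖ ^ 2) * √(∑ z ∈ Z, ‖Ψ j z‖ ^ 2)) := by
        refine (norm_sum_le _ _).trans (sum_le_sum fun j _ => ?_)
        obtain ⟨e, he, h1, h2⟩ := H (j / M)
        rw [norm_mul, norm_hat_neg]
        refine (mul_le_mul_of_nonneg_left (h1 (Φ j) (Ψ j)) (norm_nonneg _)).trans ?_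
        rw [← mul_assoc]
        exact mul_le_mul_of_nonneg_right h2 (by positivity)
    _ ≤ lam * (√(∑ j ∈ range M, ∑ z ∈ Z, ‖Φ j z‖ ^ 2) *
          √(∑ j ∈ range M, ∑ z ∈ Z, ‖Ψ j z‖ ^ 2)) := by
        rw [← mul_sum]
        exact mul_le_mul_of_nonneg_left (Real.sum_sqrt_mul_sqrt_le _
          (fun j => by positivity) fun j => by positivity) hlam
    _ = _ := by
        rw [hA, hB, Real.sqrt_mul hM0.le, Real.sqrt_mul hM0.le, mul_mul_mul_comm,
          Real.mul_self_sqrt hM0.le, nrm, nrm]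
        ring

end Crest.Agent.R26
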