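import Crest.Agent.PVc.R8.Defs
import Crest.Agent.PVc.R17.LZeroAuxA
import Crest.Agent.PVc.R8.Prime
import Crest.Agent.PVc.R26.Defs

-- ▼ part PVc/R8/Riesz
section

/-! Row 8: Perron's formula for the Riesz mean of order one. -/

set_option autoImplicit false

namespace Crest.Agent.R8

open Finset Filter MeasureTheory
open Crest.Agent.R5

namespace Riesz

/-- the function `(1 - u)₊` -/
noncomputable def tent (u : ℝ) : ℂ := ((max (1 - u) 0 : ℝ) : ℂ)

theorem tent_eq {u : ℝ} (hu : u ∈ Set.Ioi (0 : ℝ)) :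
    tent u = Set.indicator (Set.Ioc 0 1) (fun _ => 1 : ℝ → ℂ) u -
      Set.indicator (Set.Ioc 0 1) (fun t => (t : ℂ) ^ (1 : ℂ) : ℝ → ℂ) u := by
  by_cases h : u ≤ 1
  · have hm : u ∈ Set.Ioc (0 : ℝ) 1 := ⟨hu, h⟩
    rw [Set.indicator_of_mem hm, Set.indicator_of_mem hm, tent, max_eq_left (by linarith),
      Complex.cpow_one]
    push_cast
    rfl
  · have hm : u ∉ Set.Ioc (0 : ℝ) 1 := fun hm => h hm.2
    rw [Set.indicator_of_notMem hm, Set.indicator_of_notMem hm, tent,
      max_eq_right (by linarith)]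
    simp

theorem hasMellin_tent {s : ℂ} (hs : 0 < s.re) : HasMellin tent s (1 / (s * (s + 1))) := by
  have h1 := hasMellin_one_Ioc hs
  have h2 := hasMellin_cpow_Ioc 1 (s := s) (by simp only [Complex.one_re]; linarith)
  have h3 := hasMellin_sub h1.1 h2.1
  have hs0 : s ≠ 0 := fun h => by simp [h] at hs
  have hs1 : s + 1 ≠ 0 := fun h => by
    have := congrArg Complex.re h
    simp at this
    linarith
  refine ⟨IntegrableOn.congr_fun h3.1 (fun u hu => by simp only [tent_eq hu])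
    measurableSet_Ioi, ?_⟩
  have h4 : mellin tent s = _ := (setIntegral_congr_fun measurableSet_Ioi
    (fun u hu => by simp only [tent_eq hu])).trans h3.2
  rw [h4, h1.2, h2.2]
  field_simp
  ring

/-- the kernel -/
noncomputable def ker (c τ : ℝ) : ℂ := 1 / ((c + τ * Complex.I) * (c + τ * Complex.I + 1))

theorem norm_ker_le {c : ℝ} (hc : 1 ≤ c) (τ : ℝ) : ‖ker c τ‖ ≤ (1 + τ ^ 2)⁻¹ := by
  have h1 : 1 + τ ^ 2 ≤ ‖(c : ℂ) + τ * Complex.I‖ ^ 2 := by
    rw [Complex.sq_norm, Complex.normSq_apply]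
    simp
    nlinarith
  have h2 : 1 + τ ^ 2 ≤ ‖(c : ℂ) + τ * Complex.I + 1‖ ^ 2 := by
    rw [Complex.sq_norm, Complex.normSq_apply]
    simp
    nlinarith
  have h0 : 0 < 1 + τ ^ 2 := by positivity
  rw [ker, norm_div, norm_one, norm_mul, one_div]
  refine inv_anti₀ h0 (le_of_sq_le_sq ?_ (by positivity))
  rw [mul_pow, sq]
  exact mul_le_mul h1 h2 h0.le (by positivity)

theorem continuous_ker {c : ℝ} (hc : 1 ≤ c) : Continuous (ker c) := by
  refine continuous_const.div (by fun_prop) fun τ => mul_ne_zero (fun h => ?_) fun h => ?_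
  · have := congrArg Complex.re h
    simp at this
    linarith
  · have := congrArg Complex.re h
    simp at this
    linarith

theorem integrable_ker {c : ℝ} (hc : 1 ≤ c) : Integrable (ker c) :=
  integrable_inv_one_add_sq.mono' (continuous_ker hc).aestronglyMeasurable
    (Eventually.of_forall (norm_ker_le hc))

theorem inversion {c u : ℝ} (hc : 1 ≤ c) (hu : 0 < u) :
    tent u = (1 / (2 * Real.pi) : ℂ) * ∫ τ : ℝ, (u : ℂ) ^ (-(c + τ * Complex.I)) * ker c τ := by
  have hm : ∀ τ : ℝ, mellin tent (c + τ * Complex.I) = ker c τ := fun τ =>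
    (hasMellin_tent (by simp; linarith)).2
  have h := mellinInv_mellin_eq c tent hu (hasMellin_tent (by simp; linarith)).1
    (by simp only [Complex.VerticalIntegrable, hm]; exact integrable_ker hc)
    (by unfold tent; fun_prop)
  rw [← h, mellinInv]
  simp only [hm, smul_eq_mul, Complex.real_smul]
  push_cast
  rfl

/-- the `n`-th term of the integrand -/
noncomputable def F (a : ℕ → ℂ) (c x : ℝ) (n : ℕ) (τ : ℝ) : ℂ :=
  LSeries.term a (c + τ * Complex.I) n * (x : ℂ) ^ ((c : ℂ) + 1 + τ * Complex.I) * ker c τ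

theorem F_eq (a : ℕ → ℂ) (c : ℝ) {x : ℝ} (hx : 0 < x) {n : ℕ} (hn : n ≠ 0) (τ : ℝ) :
    F a c x n τ = a n * x * ((((n : ℝ) / x : ℝ) : ℂ) ^ (-(c + τ * Complex.I)) * ker c τ) := by
  have hx0 : (x : ℂ) ≠ 0 := by exact_mod_cast hx.ne'
  have h1 : (((n : ℝ) / x : ℝ) : ℂ) ^ (-((c : ℂ) + τ * Complex.I)) =
      (x : ℂ) ^ ((c : ℂ) + τ * Complex.I) / (n : ℂ) ^ ((c : ℂ) + τ * Complex.I) := by
    rw [div_eq_mul_inv, Complex.ofReal_mul, Complex.mul_cpow_ofReal_nonneg (Nat.cast_nonneg n)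
      (inv_nonneg.2 hx.le), Complex.ofReal_inv, Complex.inv_cpow _ _ (by
        rw [Complex.arg_ofReal_of_nonneg hx.le]; exact Real.pi_ne_zero.symm),
      Complex.cpow_neg, Complex.cpow_neg, inv_inv, Complex.ofReal_natCast, div_eq_mul_inv,
      mul_comm]
  rw [F, LSeries.term_of_ne_zero hn, h1, show (c : ℂ) + 1 + τ * Complex.I
    = 1 + (c + τ * Complex.I) by ring, Complex.cpow_add _ _ hx0, Complex.cpow_one]
  ring

theorem norm_F (a : ℕ → ℂ) (c : ℝ) {x : ℝ} (hx : 0 < x) (n : ℕ) (τ : ℝ) :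
    ‖F a c x n τ‖ = ‖LSeries.term a c n‖ * (x ^ (c + 1) * ‖ker c τ‖) := by
  rw [F, norm_mul, norm_mul, Complex.norm_cpow_eq_rpow_re_of_pos hx, LSeries.norm_term_eq,
    LSeries.norm_term_eq, mul_assoc]
  simp

theorem integrable_F (a : ℕ → ℂ) {c x : ℝ} (hc : 1 ≤ c) (hx : 0 < x) (n : ℕ) :
    Integrable (F a c x n) := by
  refine (((integrable_ker hc).norm.const_mul (x ^ (c + 1))).const_mul
    ‖LSeries.term a c n‖).mono' ?_ (Eventually.of_forall fun τ => (norm_F a c hx n τ).le)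
  rcases eq_or_ne n 0 with rfl | hn
  · have : F a c x 0 = fun _ => 0 := by
      funext τ
      simp [F]
    rw [this]
    exact aestronglyMeasurable_const
  · rw [show F a c x n = _ from funext (F_eq a c hx hn)]
    have h0 : (((n : ℝ) / x : ℝ) : ℂ) ≠ 0 := by
      have : (0 : ℝ) < n := by exact_mod_cast Nat.pos_of_ne_zero hn
      exact_mod_cast (div_pos this hx).ne'
    exact (continuous_const.mul ((Continuous.const_cpow (by fun_prop) (Or.inl h0)).mul
      (continuous_ker hc))).aestronglyMeasurable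

theorem integral_F (a : ℕ → ℂ) {c x : ℝ} (hc : 1 ≤ c) (hx : 0 < x) (n : ℕ) :
    (1 / (2 * Real.pi) : ℂ) * ∫ τ, F a c x n τ =
      if n ∈ Icc 1 ⌊x⌋₊ then a n * ((x - n : ℝ) : ℂ) else 0 := by
  rcases eq_or_ne n 0 with rfl | hn
  · simp [F]
  · have hn' : (0 : ℝ) < n := by exact_mod_cast Nat.pos_of_ne_zero hn
    simp only [F_eq a c hx hn]
    rw [integral_const_mul, mul_left_comm, ← inversion hc (div_pos hn' hx), tent]
    split_ifs with h
    · have h1 : (n : ℝ) ≤ x := (Nat.le_floor_iff hx.le).1 (mem_Icc.1 h).2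
      rw [max_eq_left (sub_nonneg.2 ((div_le_one hx).2 h1)), mul_assoc, ← Complex.ofReal_mul]
      congr 2
      field_simp
    · have h1 : x < n := by
        rw [← Nat.floor_lt hx.le]
        rw [mem_Icc] at h
        omega
      rw [max_eq_right (sub_nonpos.2 ((one_le_div hx).2 h1.le))]
      simp

end Riesz

theorem riesz : RieszStmt := by
  intro a c x hc hx ha
  have hx0 : 0 < x := by linarith
  have hs : Summable fun n => ∫ τ, ‖Riesz.F a c x n τ‖ := by
    simp only [Riesz.norm_F a c hx0, integral_const_mul]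
    exact (summable_norm_iff.2 ha).mul_right _
  have h1 := (hasSum_integral_of_summable_integral_norm (Riesz.integrable_F a hc hx0) hs).mul_left
    (1 / (2 * Real.pi) : ℂ)
  simp only [Riesz.integral_F a hc hx0] at h1
  have h2 : HasSum (fun n => if n ∈ Icc 1 ⌊x⌋₊ then a n * ((x - n : ℝ) : ℂ) else 0) (rz a x) := by
    have h3 := hasSum_sum_of_ne_finset_zero (s := Icc 1 ⌊x⌋₊)
      (f := fun n => if n ∈ Icc 1 ⌊x⌋₊ then a n * ((x - n : ℝ) : ℂ) else 0)
      (L := SummationFilter.unconditional ℕ) fun n hn => if_neg hn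
    rwa [sum_congr rfl fun n hn => if_pos hn] at h3
  rw [h2.unique h1]
  congr 2
  funext τ
  simp only [Riesz.F]
  rw [tsum_mul_right, tsum_mul_right, Riesz.ker, mul_one_div, LSeries]
  congr 2
  ring

end Crest.Agent.R8
end

-- ▼ part PVc/R8/Contour
section

/-! Row 8: shifting the contour in Perron's formula, and removing the Riesz weight. -/

set_option autoImplicit false

namespace Crest.Agent.R8

open Finset Filter MeasureTheory Complex
open Crest.Agent.R5

namespace Contour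

/-- the integrand -/
noncomputable def H (G : ℂ → ℂ) (x : ℝ) (s : ℂ) : ℂ := G s * (x : ℂ) ^ (s + 1) / (s * (s + 1))

theorem den_sq (s : ℂ) : ‖s * (s + 1)‖ ^ 2 = (s.re ^ 2 + s.im ^ 2) * ((s.re + 1) ^ 2 + s.im ^ 2) := by
  rw [norm_mul, mul_pow, Complex.sq_norm, Complex.sq_norm, normSq_apply, normSq_apply]
  simp only [add_re, add_im, one_re, one_im, add_zero]
  ring

theorem den_ge {s : ℂ} (hs : 1 / 2 ≤ s.re) : (1 + s.im ^ 2) / 2 ≤ ‖s * (s + 1)‖ := by
  refine (abs_le_of_sq_le_sq' ?_ (norm_nonneg _)).2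
  rw [den_sq]
  have h1 : 1 / 4 + s.im ^ 2 ≤ s.re ^ 2 + s.im ^ 2 := by nlinarith
  have h2 : 9 / 4 + s.im ^ 2 ≤ (s.re + 1) ^ 2 + s.im ^ 2 := by nlinarith
  have h3 := mul_le_mul h1 h2 (by positivity) (by positivity)
  nlinarith [sq_nonneg s.im, sq_nonneg (s.im ^ 2)]

theorem den_ge' {s : ℂ} (hs : 1 / 2 ≤ s.re) : s.im ^ 2 ≤ ‖s * (s + 1)‖ := by
  refine (abs_le_of_sq_le_sq' ?_ (norm_nonneg _)).2
  rw [den_sq]
  have h1 : s.im ^ 2 ≤ s.re ^ 2 + s.im ^ 2 := by nlinarith
  have h2 : s.im ^ 2 ≤ (s.re + 1) ^ 2 + s.im ^ 2 := by nlinarith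
  have h3 := mul_le_mul h1 h2 (by positivity) (by positivity)
  nlinarith

theorem den_ne {s : ℂ} (hs : 1 / 2 ≤ s.re) : s * (s + 1) ≠ 0 := by
  have := den_ge hs
  refine norm_pos_iff.1 (lt_of_lt_of_le (by positivity) this)

theorem norm_H {G : ℂ → ℂ} {x : ℝ} (hx : 1 ≤ x) (s : ℂ) :
    ‖H G x s‖ = ‖G s‖ * x ^ (s.re + 1) / ‖s * (s + 1)‖ := by
  rw [H, norm_div, norm_mul, Complex.norm_cpow_eq_rpow_re_of_pos (by linarith)]
  simp

theorem norm_H_le {G : ℂ → ℂ} {x K : ℝ} (hx : 1 ≤ x) {s : ℂ} (hs : 1 / 2 ≤ s.re) (hK : ‖G s‖ ≤ K) :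
    ‖H G x s‖ ≤ 2 * K * x ^ (s.re + 1) * (1 + s.im ^ 2)⁻¹ := by
  have hK0 : 0 ≤ K := (norm_nonneg _).trans hK
  have hx0 : 0 < x := by linarith
  rw [norm_H hx]
  calc ‖G s‖ * x ^ (s.re + 1) / ‖s * (s + 1)‖ ≤ K * x ^ (s.re + 1) / ((1 + s.im ^ 2) / 2) := by
        gcongr
        exact den_ge hs
    _ = _ := by field_simp

theorem norm_H_le' {G : ℂ → ℂ} {x K : ℝ} (hx : 1 ≤ x) {s : ℂ} (hs : 1 / 2 ≤ s.re) (hs2 : s.re ≤ 2)
    (hi : s.im ≠ 0) (hK : ‖G s‖ ≤ K) : ‖H G x s‖ ≤ K * x ^ 3 / s.im ^ 2 := by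
  have hK0 : 0 ≤ K := (norm_nonneg _).trans hK
  have hx0 : 0 < x := by linarith
  have h3 : x ^ (s.re + 1) ≤ x ^ 3 := by
    rw [← Real.rpow_natCast]
    exact Real.rpow_le_rpow_of_exponent_le hx (by push_cast; linarith)
  rw [norm_H hx]
  gcongr
  exact den_ge' hs

theorem tail {f : ℝ → ℂ} {C T : ℝ} (hT : 1 ≤ T) (h : ∀ τ, T < τ → ‖f τ‖ ≤ C / τ ^ 2) :
    ‖∫ τ in Set.Ioi T, f τ‖ ≤ C / T := by
  have hT0 : 0 < T := by linarith
  have h1 : IntegrableOn (fun τ : ℝ => C * τ ^ (-2 : ℝ)) (Set.Ioi T) :=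
    (integrableOn_Ioi_rpow_of_lt (by norm_num) hT0).const_mul C
  refine (norm_integral_le_of_norm_le h1 ?_).trans (le_of_eq ?_)
  · refine (ae_restrict_iff' measurableSet_Ioi).2 (Eventually.of_forall fun τ hτ => ?_)
    have hτ' : T < τ := hτ
    rw [Real.rpow_neg (by linarith), Real.rpow_two, ← div_eq_mul_inv]
    exact h τ hτ'
  · rw [integral_const_mul, integral_Ioi_rpow_of_lt (by norm_num) hT0]
    norm_num [Real.rpow_neg_one, div_eq_mul_inv]

end Contour

open Contour in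
theorem contour : ContourStmt := by
  intro G σ K K' x T hσ hσ2 hx hT hG hc hK hK'
  have hx0 : 0 < x := by linarith
  have hT0 : 0 < T := by linarith
  have hK0 : 0 ≤ K := (norm_nonneg _).trans (hK 2 (by simpa using hσ2) (by simp) (by simp; linarith))
  have hK0' : 0 ≤ K' := (norm_nonneg _).trans (hK' 0)
  have e : ∀ τ : ℝ, G (2 + τ * I) * (x : ℂ) ^ ((2 : ℂ) + 1 + τ * I) /
      ((2 + τ * I) * (2 + 1 + τ * I)) = H G x (2 + τ * I) := fun τ => by
    rw [H, add_right_comm]
  simp only [e]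
  have hxs : (x : ℂ) ≠ 0 := by exact_mod_cast hx0.ne'
  -- integrability on the right line
  have hcont : Continuous fun τ : ℝ => H G x (2 + τ * I) := by
    unfold H
    refine (hc.mul (Continuous.const_cpow (by fun_prop) (Or.inl hxs))).div (by fun_prop)
      fun τ => den_ne (by norm_num)
  have hint : Integrable fun τ : ℝ => H G x (2 + τ * I) := by
    refine (integrable_inv_one_add_sq.const_mul (2 * K' * x ^ ((2 : ℝ) + 1))).mono'
      hcont.aestronglyMeasurable (Eventually.of_forall fun τ => ?_)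
    simpa using norm_H_le (G := G) hx (s := 2 + τ * I) (by norm_num) (hK' τ)
  -- the tails
  have t1 : ‖∫ τ in Set.Ioi T, H G x (2 + τ * I)‖ ≤ K' * x ^ 3 / T :=
    tail hT fun τ hτ => by
      simpa using norm_H_le' (G := G) hx (s := 2 + τ * I) (by norm_num) (by simp)
        (by simp; linarith) (hK' τ)
  have t2 : ‖∫ τ in Set.Iic (-T), H G x (2 + τ * I)‖ ≤ K' * x ^ 3 / T := by
    rw [← integral_comp_neg_Ioi]
    exact tail hT fun τ hτ => by
      simpa using norm_H_le' (G := G) hx (s := 2 + (-τ : ℝ) * I) (by norm_num) (by simp)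
        (by simp; linarith) (hK' (-τ))
  have split : ∫ τ : ℝ, H G x (2 + τ * I) = (∫ τ in Set.Iic (-T), H G x (2 + τ * I))
      + (∫ τ in (-T)..T, H G x (2 + τ * I)) + ∫ τ in Set.Ioi T, H G x (2 + τ * I) := by
    rw [← intervalIntegral.integral_Iic_sub_Iic hint.integrableOn hint.integrableOn,
      ← intervalIntegral.integral_Iic_add_Ioi (b := T) hint.integrableOn hint.integrableOn]
    ring
  -- Cauchy
  have hd : DifferentiableOn ℂ (H G x) {s | σ ≤ s.re ∧ s.re ≤ 2 ∧ |s.im| ≤ T} := by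
    unfold H
    refine (hG.mul (Differentiable.differentiableOn ?_)).div (by fun_prop)
      fun s hs => den_ne (hσ.trans hs.1)
    exact Differentiable.const_cpow (by fun_prop) (Or.inl hxs)
  have hrect := Complex.integral_boundary_rect_eq_zero_of_differentiableOn (H G x)
    (σ - T * I) (2 + T * I) (hd.mono fun s hs => by
      rw [Complex.mem_reProdIm] at hs
      simp only [sub_re, ofReal_re, mul_re, I_re, mul_zero, ofReal_im, I_im, mul_one, sub_self,
        sub_zero, add_re, re_ofNat, add_zero, sub_im, mul_im, zero_sub, add_im, im_ofNat,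
        zero_add] at hs
      rw [Set.uIcc_of_le hσ2, Set.uIcc_of_le (by linarith)] at hs
      exact ⟨hs.1.1, hs.1.2, abs_le.2 hs.2⟩)
  simp only [sub_re, ofReal_re, mul_re, I_re, mul_zero, ofReal_im, I_im, mul_one, sub_self,
    sub_zero, add_re, re_ofNat, add_zero, sub_im, mul_im, zero_sub, add_im, im_ofNat,
    zero_add, ofReal_ofNat, smul_eq_mul] at hrect
  have hor : ∀ t : ℝ, |t| = T → ‖∫ u in σ..2, H G x (u + t * I)‖ ≤ 3 / 2 * (K * x ^ 3 / T) := by
    intro t ht
    have h1 : ‖∫ u in σ..2, H G x (u + t * I)‖ ≤ K * x ^ 3 / T ^ 2 * |2 - σ| := by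
      refine intervalIntegral.norm_integral_le_of_norm_le_const fun u hu => ?_
      rw [Set.uIoc_of_le hσ2] at hu
      have h2 := norm_H_le' (G := G) hx (s := u + t * I) (by simp; linarith [hu.1])
        (by simpa using hu.2) (by simp; intro h; rw [h, abs_zero] at ht; linarith)
        (hK _ (by simpa using hu.1.le) (by simpa using hu.2) (by simpa using ht.le))
      rw [← ht, sq_abs]
      simpa using h2
    refine h1.trans ?_
    rw [abs_of_nonneg (by linarith), mul_comm]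
    refine mul_le_mul (by linarith) ?_ (by positivity) (by norm_num)
    gcongr
    nlinarith
  have left : ‖∫ τ in (-T)..T, H G x (σ + τ * I)‖ ≤ 7 * K * x ^ (1 + σ) := by
    have h1 : ‖∫ τ in (-T)..T, H G x (σ + τ * I)‖ ≤
        ∫ τ in (-T)..T, 2 * K * x ^ (σ + 1) * (1 + τ ^ 2)⁻¹ := by
      refine intervalIntegral.norm_integral_le_of_norm_le (by linarith)
        (Eventually.of_forall fun τ hτ => ?_)
        (integrable_inv_one_add_sq.const_mul _).intervalIntegrable
      simpa using norm_H_le (G := G) hx (s := σ + τ * I) (by simpa using hσ)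
        (hK _ (by simp) (by simpa using hσ2) (by simpa using abs_le.2 ⟨hτ.1.le, hτ.2⟩))
    refine h1.trans ?_
    rw [intervalIntegral.integral_const_mul, intervalIntegral.integral_of_le (by linarith)]
    have h2 : ∫ τ in Set.Ioc (-T) T, (1 + τ ^ 2)⁻¹ ≤ Real.pi := by
      rw [← integral_univ_inv_one_add_sq]
      exact setIntegral_le_integral integrable_inv_one_add_sq
        (Eventually.of_forall fun τ => by positivity)
    have h3 : 0 ≤ K * x ^ (σ + 1) := by positivity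
    rw [add_comm 1 σ]
    nlinarith [Real.pi_lt_d2, mul_le_mul_of_nonneg_left h2 h3]
  have mid : ‖∫ τ in (-T)..T, H G x (2 + τ * I)‖ ≤
      7 * K * x ^ (1 + σ) + 3 * (K * x ^ 3 / T) := by
    have h1 : I * ∫ τ in (-T)..T, H G x (2 + τ * I) = I * (∫ τ in (-T)..T, H G x (σ + τ * I))
        + (∫ u in σ..2, H G x (u + T * I)) - ∫ u in σ..2, H G x (u + (-T : ℝ) * I) := by
      linear_combination hrect
    have h2 := congrArg norm h1
    rw [norm_mul, norm_I, one_mul] at h2
    rw [h2]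
    refine (norm_sub_le _ _).trans ((add_le_add (norm_add_le _ _) le_rfl).trans ?_)
    rw [norm_mul, norm_I, one_mul]
    linarith [hor T (abs_of_pos hT0), hor (-T) (by rw [abs_neg, abs_of_pos hT0])]
  rw [split]
  refine (norm_add_le _ _).trans ((add_le_add (norm_add_le _ _) le_rfl).trans ?_)
  have h4 : 0 ≤ K' * x ^ 3 / T := by positivity
  have h5 : 3 * (K + K') * x ^ 3 / T = 3 * (K * x ^ 3 / T) + 3 * (K' * x ^ 3 / T) := by ring
  linarith


end Crest.Agent.R8
end

-- ▼ part PVc/R8/LogL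
section

/-! Row 8: bounds for `L'/L` and `L(2s, χ²) / L(s, χ)` inside a zero-free half plane. -/

set_option autoImplicit false

namespace Crest.Agent.R8

open Crest.Agent.R5 Complex Metric Set Filter Topology
open scoped Classical

namespace LogL

noncomputable section

/-- The analytic core: Borel–Carathéodory, three circles and Cauchy's estimate. -/
theorem disc {η A : ℝ} (hη : 0 < η) (hA : 0 < A) : ∃ C : ℝ, 0 < C ∧
    ∀ (F : ℂ → ℂ) (c : ℂ) (Mx : ℝ), 0 < Mx → DifferentiableOn ℂ F (ball c (9 / 8)) →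
      (∀ w ∈ ball c (9 / 8), F w ≠ 0) → (∀ w, ‖w - c‖ ≤ 1 / 2 → ‖deriv F w / F w‖ ≤ A) →
      (∀ w ∈ ball c (9 / 8), ‖F w‖ ≤ Real.exp Mx * ‖F c‖) →
      ∀ w, ‖w - c‖ ≤ 17 / 16 → ‖deriv F w / F w‖ ≤ 64 * (η * Mx + C) ∧
        ‖F c‖ ≤ Real.exp (η * Mx + C) * ‖F w‖ := by
  obtain ⟨C, hC, h⟩ := R17.LZA.core (δ := 1 / 32) (by norm_num) hη hA
  refine ⟨C, hC, fun F c Mx hMx hF h0 hA' hM w hw => ?_⟩
  have hc0 : F c ≠ 0 := h0 c (mem_ball_self (by norm_num))
  have hmem : ∀ z ∈ ball (0 : ℂ) (9 / 8), c + z ∈ ball c (9 / 8) := fun z hz => by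
    rwa [mem_ball, dist_self_add_left, ← mem_ball_zero_iff]
  have hG : DifferentiableOn ℂ (fun z => F (c + z) / F c) (ball 0 (9 / 8)) :=
    (hF.comp (by fun_prop) hmem).div_const _
  obtain ⟨f, hf, he, hf0⟩ := R17.LZA.exists_log (V := {0}) (E := fun _ => 0) isOpen_ball
    (convex_ball 0 (9 / 8)) (by simp) isPreconnected_singleton hG
    (fun z hz => div_ne_zero (h0 _ (hmem z hz)) hc0) continuousOn_const
    (fun z hz => by rw [mem_singleton_iff.1 hz, add_zero, div_self hc0, exp_zero])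
  have hd : ∀ z ∈ ball (0 : ℂ) (9 / 8), deriv f z = deriv F (c + z) / F (c + z) := by
    intro z hz
    have h1 := (hf.differentiableAt (isOpen_ball.mem_nhds hz)).hasDerivAt.cexp
    have h2 : HasDerivAt (fun z => F (c + z) / F c) (deriv F (c + z) / F c) z :=
      ((hF.differentiableAt (isOpen_ball.mem_nhds (hmem z hz))).hasDerivAt.comp_const_add
        c z).div_const _
    have h3 := h1.unique (h2.congr_of_eventuallyEq
      (eventually_of_mem (isOpen_ball.mem_nhds hz) he))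
    have h4 := h0 _ (hmem z hz)
    rw [he z hz] at h3
    field_simp at h3 ⊢
    exact h3
  have hnorm : ∀ z ∈ ball (0 : ℂ) (9 / 8), ‖F (c + z)‖ = Real.exp (f z).re * ‖F c‖ := by
    intro z hz
    rw [← norm_exp, he z hz, norm_div, div_mul_cancel₀ _ (norm_ne_zero_iff.2 hc0)]
  have hb := h f (9 / 8) Mx (by norm_num) hMx hf
    (fun z hz => by
      have h1 := hM _ (hmem z hz)
      rw [hnorm z hz] at h1
      exact Real.exp_le_exp.1 (le_of_mul_le_mul_right h1 (norm_pos_iff.2 hc0)))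
    (fun z hz => by
      have hs : closedBall (0 : ℂ) (1 / 2) ⊆ ball 0 (9 / 8) := closedBall_subset_ball (by norm_num)
      have h1 := (convex_closedBall (0 : ℂ) (1 / 2)).norm_image_sub_le_of_norm_deriv_le
        (f := f) (C := A) (fun x hx => hf.differentiableAt (isOpen_ball.mem_nhds (hs hx)))
        (fun x hx => by
          rw [hd x (hs hx)]
          exact hA' _ (by rwa [add_sub_cancel_left, ← mem_closedBall_zero_iff]))
        (mem_closedBall_self (by norm_num)) (mem_closedBall_zero_iff.2 hz)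
      rw [hf0 0 rfl, sub_zero, sub_zero] at h1
      nlinarith)
  have hz : w - c ∈ ball (0 : ℂ) (9 / 8) := mem_ball_zero_iff.2 (by linarith)
  constructor
  · have h1 := hd _ hz
    rw [add_sub_cancel] at h1
    have hs : closedBall (w - c) (1 / 64) ⊆ ball 0 (9 / 8) := fun x hx => by
      have := norm_le_norm_add_const_of_dist_le (mem_closedBall.1 hx)
      exact mem_ball_zero_iff.2 (by linarith)
    have h2 := norm_deriv_le_of_forall_mem_sphere_norm_le (c := w - c) (R := 1 / 64)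
      (C := η * Mx + C) (by norm_num) (hf.diffContOnCl_ball hs) fun x hx => hb x (by
        have := norm_le_norm_add_const_of_dist_le (mem_sphere.1 hx).le
        linarith)
    rw [← h1]
    linarith
  · have h1 := hnorm _ hz
    rw [add_sub_cancel] at h1
    have h2 := hb (w - c) (by linarith)
    have h3 := (abs_le.1 ((abs_re_le_norm _).trans h2)).1
    rw [h1, ← mul_assoc, ← Real.exp_add]
    exact le_mul_of_one_le_left (norm_nonneg _) (Real.one_le_exp (by linarith))

theorem norm_LSeries_le {f g : ℕ → ℂ} (h : ∀ n, ‖f n‖ ≤ ‖g n‖) {x s : ℂ}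
    (hg : LSeriesSummable g x) (hs : x.re ≤ s.re) :
    ‖LSeries f s‖ ≤ ∑' n, ‖LSeries.term g x n‖ :=
  tsum_of_norm_bounded hg.norm.hasSum fun n =>
    (LSeries.norm_term_le_of_re_le_re f hs n).trans (LSeries.norm_term_le x (h n))

/-- `ζ(3/2)` -/
def K₀ : ℝ := ∑' n, ‖LSeries.term 1 (3 / 2) n‖

/-- `-ζ'/ζ(3/2)` -/
def K₁ : ℝ := ∑' n, ‖LSeries.term (fun n => (ArithmeticFunction.vonMangoldt n : ℝ)) (3 / 2) n‖

theorem K₀_nonneg : 0 ≤ K₀ := tsum_nonneg fun _ => norm_nonneg _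

theorem K₁_nonneg : 0 ≤ K₁ := tsum_nonneg fun _ => norm_nonneg _

theorem le_K₀ {f : ℕ → ℂ} (h : ∀ n, ‖f n‖ ≤ 1) {s : ℂ} (hs : 3 / 2 ≤ s.re) :
    ‖LSeries f s‖ ≤ K₀ :=
  norm_LSeries_le (fun n => by simpa using h n) (LSeriesSummable_one_iff.2 (by norm_num))
    (by simpa using hs)

variable {r : ℕ} [NeZero r] (χ : DirichletCharacter ℂ r)

omit [NeZero r] in
theorem le_K₁ {s : ℂ} (hs : 3 / 2 ≤ s.re) :
    ‖LSeries (fun n : ℕ => χ n * (ArithmeticFunction.vonMangoldt n : ℝ)) s‖ ≤ K₁ :=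
  norm_LSeries_le (fun n => by
      rw [norm_mul]
      exact mul_le_of_le_one_left (norm_nonneg _) (χ.norm_le_one _))
    (ArithmeticFunction.LSeriesSummable_vonMangoldt (by norm_num)) (by simpa using hs)

/-- the factor removing the pole -/
def u (s : ℂ) : ℂ := if χ = 1 then (s - 1) / s else 1

/-- the `L`-function without its pole -/
def Lt (s : ℂ) : ℂ :=
  if χ = 1 then DirichletCharacter.LFunctionTrivChar₁ r s / s else χ.LFunction s

theorem Lt_eq {s : ℂ} (hs : s ≠ 1) : Lt χ s = u χ s * χ.LFunction s := by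
  unfold Lt u
  split_ifs with h
  · rw [DirichletCharacter.LFunctionTrivChar₁, Function.update_of_ne hs, h]
    ring
  · rw [one_mul]

theorem ne_zero_of_re {s : ℂ} {a : ℝ} (ha : 0 ≤ a) (hs : a < s.re) : s ≠ 0 := by
  rintro rfl
  rw [zero_re] at hs
  linarith

theorem ne_one_of_re {s : ℂ} (hs : 1 < s.re) : s ≠ 1 := by
  rintro rfl
  exact lt_irrefl _ hs

theorem differentiableAt_Lt {s : ℂ} (hs : s ≠ 0) : DifferentiableAt ℂ (Lt χ) s := by
  unfold Lt
  split_ifs with h
  · exact (DirichletCharacter.differentiable_LFunctionTrivChar₁ r s).div differentiableAt_id hs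
  · exact DirichletCharacter.differentiable_LFunction h s

theorem differentiableAt_u {s : ℂ} (hs : s ≠ 0) : DifferentiableAt ℂ (u χ) s := by
  unfold u
  split_ifs with h
  · exact (differentiableAt_id.sub_const 1).div differentiableAt_id hs
  · exact differentiableAt_const _

theorem Lt_ne_zero (hZ : ZFStmt) {s : ℂ} (hs : 7 / 8 < s.re) : Lt χ s ≠ 0 := by
  have h0 : s ≠ 0 := ne_zero_of_re (by norm_num) hs
  unfold Lt
  split_ifs with h
  · refine div_ne_zero ?_ h0
    rcases eq_or_ne s 1 with rfl | h1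
    · exact DirichletCharacter.LFunctionTrivChar₁_apply_one_ne_zero r
    · rw [DirichletCharacter.LFunctionTrivChar₁, Function.update_of_ne h1]
      exact mul_ne_zero (sub_ne_zero.2 h1) (hZ r 1 s (.inr h1) hs)
  · exact hZ r χ s (.inl h) hs

theorem norm_Lt_le {C : ℝ} (hC : 0 < C) {s : ℂ} (hs : 1 / 2 ≤ s.re)
    (h1 : ‖(s - 1) * χ.LFunction s‖ ≤ C * r * (‖s‖ + 1) ^ 2)
    (h2 : χ ≠ 1 → ‖χ.LFunction s‖ ≤ C * r * (‖s‖ + 1)) :
    ‖Lt χ s‖ ≤ (2 * C + 1) * r * (‖s‖ + 1) ^ 2 := by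
  have hr : (1 : ℝ) ≤ r := by exact_mod_cast Nat.one_le_iff_ne_zero.2 (NeZero.ne r)
  have hn : 1 / 2 ≤ ‖s‖ := hs.trans (re_le_norm s)
  have h3 : 1 ≤ (r : ℝ) * (‖s‖ + 1) ^ 2 :=
    one_le_mul_of_one_le_of_one_le hr (one_le_pow₀ (by linarith))
  unfold Lt
  split_ifs with h
  · rcases eq_or_ne s 1 with rfl | h4
    · rw [DirichletCharacter.LFunctionTrivChar₁, Function.update_self, div_one, norm_prod]
      refine (Finset.prod_le_one (fun _ _ => norm_nonneg _) fun p hp => ?_).trans (by nlinarith)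
      have h5 : (1 : ℝ) ≤ p := by exact_mod_cast (Nat.prime_of_mem_primeFactors hp).one_le
      have h6 : (p : ℝ)⁻¹ ≤ 1 := inv_le_one_of_one_le₀ h5
      have h7 : (0 : ℝ) ≤ (p : ℝ)⁻¹ := by positivity
      have h8 : (1 : ℂ) - (p : ℂ)⁻¹ = ((1 - (p : ℝ)⁻¹ : ℝ) : ℂ) := by push_cast; rfl
      rw [h8, norm_real, Real.norm_eq_abs, abs_le]
      constructor <;> linarith
    · rw [DirichletCharacter.LFunctionTrivChar₁, Function.update_of_ne h4, norm_div,
        div_le_iff₀ (by linarith)]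
      subst h
      refine h1.trans ?_
      have h5 : 0 ≤ C * r * (‖s‖ + 1) ^ 2 := by positivity
      nlinarith
  · refine (h2 h).trans ?_
    have h5 : ‖s‖ + 1 ≤ (‖s‖ + 1) ^ 2 := by nlinarith
    calc C * r * (‖s‖ + 1) ≤ C * r * (‖s‖ + 1) ^ 2 := by gcongr
      _ ≤ (2 * C + 1) * r * (‖s‖ + 1) ^ 2 := by gcongr; linarith

theorem logDeriv_Lt {s : ℂ} (hs : 1 < s.re) :
    -(deriv (Lt χ) s / Lt χ s) - (if χ = 1 then 1 / s else 0) =
      LSeries (fun n : ℕ => χ n * (ArithmeticFunction.vonMangoldt n : ℝ)) s -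
        (if χ = 1 then 1 / (s - 1) else 0) := by
  have h0 : s ≠ 0 := ne_zero_of_re zero_le_one hs
  have h1 : s ≠ 1 := ne_one_of_re hs
  have h2 : LSeries (fun n : ℕ => χ n * (ArithmeticFunction.vonMangoldt n : ℝ)) s =
      -deriv χ.LFunction s / χ.LFunction s := by
    rw [χ.deriv_LFunction_eq_deriv_LSeries hs, χ.LFunction_eq_LSeries hs]
    exact χ.LSeries_twist_vonMangoldt_eq hs
  have h3 : χ.LFunction s ≠ 0 := by
    rw [χ.LFunction_eq_LSeries hs]
    exact χ.LSeries_ne_zero_of_one_lt_re hs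
  have h4 : deriv (Lt χ) s = deriv (u χ) s * χ.LFunction s + u χ s * deriv χ.LFunction s := by
    rw [← deriv_fun_mul (differentiableAt_u χ h0) (χ.differentiableAt_LFunction s (.inl h1))]
    exact EventuallyEq.deriv_eq (eventually_of_mem (isOpen_ne.mem_nhds h1) fun w hw => Lt_eq χ hw)
  rw [h2, h4, Lt_eq χ h1]
  unfold u
  split_ifs with h
  · have h5 : HasDerivAt (fun s : ℂ => (s - 1) / s) ((1 * s - (s - 1) * 1) / s ^ 2) s :=
      ((hasDerivAt_id s).sub_const 1).div (hasDerivAt_id s) h0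
    have h6 := sub_ne_zero.2 h1
    rw [h5.deriv]
    field_simp
    ring
  · simp [neg_div]

theorem logDeriv_le {s : ℂ} (hs : 3 / 2 ≤ s.re) : ‖deriv (Lt χ) s / Lt χ s‖ ≤ K₁ + 3 := by
  have h1 := logDeriv_Lt χ (s := s) (by linarith)
  have h2 := le_K₁ χ hs
  have h3 : ‖(if χ = 1 then 1 / s else 0 : ℂ)‖ ≤ 1 := by
    split_ifs
    · rw [norm_div, norm_one, div_le_one (by linarith [re_le_norm s])]
      linarith [re_le_norm s]
    · simp
  have h4 : ‖(if χ = 1 then 1 / (s - 1) else 0 : ℂ)‖ ≤ 2 := by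
    have h5 := re_le_norm (s - 1)
    rw [sub_re, one_re] at h5
    split_ifs
    · rw [norm_div, norm_one, div_le_iff₀ (by linarith)]
      linarith
    · simp
  rw [← norm_neg, sub_eq_iff_eq_add.1 h1]
  linarith [norm_add_le (LSeries (fun n : ℕ => χ n * (ArithmeticFunction.vonMangoldt n : ℝ)) s -
    (if χ = 1 then 1 / (s - 1) else 0)) (if χ = 1 then 1 / s else 0),
    norm_sub_le (LSeries (fun n : ℕ => χ n * (ArithmeticFunction.vonMangoldt n : ℝ)) s)
      (if χ = 1 then 1 / (s - 1) else 0)]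

theorem one_le_Lt {s : ℂ} (hs : 2 ≤ s.re) : 1 ≤ 2 * K₀ * ‖Lt χ s‖ := by
  have h1 : 1 < s.re := by linarith
  have h2 := congrArg norm (DirichletCharacter.LSeries.mul_mu_eq_one χ h1)
  rw [norm_mul, norm_one, ← χ.LFunction_eq_LSeries h1] at h2
  have h3 := le_K₀ (f := (fun n : ℕ => χ n) * fun n => (ArithmeticFunction.moebius n : ℂ))
    (fun n => by
      rw [Pi.mul_apply, norm_mul]
      refine mul_le_one₀ (χ.norm_le_one _) (norm_nonneg _) ?_
      rw [norm_intCast]
      exact_mod_cast ArithmeticFunction.abs_moebius_le_one) (s := s) (by linarith)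
  have h4 : 1 ≤ 2 * ‖u χ s‖ := by
    unfold u
    split_ifs
    · have h5 := re_le_norm (s - 1)
      have h6 := norm_add_le (s - 1) 1
      rw [sub_re, one_re] at h5
      rw [sub_add_cancel, norm_one] at h6
      rw [norm_div, ← mul_div_assoc, le_div_iff₀ (by linarith [re_le_norm s])]
      linarith
    · simp
  rw [Lt_eq χ (ne_one_of_re h1), norm_mul]
  have h7 := mul_le_mul_of_nonneg_left h3 (norm_nonneg (χ.LFunction s))
  rw [h2] at h7
  nlinarith [one_le_mul_of_one_le_of_one_le h4 h7]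

theorem norm_u_le {s : ℂ} (hs : 1 / 2 ≤ s.re) : ‖u χ s‖ ≤ 3 := by
  unfold u
  split_ifs
  · have h1 := re_le_norm s
    have h2 := norm_sub_le s 1
    rw [norm_one] at h2
    rw [norm_div, div_le_iff₀ (by linarith)]
    linarith
  · simp

omit [NeZero r] in
/-- `∑ χ λ n^{-s} · L(s, χ) = L(2 s, χ²)` -/
theorem euler {s : ℂ} (hs : 1 < s.re) :
    LSeries (fun n : ℕ => χ n * (lam n : ℝ)) s * LSeries (fun n : ℕ => χ n) s =
      LSeries (fun n : ℕ => (χ ^ 2) n) (2 * s) := by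
  have h0 : s ≠ 0 := ne_zero_of_re zero_le_one hs
  let f : ℕ →*₀ ℂ :=
    { toFun := fun n => (lam n : ℝ) * dirichletSummandHom χ h0 n
      map_zero' := by simp
      map_one' := by simp [lam, ArithmeticFunction.liouville_apply_one]
      map_mul' := fun m n => by
        rw [map_mul, lam, lam, lam, ArithmeticFunction.liouville_apply_mul]
        push_cast
        ring }
  have hf : ∀ n, f n = (lam n : ℝ) * (χ n * (n : ℂ) ^ (-s)) := fun _ => rfl
  have hl : ∀ n, ‖((lam n : ℝ) : ℂ)‖ ≤ 1 := fun n => by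
    rcases eq_or_ne n 0 with rfl | hn
    · simp [lam]
    · simp [lam, ArithmeticFunction.liouville_apply hn]
  have h1 := EulerProduct.eulerProduct_completely_multiplicative_hasProd (f := f)
    ((summable_dirichletSummand χ hs).of_nonneg_of_le (fun _ => norm_nonneg _) fun n => by
      change ‖((lam n : ℝ) : ℂ) * dirichletSummandHom χ h0 n‖ ≤ _
      rw [norm_mul]
      exact mul_le_of_le_one_left (norm_nonneg _) (hl n))
  have h2 : ∑' n, f n = LSeries (fun n : ℕ => χ n * (lam n : ℝ)) s := by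
    refine tsum_congr fun n => ?_
    rw [hf, LSeries.term_of_ne_zero' h0, cpow_neg, div_eq_mul_inv]
    ring
  rw [h2] at h1
  have h3 := (χ ^ 2).LSeries_eulerProduct_hasProd (s := 2 * s) (by simp; linarith)
  refine (h1.mul (χ.LSeries_eulerProduct_hasProd hs)).unique (h3.congr_fun fun p => ?_)
  have h4 : lam p = -1 := by
    rw [lam, ArithmeticFunction.liouville_apply p.2.ne_zero,
      ArithmeticFunction.cardFactors_apply_prime p.2]
    simp
  have h5 : (p : ℂ) ^ (-(2 * s)) = ((p : ℂ) ^ (-s)) ^ 2 := by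
    rw [← cpow_nat_mul]
    congr 1
    push_cast
    ring
  rw [hf, h4, χ.pow_apply' two_ne_zero, h5, ← mul_inv]
  congr 1
  push_cast
  ring

end

end LogL

open LogL in
theorem logL : ZFStmt → GrowthStmt → LogLStmt := by
  rintro hZ ⟨C₀, hC₀, hG⟩
  have hK₀ := K₀_nonneg
  have hK₁ := K₁_nonneg
  obtain ⟨C₁, hC₁, h⟩ := disc (η := 1 / 200) (A := K₁ + 3) (by norm_num) (by positivity)
  obtain ⟨B, hB⟩ : ∃ B : ℝ, B = 18 * (2 * C₀ + 1) * K₀ := ⟨_, rfl⟩
  have hB0 : 0 ≤ B := by rw [hB]; positivity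
  obtain ⟨D, hD⟩ : ∃ D : ℝ, D = B / 200 + C₁ := ⟨_, rfl⟩
  have hD0 : 0 ≤ D := by rw [hD]; positivity
  have hE : 0 ≤ 6 * K₀ ^ 2 * Real.exp D := by positivity
  refine ⟨128 * D + 5 + 6 * K₀ ^ 2 * Real.exp D, by positivity, fun r _ χ => ?_⟩
  have hr : (1 : ℝ) ≤ r := by exact_mod_cast Nat.one_le_iff_ne_zero.2 (NeZero.ne r)
  have hQ : ∀ s : ℂ, 2 ≤ r * (|s.im| + 2) := fun s => by nlinarith [abs_nonneg s.im]
  have key : ∀ s : ℂ, 15 / 16 ≤ s.re → s.re ≤ 2 →
      ‖deriv (Lt χ) s / Lt χ s‖ ≤ 64 * (D + Real.log (r * (|s.im| + 2)) / 100) ∧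
        1 ≤ 2 * K₀ * (Real.exp D * (r * (|s.im| + 2)) ^ (1 / 100 : ℝ) * ‖Lt χ s‖) := by
    intro s h1 h2
    have hQ2 := hQ s
    have hlog : 0 < Real.log (r * (|s.im| + 2)) := Real.log_pos (by linarith)
    obtain ⟨c, hc, hc'⟩ : ∃ c : ℂ, c.re = 2 ∧ c.im = s.im := ⟨⟨2, s.im⟩, rfl, rfl⟩
    have hre : ∀ w : ℂ, 2 - ‖w - c‖ ≤ w.re := fun w => by
      have h3 := (abs_le.1 (abs_re_le_norm (w - c))).1
      rw [sub_re, hc] at h3
      linarith
    have hball : ∀ w ∈ ball c (9 / 8), 7 / 8 < w.re := fun w hw => by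
      have h3 := hre w
      rw [mem_ball, dist_eq_norm] at hw
      linarith
    have hlow := one_le_Lt χ hc.ge
    have h3 := h (Lt χ) c (B + 2 * Real.log (r * (|s.im| + 2))) (by positivity)
      (fun w hw => (differentiableAt_Lt χ
        (ne_zero_of_re (by norm_num) (hball w hw))).differentiableWithinAt)
      (fun w hw => Lt_ne_zero χ hZ (hball w hw))
      (fun w hw => logDeriv_le χ (by linarith [hre w]))
      (fun w hw => by
        have h4 : 1 / 2 ≤ w.re := by linarith [hball w hw]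
        have h5 := norm_Lt_le χ hC₀ h4 (hG r χ w h4).1 (hG r χ w h4).2
        have h6 : ‖w‖ + 1 ≤ 3 * (|s.im| + 2) := by
          have h7 := norm_le_norm_add_const_of_dist_le (mem_ball.1 hw).le
          have h8 := norm_le_abs_re_add_abs_im c
          rw [hc, hc', abs_two] at h8
          linarith [abs_nonneg s.im]
        have h9 : Real.exp (2 * Real.log (r * (|s.im| + 2))) = (r * (|s.im| + 2)) ^ 2 := by
          rw [two_mul, Real.exp_add, Real.exp_log (by linarith), sq]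
        rw [Real.exp_add, h9]
        calc ‖Lt χ w‖ ≤ (2 * C₀ + 1) * r * (‖w‖ + 1) ^ 2 := h5
          _ ≤ (2 * C₀ + 1) * r ^ 2 * (3 * (|s.im| + 2)) ^ 2 * (2 * K₀ * ‖Lt χ c‖) := by
              refine le_trans ?_ (le_mul_of_one_le_right (by positivity) hlow)
              gcongr
              nlinarith
          _ = B * (r * (|s.im| + 2)) ^ 2 * ‖Lt χ c‖ := by rw [hB]; ring
          _ ≤ Real.exp B * (r * (|s.im| + 2)) ^ 2 * ‖Lt χ c‖ := by
              gcongr
              linarith [Real.add_one_le_exp B])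
      s (by
        have h4 := norm_le_abs_re_add_abs_im (s - c)
        rw [sub_re, sub_im, hc, hc', sub_self, abs_zero, abs_of_nonpos (by linarith)] at h4
        linarith)
    have e : 1 / 200 * (B + 2 * Real.log (r * (|s.im| + 2))) + C₁ =
        D + Real.log (r * (|s.im| + 2)) / 100 := by rw [hD]; ring
    rw [e] at h3
    refine ⟨h3.1, hlow.trans (mul_le_mul_of_nonneg_left (h3.2.trans_eq ?_) (by positivity))⟩
    rw [Real.exp_add, Real.rpow_def_of_pos (by linarith), mul_one_div]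
  have hU : IsOpen {s : ℂ | 9 / 10 < s.re} := isOpen_lt continuous_const continuous_re
  have hLt : DifferentiableOn ℂ (Lt χ) {s : ℂ | 9 / 10 < s.re} := fun s hs =>
    (differentiableAt_Lt χ (ne_zero_of_re (by norm_num) hs)).differentiableWithinAt
  have hLt0 : ∀ s ∈ {s : ℂ | 9 / 10 < s.re}, Lt χ s ≠ 0 := fun s hs =>
    Lt_ne_zero χ hZ (lt_trans (by norm_num) hs)
  refine ⟨⟨fun s => -(deriv (Lt χ) s / Lt χ s) - (if χ = 1 then 1 / s else 0), ?_,
    fun s hs => logDeriv_Lt χ hs, fun s h1 h2 => ?_⟩,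
    ⟨fun s => (χ ^ 2).LFunction (2 * s) * u χ s / Lt χ s, ?_, fun s hs => ?_, fun s h1 h2 => ?_⟩⟩
  · refine ((hLt.deriv hU).div hLt hLt0).neg.sub ?_
    split_ifs
    · exact (differentiableOn_const 1).div differentiableOn_id
        fun s hs => ne_zero_of_re (by norm_num) hs
    · exact differentiableOn_const 0
  · have h3 := (key s h1 h2).1
    have h4 : ‖(if χ = 1 then 1 / s else 0 : ℂ)‖ ≤ 2 := by
      split_ifs
      · rw [norm_div, norm_one, div_le_iff₀ (by linarith [re_le_norm s])]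
        linarith [re_le_norm s]
      · simp
    have h5 : 1 / 2 ≤ Real.log (r * (|s.im| + 2)) :=
      le_trans (by linarith [Real.log_two_gt_d9]) (Real.log_le_log two_pos (hQ s))
    refine (norm_sub_le _ _).trans ?_
    rw [norm_neg]
    nlinarith
  · refine DifferentiableOn.div (fun s hs => DifferentiableAt.differentiableWithinAt ?_) hLt hLt0
    have h3 : 9 / 10 < s.re := hs
    refine DifferentiableAt.mul ?_ (differentiableAt_u χ (ne_zero_of_re (by norm_num) h3))
    exact ((χ ^ 2).differentiableAt_LFunction (2 * s)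
      (.inl (ne_one_of_re (by simp; linarith)))).comp s (by fun_prop)
  · have h3 := hLt0 s (lt_trans (by norm_num) hs)
    beta_reduce
    rw [div_eq_iff h3, Lt_eq χ (ne_one_of_re hs), (χ ^ 2).LFunction_eq_LSeries (by simp; linarith),
      ← euler χ hs, χ.LFunction_eq_LSeries hs]
    ring
  · have h3 := (key s h1 h2).2
    have h4 : ‖(χ ^ 2).LFunction (2 * s)‖ ≤ K₀ := by
      rw [(χ ^ 2).LFunction_eq_LSeries (by simp; linarith)]
      exact le_K₀ (fun n => (χ ^ 2).norm_le_one _) (by simp; linarith)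
    have h5 := norm_u_le χ (s := s) (by linarith)
    have h6 : 0 < ‖Lt χ s‖ := norm_pos_iff.2 (hLt0 s (lt_of_lt_of_le (by norm_num) h1))
    have h7 : 0 ≤ (r * (|s.im| + 2) : ℝ) ^ (1 / 100 : ℝ) := by positivity
    beta_reduce
    rw [norm_div, norm_mul, div_le_iff₀ h6]
    calc ‖(χ ^ 2).LFunction (2 * s)‖ * ‖u χ s‖ ≤ K₀ * 3 := by gcongr
      _ ≤ K₀ * 3 * (2 * K₀ * (Real.exp D * (r * (|s.im| + 2)) ^ (1 / 100 : ℝ) * ‖Lt χ s‖)) :=
          le_mul_of_one_le_right (by positivity) h3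
      _ = 6 * K₀ ^ 2 * Real.exp D * (r * (|s.im| + 2)) ^ (1 / 100 : ℝ) * ‖Lt χ s‖ := by ring
      _ ≤ _ := by
          gcongr
          linarith

end Crest.Agent.R8
end

-- ▼ part PVc/R8/Growth
section

/-! Row 8: polynomial growth of Dirichlet L-functions on `Re s ≥ 1/2`, from the integral
representation with the partial sums of the character. -/

set_option autoImplicit false

namespace Crest.Agent.R8

open Finset Filter MeasureTheory Topology Asymptotics
open Crest.Agent.R5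

namespace Growth

theorem sum_range_zmod (r : ℕ) [NeZero r] (Ψ : ZMod r → ℂ) :
    ∑ k ∈ range r, Ψ (k : ZMod r) = ∑ a, Ψ a := by
  refine Finset.sum_bij' (fun k _ => (k : ZMod r)) (fun a _ => a.val) (fun _ _ => mem_univ _)
    (fun a _ => mem_range.2 (ZMod.val_lt a)) (fun k hk => ?_) (fun a _ => ?_) (fun _ _ => rfl)
  · exact ZMod.val_cast_of_lt (mem_range.1 hk)
  · exact ZMod.natCast_zmod_val a

theorem sum_shift (r : ℕ) [NeZero r] (Ψ : ZMod r → ℂ) (m : ℕ) :
    ∑ k ∈ range r, Ψ ((m + k : ℕ) : ZMod r) = ∑ a, Ψ a := by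
  rw [← Equiv.sum_comp (Equiv.addLeft (m : ZMod r)) Ψ, ← sum_range_zmod r]
  simp

theorem partial_le (r : ℕ) [NeZero r] (Ψ : ZMod r → ℂ) (h0 : ∑ a, Ψ a = 0)
    (h2 : ∀ a, ‖Ψ a‖ ≤ 2) (n : ℕ) : ‖∑ k ∈ range n, Ψ ((1 + k : ℕ) : ZMod r)‖ ≤ 2 * r := by
  induction n using Nat.strong_induction_on with
  | _ n ih =>
    by_cases hn : n < r
    · calc _ ≤ ∑ k ∈ range n, ‖Ψ ((1 + k : ℕ) : ZMod r)‖ := norm_sum_le _ _
        _ ≤ ∑ _k ∈ range n, (2 : ℝ) := sum_le_sum fun k _ => h2 _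
        _ = 2 * n := by simp [mul_comm]
        _ ≤ 2 * r := by gcongr
    · obtain ⟨m, rfl⟩ := Nat.exists_eq_add_of_le' (not_lt.1 hn)
      rw [sum_range_add]
      have h1 : ∑ k ∈ range r, Ψ ((1 + (m + k) : ℕ) : ZMod r) = 0 := by
        rw [← h0, ← sum_shift r Ψ (1 + m)]
        simp [add_assoc]
      rw [h1, add_zero]
      exact ih m (by have := NeZero.pos r; omega)

variable {r : ℕ} [NeZero r]

/-- mean value of the character -/
noncomputable def rho (χ : DirichletCharacter ℂ r) : ℂ := (∑ a, χ a) / r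

/-- error term of the partial sums -/
noncomputable def err (χ : DirichletCharacter ℂ r) (t : ℝ) : ℂ :=
  (∑ k ∈ Icc 1 ⌊t⌋₊, χ k) - rho χ * t

theorem norm_rho_le (χ : DirichletCharacter ℂ r) : ‖rho χ‖ ≤ 1 := by
  have hr : (0 : ℝ) < r := by exact_mod_cast NeZero.pos r
  rw [rho, norm_div, Complex.norm_natCast, div_le_one hr]
  calc _ ≤ ∑ a, ‖χ a‖ := norm_sum_le _ _
    _ ≤ ∑ _a : ZMod r, (1 : ℝ) := sum_le_sum fun a _ => χ.norm_le_one a
    _ = r := by simp

theorem norm_err_le (χ : DirichletCharacter ℂ r) {t : ℝ} (ht : 0 ≤ t) : ‖err χ t‖ ≤ 3 * r := by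
  have hr : (r : ℂ) ≠ 0 := by exact_mod_cast NeZero.ne r
  have hr1 : (1 : ℝ) ≤ r := by exact_mod_cast NeZero.pos r
  have h0 : ∑ a, (χ a - rho χ) = 0 := by
    rw [sum_sub_distrib]
    simp [rho, mul_div_cancel₀ _ hr]
  have h2 : ∀ a, ‖χ a - rho χ‖ ≤ 2 := fun a => by
    have := norm_sub_le (χ a) (rho χ)
    linarith [χ.norm_le_one a, norm_rho_le χ]
  have h3 := partial_le r (fun a => χ a - rho χ) h0 h2 ⌊t⌋₊
  have h4 : err χ t = (∑ k ∈ range ⌊t⌋₊, (χ ((1 + k : ℕ) : ZMod r) - rho χ)) -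
      rho χ * ((t - ⌊t⌋₊ : ℝ) : ℂ) := by
    rw [err, sum_sub_distrib, ← Finset.Ico_add_one_right_eq_Icc, sum_Ico_eq_sum_range]
    simp
    ring
  have h5 : ‖rho χ * ((t - ⌊t⌋₊ : ℝ) : ℂ)‖ ≤ 1 := by
    rw [norm_mul, Complex.norm_real, Real.norm_eq_abs]
    have h6 : |t - ⌊t⌋₊| ≤ 1 := by
      rw [abs_le]
      constructor
      · linarith [Nat.floor_le ht]
      · linarith [Nat.lt_floor_add_one t]
    exact mul_le_one₀ (norm_rho_le χ) (abs_nonneg _) h6
  rw [h4]
  refine (norm_sub_le _ _).trans ?_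
  linarith

theorem measurable_err (χ : DirichletCharacter ℂ r) : Measurable (err χ) := by
  refine Measurable.sub ?_ (by fun_prop)
  exact (measurable_from_nat (f := fun n : ℕ => ∑ k ∈ Icc 1 n, χ k)).comp Nat.measurable_floor

/-- the cut error term -/
noncomputable def err0 (χ : DirichletCharacter ℂ r) : ℝ → ℂ := (Set.Ioi (1 : ℝ)).indicator (err χ)

theorem norm_err0_le (χ : DirichletCharacter ℂ r) (t : ℝ) : ‖err0 χ t‖ ≤ 3 * r := by
  unfold err0
  by_cases ht : t ∈ Set.Ioi (1 : ℝ)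
  · rw [Set.indicator_of_mem ht]
    exact norm_err_le χ (zero_le_one.trans (le_of_lt ht))
  · rw [Set.indicator_of_notMem ht]
    simp

/-- the error integral -/
noncomputable def errI (χ : DirichletCharacter ℂ r) (s : ℂ) : ℂ := mellin (err0 χ) (-s)

theorem differentiableAt_errI (χ : DirichletCharacter ℂ r) {s : ℂ} (hs : 0 < s.re) :
    DifferentiableAt ℂ (errI χ) s := by
  have hm : Measurable (err0 χ) := (measurable_err χ).indicator measurableSet_Ioi
  have h1 : LocallyIntegrable (err0 χ) volume := by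
    refine (locallyIntegrable_const (E := ℝ) (3 * r)).mono hm.aestronglyMeasurable
      (Eventually.of_forall fun t => ?_)
    exact (norm_err0_le χ t).trans (Real.le_norm_self _)
  have h2 : DifferentiableAt ℂ (mellin (err0 χ)) (-s) := by
    refine mellin_differentiableAt_of_isBigO_rpow (a := 0) (b := (-s).re - 1)
      (h1.locallyIntegrableOn _) ?_ (by simpa using hs) ?_ (by linarith)
    · refine IsBigO.of_bound (3 * r) (Eventually.of_forall fun t => ?_)
      simpa using norm_err0_le χ t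
    · have h3 : err0 χ =ᶠ[𝓝[>] 0] fun _ => 0 := by
        have : Set.Iio (1 : ℝ) ∈ 𝓝[>] (0 : ℝ) := mem_nhdsWithin_of_mem_nhds (Iio_mem_nhds one_pos)
        filter_upwards [this] with t ht
        exact Set.indicator_of_notMem (by simpa using le_of_lt ht) _
      exact (isBigO_zero _ _).congr' h3.symm EventuallyEq.rfl
  exact h2.comp s differentiableAt_id.neg

theorem errI_eq (χ : DirichletCharacter ℂ r) (s : ℂ) :
    errI χ s = ∫ t in Set.Ioi (1 : ℝ), err χ t * (t : ℂ) ^ (-(s + 1)) := by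
  have h1 : (fun t : ℝ => (t : ℂ) ^ (-s - 1) • err0 χ t) =
      (Set.Ioi (1 : ℝ)).indicator fun t => err χ t * (t : ℂ) ^ (-(s + 1)) := by
    funext t
    unfold err0
    by_cases ht : t ∈ Set.Ioi (1 : ℝ)
    · rw [Set.indicator_of_mem ht, Set.indicator_of_mem ht, smul_eq_mul, mul_comm]
      congr 2
      ring
    · rw [Set.indicator_of_notMem ht, Set.indicator_of_notMem ht, smul_zero]
  rw [errI, mellin, h1, setIntegral_indicator measurableSet_Ioi,
    Set.inter_eq_right.2 (Set.Ioi_subset_Ioi zero_le_one)]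

theorem norm_integrand_le (χ : DirichletCharacter ℂ r) (s : ℂ) {t : ℝ} (ht : t ∈ Set.Ioi (1 : ℝ)) :
    ‖err χ t * (t : ℂ) ^ (-(s + 1))‖ ≤ 3 * r * t ^ (-(s.re + 1)) := by
  have ht0 : 0 < t := one_pos.trans ht
  rw [norm_mul, Complex.norm_cpow_eq_rpow_re_of_pos ht0]
  have : (-(s + 1)).re = -(s.re + 1) := by simp
  rw [this]
  gcongr
  exact norm_err_le χ ht0.le

theorem norm_errI_le (χ : DirichletCharacter ℂ r) {s : ℂ} (hs : 1 / 2 ≤ s.re) :
    ‖errI χ s‖ ≤ 6 * r := by
  have ha : -(s.re + 1) < -1 := by linarith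
  have hs0 : 0 < s.re := by linarith
  rw [errI_eq]
  have h1 := norm_integral_le_of_norm_le (μ := volume.restrict (Set.Ioi (1 : ℝ)))
    (f := fun t : ℝ => err χ t * (t : ℂ) ^ (-(s + 1)))
    ((integrableOn_Ioi_rpow_of_lt ha one_pos).const_mul (3 * (r : ℝ)))
    ((ae_restrict_iff' measurableSet_Ioi).2 (Eventually.of_forall fun t ht =>
      norm_integrand_le χ s ht))
  refine h1.trans ?_
  rw [integral_const_mul, integral_Ioi_rpow_of_lt ha one_pos]
  have h2 : -(1 : ℝ) ^ (-(s.re + 1) + 1) / (-(s.re + 1) + 1) = 1 / s.re := by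
    rw [Real.one_rpow, show -(s.re + 1) + 1 = -s.re by ring, neg_div_neg_eq]
  rw [h2]
  have h3 : 1 / s.re ≤ 2 := by
    rw [div_le_iff₀ hs0]
    linarith
  have h4 : (0 : ℝ) ≤ r := Nat.cast_nonneg r
  nlinarith

theorem integrableOn_err (χ : DirichletCharacter ℂ r) {s : ℂ} (hs : 0 < s.re) :
    IntegrableOn (fun t : ℝ => err χ t * (t : ℂ) ^ (-(s + 1))) (Set.Ioi 1) := by
  have ha : -(s.re + 1) < -1 := by linarith
  refine Integrable.mono' ((integrableOn_Ioi_rpow_of_lt ha one_pos).const_mul (3 * (r : ℝ))) ?_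
    ((ae_restrict_iff' measurableSet_Ioi).2 (Eventually.of_forall fun t ht =>
      norm_integrand_le χ s ht))
  refine Measurable.aestronglyMeasurable ((measurable_err χ).mul ?_)
  exact Complex.measurable_ofReal.pow_const _

theorem LFunction_eq (χ : DirichletCharacter ℂ r) {s : ℂ} (hs : 1 < s.re) :
    (s - 1) * χ.LFunction s = rho χ * s + s * (s - 1) * errI χ s := by
  have hs1 : s - 1 ≠ 0 := by
    intro h
    have := congrArg Complex.re h
    simp at this
    linarith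
  have hO : (fun n : ℕ => ∑ k ∈ Icc 1 n, ‖χ (k : ZMod r)‖) =O[atTop] fun n => (n : ℝ) ^ (1 : ℝ) := by
    refine IsBigO.of_bound 1 (Eventually.of_forall fun n => ?_)
    rw [Real.norm_of_nonneg (sum_nonneg fun _ _ => norm_nonneg _), Real.rpow_one, one_mul,
      Real.norm_natCast]
    calc _ ≤ ∑ _k ∈ Icc 1 n, (1 : ℝ) := sum_le_sum fun k _ => χ.norm_le_one _
      _ = n := by simp
  have h1 := LSeries_eq_mul_integral' (fun n : ℕ => χ (n : ZMod r)) zero_le_one hs hO
  have ha : (-s).re < -1 := by simpa using hs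
  have h2 : ∫ t in Set.Ioi (1 : ℝ), (∑ k ∈ Icc 1 ⌊t⌋₊, χ (k : ZMod r)) * (t : ℂ) ^ (-(s + 1)) =
      ∫ t in Set.Ioi (1 : ℝ), (rho χ * (t : ℂ) ^ (-s) + err χ t * (t : ℂ) ^ (-(s + 1))) := by
    refine setIntegral_congr_fun measurableSet_Ioi fun t ht => ?_
    have ht0 : (t : ℂ) ≠ 0 := by
      have : (0 : ℝ) < t := one_pos.trans ht
      exact_mod_cast this.ne'
    have h3 : (t : ℂ) ^ (-s) = t * (t : ℂ) ^ (-(s + 1)) := by
      rw [show -s = 1 + -(s + 1) by ring, Complex.cpow_add _ _ ht0, Complex.cpow_one]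
    simp only [err, h3]
    ring
  rw [χ.LFunction_eq_LSeries hs, h1, h2, integral_add
    ((integrableOn_Ioi_cpow_of_lt ha one_pos).const_mul _) (integrableOn_err χ (by linarith)),
    integral_const_mul, integral_Ioi_cpow_of_lt ha one_pos, ← errI_eq]
  have hs2 : -s + 1 ≠ 0 := by
    intro h
    apply hs1
    linear_combination -h
  simp only [Complex.ofReal_one, Complex.one_cpow]
  field_simp
  ring

theorem ident {F G : ℂ → ℂ} (hF : ∀ s : ℂ, 0 < s.re → DifferentiableAt ℂ F s)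
    (hG : ∀ s : ℂ, 0 < s.re → DifferentiableAt ℂ G s) (h : ∀ s : ℂ, 1 < s.re → F s = G s)
    {s : ℂ} (hs : 0 < s.re) : F s = G s := by
  have ho : IsOpen {s : ℂ | 0 < s.re} := isOpen_lt continuous_const Complex.continuous_re
  have ho1 : IsOpen {s : ℂ | 1 < s.re} := isOpen_lt continuous_const Complex.continuous_re
  have hF' : AnalyticOnNhd ℂ F {s : ℂ | 0 < s.re} :=
    DifferentiableOn.analyticOnNhd (fun z hz => (hF z hz).differentiableWithinAt) ho
  have hG' : AnalyticOnNhd ℂ G {s : ℂ | 0 < s.re} :=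
    DifferentiableOn.analyticOnNhd (fun z hz => (hG z hz).differentiableWithinAt) ho
  refine hF'.eqOn_of_preconnected_of_eventuallyEq hG' (convex_halfSpace_re_gt 0).isPreconnected
    (z₀ := 2) (by simp) ?_ hs
  filter_upwards [ho1.mem_nhds (show (2 : ℂ) ∈ {s : ℂ | 1 < s.re} by simp)] with z hz
  exact h z hz

theorem eq_of_ne_one (χ : DirichletCharacter ℂ r) (hχ : χ ≠ 1) {s : ℂ} (hs : 0 < s.re) :
    χ.LFunction s = s * errI χ s := by
  refine ident (F := χ.LFunction) (G := fun s => s * errI χ s)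
    (fun z _ => DirichletCharacter.differentiable_LFunction hχ z)
    (fun z hz => differentiableAt_id.mul (differentiableAt_errI χ hz)) (fun z hz => ?_) hs
  have hz1 : z - 1 ≠ 0 := by
    intro h
    have := congrArg Complex.re h
    simp at this
    linarith
  have h1 := LFunction_eq χ hz
  have h2 : rho χ = 0 := by rw [rho, MulChar.sum_eq_zero_of_ne_one hχ, zero_div]
  rw [h2] at h1
  apply mul_left_cancel₀ hz1
  linear_combination h1

theorem eq_all (χ : DirichletCharacter ℂ r) {s : ℂ} (hs : 0 < s.re) (hs1 : s ≠ 1) :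
    (s - 1) * χ.LFunction s = rho χ * s + s * (s - 1) * errI χ s := by
  by_cases hχ : χ = 1
  · subst hχ
    have h1 := ident (F := DirichletCharacter.LFunctionTrivChar₁ r)
      (G := fun s => rho (1 : DirichletCharacter ℂ r) * s +
        s * (s - 1) * errI (1 : DirichletCharacter ℂ r) s)
      (fun z _ => DirichletCharacter.differentiable_LFunctionTrivChar₁ r z)
      (fun z hz => (differentiableAt_id.const_mul _).add
        ((differentiableAt_id.mul (differentiableAt_id.sub_const 1)).mul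
          (differentiableAt_errI _ hz))) (fun z hz => ?_) hs
    · rw [DirichletCharacter.LFunctionTrivChar₁, Function.update_of_ne hs1] at h1
      exact h1
    · have hz1 : z ≠ 1 := by
        rintro rfl
        simp at hz
      rw [DirichletCharacter.LFunctionTrivChar₁, Function.update_of_ne hz1]
      exact LFunction_eq 1 hz
  · have h2 : rho χ = 0 := by rw [rho, MulChar.sum_eq_zero_of_ne_one hχ, zero_div]
    rw [eq_of_ne_one χ hχ hs, h2]
    ring

end Growth

theorem growth : GrowthStmt := by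
  refine ⟨7, by norm_num, fun r _ χ s hs => ?_⟩
  have hs0 : 0 < s.re := by linarith
  have hr1 : (1 : ℝ) ≤ r := by exact_mod_cast NeZero.pos r
  have hI := Growth.norm_errI_le χ hs
  have hn := norm_nonneg s
  constructor
  · by_cases hs1 : s = 1
    · subst hs1
      simp only [sub_self, zero_mul, norm_zero]
      positivity
    · rw [Growth.eq_all χ hs0 hs1]
      have h1 : ‖Growth.rho χ * s‖ ≤ ‖s‖ := by
        rw [norm_mul]
        exact mul_le_of_le_one_left hn (Growth.norm_rho_le χ)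
      have h2 : ‖s * (s - 1) * Growth.errI χ s‖ ≤ ‖s‖ * (‖s‖ + 1) * (6 * r) := by
        rw [norm_mul, norm_mul]
        gcongr
        simpa using norm_sub_le s 1
      have h3 : ‖s‖ ≤ r * (‖s‖ + 1) ^ 2 := by nlinarith
      have h4 : ‖s‖ * (‖s‖ + 1) * (6 * r) ≤ (‖s‖ + 1) * (‖s‖ + 1) * (6 * r) := by
        gcongr
        linarith
      refine (norm_add_le _ _).trans ?_
      nlinarith
  · intro hχ
    rw [Growth.eq_of_ne_one χ hχ hs0, norm_mul]
    have h2 : ‖s‖ * ‖Growth.errI χ s‖ ≤ ‖s‖ * (6 * r) := by gcongr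
    nlinarith

end Crest.Agent.R8
end

-- ▼ part PVc/R26/PsiAux
section

/-! Row 26: auxiliary lemmas for the explicit prime number theorem (the pole term). -/

set_option autoImplicit false

namespace Crest.Agent.R26

namespace PsiAux

open Finset Filter MeasureTheory ArithmeticFunction Complex
open Crest.Agent.R5 (nit)
open Crest.Agent.R8 Crest.Agent.R8.Prime

theorem ne1 (t : ℝ) : (1 : ℂ) - t * I ≠ 0 := fun h => by
  have := congrArg re h; simp at this

theorem ne2 (t : ℝ) : (2 : ℂ) - t * I ≠ 0 := fun h => by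
  have := congrArg re h; simp at this

theorem one_le_norm1 (t : ℝ) : 1 ≤ ‖(1 : ℂ) - t * I‖ := by
  refine le_trans ?_ (abs_re_le_norm _)
  simp

/-- the contribution of the pole to the Riesz mean -/
noncomputable def P (t u : ℝ) : ℂ :=
  (u : ℂ) ^ (2 - t * I) / ((1 - t * I) * (2 - t * I)) - u / (1 - t * I) + 1 / (2 - t * I)

/-- the function whose Mellin transform is `1 / ((s + i t - 1) s (s + 1))` -/
noncomputable def f (t v : ℝ) : ℂ :=
  (1 / ((1 - t * I) * (2 - t * I)) : ℂ) •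
      Set.indicator (Set.Ioc 0 1) (fun v => (v : ℂ) ^ (t * I - 1 : ℂ) : ℝ → ℂ) v +
    ((-1 / (1 - t * I) : ℂ) •
      Set.indicator (Set.Ioc 0 1) (fun v => (v : ℂ) ^ (0 : ℂ) : ℝ → ℂ) v +
    (1 / (2 - t * I) : ℂ) • Set.indicator (Set.Ioc 0 1) (fun v => (v : ℂ) ^ (1 : ℂ) : ℝ → ℂ) v)

theorem hasMellin_f (t : ℝ) {s : ℂ} (hs : 1 < s.re) :
    HasMellin (f t) s (1 / (s + t * I - 1) * (1 / (s * (s + 1)))) := by
  have h1 := hasMellin_cpow_Ioc (t * I - 1) (s := s) (by simp; linarith)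
  have h2 := hasMellin_cpow_Ioc 0 (s := s) (by simp; linarith)
  have h3 := hasMellin_cpow_Ioc 1 (s := s) (by simp; linarith)
  have k1 := hasMellin_const_smul h1.1 (1 / ((1 - t * I) * (2 - t * I)) : ℂ)
  have k2 := hasMellin_const_smul h2.1 (-1 / (1 - t * I) : ℂ)
  have k3 := hasMellin_const_smul h3.1 (1 / (2 - t * I) : ℂ)
  have k4 := hasMellin_add k2.1 k3.1
  have k5 := hasMellin_add k1.1 k4.1
  refine ⟨k5.1, k5.2.trans ?_⟩
  rw [k4.2, k1.2, k2.2, k3.2, h1.2, h2.2, h3.2]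
  have hs0 : s ≠ 0 := fun h => by simp [h] at hs; linarith
  have hs1 : s + 1 ≠ 0 := fun h => by
    have := congrArg re h
    simp at this
    linarith
  have hs2 : s + t * I - 1 ≠ 0 := fun h => by
    have := congrArg re h
    simp at this
    linarith
  have e1 := ne1 t
  have e2 := ne2 t
  simp only [smul_eq_mul, add_zero, ← add_sub_assoc]
  field_simp
  ring

theorem one_le_norm_pole (t τ : ℝ) : 1 ≤ ‖(2 : ℂ) + τ * I + t * I - 1‖ := by
  refine le_trans ?_ (abs_re_le_norm _)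
  simp
  norm_num

theorem cont_pole (t : ℝ) : Continuous fun τ : ℝ => 1 / ((2 : ℂ) + τ * I + t * I - 1) :=
  continuous_const.div (by fun_prop) fun τ h => by
    have := one_le_norm_pole t τ
    rw [h, norm_zero] at this
    linarith

theorem norm_pole_le (t τ : ℝ) : ‖1 / ((2 : ℂ) + τ * I + t * I - 1)‖ ≤ 1 := by
  rw [norm_div, norm_one]
  exact div_le_self zero_le_one (one_le_norm_pole t τ)

/-- integrability of the Perron integrand -/
theorem integrable_perron {g : ℝ → ℂ} (hg : Continuous g) {K : ℝ} (hK : ∀ τ, ‖g τ‖ ≤ K) {u : ℝ}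
    (hu : 0 < u) :
    Integrable fun τ : ℝ => g τ * (u : ℂ) ^ ((2 : ℂ) + 1 + τ * I) /
      ((2 + τ * I) * (2 + 1 + τ * I)) := by
  have hk := Riesz.integrable_ker (c := 2) (by norm_num)
  have hu0 : (u : ℂ) ≠ 0 := by exact_mod_cast hu.ne'
  have e : (fun τ : ℝ => g τ * (u : ℂ) ^ ((2 : ℂ) + 1 + τ * I) /
      ((2 + τ * I) * (2 + 1 + τ * I))) =
      fun τ : ℝ => (g τ * (u : ℂ) ^ ((2 : ℂ) + 1 + τ * I)) * Riesz.ker 2 τ := by
    funext τ
    rw [Riesz.ker, mul_one_div]
    congr 2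
    push_cast
    ring
  rw [e]
  refine hk.bdd_mul (c := K * u ^ (3 : ℝ))
    (hg.mul (Continuous.const_cpow (by fun_prop) (Or.inl hu0))).aestronglyMeasurable
    (Eventually.of_forall fun τ => ?_)
  rw [norm_mul, norm_cpow_eq_rpow_re_of_pos hu]
  have : ((2 : ℂ) + 1 + τ * I).re = 3 := by simp; norm_num
  rw [this]
  exact mul_le_mul_of_nonneg_right (hK τ) (by positivity)

theorem pole (t : ℝ) {u : ℝ} (hu : 1 < u) :
    (1 / (2 * Real.pi) : ℂ) * ∫ τ : ℝ, 1 / ((2 : ℂ) + τ * I + t * I - 1) *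
      (u : ℂ) ^ ((2 : ℂ) + 1 + τ * I) / ((2 + τ * I) * (2 + 1 + τ * I)) = P t u := by
  have hu0 : 0 < u := by linarith
  have huc : (u : ℂ) ≠ 0 := by exact_mod_cast hu0.ne'
  have hv : 0 < u⁻¹ := inv_pos.2 hu0
  have hv1 : u⁻¹ < 1 := inv_lt_one_of_one_lt₀ hu
  have hm : ∀ τ : ℝ, mellin (f t) ((2 : ℝ) + τ * I) =
      1 / ((2 : ℂ) + τ * I + t * I - 1) * Riesz.ker 2 τ := fun τ =>
    (hasMellin_f t (by simp)).2
  have hc : ContinuousAt (f t) u⁻¹ := by
    have hmem : Set.Ioc (0 : ℝ) 1 ∈ nhds u⁻¹ := Ioc_mem_nhds hv hv1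
    have key : ∀ a : ℂ, ContinuousAt
        (Set.indicator (Set.Ioc 0 1) (fun v => (v : ℂ) ^ a : ℝ → ℂ)) u⁻¹ := fun a => by
      refine ContinuousAt.congr (f := fun v : ℝ => (v : ℂ) ^ a)
        (continuousAt_ofReal_cpow_const _ _ (Or.inr hv.ne')) ?_
      filter_upwards [hmem] with v hv
      rw [Set.indicator_of_mem hv]
    exact (continuousAt_const.mul (key _)).add
      ((continuousAt_const.mul (key _)).add (continuousAt_const.mul (key _)))
  have h := mellinInv_mellin_eq 2 (f t) hv (hasMellin_f t (by simp)).1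
    (by
      simp only [VerticalIntegrable, hm]
      exact (Riesz.integrable_ker (by norm_num)).bdd_mul (cont_pole t).aestronglyMeasurable
        (Eventually.of_forall (norm_pole_le t))) hc
  have hinv : ∀ a : ℂ, ((u⁻¹ : ℝ) : ℂ) ^ a = (u : ℂ) ^ (-a) := fun a => by
    rw [ofReal_inv, inv_cpow _ _ (by
      rw [arg_ofReal_of_nonneg hu0.le]; exact Real.pi_ne_zero.symm), cpow_neg]
  rw [mellinInv] at h
  simp only [hm, smul_eq_mul, real_smul, hinv, neg_neg] at h
  have e : ∀ τ : ℝ, 1 / ((2 : ℂ) + τ * I + t * I - 1) *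
      (u : ℂ) ^ ((2 : ℂ) + 1 + τ * I) / ((2 + τ * I) * (2 + 1 + τ * I)) =
      u * ((u : ℂ) ^ (((2 : ℝ) : ℂ) + τ * I) *
        (1 / ((2 : ℂ) + τ * I + t * I - 1) * Riesz.ker 2 τ)) := fun τ => by
    rw [show (2 : ℂ) + 1 + τ * I = 1 + (((2 : ℝ) : ℂ) + τ * I) by push_cast; ring,
      cpow_add _ _ huc, cpow_one, Riesz.ker]
    push_cast
    ring
  simp only [e]
  rw [integral_const_mul, mul_left_comm]
  push_cast at h ⊢
  rw [h, f]
  have hmem : u⁻¹ ∈ Set.Ioc (0 : ℝ) 1 := ⟨hv, hv1.le⟩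
  simp only [Set.indicator_of_mem hmem, hinv, smul_eq_mul, cpow_zero, cpow_neg_one]
  have e0 : (u : ℂ) ^ (2 - t * I) = u * (u : ℂ) ^ (-(t * I - 1)) := by
    rw [show (2 : ℂ) - t * I = 1 + -(t * I - 1) by ring, cpow_add _ _ huc, cpow_one]
  have e1 := ne1 t
  have e2 := ne2 t
  rw [P, e0]
  field_simp
  ring

theorem P_diff (t : ℝ) {y w : ℝ} (hy : 0 < y) (hw : 0 ≤ w) :
    ‖P t (y + w) - P t y - w * ((y : ℂ) ^ (1 - t * I) / (1 - t * I))‖ ≤ (w + 1) * w := by
  have e1 := ne1 t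
  have e2 := ne2 t
  have d1 : ∀ v : ℝ, 0 < v → HasDerivAt (fun v : ℝ => (v : ℂ) ^ (1 - t * I) / (1 - t * I))
      ((v : ℂ) ^ (-(t * I))) v := fun v hv => by
    have := hasDerivAt_ofReal_cpow_const' hv.ne' (r := -(t * I)) (fun h => e1 (by
      linear_combination h))
    simpa only [show -(t * I) + 1 = 1 - t * I by ring] using this
  have d2 : ∀ v : ℝ, 0 < v → HasDerivAt (fun v : ℝ => (v : ℂ) ^ (2 - t * I) / (2 - t * I))
      ((v : ℂ) ^ (1 - t * I)) v := fun v hv => by
    have := hasDerivAt_ofReal_cpow_const' hv.ne' (r := 1 - t * I) (fun h => e2 (by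
      linear_combination h))
    simpa only [show 1 - t * I + 1 = 2 - t * I by ring] using this
  have b1 : ∀ v ∈ Set.Icc y (y + w), ‖(v : ℂ) ^ (1 - t * I) / (1 - t * I) -
      (y : ℂ) ^ (1 - t * I) / (1 - t * I)‖ ≤ 1 * (v - y) :=
    norm_image_sub_le_of_norm_deriv_le_segment'
      (f := fun v : ℝ => (v : ℂ) ^ (1 - t * I) / (1 - t * I))
      (f' := fun v => (v : ℂ) ^ (-(t * I)))
      (fun v hv => (d1 v (by linarith [hv.1])).hasDerivWithinAt)
      (fun v hv => by
        rw [norm_cpow_eq_rpow_re_of_pos (by linarith [hv.1])]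
        simp)
  have b2 := norm_image_sub_le_of_norm_deriv_le_segment'
    (f := fun v : ℝ => P t v - v * ((y : ℂ) ^ (1 - t * I) / (1 - t * I)))
    (f' := fun v => (v : ℂ) ^ (1 - t * I) / (1 - t * I) - 1 / (1 - t * I) -
      (y : ℂ) ^ (1 - t * I) / (1 - t * I)) (C := w + 1) (a := y) (b := y + w)
    (fun v hv => by
      have h1 := ((((d2 v (by linarith [hv.1])).div_const (1 - t * I)).sub
        (ofRealCLM.hasDerivAt.div_const (1 - t * I))).add_const (1 / (2 - t * I))).sub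
        (ofRealCLM.hasDerivAt.mul_const ((y : ℂ) ^ (1 - t * I) / (1 - t * I)))
      refine HasDerivAt.hasDerivWithinAt ?_
      convert h1 using 1
      · funext v
        simp only [P, Pi.sub_apply, ofRealCLM_apply]
        field_simp
      · simp)
    (fun v hv => by
      rw [sub_right_comm]
      refine (norm_sub_le _ _).trans (add_le_add ((b1 v ⟨hv.1, hv.2.le⟩).trans
        (by linarith [hv.2])) ?_)
      rw [norm_div, norm_one]
      exact div_le_self zero_le_one (one_le_norm1 t)) (y + w) ⟨by linarith, le_rfl⟩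
  rw [add_sub_cancel_left] at b2
  refine le_trans (le_of_eq ?_) b2
  congr 1
  push_cast
  ring

/-- unsmoothing with a main term -/
theorem sharp' (a : ℕ → ℂ) {x y B E D : ℝ} {p q m : ℂ} (hx : 0 ≤ x) (hy : 0 < y) (hB : 0 ≤ B)
    (ha : ∀ n : ℕ, x < n → (n : ℝ) ≤ x + y → ‖a n‖ ≤ B) (h1 : ‖rz a x - p‖ ≤ E)
    (h2 : ‖rz a (x + y) - q‖ ≤ E) (h0 : ‖q - p - y * m‖ ≤ D) :
    ‖∑ n ∈ Icc 1 ⌊x⌋₊, a n - m‖ ≤ (2 * E + D) / y + B * (y + 1) := by
  have hfl : ⌊x⌋₊ ≤ ⌊x + y⌋₊ := Nat.floor_le_floor (by linarith)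
  have hsplit : Icc 1 ⌊x + y⌋₊ = Icc 1 ⌊x⌋₊ ∪ Ioc ⌊x⌋₊ ⌊x + y⌋₊ := by
    ext n
    simp only [mem_union, mem_Icc, mem_Ioc]
    omega
  have hdisj : Disjoint (Icc 1 ⌊x⌋₊) (Ioc ⌊x⌋₊ ⌊x + y⌋₊) := by
    rw [disjoint_left]
    intro n h h'
    simp only [mem_Icc, mem_Ioc] at h h'
    omega
  have key : (y : ℂ) * ∑ n ∈ Icc 1 ⌊x⌋₊, a n = rz a (x + y) - rz a x -
      ∑ n ∈ Ioc ⌊x⌋₊ ⌊x + y⌋₊, a n * ((x + y - n : ℝ) : ℂ) := by
    rw [rz, rz, hsplit, sum_union hdisj, add_sub_right_comm, add_sub_cancel_right,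
      ← sum_sub_distrib, mul_sum]
    refine sum_congr rfl fun n _ => ?_
    push_cast
    ring
  have h3 : ‖∑ n ∈ Ioc ⌊x⌋₊ ⌊x + y⌋₊, a n * ((x + y - n : ℝ) : ℂ)‖ ≤ (y + 1) * (B * y) := by
    refine (norm_sum_le _ _).trans ((sum_le_card_nsmul _ _ (B * y) fun n hn => ?_).trans ?_)
    · rw [mem_Ioc] at hn
      have h4 : x < n := (Nat.floor_lt hx).1 hn.1
      have h5 : (n : ℝ) ≤ x + y := (Nat.le_floor_iff (by linarith)).1 hn.2
      rw [norm_mul, Complex.norm_real, Real.norm_of_nonneg (by linarith)]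
      exact mul_le_mul (ha n h4 h5) (by linarith) (by linarith) hB
    · rw [nsmul_eq_mul, Nat.card_Ioc, Nat.cast_sub hfl]
      refine mul_le_mul_of_nonneg_right ?_ (by positivity)
      linarith [Nat.floor_le (show 0 ≤ x + y by linarith), Nat.lt_floor_add_one x]
  have key' : (y : ℂ) * (∑ n ∈ Icc 1 ⌊x⌋₊, a n - m) = (rz a (x + y) - q) - (rz a x - p) +
      (q - p - y * m) - ∑ n ∈ Ioc ⌊x⌋₊ ⌊x + y⌋₊, a n * ((x + y - n : ℝ) : ℂ) := by
    rw [mul_sub, key]; ring
  have h6 := congrArg norm key'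
  rw [norm_mul, Complex.norm_real, Real.norm_of_nonneg hy.le] at h6
  have h7 : y * ‖∑ n ∈ Icc 1 ⌊x⌋₊, a n - m‖ ≤ 2 * E + D + (y + 1) * (B * y) := by
    rw [h6]
    refine (norm_sub_le _ _).trans ((add_le_add ((norm_add_le _ _).trans
      (add_le_add (norm_sub_le _ _) le_rfl)) le_rfl).trans ?_)
    linarith
  rw [show (2 * E + D) / y + B * (y + 1) = (2 * E + D + (y + 1) * (B * y)) / y by field_simp,
    le_div_iff₀ hy, mul_comm]
  exact h7

open Classical in
theorem riesz_bound (hL : LogLStmt) :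
    ∃ C : ℝ, 0 < C ∧ ∀ (r : ℕ) [NeZero r] (χ : DirichletCharacter ℂ r) (t u l : ℝ), 1 < u →
      1 ≤ l → Real.log (r * (|t| + u ^ 2 + 2)) ≤ l →
      ‖rz (fun n => χ n * (vonMangoldt n : ℝ) * nit n t) u - if χ = 1 then P t u else 0‖ ≤
        C * l * u ^ (1 + 15 / 16 : ℝ) := by
  obtain ⟨C, hC0, hL⟩ := hL
  have hK := K0_nonneg
  refine ⟨10 * C + 3 * (K0 + 1), by positivity, fun r _ χ t u l hu hl1 hl => ?_⟩
  obtain ⟨⟨G, hGd, hGe, hGb⟩, -⟩ := hL r χ
  have hr : 1 ≤ r := NeZero.one_le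
  have hr' : (1 : ℝ) ≤ r := by exact_mod_cast hr
  have hu0 : 0 < u := by linarith
  have hHd : ∀ s : ℂ, 9 / 10 < s.re → DifferentiableAt ℂ (fun s => G (s + t * I)) s := by
    intro s hs
    have h1 : DifferentiableAt ℂ G (s + t * I) := hGd.differentiableAt
      ((isOpen_lt continuous_const continuous_re).mem_nhds (by simpa using hs))
    exact h1.comp s (differentiableAt_id.add_const _)
  have hcont : Continuous fun τ : ℝ => G (2 + τ * I + t * I) :=
    continuous_iff_continuousAt.2 fun τ => (hHd _ (by norm_num)).continuousAt.comp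
      (f := fun τ : ℝ => (2 + τ * I : ℂ)) (by fun_prop)
  have hbd : ∀ τ : ℝ, ‖G (2 + τ * I + t * I)‖ ≤ K0 + 1 := fun τ => by
    rw [hGe _ (by simp)]
    refine (norm_sub_le _ _).trans (add_le_add (norm_L_le χ (by simp)) ?_)
    split_ifs
    · exact norm_pole_le t τ
    · simp
  have h1 := R8.contour (fun s => G (s + t * I)) (15 / 16) (C * l) (K0 + 1) u (u ^ 2)
    (by norm_num) (by norm_num) hu.le (one_le_pow₀ hu.le)
    (fun s hs => (hHd s (by linarith [hs.1])).differentiableWithinAt) hcont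
    (fun s h₁ h₂ h₃ => ?_) hbd
  · have h2 := R8.riesz (fun n => χ n * (vonMangoldt n : ℝ) * nit n t) 2 u (by norm_num) hu.le
      (by
        rw [LSeriesSummable, term_nit]
        exact DirichletCharacter.LSeriesSummable_twist_vonMangoldt χ (by simp))
    have h3 : ∀ τ : ℝ, LSeries (fun n => χ n * (vonMangoldt n : ℝ) * nit n t)
        (2 + τ * I) = G (2 + τ * I + t * I) +
          if χ = 1 then 1 / ((2 : ℂ) + τ * I + t * I - 1) else 0 := fun τ => by
      rw [hGe _ (by simp), sub_add_cancel]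
      simp only [LSeries, term_nit]
    simp only [ofReal_ofNat, h3] at h2
    have h4 : rz (fun n => χ n * (vonMangoldt n : ℝ) * nit n t) u -
        (if χ = 1 then P t u else 0) = (1 / (2 * Real.pi) : ℂ) * ∫ τ : ℝ,
          G (2 + τ * I + t * I) * (u : ℂ) ^ ((2 : ℂ) + 1 + τ * I) /
            ((2 + τ * I) * (2 + 1 + τ * I)) := by
      rw [h2]
      split_ifs
      · simp only [add_mul (G _), add_div]
        rw [integral_add (integrable_perron hcont hbd hu0)
          (integrable_perron (cont_pole t) (norm_pole_le t) hu0), mul_add, pole t hu]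
        ring
      · simp
    rw [h4, norm_mul]
    have h3 : ‖(1 / (2 * Real.pi) : ℂ)‖ ≤ 1 := by
      rw [norm_div, norm_one, norm_mul, norm_real, Real.norm_of_nonneg Real.pi_pos.le, norm_ofNat,
        div_le_one (by positivity)]
      linarith [Real.pi_gt_three]
    refine (mul_le_of_le_one_left (norm_nonneg _) h3).trans (h1.trans ?_)
    have h5 : u ^ 3 / u ^ 2 ≤ u ^ (1 + 15 / 16 : ℝ) := by
      rw [show u ^ 3 / u ^ 2 = u ^ (1 : ℝ) by rw [Real.rpow_one]; field_simp]
      exact Real.rpow_le_rpow_of_exponent_le hu.le (by norm_num)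
    have h6 : 0 ≤ u ^ (1 + 15 / 16 : ℝ) := by positivity
    rw [mul_div_assoc]
    generalize u ^ (1 + 15 / 16 : ℝ) = Y at h5 h6 ⊢
    calc _ ≤ 7 * (C * l) * Y + 3 * (C * l + (K0 + 1) * l) * Y := by
          gcongr
          exact le_mul_of_one_le_right (by positivity) hl1
      _ = _ := by ring
  · refine (hGb (s + t * I) (by simpa using h₁) (by simpa using h₂)).trans
      (mul_le_mul_of_nonneg_left (le_trans (Real.log_le_log (by positivity) ?_) hl) hC0.le)
    have h4 : |(s + t * I).im| ≤ |t| + u ^ 2 := by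
      simp only [add_im, mul_im, ofReal_re, I_im, mul_one, ofReal_im, I_re, mul_zero, add_zero]
      linarith [abs_add_le s.im t]
    gcongr

theorem log_facts {r : ℕ} (hr : 1 ≤ r) {x : ℝ} (t : ℝ) (hx : 2 ≤ x) :
    ∃ l : ℝ, 1 ≤ l ∧ Real.log (2 * x) ≤ l ∧
      (∀ u : ℝ, 0 ≤ u → u ≤ 2 * x → Real.log (r * (|t| + u ^ 2 + 2)) ≤ l) ∧
      l ≤ 600 * x ^ (1 / 64 : ℝ) * Real.log (r * (|t| + 2)) := by
  have hr' : (1 : ℝ) ≤ r := by exact_mod_cast hr
  have ht := abs_nonneg t
  have h1 : 1 / 2 ≤ Real.log (r * (|t| + 2)) := by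
    refine le_trans ?_ (Real.log_le_log (x := 2) (by norm_num) (by nlinarith))
    linarith [Real.log_two_gt_d9]
  have h2 : Real.log x ≤ 64 * x ^ (1 / 64 : ℝ) := by
    have := Real.log_le_rpow_div (x := x) (ε := 1 / 64) (by linarith) (by norm_num)
    linarith
  have h3 : 1 ≤ x ^ (1 / 64 : ℝ) := Real.one_le_rpow (by linarith) (by norm_num)
  have h4 : 1 / 2 ≤ Real.log x := by
    refine le_trans ?_ (Real.log_le_log (x := 2) (by norm_num) hx)
    linarith [Real.log_two_gt_d9]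
  refine ⟨Real.log (r * (|t| + 2)) + 4 * Real.log x, by linarith, ?_, fun u hu hu' => ?_, ?_⟩
  · have : Real.log (2 * x) ≤ Real.log (x ^ 2) := Real.log_le_log (by linarith) (by nlinarith)
    rw [Real.log_pow] at this
    push_cast at this
    linarith
  · have h5 : (4 : ℝ) * Real.log x = Real.log (x ^ 4) := by rw [Real.log_pow]; norm_num
    rw [h5, ← Real.log_mul (by positivity) (by positivity)]
    refine Real.log_le_log (by positivity) ?_
    rw [mul_assoc]
    refine mul_le_mul_of_nonneg_left ?_ (by positivity)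
    have h6 : u ^ 2 ≤ 4 * x ^ 2 := by nlinarith
    have h7 : 4 ≤ x ^ 2 := by nlinarith
    have h8 : 1 + 2 * x ^ 2 ≤ x ^ 4 := by nlinarith
    nlinarith
  · nlinarith

open Classical in
theorem char_bound (hL : LogLStmt) :
    ∃ C : ℝ, 0 < C ∧ ∀ (r : ℕ) [NeZero r] (χ : DirichletCharacter ℂ r) (x t : ℝ), 2 ≤ x →
      ‖∑ n ∈ Icc 1 ⌊x⌋₊, χ n * (vonMangoldt n : ℝ) * nit n t -
          if χ = 1 then (x : ℂ) ^ (1 - t * I) / (1 - t * I) else 0‖ ≤
        C * x ^ (1 - 1 / 64 : ℝ) * Real.log (r * (|t| + 2)) := by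
  obtain ⟨C, hC0, h⟩ := riesz_bound hL
  refine ⟨600 * (8 * C + 4), by positivity, fun r _ χ x t hx => ?_⟩
  obtain ⟨l, hl1, hl2, hl3, hl4⟩ := log_facts (NeZero.one_le (n := r)) t hx
  obtain ⟨y1, y2, -, y4, -⟩ := rpow_facts (show 1 ≤ x by linarith)
  have hb : ∀ u : ℝ, x ≤ u → u ≤ 2 * x →
      ‖rz (fun n => χ n * (vonMangoldt n : ℝ) * nit n t) u - if χ = 1 then P t u else 0‖ ≤
        C * l * (4 * (x ^ (31 / 32 : ℝ)) ^ 2) := fun u hu hu' => by
    refine (h r χ t u l (by linarith) hl1 (hl3 u (by linarith) hu')).trans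
      (mul_le_mul_of_nonneg_left ?_ (by positivity))
    refine (Real.rpow_le_rpow (by linarith) hu' (by norm_num)).trans ?_
    rw [Real.mul_rpow (by norm_num) (by linarith), y4]
    gcongr
    exact (Real.rpow_le_rpow_of_exponent_le (by norm_num)
      (show (1 + 15 / 16 : ℝ) ≤ 2 by norm_num)).trans (by norm_num)
  refine (sharp' _ (y := x ^ (31 / 32 : ℝ)) (B := l)
    (D := (x ^ (31 / 32 : ℝ) + 1) * x ^ (31 / 32 : ℝ)) (by linarith) (by linarith)
    (by linarith) (fun n h1 h2 => ?_) (hb x le_rfl (by linarith))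
    (hb _ (by linarith) (by linarith)) ?_).trans ?_
  · rw [norm_mul, norm_nit, mul_one, norm_mul, norm_real, Real.norm_of_nonneg vonMangoldt_nonneg]
    refine (mul_le_of_le_one_left vonMangoldt_nonneg (χ.norm_le_one _)).trans
      (vonMangoldt_le_log.trans (le_trans ?_ hl2))
    exact Real.log_le_log (by linarith) (by linarith)
  · split_ifs
    · exact P_diff t (by linarith) (by linarith)
    · simp only [sub_self, mul_zero, norm_zero]
      positivity
  · have e : x ^ (1 - 1 / 64 : ℝ) = x ^ (31 / 32 : ℝ) * x ^ (1 / 64 : ℝ) := by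
      rw [← Real.rpow_add (by linarith)]; norm_num
    rw [e]
    generalize x ^ (31 / 32 : ℝ) = y at y1 y2 ⊢
    have e2 : (2 * (C * l * (4 * y ^ 2)) + (y + 1) * y) / y = 8 * C * l * y + (y + 1) := by
      field_simp
      ring
    rw [e2]
    calc _ ≤ (8 * C + 4) * y * l := by nlinarith
      _ ≤ (8 * C + 4) * y * (600 * x ^ (1 / 64 : ℝ) * Real.log (r * (|t| + 2))) := by gcongr
      _ = _ := by ring

open Classical in
theorem ap_bound {r a : ℕ} [NeZero r] (ha : Nat.Coprime a r) (s : Finset ℕ) (g : ℕ → ℂ) (m : ℂ)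
    {M : ℝ} (h : ∀ χ : DirichletCharacter ℂ r,
      ‖∑ n ∈ s, χ n * g n - if χ = 1 then m else 0‖ ≤ M) :
    ‖∑ n ∈ s.filter (fun n => n ≡ a [MOD r]), g n - m / r.totient‖ ≤ M := by
  have hu : IsUnit (a : ZMod r) := (ZMod.isUnit_iff_coprime a r).2 ha
  have hφ : (0 : ℝ) < r.totient := by exact_mod_cast Nat.totient_pos.2 (NeZero.pos r)
  have hφ' : (r.totient : ℂ) ≠ 0 := by exact_mod_cast (Nat.totient_pos.2 (NeZero.pos r)).ne'
  have h1 : (r.totient : ℂ) * ∑ n ∈ s, (if n ≡ a [MOD r] then g n else 0) =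
      ∑ χ : DirichletCharacter ℂ r, χ (a : ZMod r)⁻¹ * ∑ n ∈ s, χ n * g n := by
    simp only [mul_sum]
    rw [sum_comm]
    refine sum_congr rfl fun n _ => ?_
    simp only [← mul_assoc]
    rw [← sum_mul, DirichletCharacter.sum_char_inv_mul_char_eq ℂ hu]
    simp only [ZMod.natCast_eq_natCast_iff, Nat.ModEq.comm (a := a)]
    split_ifs <;> simp
  have hu' : IsUnit (a : ZMod r)⁻¹ :=
    IsUnit.of_mul_eq_one (a : ZMod r) (ZMod.inv_mul_of_unit _ hu)
  have h0 : m = ∑ χ : DirichletCharacter ℂ r, χ (a : ZMod r)⁻¹ * if χ = 1 then m else 0 := by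
    simp only [mul_ite, mul_zero, sum_ite_eq', mem_univ, if_true, MulChar.one_apply hu', one_mul]
  have h3 : (r.totient : ℂ) * (∑ n ∈ s.filter (fun n => n ≡ a [MOD r]), g n - m / r.totient) =
      ∑ χ : DirichletCharacter ℂ r, χ (a : ZMod r)⁻¹ *
        (∑ n ∈ s, χ n * g n - if χ = 1 then m else 0) := by
    simp only [mul_sub, sum_sub_distrib]
    rw [sum_filter, h1, ← h0, mul_div_cancel₀ _ hφ']
  refine le_of_mul_le_mul_left ?_ hφ
  have h2 := congrArg norm h3
  rw [norm_mul, norm_natCast] at h2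
  rw [h2]
  refine (norm_sum_le _ _).trans ((sum_le_sum (g := fun _ => M) fun χ _ => ?_).trans ?_)
  · rw [norm_mul]
    exact (mul_le_of_le_one_left (norm_nonneg _) (χ.norm_le_one _)).trans (h χ)
  · rw [sum_const, card_univ, ← Nat.card_eq_fintype_card,
      DirichletCharacter.card_eq_totient_of_hasEnoughRootsOfUnity, nsmul_eq_mul]

end PsiAux

end Crest.Agent.R26
end

-- ▼ part PVc/R26/Psi

/-! Row 26: the explicit prime number theorem. -/

set_option autoImplicit false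

namespace Crest.Agent.R26

open Finset Filter
open Crest.Agent.R5 (pr pd ee nit)

theorem psi : R8.ZFStmt → PsiStmt := by
  intro hZ
  obtain ⟨C, hC0, h⟩ := PsiAux.char_bound (R8.logL hZ R8.growth)
  refine ⟨1 / 64, C + 4, by norm_num, by norm_num, by positivity, fun r a y t hr ha hy => ?_⟩
  have : NeZero r := ⟨by omega⟩
  have hr' : (1 : ℝ) ≤ r := by exact_mod_cast hr
  have h1 : 1 / 2 ≤ Real.log (r * (|t| + 2)) := by
    refine le_trans ?_ (Real.log_le_log (x := 2) (by norm_num) (by nlinarith [abs_nonneg t]))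
    linarith [Real.log_two_gt_d9]
  have h2 : 1 ≤ y ^ (1 - 1 / 64 : ℝ) := Real.one_le_rpow hy (by norm_num)
  rcases lt_or_ge y 2 with hy2 | hy2
  · rw [sum_eq_zero, zero_sub, norm_neg, norm_div, norm_mul,
      Complex.norm_cpow_eq_rpow_re_of_pos (by linarith), Complex.norm_natCast]
    · have h3 : (1 : ℝ) ≤ r.totient := by exact_mod_cast Nat.totient_pos.2 hr
      have h4 := PsiAux.one_le_norm1 t
      have h5 : (1 - (t : ℂ) * Complex.I).re = 1 := by simp
      rw [h5, Real.rpow_one]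
      refine (div_le_self (by linarith) (one_le_mul_of_one_le_of_one_le h4 h3)).trans ?_
      calc y ≤ 4 * 1 * (1 / 2) := by linarith
        _ ≤ _ := by gcongr; linarith
    · intro n hn
      have h3 := mem_Icc.1 (mem_filter.1 hn).1
      have h4 : ⌊y⌋₊ < 2 := (Nat.floor_lt (by linarith)).2 (by exact_mod_cast hy2)
      obtain rfl : n = 1 := by omega
      simp
  · rw [← div_div]
    refine (PsiAux.ap_bound ha _ _ _ (M := C * y ^ (1 - 1 / 64 : ℝ) * Real.log (r * (|t| + 2)))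
      fun χ => ?_).trans ?_
    · simpa only [mul_assoc] using h r χ y t hy2
    · gcongr
      linarith

end Crest.Agent.R26
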